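import Vale.Agent.P167.H756.Glue2
import Vale.Agent.P167.H411.Seqh6
import Vale.Agent.P153.R2.R1.Out1

/-!
# P167, block CM: the exploration of the corner curves satisfies the hypotheses of `glue`

* `HConf.affine`: change of coordinates in the plane.
* `hconf`: the uniformizers `ψn n` of the frame `Set6` satisfy `HConf` with fixed constants.
* `drv`: the driver and the capacity at every step before the exit satisfy `Drv`.
* `dom_eq`: the image of the Loewner domain is the lattice domain minus the curve.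
-/

set_option autoImplicit false
set_option linter.unusedVariables false

open MeasureTheory ProbabilityTheory Filter Topology Set Metric
open scoped NNReal ENNReal

namespace Vale.Agent.P167.H756

open Vale.Agent.P153.R2
open Vale.Agent.P153.R2.DET (Uni HC)
open Vale.Agent.P153.R2.R1 (IsU)
open Vale.Agent.P153.R2.L2 (cc)
open Vale.Agent.P153.R2.L1 (HH)
open Vale.Agent.P153.R2.Final (dom circ toC IsUniformizer)
open Vale.Agent.P164 (loewnerDomain)
open Vale.Agent.P167.SLE (bq)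
open Vale.Agent.P167.E6 Vale.Agent.P167.E2 Vale.Agent.P167.H411

/-! ### Conformal maps of the half-plane -/

theorem HConf.affine {Rd cd Y : ℝ} {ψ : ℂ → ℂ} (H : HConf Rd cd Y ψ) {α : ℂ} (hα : α ≠ 0)
    (β : ℂ) : HConf (‖α‖ * Rd) (‖α‖ * cd) Y (fun z => α * ψ z + β) where
  diff := (H.diff.const_mul α).add_const β
  inj := fun z hz w hw h => H.inj hz hw (mul_left_cancel₀ hα (add_right_cancel h))
  bdd := fun z hz w hw => by
    have h1 : α * ψ z + β - (α * ψ w + β) = α * (ψ z - ψ w) := by ring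
    rw [h1, norm_mul]
    exact mul_le_mul_of_nonneg_left (H.bdd z hz w hw) (norm_nonneg _)
  sub := by
    intro w hw
    have hα' : 0 < ‖α‖ := norm_pos_iff.2 hα
    rw [mem_ball, dist_eq_norm] at hw
    have h1 : (w - β) / α ∈ ball (ψ (Y * Complex.I)) cd := by
      rw [mem_ball, dist_eq_norm]
      have h2 : (w - β) / α - ψ (Y * Complex.I) = (w - (α * ψ (Y * Complex.I) + β)) / α := by
        field_simp
        ring
      rw [h2, norm_div, div_lt_iff₀ hα', mul_comm cd]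
      exact hw
    obtain ⟨z, hz, h⟩ := H.sub h1
    refine ⟨z, hz, ?_⟩
    simp only
    rw [h]
    field_simp
    ring

/-- The maps near a given bounded conformal map of the half-plane satisfy `HConf` with the same
constants. -/
theorem hconf_near {ψ : ℂ → ℂ} (hd : DifferentiableOn ℂ ψ HH) (hi : InjOn ψ HH) {M : ℝ}
    (hM : ∀ z ∈ HH, ‖ψ z‖ ≤ M) {Y : ℝ} (hY : 0 < Y) :
    ∃ Rd > 0, ∃ cd > 0, ∃ e > 0, ∀ φ : ℂ → ℂ, DifferentiableOn ℂ φ HH → InjOn φ HH →
      (∀ z ∈ HH, dist (φ z) (ψ z) < e) → HConf Rd cd Y φ := by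
  have hYI : (Y : ℂ) * Complex.I ∈ HH := by
    change 0 < ((Y : ℂ) * Complex.I).im
    rw [im_mulI]
    exact hY
  have hsub : ball ((Y : ℂ) * Complex.I) Y ⊆ HH := by
    intro z hz
    rw [mem_ball, dist_eq_norm] at hz
    have h1 := (Complex.abs_im_le_norm (z - Y * Complex.I)).trans_lt hz
    rw [Complex.sub_im, im_mulI, abs_lt] at h1
    change 0 < z.im
    linarith [h1.1]
  have hcl : closedBall ((Y : ℂ) * Complex.I) (Y / 2) ⊆ HH :=
    (closedBall_subset_ball (by linarith)).trans hsub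
  have hopen : IsOpen HH := isOpen_lt continuous_const Complex.continuous_im
  have hd0 : deriv ψ (Y * Complex.I) ≠ 0 :=
    L1.injOn_deriv_ne_zero hopen hd hi hYI
  set m : ℝ := ‖deriv ψ (Y * Complex.I)‖ with hm
  have hm0 : 0 < m := norm_pos_iff.2 hd0
  refine ⟨2 * (|M| + 1), by positivity, Y * (m / 2) / 10, by positivity,
    min 1 (m * Y / 4), by positivity, ?_⟩
  intro φ hφd hφi hφ
  refine ⟨hφd, hφi, ?_, ?_⟩
  · intro z hz w hw
    have h1 : ∀ u ∈ HH, ‖φ u‖ ≤ |M| + 1 := by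
      intro u hu
      have h2 := (hφ u hu).trans_le (min_le_left _ _)
      rw [dist_eq_norm] at h2
      have h3 := norm_sub_norm_le (φ u) (ψ u)
      have h4 := (hM u hu).trans (le_abs_self M)
      linarith
    have h5 := norm_sub_le (φ z) (φ w)
    have h6 := h1 z hz
    have h7 := h1 w hw
    linarith
  · have hdiff : DiffContOnCl ℂ (fun z => φ z - ψ z) (ball ((Y : ℂ) * Complex.I) (Y / 2)) := by
      refine DifferentiableOn.diffContOnCl ?_
      exact ((hφd.sub hd).mono hcl).mono closure_ball_subset_closedBall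
    have h1 := Complex.norm_deriv_le_of_forall_mem_sphere_norm_le (C := m * Y / 4)
      (show 0 < Y / 2 by positivity) hdiff (fun z hz => by
        have h2 := (hφ z (hcl (sphere_subset_closedBall hz))).trans_le (min_le_right _ _)
        rw [dist_eq_norm] at h2
        exact h2.le)
    have h2 : deriv (fun z => φ z - ψ z) (Y * Complex.I) =
        deriv φ (Y * Complex.I) - deriv ψ (Y * Complex.I) :=
      deriv_fun_sub (hφd.differentiableAt (hopen.mem_nhds hYI))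
        (hd.differentiableAt (hopen.mem_nhds hYI))
    rw [h2] at h1
    have h3 : m * Y / 4 / (Y / 2) = m / 2 := by
      field_simp
      ring
    rw [h3] at h1
    have h4 : m / 2 ≤ ‖deriv φ (Y * Complex.I)‖ := by
      have h5 := norm_sub_norm_le (deriv ψ (Y * Complex.I)) (deriv φ (Y * Complex.I))
      rw [norm_sub_rev] at h5
      linarith
    have h5 := Vale.Agent.P164.koebe_image hY (hφd.mono hsub) (hφi.mono hsub)
    refine (ball_subset_ball ?_).trans (h5.trans (image_mono hsub))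
    gcongr

section

variable {Φ : (ℝ × ℝ) ≃ₜ (ℝ × ℝ)} {ψ : ℂ → ℂ} {δ : ℕ → ℝ} {N k : ℕ → ℕ}
  {p : ∀ n, ZMod (N n) → ℤ × ℤ} {S : ℕ → Finset (ℤ × ℤ)} {ψn : ℕ → ℂ → ℂ}

/-- **The uniformizers of the lattice domains.** -/
theorem hconf (H : Set6 Φ ψ δ N k p S ψn) {Y : ℝ} (hY : 0 < Y) :
    ∃ Rd > 0, ∃ cd > 0, ∀ᶠ n in atTop, HConf Rd cd Y (ψn n) := by
  have hU : Uni ψ (bq Φ) := SLE.uni_of_uniformizer R1.i_uinj H.unif
  obtain ⟨M, hM⟩ := uni_bdd hU
  have hsub : (HH : Set ℂ) ⊆ HC := fun z (hz : 0 < z.im) => hz.le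
  obtain ⟨Rd, hRd, cd, hcd, e, he, h⟩ := hconf_near H.unif.1 H.unif.2.1
    (fun z hz => hM z (hsub hz)) hY
  refine ⟨Rd, hRd, cd, hcd, ?_⟩
  filter_upwards [H.conv e he, good_ev H.appr] with n h1 h2
  exact h _ (H.isU n h2).diff ((H.uni n h2).inj.mono hsub) fun z hz => h1 z (hsub hz)

/-- A property of the shifted sequence. -/
theorem ev_unshift {P : ℕ → Prop} (n₀ : ℕ) (h : ∀ᶠ n in atTop, P (n + n₀)) :
    ∀ᶠ n in atTop, P n := by
  filter_upwards [(tendsto_sub_atTop_nat n₀).eventually h, eventually_ge_atTop n₀] with n h1 h2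
  rwa [Nat.sub_add_cancel h2] at h1

end

/-! ### Drivers -/

section

variable {A B : Type*} {Q : ℕ → DC A B} {ψn : ℕ → ℂ → ℂ} {bn : ℕ → ℂ} {ε : ℕ → ℝ} {ψ : ℂ → ℂ}
  {b : ℂ}

/-- The drivers up to the exit are bounded. -/
theorem drv_DCs (H : DCs Q ψn bn ε ψ b) {T R : ℝ} (hT : 0 ≤ T) (hR : 0 ≤ R) {e : ℝ} (he : 0 < e) :
    ∀ᶠ n in atTop, ∀ h ∈ (Q n).C, ∀ j < (Q n).K h,
      (∀ i < j, ((Q n).expl (ψn n)).c h i ≤ T ∧ |((Q n).expl (ψn n)).V h i| ≤ R) →
      Drv (T + e) (R + e) (((Q n).expl (ψn n)).W h) (((Q n).expl (ψn n)).c h j) ∧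
        ((Q n).expl (ψn n)).W h 0 = 0 := by
  filter_upwards [H.key T R he] with n hn h hh j hj hb
  have hWF := DC.expl_wf (H.wf n) (H.unin n)
  have hc := (H.wf n).crv (H.unin n) hh
  have hpos := (H.wf n).pos h hh
  obtain ⟨hWc, hsg⟩ := DC.sgen hc hpos
  have hW0 : ((Q n).expl (ψn n)).W h 0 = 0 := by
    have := hWF.w0 h hh
    change ((Q n).expl (ψn n)).w h (0 : ℝ).toNNReal = 0
    rwa [Real.toNNReal_zero]
  have hc0 : ((Q n).expl (ψn n)).c h 0 = 0 := hWF.c0 h hh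
  -- monotonicity of the capacities
  have hmono : ∀ i ≤ j, 0 ≤ ((Q n).expl (ψn n)).c h i ∧
      ∀ s ∈ Icc 0 (((Q n).expl (ψn n)).c h i), |((Q n).expl (ψn n)).W h s| ≤ R + e := by
    intro i
    induction i with
    | zero =>
      intro _
      refine ⟨hc0.ge, fun s hs => ?_⟩
      rw [hc0] at hs
      rw [le_antisymm hs.2 hs.1, hW0, abs_zero]
      positivity
    | succ i ih =>
      intro hi
      obtain ⟨h1, h2⟩ := ih (by omega)
      have h3 : ((Q n).expl (ψn n)).c h i ≤ ((Q n).expl (ψn n)).c h (i + 1) :=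
        hWF.mono h hh i (by
          change i < (Q n).K h
          omega)
      refine ⟨h1.trans h3, fun s hs => ?_⟩
      rcases le_total s (((Q n).expl (ψn n)).c h i) with h4 | h4
      · exact h2 s ⟨hs.1, h4⟩
      · obtain ⟨h5, h6, h7⟩ := hn h hh i (by omega) fun i' hi' => hb i' (by omega)
        have h8 := h7 s.toNNReal (by rwa [Real.coe_toNNReal s hs.1])
          (by rw [Real.coe_toNNReal s hs.1]; exact hs.2)
        have h9 := (hb i (by omega)).2
        have h10 : ((Q n).expl (ψn n)).W h s = ((Q n).expl (ψn n)).w h s.toNNReal := rfl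
        rw [h10]
        have h11 := abs_sub_abs_le_abs_sub (((Q n).expl (ψn n)).w h s.toNNReal)
          (((Q n).expl (ψn n)).V h i)
        linarith
  obtain ⟨h1, h2⟩ := hmono j le_rfl
  refine ⟨⟨hWc, h1, ?_, h2⟩, hW0⟩
  rcases Nat.eq_zero_or_pos j with h3 | h3
  · rw [h3, hc0]
    positivity
  · obtain ⟨i, rfl⟩ : ∃ i, j = i + 1 := ⟨j - 1, by omega⟩
    obtain ⟨h5, h6, h7⟩ := hn h hh i (by omega) fun i' hi' => hb i' (by omega)
    have h9 := (hb i (by omega)).1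
    linarith

/-- The image of the Loewner domain is the domain minus the curve. -/
theorem dom_DC {Q : DC A B} {ψ : ℂ → ℂ} {b : ℂ} {ε : ℝ} (H : Q.WF ψ b ε) (hU : Uni ψ b) {h : A}
    (hh : h ∈ Q.C) {j : ℕ} (hj : j < Q.K h) :
    ψ '' loewnerDomain ((Q.expl ψ).W h) ((Q.expl ψ).c h j) = (ψ '' HH) \ (Q.X h '' Icc 0 (j : ℝ)) := by
  have hc := H.crv hU hh
  have hpos := H.pos h hh
  obtain ⟨hWc, hsg⟩ := DC.sgen hc hpos
  have hj' : (j : ℝ) + 1 ≤ Q.K h := by exact_mod_cast hj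
  have hj0 : (0 : ℝ) ≤ j := Nat.cast_nonneg j
  rw [DC.c_lt hj, hsg.dom j ⟨hj0, by linarith⟩]
  have hmem : ∀ t ∈ Icc (0 : ℝ) j, Q.et ψ h t ∈ HB ∧ ψ (Q.et ψ h t) = Q.X h t := fun t ht =>
    ⟨H.et_mem hh ht.1 (by linarith [ht.2]), H.psi_et hh ht.1 (by linarith [ht.2])⟩
  ext w
  constructor
  · rintro ⟨z, ⟨hz, hz'⟩, rfl⟩
    refine ⟨mem_image_of_mem _ hz, ?_⟩
    rintro ⟨t, ht, he⟩
    obtain ⟨h1, h2⟩ := hmem t ht
    rw [← h2] at he
    have hz0 : (0 : ℝ) < z.im := hz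
    have h3 := hU.inj h1 (show z ∈ HC from hz0.le) he
    exact hz' ⟨t, ht, h3⟩
  · rintro ⟨⟨z, hz, rfl⟩, hz'⟩
    refine ⟨z, ⟨hz, ?_⟩, rfl⟩
    rintro ⟨t, ht, he⟩
    obtain ⟨h1, h2⟩ := hmem t ht
    exact hz' ⟨t, ht, by rw [← h2, he]⟩

end

section

variable {Φ : (ℝ × ℝ) ≃ₜ (ℝ × ℝ)} {ψ : ℂ → ℂ} {δ : ℕ → ℝ} {N k : ℕ → ℕ}
  {p : ∀ n, ZMod (N n) → ℤ × ℤ} {S : ℕ → Finset (ℤ × ℤ)} {ψn : ℕ → ℂ → ℂ}

/-- **The driver and the capacity before the exit.** -/
theorem drv (H : Set6 Φ ψ δ N k p S ψn) {T R : ℝ} (hT : 0 ≤ T) (hR : 0 ≤ R) {e : ℝ} (he : 0 < e) :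
    ∀ᶠ n in atTop, ∀ A ∈ (exn δ N k p S ψn n).C, ∀ j < (exn δ N k p S ψn n).K A,
      (∀ i < j, (exn δ N k p S ψn n).c A i ≤ T ∧ |(exn δ N k p S ψn n).V A i| ≤ R) →
      Drv (T + e) (R + e) ((exn δ N k p S ψn n).W A) ((exn δ N k p S ψn n).c A j) ∧
        (exn δ N k p S ψn n).W A 0 = 0 := by
  obtain ⟨n₀, hn₀⟩ := eventually_atTop.1 (good_ev H.appr)
  exact ev_unshift n₀ (drv_DCs (H.dcs R1.i_uinj hn₀) hT hR he)

/-- The wellformedness of the family of curves. -/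
theorem wf_of (H : Set6 Φ ψ δ N k p S ψn) {n : ℕ} (hn : k n + 1 < N n) :
    (Qc (p n) (k n) (δ n) (S n)).WF (ψn n) (bM (p n) (k n) (δ n)) (δ n) := by
  obtain ⟨h1, -, -, h4, h5⟩ := H.appr.1 n
  exact Qc_wf h4 h5 hn h1 (H.isU _ hn)

/-- **The lattice domain minus the curve.** -/
theorem dom_eq (H : Set6 Φ ψ δ N k p S ψn) {n : ℕ} (hn : k n + 1 < N n)
    {A : Finset (Sym2 (ℤ × ℤ))} (hA : A ⊆ edges (S n)) {j : ℕ} (hj : j < nu (p n) (k n) A) :
    ψn n '' loewnerDomain ((exn δ N k p S ψn n).W A) ((exn δ N k p S ψn n).c A j) =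
      Om (δ n) (S n) \ (pl (p n) (k n) (δ n) A '' Icc 0 (j : ℝ)) := by
  rw [← (H.isU n hn).img]
  exact dom_DC (wf_of H hn) (H.uni n hn) (mem_Qc.2 hA) hj

end

end Vale.Agent.P167.H756
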