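import Vale.Agent.P167.H756.PDs
import Vale.Agent.P167.E6.Poly6

/-!
# P167, block CM: the hypotheses of `ratio_obsF'` and `G_bounds'` for the brick polygons

* `good_BP`, `BP_eq` : the brick polygon is the domain of a lattice polygon;
* `comp_of_sys` : it is a component of the set of points with good faces;
* `incl_of_sys` : near `X` the polygon of one time is in the good set of the other time;
* `access_of_sys` : accesses.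
-/

set_option autoImplicit false
set_option linter.unusedVariables false

open Set Topology Metric MeasureTheory Filter Bornology
open scoped ENNReal Real ComplexConjugate

namespace Vale.Agent.P167.H756

open Vale.Agent.P153.R2.R1 Vale.Agent.P153.R2.OBSV Vale.Agent.P167.H174
open Vale.Agent.P153.R2.L1 (HH IsHydro inv mem_HH isOpen_HH convex_HH)
open Vale.Agent.P164 (loewnerDomain gf Zf IsLoewnerSol)
open Vale.Agent.P167.H450 (sqr reg bk obk GF Cmp br Data)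
open Vale.Agent.P167.H446.Cut (D1 E1 Sys lo up lo')
open Vale.Agent.P167.E6

variable {ι : Type} {T R : ℝ} {W : ℝ → ℝ} {t : ℝ} {ψ : ℂ → ℂ} {Y ε η ℓ ρ : ℝ} {ξ : ι → ℂ}
  {x : ι → ℝ} {k : ι → ℤ} {q : ι → ℝ} {K C : ι → Set ℂ} {B E D : Set ℂ} {F₀ : ℤ × ℤ}

/-- The brick polygon as the domain of a set of squares. -/
theorem BP_eq {S : Finset (ℤ × ℤ)}
    (hS : (S : Set (ℤ × ℤ)) = Cmp (GF ℓ ρ (D1 D K) (E1 ℓ E x k q K)) F₀) :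
    BP ℓ ρ D E x k q K F₀ = D6 ℓ S := by
  rw [BP, ← hS]
  rfl

/-- The brick polygon is a good domain. -/
theorem good_BP (H : Data ℓ ρ (D1 D K) (E1 ℓ E x k q K) F₀) : Good (BP ℓ ρ D E x k q K F₀) := by
  obtain ⟨S, n, p, hS, hp, hpS⟩ := H.exists_polygon
  rw [BP_eq hS]
  exact good_D6 H.hℓ hp hpS

/-- The base point. -/
theorem sys_base (H : Drv T R W t) (hY0 : 0 < Y) (hY : 8 * R ≤ Y) (hY2 : 64 * T ≤ Y ^ 2)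
    (hF₀ : ψ (Y * Complex.I) ∈ sqr ℓ F₀) :
    FD ψ W t (mb 1 Complex.I (Zf W (Y * Complex.I) t)) ∈ sqr ℓ F₀ := by
  obtain ⟨hd, -, -, -⟩ := H.base hY0 hY hY2
  rw [FD_mb H ψ hd]
  exact hF₀

/-- The data of the brick polygon. -/
theorem data_of_sys [Nonempty ι] (H : Drv T R W t) (hY0 : 0 < Y) (hY : 8 * R ≤ Y) (hY2 : 64 * T ≤ Y ^ 2)
    (S : Sys (FD ψ W t) (mb 1 Complex.I (Zf W (Y * Complex.I) t)) ξ ε η ℓ x k q K C B E)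
    (hρ : 0 < ρ) (h : ρ + 3 * ℓ ≤ η) (hF₀ : ψ (Y * Complex.I) ∈ sqr ℓ F₀) :
    Data ℓ ρ (D1 (ψ '' loewnerDomain W t \ B) K) (E1 ℓ E x k q K) F₀ := by
  have h1 := Vale.Agent.P167.H446.Cut.data S.cuts S.hℓ hρ
    (S.good hρ h (sys_base H hY0 hY hY2 hF₀))
  rwa [FD_img H ψ] at h1

/-- **Component property.** -/
theorem comp_of_sys [Nonempty ι] (H : Drv T R W t) (hY0 : 0 < Y) (hY : 8 * R ≤ Y) (hY2 : 64 * T ≤ Y ^ 2)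
    (S : Sys (FD ψ W t) (mb 1 Complex.I (Zf W (Y * Complex.I) t)) ξ ε η ℓ x k q K C B E)
    (hρ : 0 < ρ) (h : ρ + 3 * ℓ ≤ η) (hF₀ : ψ (Y * Complex.I) ∈ sqr ℓ F₀) (C' : Set ℂ)
    (hC : IsPreconnected C')
    (hsub : C' ⊆ Bul ℓ (GF ℓ ρ (D1 (ψ '' loewnerDomain W t \ B) K) (E1 ℓ E x k q K)))
    (hne : (C' ∩ BP ℓ ρ (ψ '' loewnerDomain W t \ B) E x k q K F₀).Nonempty) :
    C' ⊆ BP ℓ ρ (ψ '' loewnerDomain W t \ B) E x k q K F₀ :=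
  comp_of_data (data_of_sys H hY0 hY hY2 S hρ h hF₀) hC hsub hne

/-- **Accesses**: a connected set through the base point at distance `2 η'` from the complement of
the remaining domain. -/
theorem access_of_sys [Nonempty ι] (H : Drv T R W t) (hY0 : 0 < Y) (hY : 8 * R ≤ Y) (hY2 : 64 * T ≤ Y ^ 2)
    (S : Sys (FD ψ W t) (mb 1 Complex.I (Zf W (Y * Complex.I) t)) ξ ε η ℓ x k q K C B E)
    (hρ : 0 < ρ) (h : ρ + 3 * ℓ ≤ η) (hF₀ : ψ (Y * Complex.I) ∈ sqr ℓ F₀) {C' : Set ℂ}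
    (hC : IsPreconnected C') (hC0 : ψ (Y * Complex.I) ∈ C') {η' : ℝ} (hη' : ρ + 3 * ℓ ≤ η')
    (hfar : ∀ u ∈ C', ball u (2 * η') ⊆ D1 (ψ '' loewnerDomain W t \ B) K) :
    ∀ u ∈ C', ball u η' ⊆ BP ℓ ρ (ψ '' loewnerDomain W t \ B) E x k q K F₀ := by
  have hD := data_of_sys H hY0 hY hY2 S hρ h hF₀
  have hη0 : 0 < η' := by linarith [S.hℓ]
  have hconn : IsPreconnected (⋃ u ∈ C', ball u η') := by
    have e : (⋃ u ∈ C', ball u η') = ⋃₀ ((fun u => C' ∪ ball u η') '' C') := by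
      ext z
      simp only [mem_iUnion, sUnion_image, mem_union, exists_prop]
      constructor
      · rintro ⟨u, hu, hz⟩
        exact ⟨u, hu, Or.inr hz⟩
      · rintro ⟨u, hu, hz | hz⟩
        · exact ⟨z, hz, mem_ball_self hη0⟩
        · exact ⟨u, hu, hz⟩
    rw [e]
    refine isPreconnected_sUnion (ψ (Y * Complex.I)) _ ?_ ?_
    · rintro _ ⟨u, hu, rfl⟩
      exact Or.inl hC0
    · rintro _ ⟨u, hu, rfl⟩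
      exact IsPreconnected.union u hu (mem_ball_self hη0) hC (convex_ball u η').isPreconnected
  have h1 := hD.inner hconn (mem_iUnion₂.2 ⟨_, hC0, mem_ball_self hη0⟩) hF₀ (fun z hz => by
    obtain ⟨u, hu, hzu⟩ := mem_iUnion₂.1 hz
    refine Subset.trans ?_ (hfar u hu)
    rw [mem_ball] at hzu
    exact ball_subset_ball' (by linarith))
  intro u hu z hz
  exact h1 (mem_iUnion₂.2 ⟨u, hu, hz⟩)

/-- **Inclusion near `X`.** -/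
theorem incl_of_sys {ι : Type} [Nonempty ι] {T R X Y Rd cd : ℝ} (hT : 0 ≤ T) (hR : 0 ≤ R) (hRd : 0 < Rd) (hcd : 0 < cd)
    (hX0 : 0 < X) (hX : 16 * R ≤ X) (hX2 : 1024 * T ≤ X ^ 2) (hY0 : 0 < Y) (hY : 8 * R ≤ Y)
    (hY2 : 64 * T ≤ Y ^ 2) :
    ∃ ε₀ > 0, ∃ r₀ > 0, ∀ ψ : ℂ → ℂ, HConf Rd cd Y ψ →
      ∀ (W₁ : ℝ → ℝ) (t₁ : ℝ), Drv T R W₁ t₁ → ∀ (W₂ : ℝ → ℝ) (t₂ : ℝ), Drv T R W₂ t₂ →
      ∀ (ξ : ι → ℂ), (∀ j, ξ j = -1 ∨ ξ j = 1) → ∀ (ε η₁ η₂ ℓ ρ : ℝ) (x₁ x₂ : ι → ℝ) (k₁ k₂ : ι → ℤ)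
        (q₁ q₂ : ι → ℝ) (K₁ K₂ C₁ C₂ : ι → Set ℂ) (B g : Set ℂ) (F₀ : ℤ × ℤ), 0 < ε → ε ≤ ε₀ → 0 < ρ →
      2 * ρ + 3 * ℓ ≤ r₀ → ρ + 3 * ℓ ≤ η₁ → ψ (Y * Complex.I) ∈ sqr ℓ F₀ →
      Sys (FD ψ W₁ t₁) (mb 1 Complex.I (Zf W₁ (Y * Complex.I) t₁)) ξ ε η₁ ℓ x₁ k₁ q₁ K₁ C₁ B
        (ψ '' loewnerDomain W₁ t₁ \ g) →
      Sys (FD ψ W₂ t₂) (mb 1 Complex.I (Zf W₂ (Y * Complex.I) t₂)) ξ ε η₂ ℓ x₂ k₂ q₂ K₂ C₂ B
        (ψ '' loewnerDomain W₂ t₂ \ g) →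
      ∀ z ∈ ball (X : ℂ) (X / 2), 0 < z.im →
      ψ z ∈ BP ℓ ρ (ψ '' loewnerDomain W₁ t₁ \ B) (ψ '' loewnerDomain W₁ t₁ \ g) x₁ k₁ q₁ K₁ F₀ →
      ψ z ∈ Bul ℓ (GF ℓ ρ (D1 (ψ '' loewnerDomain W₂ t₂ \ B) K₂)
        (E1 ℓ (ψ '' loewnerDomain W₂ t₂ \ g) x₂ k₂ q₂ K₂)) := by
  obtain ⟨ε₀, hε₀, r₀, hr₀, hng⟩ := near_good (ι := ι) (T := T) (R := R) (X := X) hT hR hRd hcd hX0 hX hX2
    hY0 hY hY2
  refine ⟨ε₀, hε₀, r₀, hr₀, ?_⟩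
  intro ψ hψ W₁ t₁ H₁ W₂ t₂ H₂ ξ hξ ε η₁ η₂ ℓ ρ x₁ x₂ k₁ k₂ q₁ q₂ K₁ K₂ C₁ C₂ B g F₀ hε0 hε hρ hr
    hη hF₀ S₁ S₂ z hz hz0 hzP F hzF
  have hD := data_of_sys H₁ hY0 hY hY2 S₁ hρ hη hF₀
  have hF : F ∈ Cmp _ F₀ := Vale.Agent.P167.H450.mem_of_interior S₁.hℓ hzP hzF
  exact hng ψ hψ W₁ t₁ H₁ W₂ t₂ H₂ ξ ε ℓ ρ x₁ x₂ k₁ k₂ q₁ q₂ K₁ K₂ B g hε0 hε hρ S₁.hℓ hr
    (CutF.of_sys H₁ hξ S₁) (CutF.of_sys H₂ hξ S₂) z hz hz0 F hzF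
    (Vale.Agent.P167.H450.cmp_subset hD.good hF)

end Vale.Agent.P167.H756
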