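import Vale.Agent.P167.H756.Glue2

/-!
# P167, block CM: small connected sets of the domain are small in the coordinates; marks
-/

open Set Topology Metric MeasureTheory Filter Bornology
open scoped ENNReal Real ComplexConjugate

namespace Vale.Agent.P167.H756

open Vale.Agent.P153.R2.R1 Vale.Agent.P153.R2.OBSV Vale.Agent.P167.H174
open Vale.Agent.P153.R2.L1 (HH IsHydro inv mem_HH isOpen_HH convex_HH)
open Vale.Agent.P164 (loewnerDomain gf Zf IsLoewnerSol)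

/-- **Uniform continuity of the inverse maps on connected sets.** -/
theorem Cls.small_all {R c : ℝ} (hR : 0 < R) (hc : 0 < c) {ε : ℝ} (hε : 0 < ε) :
    ∃ η > 0, ∀ F : ℂ → ℂ, Cls R c F → ∀ T ⊆ ball (0 : ℂ) 1, IsPreconnected T →
      (∀ w ∈ T, ∀ w' ∈ T, dist (F w) (F w') ≤ η) → ∀ w ∈ T, ∀ w' ∈ T, dist w w' ≤ ε := by
  obtain ⟨η₁, hη₁, h1⟩ := Cls.small (R := R) (c := c) hR hc hε
  obtain ⟨δ, hδ, h2⟩ := Cls.sep (R := R) (c := c) hR hc (ρ := 1 - η₁) (s := ε) (by linarith) hε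
  refine ⟨min η₁ (δ / 2), by positivity, fun F hF T hT hTc hsm w hw w' hw' => ?_⟩
  by_cases hn : ∃ w ∈ T, 1 - η₁ < ‖w‖
  · exact h1 F hF T hT hTc (fun w hw w' hw' => (hsm w hw w' hw').trans (min_le_left _ _)) hn
      w hw w' hw'
  · push Not at hn
    by_contra hcon
    push Not at hcon
    have h3 := h2 F hF w (mem_closedBall_zero_iff.2 (hn w hw)) w'
      (mem_closedBall_zero_iff.2 (hn w' hw')) hcon.le
    have h4 := (hsm w hw w' hw').trans (min_le_right _ _)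
    linarith

/-- The set version: a small connected subset of the domain. -/
theorem Cls.small_img {R c : ℝ} (hR : 0 < R) (hc : 0 < c) {ε : ℝ} (hε : 0 < ε) :
    ∃ η > 0, ∀ F : ℂ → ℂ, Cls R c F → ∀ C ⊆ F '' ball (0 : ℂ) 1, IsPreconnected C →
      (∀ x ∈ C, ∀ y ∈ C, dist x y ≤ η) → ∀ w ∈ ball (0 : ℂ) 1, ∀ w' ∈ ball (0 : ℂ) 1,
      F w ∈ C → F w' ∈ C → dist w w' ≤ ε := by
  obtain ⟨η, hη, h⟩ := Cls.small_all (R := R) (c := c) hR hc hε
  refine ⟨η, hη, fun F hF C hC hCc hsm w hw w' hw' hwC hwC' => ?_⟩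
  have hconf := hF.conf
  have hT : dinv F '' C ⊆ ball 0 1 := by
    rintro _ ⟨x, hx, rfl⟩
    exact hconf.dinv_mem (hC hx)
  have hTc : IsPreconnected (dinv F '' C) := hCc.image _ (fun x hx =>
    (hconf.dinv_continuousAt (hC hx)).continuousWithinAt)
  refine h F hF _ hT hTc ?_ w ⟨F w, hwC, hconf.dinv_apply hw⟩ w' ⟨F w', hwC', hconf.dinv_apply hw'⟩
  rintro _ ⟨x, hx, rfl⟩ _ ⟨y, hy, rfl⟩
  rw [hconf.apply_dinv (hC hx), hconf.apply_dinv (hC hy)]
  exact hsm x hx y hy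

/-- **(CG7)** The version for the domains of a Loewner chain. -/
theorem small_dom {T R Rd cd Y ε : ℝ} (hRd : 0 < Rd) (hcd : 0 < cd) (hY0 : 0 < Y) (hY : 8 * R ≤ Y)
    (hY2 : 64 * T ≤ Y ^ 2) (hε : 0 < ε) :
    ∃ η > 0, ∀ ψ : ℂ → ℂ, HConf Rd cd Y ψ → ∀ (W : ℝ → ℝ) (t : ℝ), Drv T R W t →
      ∀ C ⊆ ψ '' loewnerDomain W t, IsPreconnected C → (∀ x ∈ C, ∀ y ∈ C, dist x y ≤ η) →
      ∀ z ∈ loewnerDomain W t, ∀ z' ∈ loewnerDomain W t, ψ z ∈ C → ψ z' ∈ C →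
        dist (mb 1 Complex.I (Zf W z t)) (mb 1 Complex.I (Zf W z' t)) ≤ ε := by
  obtain ⟨c, hc, hcls⟩ := cls_FD (T := T) (R := R) hRd hcd hY0 hY hY2
  obtain ⟨η, hη, h⟩ := Cls.small_img (R := Rd) (c := c) hRd hc hε
  refine ⟨η, hη, fun ψ hψ W t H C hC hCc hsm z hz z' hz' hzC hzC' => ?_⟩
  have hm : ∀ z ∈ loewnerDomain W t, mb 1 Complex.I (Zf W z t) ∈ ball (0 : ℂ) 1 := fun z hz => by
    rw [mem_ball_zero_iff]
    exact norm_mb_lt norm_one (by simp) (Vale.Agent.P164.Zf_im_pos H.nn hz)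
  refine h _ (hcls ψ hψ W t H) C (by rw [FD_img H]; exact hC) hCc hsm _ (hm z hz) _ (hm z' hz') ?_ ?_
  · rw [FD_mb H ψ hz]; exact hzC
  · rw [FD_mb H ψ hz']; exact hzC'

/-! ### Marks -/

theorem mem_closure_inter_of_open {P U : Set ℂ} {y : ℂ} (hU : IsOpen U) (hy : y ∈ closure P)
    (hyU : y ∈ U) : y ∈ closure (P ∩ U) := by
  rw [mem_closure_iff_nhds]
  intro s hs
  obtain ⟨x, hx, hxP⟩ := mem_closure_iff_nhds.1 hy _ (inter_mem hs (hU.mem_nhds hyU))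
  exact ⟨x, hx.1, hxP, hx.2⟩

/-- The field `mark_a` of `PD`, for a point `ψ z` of the domain. -/
theorem mark_a_of_mem {T R : ℝ} {W : ℝ → ℝ} {t h : ℝ} (H : Drv T R W t) {ψ : ℂ → ℂ}
    (hd : DifferentiableOn ℂ ψ HH) (hi : InjOn ψ HH) {P : Set ℂ} {z : ℂ} (hz : z ∈ loewnerDomain W t)
    (hP : ψ z ∈ closure P) (hzh : ‖Zf W z t‖ < h) :
    ψ z ∈ closure (P ∩ ψ '' {z | z ∈ loewnerDomain W t ∧ ‖Zf W z t‖ < h}) := by
  refine mem_closure_inter_of_open ?_ hP ⟨z, ⟨hz, hzh⟩, rfl⟩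
  have hconf : Conf (FD ψ W t) (FD ψ W t '' ball 0 1) := by
    refine ⟨?_, ?_, rfl⟩
    · exact (Ps_diff H hd).comp (fun w hw => (imb_differentiableAt
        (ball_ne_one hw)).differentiableWithinAt) fun w hw =>
        imb_im_pos norm_one (by simp) (mem_ball_zero_iff.1 hw)
    · intro w hw w' hw' e
      have h3 := Ps_inj H hi (imb_im_pos norm_one (by simp) (mem_ball_zero_iff.1 hw))
        (imb_im_pos norm_one (by simp) (mem_ball_zero_iff.1 hw')) e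
      have h4 := congrArg (mb 1 Complex.I) h3
      rwa [(mb_imb norm_one (by simp) (ball_ne_one hw)).2,
        (mb_imb norm_one (by simp) (ball_ne_one hw')).2] at h4
  have hset : ψ '' {z | z ∈ loewnerDomain W t ∧ ‖Zf W z t‖ < h} =
      FD ψ W t '' (ball 0 1 ∩ imb 1 Complex.I ⁻¹' ball 0 h) := by
    apply Subset.antisymm
    · rintro _ ⟨y, ⟨hy, hyh⟩, rfl⟩
      have hyi := Vale.Agent.P164.Zf_im_pos H.nn hy
      refine ⟨mb 1 Complex.I (Zf W y t), ⟨?_, ?_⟩, FD_mb H ψ hy⟩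
      · rw [mem_ball_zero_iff]; exact norm_mb_lt norm_one (by simp) hyi
      · rw [mem_preimage, imb_mb norm_one (by simp) hyi.le, mem_ball_zero_iff]
        exact hyh
    · rintro _ ⟨w, ⟨hw, hwh⟩, rfl⟩
      have h5 := mapsTo_inv H (show imb 1 Complex.I w ∈ HH from
        imb_im_pos norm_one (by simp) (mem_ball_zero_iff.1 hw))
      refine ⟨_, ⟨h5.1, ?_⟩, rfl⟩
      rw [h5.2]
      exact mem_ball_zero_iff.1 hwh
  rw [hset]
  refine hconf.isOpen_image inter_subset_left ?_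
  have hc : ContinuousOn (imb 1 Complex.I) (ball (0 : ℂ) 1) := fun w hw =>
    (imb_differentiableAt (ball_ne_one hw)).continuousAt.continuousWithinAt
  exact hc.isOpen_inter_preimage isOpen_ball isOpen_ball

theorem isOpen_img {ψ : ℂ → ℂ} (hd : DifferentiableOn ℂ ψ HH) (hi : InjOn ψ HH) {U : Set ℂ}
    (hU : IsOpen U) (hUH : U ⊆ HH) : IsOpen (ψ '' U) := by
  have H0 : Drv 0 0 (fun _ => (0 : ℝ)) 0 :=
    ⟨continuous_const, le_rfl, le_rfl, fun s _ => by rw [abs_zero]⟩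
  have hconf : Conf (F0 ψ) (F0 ψ '' ball 0 1) := by
    refine ⟨?_, ?_, rfl⟩
    · exact hd.comp (fun w hw => (imb_differentiableAt
        (ball_ne_one hw)).differentiableWithinAt) fun w hw =>
        imb_im_pos norm_one (by simp) (mem_ball_zero_iff.1 hw)
    · intro w hw w' hw' e
      have h3 := hi (imb_im_pos norm_one (by simp) (mem_ball_zero_iff.1 hw))
        (imb_im_pos norm_one (by simp) (mem_ball_zero_iff.1 hw')) e
      have h4 := congrArg (mb 1 Complex.I) h3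
      rwa [(mb_imb norm_one (by simp) (ball_ne_one hw)).2,
        (mb_imb norm_one (by simp) (ball_ne_one hw')).2] at h4
  have hset : ψ '' U = F0 ψ '' (ball 0 1 ∩ imb 1 Complex.I ⁻¹' U) := by
    apply Subset.antisymm
    · rintro _ ⟨y, hy, rfl⟩
      have hyi : 0 < y.im := hUH hy
      refine ⟨mb 1 Complex.I y, ⟨?_, ?_⟩, F0_mb ψ hyi.le⟩
      · rw [mem_ball_zero_iff]; exact norm_mb_lt norm_one (by simp) hyi
      · rw [mem_preimage, imb_mb norm_one (by simp) hyi.le]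
        exact hy
    · rintro _ ⟨w, ⟨hw, hwh⟩, rfl⟩
      exact ⟨_, hwh, rfl⟩
  rw [hset]
  refine hconf.isOpen_image inter_subset_left ?_
  have hc : ContinuousOn (imb 1 Complex.I) (ball (0 : ℂ) 1) := fun w hw =>
    (imb_differentiableAt (ball_ne_one hw)).continuousAt.continuousWithinAt
  exact hc.isOpen_inter_preimage isOpen_ball hU

/-- The field `mark_p` of `PD`, for a point `ψ z` of the domain. -/
theorem mark_p_of_mem {T R : ℝ} {W : ℝ → ℝ} {t h : ℝ} (H : Drv T R W t) {ψ : ℂ → ℂ}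
    (hd : DifferentiableOn ℂ ψ HH) (hi : InjOn ψ HH) {P : Set ℂ} {z : ℂ} (hz : z ∈ loewnerDomain W t)
    (hP : ψ z ∈ closure P) (hzh : h⁻¹ < ‖z‖) :
    ψ z ∈ closure (P ∩ ψ '' {z | z ∈ loewnerDomain W t ∧ h⁻¹ < ‖z‖}) := by
  refine mem_closure_inter_of_open ?_ hP ⟨z, ⟨hz, hzh⟩, rfl⟩
  refine isOpen_img hd hi ?_ fun y hy => Vale.Agent.P164.im_pos_of_dom H.nn hy.1
  exact (Vale.Agent.P164.isOpen_dom H.cont H.nn).inter
    (isOpen_lt continuous_const continuous_norm)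

/-- The condition on `b` in `glue`, for a point `ψ z` of the domain. -/
theorem mark_b_of_mem {ψ : ℂ → ℂ} (hd : DifferentiableOn ℂ ψ HH) (hi : InjOn ψ HH) {P : Set ℂ}
    {z : ℂ} {X h : ℝ} (hz : z ∈ HH) (hP : ψ z ∈ closure P) (hzh : ‖z - X‖ < h) :
    ψ z ∈ closure (P ∩ ψ '' {z | z ∈ HH ∧ ‖z - X‖ < h}) := by
  refine mem_closure_inter_of_open ?_ hP ⟨z, ⟨hz, hzh⟩, rfl⟩
  refine isOpen_img hd hi ?_ fun y hy => hy.1
  exact isOpen_HH.inter (isOpen_lt ((continuous_id.sub continuous_const).norm) continuous_const)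

end Vale.Agent.P167.H756
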