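import Vale.Agent.P167.H756.Flat

/-!
# P167, block CM: bounds for `G_P (b)` at a flat boundary point, final form of the ratio
-/

open Set Topology Metric MeasureTheory Filter Bornology
open scoped ENNReal Real ComplexConjugate

namespace Vale.Agent.P167.H756

open Vale.Agent.P153.R2.R1 Vale.Agent.P153.R2.OBSV Vale.Agent.P167.H174
open Vale.Agent.P153.R2.L1 (HH IsHydro inv mem_HH isOpen_HH convex_HH)
open Vale.Agent.P164 (loewnerDomain gf Zf IsLoewnerSol)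
open Vale.Agent.P153.BESS (CSol RSol)
open Vale.Agent.P167.H411 (ldv obsF obsY exists_csol exists_rsol csol_unique)
open Vale.Agent.P167.H947 (surv flow flow_eq flow_conj flow_inj flow_gf surv_inter isOpen_surv
  differentiableOn_flow hasDerivAt_flow_real flow_rsol csol_sub)

/-- `g = |(φ⁻¹)' (b)| / |φ⁻¹ (b)|` for a uniformizer `φ` of `(P; a, p)`, `φ⁻¹ (b) > 0` and `b` on a
horizontal side with the domain above. -/
def GPos (P : Set ℂ) (a p b : ℂ) (g : ℝ) : Prop :=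
  ∃ (φ : ℂ → ℂ) (x : ℝ), IsU φ P a p ∧ 0 < x ∧ 0 < g ∧ φ x = b ∧
    HasDerivWithinAt φ ((1 / (g * x) : ℝ) : ℂ) {z | 0 ≤ z.im} x

theorem GPos.pos {P : Set ℂ} {a p b : ℂ} {g : ℝ} (h : GPos P a p b g) : 0 < g := by
  obtain ⟨_, _, -, -, h, -⟩ := h
  exact h

theorem GPos.gAt {P : Set ℂ} {a p b : ℂ} {g : ℝ} (h : GPos P a p b g) : GAt P a p b g := by
  obtain ⟨φ, x, h1, h2, h3, h4, h5⟩ := h
  have hp : 0 < 1 / (g * x) := by positivity
  refine ⟨φ, x, _, h1, h4, h2.ne', ?_, h5, ?_⟩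
  · exact_mod_cast hp.ne'
  · rw [Complex.norm_real, Real.norm_of_nonneg hp.le, abs_of_pos h2]
    field_simp

variable {T R : ℝ} {W : ℝ → ℝ} {t : ℝ}

/-- The imaginary part along the flow. -/
theorem Drv.im_ge (H : Drv T R W t) {z : ℂ} (hz0 : 0 < z.im) (h1 : 4 * R ≤ ‖z‖)
    (h2 : 16 * T ≤ ‖z‖ ^ 2) : z.im * Real.exp (-1) ≤ (Zf W z t).im := by
  have hWc : ContinuousOn W (Icc 0 t) := H.cont.continuousOn
  have hT : 0 ≤ T := H.nn.trans H.le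
  have hz : 0 < ‖z‖ := norm_pos_iff.2 (by rintro rfl; simp at hz0)
  have hdom := H.dom hz0 h1 h2
  have hsol := Vale.Agent.P164.gf_sol H.nn hdom
  have hc := hsol.csol'
  have hcc := Vale.Agent.P167.H947.CSol.conj hc
  have htt : t ∈ Icc 0 t := ⟨H.nn, le_rfl⟩
  have hsub := csol_sub H.nn hWc hc hcc t htt
  -- the lower bound of the distance to the driver
  have hgap : ∀ s ∈ Icc 0 t, ‖z‖ / 2 ≤ ‖gf W z s - W s‖ := by
    intro s hs
    have Hs : Drv T R W s := ⟨H.cont, hs.1, hs.2.trans H.le, fun u hu =>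
      H.bdd u ⟨hu.1, hu.2.trans hs.2⟩⟩
    have h3 := (Hs.far hz h1 h2).2.2.2
    rwa [flow_gf hs.1 H.cont.continuousOn (Hs.dom hz0 h1 h2)] at h3
  have hint : ‖∫ u in (0 : ℝ)..t, 2 / ((gf W z u - W u) * (conj (gf W z u) - W u))‖ ≤
      8 / ‖z‖ ^ 2 * |t - 0| := by
    refine intervalIntegral.norm_integral_le_of_norm_le_const fun s hs => ?_
    rw [uIoc_of_le H.nn] at hs
    have h3 := hgap s ⟨hs.1.le, hs.2⟩
    have e1 : conj (gf W z s) - (W s : ℂ) = conj (gf W z s - W s) := by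
      rw [map_sub, Complex.conj_ofReal]
    rw [e1, norm_div, norm_mul, RCLike.norm_conj]
    have h4 : ‖(2 : ℂ)‖ = 2 := by norm_num
    rw [h4]
    have h5 : ‖z‖ / 2 * (‖z‖ / 2) ≤ ‖gf W z s - W s‖ * ‖gf W z s - W s‖ := by gcongr
    calc 2 / (‖gf W z s - W s‖ * ‖gf W z s - W s‖) ≤ 2 / (‖z‖ / 2 * (‖z‖ / 2)) := by gcongr
      _ = 8 / ‖z‖ ^ 2 := by field_simp; ring
  have hle : ‖∫ u in (0 : ℝ)..t, 2 / ((gf W z u - W u) * (conj (gf W z u) - W u))‖ ≤ 1 := by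
    refine hint.trans ?_
    rw [sub_zero, abs_of_nonneg H.nn, div_mul_eq_mul_div, div_le_one (by positivity)]
    linarith [H.le]
  have e2 : ∀ y : ℂ, y - conj y = 2 * (y.im : ℂ) * Complex.I := fun y => by
    apply Complex.ext <;> simp; ring
  have e3 : ∀ y : ℂ, 0 ≤ y.im → ‖y - conj y‖ = 2 * y.im := fun y hy => by
    rw [e2, norm_mul, norm_mul, Complex.norm_I, mul_one, Complex.norm_real,
      Real.norm_of_nonneg hy]
    norm_num
  have hg0 : 0 ≤ (gf W z t).im := by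
    rw [← Vale.Agent.P164.Zf_im_eq]; exact (Vale.Agent.P164.Zf_im_pos H.nn hdom).le
  have h3 := congrArg norm hsub
  rw [norm_mul, e3 _ hg0, e3 _ hz0.le, Complex.norm_exp] at h3
  rw [Vale.Agent.P164.Zf_im_eq]
  have h4 : Real.exp (-1) ≤ Real.exp (-∫ u in (0 : ℝ)..t,
      2 / ((gf W z u - W u) * (conj (gf W z u) - W u))).re := by
    apply Real.exp_le_exp.2
    have h5 := Complex.abs_re_le_norm (-∫ u in (0 : ℝ)..t,
      2 / ((gf W z u - W u) * (conj (gf W z u) - W u)))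
    rw [norm_neg] at h5
    exact (abs_le.1 (h5.trans hle)).1
  have h5 : 2 * z.im * Real.exp (-1) ≤ 2 * z.im * Real.exp (-∫ u in (0 : ℝ)..t,
      2 / ((gf W z u - W u) * (conj (gf W z u) - W u))).re := by gcongr
  rw [← h3] at h5
  linarith

/-- The image of a far real point. -/
theorem Drv.real_pt (H : Drv T R W t) {X : ℝ} (hX0 : 0 < X) (hX : 8 * R ≤ X)
    (hX2 : 64 * T ≤ X ^ 2) : ∃ X₁ : ℝ, flow W t X - W t = X₁ ∧ X / 2 ≤ X₁ ∧ X₁ ≤ 2 * X := by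
  have hR := H.R_nonneg
  have hT : 0 ≤ T := H.nn.trans H.le
  have hWc : ContinuousOn W (Icc 0 t) := H.cont.continuousOn
  have h2 : 16 * t ≤ X ^ 2 := by linarith [H.le]
  have habs : |X| = X := abs_of_pos hX0
  obtain ⟨y, hy⟩ := exists_rsol H.nn hWc H.bdd hX0.ne' (by rw [habs]; linarith) h2
  obtain ⟨-, h5, h3, h4⟩ := Vale.Agent.P167.H411.RSol.bounds H.nn hWc H.bdd hX0.ne'
    (by rw [habs]; linarith) h2 hy t ⟨H.nn, le_rfl⟩
  refine ⟨y t - W t, ?_, ?_, ?_⟩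
  · rw [flow_rsol H.nn hWc hy, ← Complex.ofReal_sub]
  · have h6 : 0 < y t - W t := by
      rw [lt_div_iff₀ hX0, zero_mul] at h4
      exact h4
    rw [habs, abs_of_pos h6] at h3
    exact h3
  · have h6 := H.bdd t ⟨H.nn, le_rfl⟩
    rw [habs] at h5
    have h7 := (abs_le.1 h5).2
    have h8 := (abs_le.1 h6).1
    linarith

/-- **Existence and bounds of `G_P (b)`** for a polygon `P` which almost fills the domain at time
`t`, flat at `b` of radius `ρ`. The bounds do not depend on `h`. -/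
theorem G_bounds {T R X Y Rd cd ρ y₀ M₀ : ℝ} (hT : 0 ≤ T) (hR : 0 ≤ R) (hRd : 0 < Rd)
    (hcd : 0 < cd) (hX0 : 0 < X) (hX : 8 * R ≤ X) (hX2 : 64 * T ≤ X ^ 2) (hY0 : 0 < Y)
    (hY : 8 * R ≤ Y) (hY2 : 64 * T ≤ Y ^ 2) (hρ : 0 < ρ) (hy₀ : 0 < y₀) :
    ∃ M > 0, ∃ h > 0, ∀ ψ : ℂ → ℂ, HConf Rd cd Y ψ → ∀ (W : ℝ → ℝ) (t : ℝ), Drv T R W t →
      ∀ (P : Set ℂ) (a p b : ℂ), PD h ψ W t Y P a p → b ∈ frontier P →
      b ∈ closure (P ∩ ψ '' {z | z ∈ HH ∧ ‖z - X‖ < h}) → FlatUp P b ρ → ρ ≤ dist p b →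
      ρ ≤ dist a b → ∀ ζ : ℂ, y₀ ≤ ζ.im → ‖ζ‖ ≤ M₀ → 4 * R ≤ ‖ζ‖ → 16 * T ≤ ‖ζ‖ ^ 2 →
      ψ ζ = b + ((ρ / 2 : ℝ) : ℂ) * Complex.I →
      ∃ g : ℝ, GPos P a p b g ∧ M⁻¹ ≤ g ∧ g ≤ M := by
  obtain ⟨c, hc, ρ₀, hρ₀, hside⟩ := side_of_PD (T := T) (R := R) hRd hcd hY0 hY hY2 hT hR
  set y₁ : ℝ := y₀ * Real.exp (-1) with hy₁
  have hy₁0 : 0 < y₁ := by positivity
  set M₁ : ℝ := max (2 * X) (2 * |M₀| + R) with hM₁
  have hM₁0 : 0 ≤ M₁ := le_trans (by positivity) (le_max_left _ _)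
  obtain ⟨ε₁, hε₁, himb1⟩ := imb_close hM₁0 (show 0 < X / 4 by positivity)
  obtain ⟨ε₂, hε₂, himb2⟩ := imb_close hM₁0 (show 0 < y₁ / 2 by positivity)
  obtain ⟨h₁, hh₁, hhalf⟩ := halfplane (R := Rd) (c := c) hRd hc hρ₀
    (show 0 < min (ε₁ / 2) ε₂ by positivity)
  obtain ⟨h₂, hh₂, hS⟩ := hside h₁ hh₁
  set M : ℝ := max (10 / ρ) (9 * ρ * X / y₁) with hM
  have hM0 : 0 < M := lt_of_lt_of_le (by positivity) (le_max_left _ _)
  refine ⟨M, hM0, min (min h₂ (ε₁ / 64)) (X / 8), by positivity, ?_⟩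
  intro ψ hψ W t H P a p b hP hb hbm hf hp ha ζ hζ hζM hζR hζT hζb
  have hh0 : 0 < min (min h₂ (ε₁ / 64)) (X / 8) := by positivity
  have S := hS ψ hψ W t H P a p (hP.mono hh0 ((min_le_left _ _).trans (min_le_left _ _)))
  obtain ⟨φ, hφ, hφi, hφc⟩ := hhalf _ S.cls _ S.base P S.good S.sub S.inner S.collar a p S.mem_a
    S.mem_p S.mark_a S.mark_p
  have hconf := S.cls.conf
  have hI : 0 < Complex.I.im := by simp
  have habs : |X| = X := abs_of_pos hX0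
  obtain ⟨X₁, hX₁, hX₁l, hX₁u⟩ := H.real_pt hX0 hX hX2
  -- the marked point `b`
  have htr := trans_FD H ψ hX0.ne' (by rw [habs]; exact hX) hX2
  obtain ⟨-, hlip⟩ := lip_of_bdd (f := fun z => flow W t z - W t) (x := (X : ℂ)) (ρ := X / 4)
    (s := X / 4) (B := 2 * |X|) (by positivity)
    (htr.diff.mono (ball_subset_ball (by rw [habs]; linarith)))
    (fun z hz => htr.bdd z (ball_subset_ball (by rw [habs]; linarith) hz))
  have hXb : (X : ℂ) ∈ ball (X : ℂ) (X / 4) := mem_ball_self (by positivity)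
  have hMark : Mark (FD ψ W t) P b (mb 1 Complex.I X₁) (ε₁ / 2) := by
    refine closure_mono (inter_subset_inter_right _ ?_) hbm
    rintro _ ⟨z, ⟨hz, hzn⟩, rfl⟩
    have hz8 : ‖z - X‖ < X / 8 := hzn.trans_le (min_le_right _ _)
    have hzb : z ∈ ball (X : ℂ) (X / 4) := by rw [mem_ball, dist_eq_norm]; linarith
    have hzX : X / 2 ≤ ‖z‖ := by
      have e : ‖(X : ℂ)‖ = X := by rw [Complex.norm_real, Real.norm_eq_abs, habs]
      have h1 : ‖(X : ℂ)‖ ≤ ‖z‖ + ‖z - X‖ := by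
        have e2 : (X : ℂ) = z - (z - X) := by ring
        calc ‖(X : ℂ)‖ = ‖z - (z - X)‖ := by rw [← e2]
          _ ≤ _ := norm_sub_le _ _
      rw [e] at h1
      linarith
    have hz2 : (X / 2) ^ 2 ≤ ‖z‖ ^ 2 := by gcongr
    rw [div_pow] at hz2
    have hdom : z ∈ loewnerDomain W t := H.dom hz (by linarith) (by linarith)
    have hzi := Vale.Agent.P164.Zf_im_pos H.nn hdom
    refine ⟨mb 1 Complex.I (Zf W z t), ⟨?_, ?_⟩, FD_mb H ψ hdom⟩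
    · rw [mem_ball_zero_iff]; exact norm_mb_lt norm_one hI hzi
    · rw [mem_ball]
      refine (dist_mb_mb hzi.le (by simp)).trans_lt ?_
      have h3 := hlip X hXb z hzb
      rw [hX₁] at h3
      have e3 : Zf W z t = flow W t z - W t := by
        rw [flow_gf H.nn H.cont.continuousOn hdom, Vale.Agent.P164.Zf_eq]
      rw [e3]
      have h4 : 2 * |X| / (X / 4 / 2) = 16 := by
        rw [habs]; field_simp; norm_num
      rw [h4] at h3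
      have h5 : ‖z - X‖ < ε₁ / 64 :=
        hzn.trans_le ((min_le_left _ _).trans (min_le_right _ _))
      linarith
  obtain ⟨x, hx, hxX⟩ := mark_point (X := X₁) (M := M₁) (κ := X / 4) (ε := ε₁) (h := ε₁ / 2) (by
      rw [abs_of_pos (by linarith)]
      exact hX₁u.trans (le_max_left _ _)) himb1 hconf hφ hφi
    (fun z hz => (hφc z hz).trans (min_le_left _ _)) le_rfl S.good.isOpen hb hMark
  have hxl : X / 4 ≤ x := by have := (abs_le.1 hxX).1; linarith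
  have hxu : x ≤ 9 / 4 * X := by have := (abs_le.1 hxX).2; linarith
  have hx0 : 0 < x := by linarith
  obtain ⟨D, hD0, hDd, hDl, hDu⟩ := flat_G hP.good hφ hρ hf hp hx
  -- the deep point
  have hζ0 : 0 < ζ.im := lt_of_lt_of_le hy₀ hζ
  have hζn : 0 < ‖ζ‖ := norm_pos_iff.2 (by rintro rfl; simp at hζ0)
  have hζdom : ζ ∈ loewnerDomain W t := H.dom hζ0 hζR hζT
  have hζim : y₁ ≤ (Zf W ζ t).im := by
    refine le_trans ?_ (H.im_ge hζ0 hζR hζT)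
    rw [hy₁]
    gcongr
  have hζZ : ‖Zf W ζ t‖ ≤ M₁ := by
    have h1 := (H.far hζn hζR hζT).2.2.1
    have e3 : Zf W ζ t = flow W t ζ - W t := by
      rw [flow_gf H.nn H.cont.continuousOn hζdom, Vale.Agent.P164.Zf_eq]
    have h2 := H.bdd t ⟨H.nn, le_rfl⟩
    rw [e3]
    calc ‖flow W t ζ - W t‖ = ‖(flow W t ζ - ζ) + ζ - W t‖ := by congr 1; ring
      _ ≤ ‖flow W t ζ - ζ‖ + ‖ζ‖ + ‖(W t : ℂ)‖ :=
        (norm_sub_le _ _).trans (by gcongr; exact norm_add_le _ _)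
      _ ≤ ‖ζ‖ / 4 + ‖ζ‖ + R := by
        rw [Complex.norm_real, Real.norm_eq_abs]
        gcongr
      _ ≤ 2 * |M₀| + R := by linarith [le_abs_self M₀]
      _ ≤ M₁ := le_max_right _ _
  have hvP : ψ ζ ∈ P := by
    rw [hζb]
    refine (hf _ ?_).2 ?_
    · rw [mem_ball, dist_eq_norm, add_sub_cancel_left, norm_mul, Complex.norm_I, mul_one,
        Complex.norm_real, Real.norm_of_nonneg (by positivity)]
      linarith
    · rw [Complex.add_im, Complex.im_ofReal_mul, Complex.I_im, mul_one]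
      linarith
  obtain ⟨w, hw, hwe⟩ : ψ ζ ∈ φ '' {z | 0 < z.im} := by rw [hφ.img]; exact hvP
  have hw0 : 0 < w.im := hw
  have hZi := Vale.Agent.P164.Zf_im_pos H.nn hζdom
  have hwζ : ‖w - Zf W ζ t‖ ≤ y₁ / 2 := by
    have h1 := (hφc w hw0).trans (min_le_right _ _)
    rw [hwe, ← FD_mb H ψ hζdom, hconf.dinv_apply (by
      rw [mem_ball_zero_iff]; exact norm_mb_lt norm_one hI hZi), norm_sub_rev] at h1
    have h2 := himb2 (Zf W ζ t) _ hZi.le hζZ h1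
    rwa [imb_mb norm_one hI hw0.le] at h2
  have hwi : y₁ / 2 ≤ w.im := by
    have h1 := (Complex.abs_im_le_norm (w - Zf W ζ t)).trans hwζ
    rw [Complex.sub_im] at h1
    have := (abs_le.1 h1).1
    linarith
  have hDl' := hDl w hw0 (hwe.trans hζb)
  have hDu' := hDu ha
  rw [abs_of_pos hx0] at hDu'
  refine ⟨D / x, ⟨φ, x, hφ, hx0, by positivity, hx, ?_⟩, ?_, ?_⟩
  · have e : (1 / (D / x * x) : ℝ) = 1 / D := by field_simp
    rw [e]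
    exact hDd
  · rw [inv_le_comm₀ hM0 (by positivity), inv_div]
    refine le_trans ?_ (le_max_right _ _)
    rw [div_le_div_iff₀ hD0 hy₁0]
    have h1 : y₁ / 2 / (2 * ρ) ≤ D := le_trans (by gcongr) hDl'
    rw [div_le_iff₀ (by positivity)] at h1
    calc x * y₁ ≤ (9 / 4 * X) * (4 * (D * ρ)) := by
          have : y₁ ≤ 4 * (D * ρ) := by linarith
          gcongr
      _ = 9 * ρ * X * D := by ring
  · refine le_trans ?_ (le_max_left _ _)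
    rw [div_le_iff₀ hx0]
    calc D ≤ 10 * x / ρ := hDu'
      _ = 10 / ρ * x := by ring

theorem cube_root_close {x O ε : ℝ} (hx : 0 ≤ x) (hO : 0 ≤ O) (hε : 0 ≤ ε)
    (h : |x - O ^ 3| ≤ ε ^ 3) : |x ^ (1 / 3 : ℝ) - O| ≤ ε := by
  set u : ℝ := x ^ (1 / 3 : ℝ) with hu
  have hu0 : 0 ≤ u := by positivity
  have hu3 : u ^ 3 = x := by
    rw [hu, ← Real.rpow_natCast, ← Real.rpow_mul hx]
    norm_num
  rw [← hu3] at h
  have h1 : |u - O| ^ 3 ≤ |u ^ 3 - O ^ 3| := by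
    have e : u ^ 3 - O ^ 3 = (u - O) * (u ^ 2 + u * O + O ^ 2) := by ring
    rw [e, abs_mul, abs_of_nonneg (by positivity : 0 ≤ u ^ 2 + u * O + O ^ 2)]
    have e2 : |u - O| ^ 3 = |u - O| * (u - O) ^ 2 := by
      rw [← sq_abs (u - O)]; ring
    rw [e2]
    have h2 : 0 ≤ u * O := mul_nonneg hu0 hO
    gcongr
    nlinarith
  exact le_of_pow_le_pow_left₀ three_ne_zero hε (h1.trans h)

/-- **Final form of the ratio.** -/
theorem ratio_obsF {T R X Y Rd cd ε : ℝ} (hT : 0 ≤ T) (hR : 0 ≤ R) (hRd : 0 < Rd) (hcd : 0 < cd)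
    (hX0 : X ≠ 0) (hX : 8 * R ≤ |X|) (hX2 : 256 * T ≤ X ^ 2) (hY0 : 0 < Y) (hY : 8 * R ≤ Y)
    (hY2 : 64 * T ≤ Y ^ 2) (hε : 0 < ε) :
    ∃ h > 0, ∀ ψ : ℂ → ℂ, HConf Rd cd Y ψ → ∀ (W : ℝ → ℝ) (t : ℝ), Drv T R W t →
      ∀ (P₀ P₁ E : Set ℂ) (a₀ p₀ a₁ p₁ b : ℂ),
      PD h ψ (fun _ => 0) 0 Y P₀ a₀ p₀ → PD h ψ W t Y P₁ a₁ p₁ →
      (∀ C : Set ℂ, IsPreconnected C → C ⊆ E → (C ∩ P₁).Nonempty → C ⊆ P₁) →
      (∀ z ∈ ball (X : ℂ) (|X| / 2), 0 < z.im → ψ z ∈ P₀ → ψ z ∈ E) →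
      (∀ z ∈ ball (X : ℂ) (|X| / 2), 0 < z.im → ψ z ∈ P₁ → ψ z ∈ P₀) →
      b ∈ frontier P₀ → b ∈ closure (P₀ ∩ ψ '' {z | z ∈ HH ∧ ‖z - X‖ < h}) →
      ∀ G₀ G₁ : ℝ, GPos P₀ a₀ p₀ b G₀ → GPos P₁ a₁ p₁ b G₁ →
        |(G₁ / G₀) ^ (1 / 3 : ℝ) - obsF W X t| ≤ ε := by
  obtain ⟨h, hh, H⟩ := glue hT hR hRd hcd hX0 hX hX2 hY0 hY hY2 (show 0 < ε ^ 3 by positivity)
  refine ⟨h, hh, ?_⟩
  intro ψ hψ W t hW P₀ P₁ E a₀ p₀ a₁ p₁ b hP₀ hP₁ hcomp hE h10 hb hbm G₀ G₁ hG₀ hG₁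
  have h1 := H ψ hψ W t hW P₀ P₁ E a₀ p₀ a₁ p₁ b hP₀ hP₁ hcomp hE h10 hb hbm G₀ G₁ hG₀.gAt hG₁.gAt
  exact cube_root_close (div_nonneg hG₁.pos.le hG₀.pos.le)
    (Vale.Agent.P167.H411.obsF_pos W X t).le hε.le h1

end Vale.Agent.P167.H756
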