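import Vale.Agent.P167.H756.Glue3

/-!
# P167, block CM: bounds of `G_P (b)` from an access to `b`

* `harnack_step`, `harnack_chain`: a holomorphic function with positive imaginary part along a
  connected set at distance `η` from the complement of the domain;
* `G_bounds'`: bounds of `G_P (b)`, with `h` chosen before the size of the flat part and the width of
  the access.
-/

set_option autoImplicit false
set_option linter.unusedVariables false

open Set Topology Metric MeasureTheory Filter Bornology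
open scoped ENNReal Real ComplexConjugate

namespace Vale.Agent.P167.H756

open Vale.Agent.P153.R2.R1 Vale.Agent.P153.R2.OBSV Vale.Agent.P167.H174
open Vale.Agent.P153.R2.L1 (HH IsHydro inv mem_HH isOpen_HH convex_HH)
open Vale.Agent.P164 (loewnerDomain gf Zf IsLoewnerSol)
open Vale.Agent.P167.H411 (obsF)
open Vale.Agent.P167.H947 (surv flow flow_eq flow_conj flow_inj flow_gf surv_inter isOpen_surv)

/-- One step. -/
theorem harnack_step {g : ℂ → ℂ} {u u' : ℂ} {η : ℝ} (hη : 0 < η)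
    (hg : DifferentiableOn ℂ g (ball u η)) (hpos : ∀ z ∈ ball u η, 0 < (g z).im)
    (hu : dist u' u ≤ η / 4) : (g u).im / 3 ≤ (g u').im := by
  have hub : u ∈ ball u η := mem_ball_self hη
  have hub' : u' ∈ ball u η := by rw [mem_ball]; linarith
  set a : ℂ := g u with ha
  have ha0 : 0 < a.im := hpos u hub
  have hne : ∀ z ∈ ball u η, g z - conj a ≠ 0 := by
    intro z hz h0
    have h1 := congrArg Complex.im h0
    rw [Complex.sub_im, Complex.conj_im, Complex.zero_im] at h1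
    have := hpos z hz
    linarith
  have hd : DifferentiableOn ℂ (fun z => (g z - a) / (g z - conj a)) (ball u η) :=
    (hg.sub_const a).div (hg.sub_const (conj a)) hne
  have h0 : (g u - a) / (g u - conj a) = 0 := by rw [ha, sub_self, zero_div]
  have hmaps : MapsTo (fun z => (g z - a) / (g z - conj a)) (ball u η)
      (ball ((g u - a) / (g u - conj a)) 1) := by
    intro z hz
    rw [h0, mem_ball_zero_iff]
    have h1 := norm_mb_lt (β := 1) norm_one ha0 (hpos z hz)
    rwa [mb, one_mul] at h1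
  have h1 := Complex.dist_le_div_mul_dist_of_mapsTo_ball hd
    (hmaps.mono_right ball_subset_closedBall) hub'
  rw [h0, dist_zero_right] at h1
  have h2 : 1 / η * dist u' u ≤ 1 / 4 := by
    rw [one_div, inv_mul_le_iff₀ hη]
    linarith
  have h3 := h1.trans h2
  rw [norm_div, div_le_iff₀ (norm_pos_iff.2 (hne u' hub'))] at h3
  have h4 : ‖g u' - conj a‖ ≤ ‖g u' - a‖ + 2 * a.im := by
    have e : g u' - conj a = (g u' - a) + (a - conj a) := by ring
    have e2 : ‖a - conj a‖ = 2 * a.im := by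
      have e3 : a - conj a = 2 * (a.im : ℂ) * Complex.I := by
        apply Complex.ext <;> simp; ring
      rw [e3, norm_mul, norm_mul, Complex.norm_I, mul_one, Complex.norm_real,
        Real.norm_of_nonneg ha0.le]
      norm_num
    rw [e, ← e2]
    exact norm_add_le _ _
  have h5 := Complex.abs_im_le_norm (g u' - a)
  rw [Complex.sub_im] at h5
  have h6 := (abs_le.1 h5).1
  linarith

/-- **Harnack's inequality along a connected set.** -/
theorem harnack_chain {Rd η : ℝ} (hη : 0 < η) :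
    ∃ c > 0, ∀ (P : Set ℂ) (g : ℂ → ℂ), DifferentiableOn ℂ g P → (∀ z ∈ P, 0 < (g z).im) →
      ∀ (C : Set ℂ) (z₀ : ℂ), IsPreconnected C → z₀ ∈ C → (∀ z ∈ C, ball z η ⊆ P) →
      (∀ z ∈ C, dist z z₀ ≤ Rd) → ∀ z ∈ C, c * (g z₀).im ≤ (g z).im := by
  obtain ⟨s, -, hs, hcov⟩ := (isCompact_closedBall (0 : ℂ) Rd).finite_cover_balls
    (e := η / 8) (by positivity)
  set N : ℕ := s.ncard with hN
  refine ⟨(1 / 4) ^ (N + 1), by positivity, ?_⟩
  intro P g hg hpos C z₀ hC hz₀ hball hdist z hz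
  by_contra hlt
  push Not at hlt
  have hCP : ∀ z ∈ C, z ∈ P := fun z hz => hball z hz (mem_ball_self hη)
  have him0 := hpos z₀ (hCP z₀ hz₀)
  have hcont : ContinuousOn (fun z => (g z).im) C :=
    Complex.continuous_im.comp_continuousOn (hg.continuousOn.mono hCP)
  -- points at the levels
  have hlev : ∀ k : Fin (N + 1), ∃ x ∈ C, (g x).im = (1 / 4) ^ (k : ℕ) * (g z₀).im := by
    intro k
    have h1 : (1 / 4 : ℝ) ^ (N + 1) ≤ (1 / 4) ^ (k : ℕ) :=
      pow_le_pow_of_le_one (by norm_num) (by norm_num) (by omega)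
    have h2 : (1 / 4 : ℝ) ^ (k : ℕ) ≤ 1 := pow_le_one₀ (by norm_num) (by norm_num)
    have h3 := hC.intermediate_value hz hz₀ hcont
    have h4 : (1 / 4 : ℝ) ^ (k : ℕ) * (g z₀).im ∈ Icc (g z).im (g z₀).im := by
      constructor
      · have := mul_le_mul_of_nonneg_right h1 him0.le
        linarith
      · have := mul_le_mul_of_nonneg_right h2 him0.le
        linarith
    obtain ⟨x, hx, hxe⟩ := h3 h4
    exact ⟨x, hx, hxe⟩
  choose x hxC hxe using hlev
  -- the centres
  have hcen : ∀ k : Fin (N + 1), ∃ y ∈ s, dist (x k - z₀) y < η / 8 := by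
    intro k
    have h1 : x k - z₀ ∈ closedBall (0 : ℂ) Rd := by
      rw [mem_closedBall, dist_zero_right, ← dist_eq_norm]
      exact hdist _ (hxC k)
    obtain ⟨y, hy, hyb⟩ := mem_iUnion₂.1 (hcov h1)
    exact ⟨y, hy, hyb⟩
  choose y hys hyd using hcen
  obtain ⟨i, j, hij, hyij⟩ : ∃ i j : Fin (N + 1), i ≠ j ∧ y i = y j := by
    have hfin := hs
    have hcard : hs.toFinset.card < (Finset.univ : Finset (Fin (N + 1))).card := by
      rw [Finset.card_univ, Fintype.card_fin, ← ncard_eq_toFinset_card s hs]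
      omega
    obtain ⟨i, -, j, -, hij, h⟩ := Finset.exists_ne_map_eq_of_card_lt_of_maps_to hcard
      (f := y) (fun k _ => by
        show y k ∈ (hs.toFinset : Set ℂ)
        rw [Finite.coe_toFinset]
        exact hys k)
    exact ⟨i, j, hij, h⟩
  have hclose : dist (x i) (x j) ≤ η / 4 := by
    have h1 := hyd i
    have h2 := hyd j
    rw [hyij] at h1
    have h3 := dist_triangle_right (x i - z₀) (x j - z₀) (y j)
    rw [dist_sub_right] at h3
    linarith
  -- the order
  have key : ∀ i j : Fin (N + 1), (i : ℕ) < j → dist (x i) (x j) ≤ η / 4 → False := by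
    intro i j hlt hd
    have h1 := harnack_step hη (hg.mono (hball _ (hxC i)))
      (fun z hz => hpos z (hball _ (hxC i) hz)) (u' := x j) (by rw [dist_comm]; exact hd)
    rw [hxe i, hxe j] at h1
    have h2 : (1 / 4 : ℝ) ^ (j : ℕ) ≤ (1 / 4) ^ ((i : ℕ) + 1) :=
      pow_le_pow_of_le_one (by norm_num) (by norm_num) (by omega)
    have h3 := mul_le_mul_of_nonneg_right h2 him0.le
    rw [pow_succ] at h3
    have h4 : 0 < (1 / 4 : ℝ) ^ (i : ℕ) * (g z₀).im := by positivity
    nlinarith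
  rcases lt_or_gt_of_ne (fun h => hij (Fin.ext h) : (i : ℕ) ≠ j) with h | h
  · exact key i j h hclose
  · exact key j i h (by rw [dist_comm]; exact hclose)

/-- **Existence and bounds of `G_P (b)`** for a polygon `P` which almost fills the domain at time
`t`, flat at `b` of radius `ρ`, with an access of width `η` to `b`. The number `h` does not depend on
`ρ` and `η`. -/
theorem G_bounds' {T R X Y Rd cd : ℝ} (hT : 0 ≤ T) (hR : 0 ≤ R) (hRd : 0 < Rd)
    (hcd : 0 < cd) (hX0 : 0 < X) (hX : 8 * R ≤ X) (hX2 : 64 * T ≤ X ^ 2) (hY0 : 0 < Y)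
    (hY : 8 * R ≤ Y) (hY2 : 64 * T ≤ Y ^ 2) :
    ∃ h > 0, ∀ ρ > 0, ∀ η > 0, ∃ M > 0, ∀ ψ : ℂ → ℂ, HConf Rd cd Y ψ →
      ∀ (W : ℝ → ℝ) (t : ℝ), Drv T R W t →
      ∀ (P : Set ℂ) (a p b : ℂ), PD h ψ W t Y P a p → b ∈ frontier P →
      b ∈ closure (P ∩ ψ '' {z | z ∈ HH ∧ ‖z - X‖ < h}) → FlatUp P b ρ → ρ ≤ dist p b →
      ρ ≤ dist a b → ∀ C : Set ℂ, IsPreconnected C → ψ (Y * Complex.I) ∈ C →
      b + ((ρ / 2 : ℝ) : ℂ) * Complex.I ∈ C → (∀ z ∈ C, ball z η ⊆ P) →
      ∃ g : ℝ, GPos P a p b g ∧ M⁻¹ ≤ g ∧ g ≤ M := by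
  obtain ⟨c, hc, ρ₀, hρ₀, hside⟩ := side_of_PD (T := T) (R := R) hRd hcd hY0 hY hY2 hT hR
  set M₁ : ℝ := max (2 * X) (2 * Y) with hM₁
  have hM₁0 : 0 ≤ M₁ := le_trans (by positivity) (le_max_left _ _)
  obtain ⟨ε₁, hε₁, himb1⟩ := imb_close hM₁0 (show 0 < X / 4 by positivity)
  obtain ⟨ε₂, hε₂, himb2⟩ := imb_close hM₁0 (show 0 < Y / 4 by positivity)
  obtain ⟨h₁, hh₁, hhalf⟩ := halfplane (R := Rd) (c := c) hRd hc hρ₀
    (show 0 < min (ε₁ / 2) ε₂ by positivity)
  obtain ⟨h₂, hh₂, hS⟩ := hside h₁ hh₁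
  refine ⟨min (min h₂ (ε₁ / 64)) (X / 8), by positivity, ?_⟩
  intro ρ hρ η hη
  obtain ⟨c₁, hc₁, hch⟩ := harnack_chain (Rd := Rd) hη
  set M : ℝ := max (10 / ρ) (9 * ρ * X / (c₁ * Y)) with hM
  have hM0 : 0 < M := lt_of_lt_of_le (by positivity) (le_max_left _ _)
  refine ⟨M, hM0, ?_⟩
  intro ψ hψ W t H P a p b hP hb hbm hf hp ha C hC hCY hCb hCη
  have hh0 : 0 < min (min h₂ (ε₁ / 64)) (X / 8) := by positivity
  have S := hS ψ hψ W t H P a p (hP.mono hh0 ((min_le_left _ _).trans (min_le_left _ _)))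
  obtain ⟨φ, hφ, hφi, hφc⟩ := hhalf _ S.cls _ S.base P S.good S.sub S.inner S.collar a p S.mem_a
    S.mem_p S.mark_a S.mark_p
  have hconf := S.cls.conf
  have hI : 0 < Complex.I.im := by simp
  have habs : |X| = X := abs_of_pos hX0
  obtain ⟨X₁, hX₁, hX₁l, hX₁u⟩ := H.real_pt hX0 hX hX2
  -- the marked point `b`
  have htr := trans_FD H ψ hX0.ne' (by rw [habs]; exact hX) hX2
  obtain ⟨-, hlip⟩ := lip_of_bdd (f := fun z => flow W t z - W t) (x := (X : ℂ)) (ρ := X / 4)
    (s := X / 4) (B := 2 * |X|) (by positivity)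
    (htr.diff.mono (ball_subset_ball (by rw [habs]; linarith)))
    (fun z hz => htr.bdd z (ball_subset_ball (by rw [habs]; linarith) hz))
  have hXb : (X : ℂ) ∈ ball (X : ℂ) (X / 4) := mem_ball_self (by positivity)
  have hMark : Mark (FD ψ W t) P b (mb 1 Complex.I X₁) (ε₁ / 2) := by
    refine closure_mono (inter_subset_inter_right _ ?_) hbm
    rintro _ ⟨z, ⟨hz, hzn⟩, rfl⟩
    have hz8 : ‖z - X‖ < X / 8 := hzn.trans_le (min_le_right _ _)
    have hzb : z ∈ ball (X : ℂ) (X / 4) := by rw [mem_ball, dist_eq_norm]; linarith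
    have hzX : X / 2 ≤ ‖z‖ := by
      have e : ‖(X : ℂ)‖ = X := by rw [Complex.norm_real, Real.norm_eq_abs, habs]
      have h1 : ‖(X : ℂ)‖ ≤ ‖z‖ + ‖z - X‖ := by
        have e2 : (X : ℂ) = z - (z - X) := by ring
        calc ‖(X : ℂ)‖ = ‖z - (z - X)‖ := by rw [← e2]
          _ ≤ _ := norm_sub_le _ _
      rw [e] at h1
      linarith
    have hz2 : (X / 2) ^ 2 ≤ ‖z‖ ^ 2 := by gcongr
    rw [div_pow] at hz2
    have hdom : z ∈ loewnerDomain W t := H.dom hz (by linarith) (by linarith)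
    have hzi := Vale.Agent.P164.Zf_im_pos H.nn hdom
    refine ⟨mb 1 Complex.I (Zf W z t), ⟨?_, ?_⟩, FD_mb H ψ hdom⟩
    · rw [mem_ball_zero_iff]; exact norm_mb_lt norm_one hI hzi
    · rw [mem_ball]
      refine (dist_mb_mb hzi.le (by simp)).trans_lt ?_
      have h3 := hlip X hXb z hzb
      rw [hX₁] at h3
      have e3 : Zf W z t = flow W t z - W t := by
        rw [flow_gf H.nn H.cont.continuousOn hdom, Vale.Agent.P164.Zf_eq]
      rw [e3]
      have h4 : 2 * |X| / (X / 4 / 2) = 16 := by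
        rw [habs]; field_simp; norm_num
      rw [h4] at h3
      have h5 : ‖z - X‖ < ε₁ / 64 :=
        hzn.trans_le ((min_le_left _ _).trans (min_le_right _ _))
      linarith
  obtain ⟨x, hx, hxX⟩ := mark_point (X := X₁) (M := M₁) (κ := X / 4) (ε := ε₁) (h := ε₁ / 2) (by
      rw [abs_of_pos (by linarith)]
      exact hX₁u.trans (le_max_left _ _)) himb1 hconf hφ hφi
    (fun z hz => (hφc z hz).trans (min_le_left _ _)) le_rfl S.good.isOpen hb hMark
  have hxl : X / 4 ≤ x := by have := (abs_le.1 hxX).1; linarith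
  have hxu : x ≤ 9 / 4 * X := by have := (abs_le.1 hxX).2; linarith
  have hx0 : 0 < x := by linarith
  obtain ⟨D, hD0, hDd, hDl, hDu⟩ := flat_G hP.good hφ hρ hf hp hx
  -- the base point
  obtain ⟨hζdom, hζim, hζZ, -⟩ := H.base hY0 hY hY2
  have hZi := Vale.Agent.P164.Zf_im_pos H.nn hζdom
  -- the inverse of `φ`
  have hfφ : ∀ z ∈ P, 0 < (Function.invFunOn φ {z | 0 < z.im} z).im ∧
      φ (Function.invFunOn φ {z | 0 < z.im} z) = z := by
    intro z hz
    rw [← hφ.img] at hz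
    exact ⟨Function.invFunOn_mem hz, Function.invFunOn_eq hz⟩
  set f : ℂ → ℂ := Function.invFunOn φ {z | 0 < z.im} with hf'
  have hfd : DifferentiableOn ℂ f P := by
    have h4 := Vale.Agent.P153.R2.OBSV.inv_diff (f := φ) (U := {z | 0 < z.im})
      (isOpen_lt continuous_const Complex.continuous_im) hφ.diff hφ.inj
    rwa [hφ.img] at h4
  have hYP : ψ (Y * Complex.I) ∈ P := hCη _ hCY (mem_ball_self hη)
  have hwY : Y / 2 ≤ (f (ψ (Y * Complex.I))).im := by
    obtain ⟨hw0, hwe⟩ := hfφ _ hYP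
    have h1 := (hφc _ hw0).trans (min_le_right _ _)
    rw [hwe, ← FD_mb H ψ hζdom, hconf.dinv_apply (by
      rw [mem_ball_zero_iff]; exact norm_mb_lt norm_one hI hZi), norm_sub_rev] at h1
    have h2 := himb2 (Zf W (Y * Complex.I) t) _ hZi.le (hζZ.trans (le_max_right _ _)) h1
    rw [FD_mb H ψ hζdom, imb_mb norm_one hI hw0.le] at h2
    have h3 := (Complex.abs_im_le_norm _).trans h2
    rw [Complex.sub_im] at h3
    have := (abs_le.1 h3).1
    linarith
  set v : ℂ := b + ((ρ / 2 : ℝ) : ℂ) * Complex.I with hv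
  have hvP : v ∈ P := hCη _ hCb (mem_ball_self hη)
  obtain ⟨hw0, hwe⟩ := hfφ v hvP
  have hwi : c₁ * (Y / 2) ≤ (f v).im := by
    have h1 := hch P f hfd (fun z hz => (hfφ z hz).1) C _ hC hCY hCη (fun z hz => by
      have hz1 := hP.sub (hCη z hz (mem_ball_self hη))
      obtain ⟨z', hz', rfl⟩ := hz1
      rw [dist_eq_norm]
      refine hψ.bdd z' (Vale.Agent.P164.im_pos_of_dom H.nn hz') _ ?_
      rw [mem_HH, im_mulI]
      exact hY0) v hCb
    refine le_trans ?_ h1
    gcongr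
  have hDl' := hDl (f v) hw0 hwe
  have hDu' := hDu ha
  rw [abs_of_pos hx0] at hDu'
  refine ⟨D / x, ⟨φ, x, hφ, hx0, by positivity, hx, ?_⟩, ?_, ?_⟩
  · have e : (1 / (D / x * x) : ℝ) = 1 / D := by field_simp
    rw [e]
    exact hDd
  · rw [inv_le_comm₀ hM0 (by positivity), inv_div]
    refine le_trans ?_ (le_max_right _ _)
    rw [div_le_div_iff₀ hD0 (by positivity)]
    have h1 : c₁ * (Y / 2) / (2 * ρ) ≤ D := le_trans (by gcongr) hDl'
    rw [div_le_iff₀ (by positivity)] at h1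
    calc x * (c₁ * Y) ≤ (9 / 4 * X) * (4 * (D * ρ)) := by
          have : c₁ * Y ≤ 4 * (D * ρ) := by linarith
          gcongr
      _ = 9 * ρ * X * D := by ring
  · refine le_trans ?_ (le_max_left _ _)
    rw [div_le_iff₀ hx0]
    calc D ≤ 10 * x / ρ := hDu'
      _ = 10 / ρ * x := by ring

end Vale.Agent.P167.H756
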