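import Vale.Agent.P167.H756.Bounds

/-!
# P167, block CM: the comparison theorem with a symmetric condition

`glue'`, `ratio_obsF'`: as `glue`, `ratio_obsF`, but `P₀` and `P₁` are only assumed to be components
of sets `E₀`, `E₁`, and near `b` the polygon `P₀` is contained in `E₁` and `P₁` is contained in `E₀`.
-/

set_option autoImplicit false
set_option linter.unusedVariables false

open Set Topology Metric MeasureTheory Filter Bornology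
open scoped ENNReal Real ComplexConjugate

namespace Vale.Agent.P167.H756

open Vale.Agent.P153.R2.R1 Vale.Agent.P153.R2.OBSV Vale.Agent.P167.H174
open Vale.Agent.P153.R2.L1 (HH IsHydro inv mem_HH isOpen_HH convex_HH)
open Vale.Agent.P164 (loewnerDomain gf Zf IsLoewnerSol)
open Vale.Agent.P153.BESS (CSol RSol)
open Vale.Agent.P167.H411 (ldv obsF obsY exists_csol exists_rsol csol_unique)
open Vale.Agent.P167.H947 (surv flow flow_eq flow_conj flow_inj flow_gf surv_inter isOpen_surv)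

/-- `agree`, uniform in `X`. -/
theorem agreeM {R c ρ₀ B r : ℝ} (hR : 0 < R) (hc : 0 < c) (hρ₀ : ρ₀ < 1) (hB : 0 ≤ B)
    (hr : 0 < r) :
    ∃ h > 0, ∀ X : ℝ, |X| ≤ B → ∀ (F : ℂ → ℂ) (w₀ : ℂ) (P : Set ℂ) (a p : ℂ),
      Side R c ρ₀ h F w₀ P a p →
      ∀ E P₁ : Set ℂ, (∀ C : Set ℂ, IsPreconnected C → C ⊆ E → (C ∩ P₁).Nonempty → C ⊆ P₁) →
      (∀ z ∈ ball (X : ℂ) r, 0 < z.im → F (mb 1 Complex.I z) ∈ P → F (mb 1 Complex.I z) ∈ E) →
      (∀ z ∈ ball (X : ℂ) r, r / 8 ≤ z.im → F (mb 1 Complex.I z) ∈ P₁) →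
      ∀ z ∈ ball (X : ℂ) (r / 2), 0 < z.im → F (mb 1 Complex.I z) ∈ P →
        F (mb 1 Complex.I z) ∈ P₁ := by
  have hI : 0 < Complex.I.im := by simp
  have hM : 0 ≤ B + r := by positivity
  obtain ⟨ε, hε, himb⟩ := imb_close hM (show 0 < r / 16 by positivity)
  obtain ⟨h, hh, hhalf⟩ := halfplane (R := R) (c := c) hR hc hρ₀ hε
  refine ⟨h, hh, fun X hXB F w₀ P a p hS E P₁ hcomp hE hP₁ z hz hz0 hzP => ?_⟩
  obtain ⟨φ, hφ, hφi, hφc⟩ := hhalf F hS.cls w₀ hS.base P hS.good hS.sub hS.inner hS.collar a p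
    hS.mem_a hS.mem_p hS.mark_a hS.mark_p
  have hconf := hS.cls.conf
  have hmbm : ∀ y : ℂ, 0 < y.im → mb 1 Complex.I y ∈ ball (0 : ℂ) 1 := fun y hy => by
    rw [mem_ball_zero_iff]; exact norm_mb_lt norm_one hI hy
  have hnorm : ∀ y ∈ ball (X : ℂ) r, ‖y‖ ≤ B + r := by
    intro y hy
    rw [mem_ball, dist_eq_norm] at hy
    have e : ‖(X : ℂ)‖ = |X| := by rw [Complex.norm_real, Real.norm_eq_abs]
    calc ‖y‖ = ‖(y - X) + X‖ := by congr 1; ring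
      _ ≤ ‖y - X‖ + ‖(X : ℂ)‖ := norm_add_le _ _
      _ ≤ B + r := by rw [e]; linarith
  -- the point in the coordinate of `φ`
  obtain ⟨w, hw, hwz⟩ : F (mb 1 Complex.I z) ∈ φ '' {z | 0 < z.im} := by
    rw [hφ.img]; exact hzP
  have hw0 : 0 < w.im := hw
  have hwz' : ‖w - z‖ ≤ r / 16 := by
    have h1 := hφc w hw0
    rw [hwz, hconf.dinv_apply (hmbm z hz0), norm_sub_rev] at h1
    have h2 := himb z _ hz0.le (hnorm z (ball_subset_ball (by linarith) hz)) h1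
    rwa [imb_mb norm_one hI hw0.le] at h2
  rw [mem_ball, dist_eq_norm] at hz
  -- the vertical path
  have hpt : ∀ s ∈ Icc (0 : ℝ) 1, ∃ y ∈ ball (X : ℂ) r, 0 < y.im ∧ w.im + s * (r / 4) - r / 16 ≤ y.im ∧
      F (mb 1 Complex.I y) = φ (w + (s * (r / 4) : ℝ) * Complex.I) ∧
      F (mb 1 Complex.I y) ∈ P := by
    intro s hs
    set ws : ℂ := w + (s * (r / 4) : ℝ) * Complex.I with hws
    have hs0 : 0 ≤ s * (r / 4) := mul_nonneg hs.1 (by positivity)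
    have hs1 : s * (r / 4) ≤ r / 4 := by
      have := mul_le_mul_of_nonneg_right hs.2 (show 0 ≤ r / 4 by positivity)
      linarith
    have hwsi : ws.im = w.im + s * (r / 4) := by
      rw [hws, Complex.add_im, Complex.im_ofReal_mul, Complex.I_im, mul_one]
    have hws0 : 0 < ws.im := by rw [hwsi]; linarith
    have hwsX : ‖ws - X‖ ≤ 13 / 16 * r := by
      have e : ws - X = (w - z) + (z - X) + (s * (r / 4) : ℝ) * Complex.I := by rw [hws]; ring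
      rw [e]
      calc ‖(w - z) + (z - X) + (s * (r / 4) : ℝ) * Complex.I‖
          ≤ ‖w - z‖ + ‖z - X‖ + ‖((s * (r / 4) : ℝ) : ℂ) * Complex.I‖ := norm_add₃_le
        _ ≤ r / 16 + r / 2 + r / 4 := by
          rw [norm_mul, Complex.norm_I, mul_one, Complex.norm_real, Real.norm_of_nonneg hs0]
          linarith
        _ = 13 / 16 * r := by ring
    have hφm : φ ws ∈ P := by rw [← hφ.img]; exact mem_image_of_mem _ hws0
    obtain ⟨v, hv, hve⟩ := hS.sub hφm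
    have h1 := hφc ws hws0
    rw [← hve, hconf.dinv_apply hv] at h1
    have h2 := himb ws v hws0.le (hnorm ws (by rw [mem_ball, dist_eq_norm]; linarith)) h1
    have hvn : ‖v‖ < 1 := mem_ball_zero_iff.1 hv
    have hv1 : v ≠ 1 := by
      rintro rfl
      rw [norm_one] at hvn
      exact lt_irrefl _ hvn
    have h3 := imb_im_pos norm_one hI hvn (β := 1)
    have h4 := (mb_imb norm_one hI hv1).2
    refine ⟨imb 1 Complex.I v, ?_, h3, ?_, ?_, ?_⟩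
    · rw [mem_ball, dist_eq_norm]
      calc ‖imb 1 Complex.I v - X‖ = ‖(imb 1 Complex.I v - ws) + (ws - X)‖ := by congr 1; ring
        _ ≤ ‖imb 1 Complex.I v - ws‖ + ‖ws - X‖ := norm_add_le _ _
        _ < r := by linarith
    · have h5 := (Complex.abs_im_le_norm (imb 1 Complex.I v - ws)).trans h2
      rw [Complex.sub_im, hwsi] at h5
      have := (abs_le.1 h5).1
      linarith
    · rw [h4, hve]
    · rw [h4, hve]; exact hφm
  set C : Set ℂ := (fun s : ℝ => φ (w + (s * (r / 4) : ℝ) * Complex.I)) '' Icc 0 1 with hC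
  have hCc : IsPreconnected C := by
    refine isPreconnected_Icc.image _ ?_
    refine hφ.diff.continuousOn.comp (by fun_prop) fun s hs => ?_
    show 0 < (w + (s * (r / 4) : ℝ) * Complex.I).im
    rw [Complex.add_im, Complex.im_ofReal_mul, Complex.I_im, mul_one]
    have := mul_nonneg hs.1 (show 0 ≤ r / 4 by positivity)
    linarith
  have hCE : C ⊆ E := by
    rintro _ ⟨s, hs, rfl⟩
    obtain ⟨y, hy, hy0, -, hye, hyP⟩ := hpt s hs
    simp only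
    rw [← hye]
    exact hE y hy hy0 hyP
  have h1 : φ (w + ((1 : ℝ) * (r / 4) : ℝ) * Complex.I) ∈ P₁ := by
    obtain ⟨y, hy, -, hyi, hye, -⟩ := hpt 1 ⟨zero_le_one, le_rfl⟩
    rw [← hye]
    refine hP₁ y hy ?_
    linarith
  have h2 := hcomp C hCc hCE ⟨_, ⟨1, ⟨zero_le_one, le_rfl⟩, rfl⟩, h1⟩
  have h3 : φ (w + ((0 : ℝ) * (r / 4) : ℝ) * Complex.I) ∈ P₁ := h2 ⟨0, ⟨le_rfl, zero_le_one⟩, rfl⟩
  rw [zero_mul, Complex.ofReal_zero, zero_mul, add_zero, hwz] at h3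
  exact h3

/-- The points at a positive distance of the real line are in the polygon. -/
theorem deep {T R Y Rd cd m M y₀ : ℝ} (hT : 0 ≤ T) (hR : 0 ≤ R) (hRd : 0 < Rd) (hcd : 0 < cd)
    (hY0 : 0 < Y) (hY : 8 * R ≤ Y) (hY2 : 64 * T ≤ Y ^ 2) (hm0 : 0 < m) (hm : 4 * R ≤ m)
    (hm2 : 16 * T ≤ m ^ 2) (hM : 0 ≤ M) (hy₀ : 0 < y₀) :
    ∃ h > 0, ∀ ψ : ℂ → ℂ, HConf Rd cd Y ψ → ∀ (W : ℝ → ℝ) (t : ℝ), Drv T R W t →
      ∀ (P : Set ℂ) (a p : ℂ), PD h ψ W t Y P a p →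
      ∀ z : ℂ, y₀ ≤ z.im → m ≤ ‖z‖ → ‖z‖ ≤ M → ψ z ∈ P := by
  have hI : 0 < Complex.I.im := by simp
  obtain ⟨c, hc, ρ₀, hρ₀, hside⟩ := side_of_PD (T := T) (R := R) hRd hcd hY0 hY hY2 hT hR
  set y₁ : ℝ := y₀ * Real.exp (-1) with hy₁
  have hy₁0 : 0 < y₁ := by positivity
  set M₁ : ℝ := 5 / 4 * M + R with hM₁
  set ρ₁ : ℝ := max ρ₀ √(1 - 4 * y₁ / (1 + M₁) ^ 2) with hρ₁
  have hρ₁1 : ρ₁ < 1 := by
    refine max_lt hρ₀ ?_
    rw [Real.sqrt_lt' one_pos, one_pow, sub_lt_self_iff]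
    positivity
  obtain ⟨h₃, hh₃, hins⟩ := Cls.inside (R := Rd) (c := c) hRd hc hρ₁1
  obtain ⟨h₄, hh₄, hS⟩ := hside h₃ (by positivity)
  refine ⟨h₄, by positivity, ?_⟩
  intro ψ hψ W t H P a p hP z hzi hzm hzM
  have S := hS ψ hψ _ _ H P a p hP
  have hz0 : 0 < z.im := lt_of_lt_of_le hy₀ hzi
  have hzn0 : 0 < ‖z‖ := lt_of_lt_of_le hm0 hzm
  have h3 : m ^ 2 ≤ ‖z‖ ^ 2 := by gcongr
  have h4 := H.far hzn0 (by linarith) (by linarith)
  have hzd : z ∈ loewnerDomain W t := H.dom hz0 (by linarith) (by linarith)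
  have e3 : Zf W z t = flow W t z - W t := by
    rw [flow_gf H.nn H.cont.continuousOn hzd, Vale.Agent.P164.Zf_eq]
  have him : y₁ ≤ (Zf W z t).im := by
    refine le_trans ?_ (H.im_ge hz0 (by linarith) (by linarith))
    rw [hy₁]
    gcongr
  have hno : ‖Zf W z t‖ ≤ M₁ := by
    rw [e3]
    have h6 := H.bdd t ⟨H.nn, le_rfl⟩
    calc ‖flow W t z - W t‖ = ‖(flow W t z - z) + z - W t‖ := by congr 1; ring
      _ ≤ ‖flow W t z - z‖ + ‖z‖ + ‖(W t : ℂ)‖ :=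
        (norm_sub_le _ _).trans (by gcongr; exact norm_add_le _ _)
      _ ≤ ‖z‖ / 4 + ‖z‖ + R := by
        rw [Complex.norm_real, Real.norm_eq_abs]
        gcongr
        exact h4.2.2.1
      _ ≤ M₁ := by rw [hM₁]; linarith
  have hw : mb 1 Complex.I (Zf W z t) ∈ closedBall (0 : ℂ) ρ₁ := by
    have e4 : ‖mb 1 Complex.I (Zf W z t)‖ = ‖mb 1 (Zf W z t) Complex.I‖ := by
      rw [norm_mb norm_one, norm_mb norm_one, norm_sub_rev, Complex.conj_I]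
      congr 1
      rw [← RCLike.norm_conj (Complex.I - _), map_sub, Complex.conj_conj, Complex.conj_I,
        ← norm_neg]
      congr 1
      ring
    rw [mem_closedBall_zero_iff, e4]
    exact (norm_mb_le (by positivity) him hno).trans (le_max_right _ _)
  rw [← FD_mb H ψ hzd]
  refine S.inner (FD ψ W t '' closedBall 0 ρ₁) ?_ ?_ ?_ (mem_image_of_mem _ hw)
  · exact (convex_closedBall (0 : ℂ) ρ₁).isPreconnected.image _
      (S.cls.diff.continuousOn.mono (closedBall_subset_ball hρ₁1))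
  · exact mem_image_of_mem _ (closedBall_subset_closedBall (le_max_left _ _) S.base)
  · rintro _ ⟨w, hw, rfl⟩
    exact hins _ S.cls w hw


/-! ### The flow near `X` -/

variable {T R : ℝ} {W : ℝ → ℝ} {t : ℝ}

/-- The flow on the closed disc around `X`. -/
theorem Drv.near (H : Drv T R W t) {X : ℝ} (hX0 : 0 < X) (hX : 8 * R ≤ X) (hX2 : 256 * T ≤ X ^ 2)
    {z : ℂ} (hz : ‖z - X‖ ≤ X / 2) :
    X / 2 ≤ ‖z‖ ∧ ‖z‖ ≤ 3 / 2 * X ∧ 4 * R ≤ ‖z‖ ∧ 16 * T ≤ ‖z‖ ^ 2 ∧ z ∈ surv W t ∧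
      ‖(flow W t z - W t) - (flow W t X - W t) - (z - X)‖ ≤ 3 / 64 * X := by
  have e : ‖(X : ℂ)‖ = X := by rw [Complex.norm_real, Real.norm_of_nonneg hX0.le]
  have h1 : ‖(X : ℂ)‖ ≤ ‖z‖ + ‖z - X‖ := by
    have e2 : (X : ℂ) = z - (z - X) := by ring
    calc ‖(X : ℂ)‖ = ‖z - (z - X)‖ := by rw [← e2]
      _ ≤ _ := norm_sub_le _ _
  have h2 : ‖z‖ ≤ ‖z - X‖ + ‖(X : ℂ)‖ := by
    calc ‖z‖ = ‖(z - X) + X‖ := by congr 1; ring
      _ ≤ _ := norm_add_le _ _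
  rw [e] at h1 h2
  have hT : 0 ≤ T := H.nn.trans H.le
  have h3 : (X / 2) ^ 2 ≤ ‖z‖ ^ 2 := by
    have : X / 2 ≤ ‖z‖ := by linarith
    gcongr
  rw [div_pow] at h3
  have h4 : X / 2 ≤ ‖z‖ := by linarith
  have hz0 : 0 < ‖z‖ := by linarith
  have h5 := H.far hz0 (by linarith) (by linarith)
  have h6 := H.far (z := (X : ℂ)) (by rw [e]; exact hX0) (by rw [e]; linarith [H.R_nonneg])
    (by rw [e]; linarith)
  refine ⟨h4, by linarith, by linarith, by linarith, h5.1, ?_⟩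
  have h7 : 4 * T / ‖z‖ ≤ X / 32 := by
    rw [div_le_iff₀ hz0]
    nlinarith
  have h8 : 4 * T / ‖(X : ℂ)‖ ≤ X / 64 := by
    rw [e, div_le_iff₀ hX0]
    nlinarith
  have e3 : (flow W t z - W t) - (flow W t X - W t) - (z - X) =
      (flow W t z - z) - (flow W t X - X) := by ring
  rw [e3]
  have h9 := norm_sub_le (flow W t z - z) (flow W t X - X)
  linarith [h5.2.1, h6.2.1]

/-- The preimages of the points near the image of `X` are near `X`. -/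
theorem Drv.back (H : Drv T R W t) {X : ℝ} (hX0 : 0 < X) (hX : 8 * R ≤ X)
    (hX2 : 256 * T ≤ X ^ 2) {ζ : ℂ} (hζ : 0 < ζ.im) (hb : ‖ζ - (flow W t X - W t)‖ < X / 4) :
    ∃ z ∈ loewnerDomain W t, Zf W z t = ζ ∧ ‖z - X‖ < X / 2 ∧ ζ.im ≤ z.im := by
  have hyd := Vale.Agent.P153.R2.STEP.gf_isHydro H.cont H.nn
  have hT : 0 ≤ T := H.nn.trans H.le
  set I : ℂ → ℂ := fun ζ => inv (HH \ loewnerDomain W t) (fun z => gf W z t) (ζ + W t) with hI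
  have hIc : ContinuousOn I HH := by
    refine hyd.inv_cont.comp (by fun_prop) fun ζ hζ => ?_
    rw [mem_HH, Complex.add_im, Complex.ofReal_im, add_zero]; exact hζ
  set X₁ : ℂ := flow W t X - W t with hX₁
  set s : Set ℂ := ball X₁ (X / 4) ∩ HH with hs
  set u : Set ℂ := HH ∩ I ⁻¹' ball (X : ℂ) (X / 2) with hu
  have huo : IsOpen u := hIc.isOpen_inter_preimage isOpen_HH isOpen_ball
  have hsc : IsPreconnected s := ((convex_ball X₁ (X / 4)).inter convex_HH).isPreconnected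
  have hflow : ∀ z ∈ loewnerDomain W t, Zf W z t = flow W t z - W t := fun z hz => by
    rw [flow_gf H.nn H.cont.continuousOn hz, Vale.Agent.P164.Zf_eq]
  -- a point
  have hne : (s ∩ u).Nonempty := by
    set z₀ : ℂ := X + (X / 16 : ℝ) * Complex.I with hz₀
    have h0 : ‖z₀ - X‖ = X / 16 := by
      rw [hz₀, add_sub_cancel_left, norm_mul, Complex.norm_I, mul_one, Complex.norm_real,
        Real.norm_of_nonneg (by positivity)]
    have hi : z₀.im = X / 16 := by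
      rw [hz₀, Complex.add_im, Complex.im_ofReal_mul, Complex.I_im, mul_one, Complex.ofReal_im,
        zero_add]
    obtain ⟨h1, h2, h3, h4, h5, h6⟩ := H.near hX0 hX hX2 (z := z₀) (by rw [h0]; linarith)
    have hd : z₀ ∈ loewnerDomain W t := H.dom (by rw [hi]; positivity) h3 h4
    have hZi : 0 < (Zf W z₀ t).im := Vale.Agent.P164.Zf_im_pos H.nn hd
    refine ⟨Zf W z₀ t, ⟨?_, hZi⟩, hZi, ?_⟩
    · rw [mem_ball, dist_eq_norm, hflow z₀ hd]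
      calc ‖(flow W t z₀ - W t) - X₁‖
          = ‖((flow W t z₀ - W t) - X₁ - (z₀ - X)) + (z₀ - X)‖ := by congr 1; ring
        _ ≤ ‖(flow W t z₀ - W t) - X₁ - (z₀ - X)‖ + ‖z₀ - X‖ := norm_add_le _ _
        _ < X / 4 := by rw [h0]; linarith
    · have h7 : I (Zf W z₀ t) = z₀ := by
        have h8 : Zf W z₀ t + (W t : ℂ) = gf W z₀ t := rfl
        simp only [hI]
        rw [h8]
        exact hyd.inv_g (z := z₀) (by
          rw [Vale.Agent.P153.R2.STEP.dom_compl H.nn]; exact hd)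
      show I (Zf W z₀ t) ∈ ball (X : ℂ) (X / 2)
      rw [h7, mem_ball, dist_eq_norm, h0]
      linarith
  -- closedness
  have hcl : closure u ∩ s ⊆ u := by
    rintro ζ ⟨hζu, hζs⟩
    have hζ0 : ζ ∈ HH := hζs.2
    have h1 : I ζ ∈ closedBall (X : ℂ) (X / 2) := by
      have h2 : I ζ ∈ closure (I '' u) := by
        have hcw : ContinuousWithinAt I u ζ := (hIc.continuousAt (isOpen_HH.mem_nhds hζ0)).continuousWithinAt
        exact hcw.mem_closure_image hζu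
      refine closure_ball_subset_closedBall (closure_mono ?_ h2)
      rintro _ ⟨v, hv, rfl⟩
      exact hv.2
    rw [mem_closedBall, dist_eq_norm] at h1
    obtain ⟨hd, hZ⟩ := mapsTo_inv H hζ0
    change I ζ ∈ loewnerDomain W t at hd
    change Zf W (I ζ) t = ζ at hZ
    obtain ⟨h2, h3, h4, h5, h6, h7⟩ := H.near hX0 hX hX2 h1
    rw [← hflow _ hd, hZ] at h7
    refine ⟨hζ0, ?_⟩
    show I ζ ∈ ball (X : ℂ) (X / 2)
    rw [mem_ball, dist_eq_norm]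
    have h8 := hζs.1
    rw [mem_ball, dist_eq_norm] at h8
    calc ‖I ζ - X‖ = ‖(ζ - X₁) - (ζ - X₁ - (I ζ - X))‖ := by congr 1; ring
      _ ≤ ‖ζ - X₁‖ + ‖ζ - X₁ - (I ζ - X)‖ := norm_sub_le _ _
      _ < X / 2 := by linarith
  have hsu := hsc.subset_of_closure_inter_subset huo hne hcl
  have hζs : ζ ∈ s := ⟨by rw [mem_ball, dist_eq_norm]; exact hb, hζ⟩
  obtain ⟨hd, hZ⟩ := mapsTo_inv H (ζ := ζ) hζ
  have hu2 := (hsu hζs).2
  change I ζ ∈ ball (X : ℂ) (X / 2) at hu2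
  rw [mem_ball, dist_eq_norm] at hu2
  refine ⟨I ζ, hd, hZ, hu2, ?_⟩
  have h1 := hyd.im_le (z := I ζ) (by rw [Vale.Agent.P153.R2.STEP.dom_compl H.nn]; exact hd)
  change (gf W (I ζ) t).im ≤ (I ζ).im at h1
  rw [← Vale.Agent.P164.Zf_im_eq] at h1
  change Zf W (I ζ) t = ζ at hZ
  rwa [hZ] at h1


/-! ### The comparison theorem -/

/-- **The ratio of the values `G_P (b)` for the polygons of a Loewner chain is `obsF ^ 3`**, with a
symmetric condition near `b`. -/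
theorem glue' {T R X Y Rd cd κ : ℝ} (hT : 0 ≤ T) (hR : 0 ≤ R) (hRd : 0 < Rd) (hcd : 0 < cd)
    (hX0 : 0 < X) (hX : 8 * R ≤ X) (hX2 : 256 * T ≤ X ^ 2) (hY0 : 0 < Y) (hY : 8 * R ≤ Y)
    (hY2 : 64 * T ≤ Y ^ 2) (hκ : 0 < κ) :
    ∃ h > 0, ∀ ψ : ℂ → ℂ, HConf Rd cd Y ψ → ∀ (W : ℝ → ℝ) (t : ℝ), Drv T R W t →
      ∀ (P₀ P₁ E₀ E₁ : Set ℂ) (a₀ p₀ a₁ p₁ b : ℂ),
      PD h ψ (fun _ => 0) 0 Y P₀ a₀ p₀ → PD h ψ W t Y P₁ a₁ p₁ →
      (∀ C : Set ℂ, IsPreconnected C → C ⊆ E₀ → (C ∩ P₀).Nonempty → C ⊆ P₀) →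
      (∀ C : Set ℂ, IsPreconnected C → C ⊆ E₁ → (C ∩ P₁).Nonempty → C ⊆ P₁) →
      (∀ z ∈ ball (X : ℂ) (X / 2), 0 < z.im → ψ z ∈ P₀ → ψ z ∈ E₁) →
      (∀ z ∈ ball (X : ℂ) (X / 2), 0 < z.im → ψ z ∈ P₁ → ψ z ∈ E₀) →
      b ∈ frontier P₀ → b ∈ closure (P₀ ∩ ψ '' {z | z ∈ HH ∧ ‖z - X‖ < h}) →
      ∀ G₀ G₁ : ℝ, GAt P₀ a₀ p₀ b G₀ → GAt P₁ a₁ p₁ b G₁ →
        |G₁ / G₀ - obsF W X t ^ 3| ≤ κ := by
  have hXa : |X| = X := abs_of_pos hX0
  have hI : 0 < Complex.I.im := by simp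
  have hexp : (0 : ℝ) < Real.exp (-1) := Real.exp_pos _
  obtain ⟨c, hc, ρ₀, hρ₀, hside⟩ := side_of_PD (T := T) (R := R) hRd hcd hY0 hY hY2 hT hR
  obtain ⟨h₁, hh₁, hcm⟩ := cm (R := Rd) (c := c) (ρ₀ := ρ₀) (X := X) (r := X / 16)
    (M := 2 * |X|) (m := |X| / 2) (κ := κ) hRd hc hρ₀ (by positivity) (by rw [hXa]; linarith)
    (by rw [hXa]; positivity) hX0.ne' hκ
  obtain ⟨h₂, hh₂, hag⟩ := agreeM (R := Rd) (c := c) (ρ₀ := ρ₀) (B := 2 * X) (r := X / 2) hRd hc hρ₀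
    (by positivity) (by positivity)
  obtain ⟨h₂', hh₂', hag'⟩ := agreeM (R := Rd) (c := c) (ρ₀ := ρ₀) (B := 2 * X) (r := X / 4) hRd hc
    hρ₀ (by positivity) (by positivity)
  obtain ⟨h₃, hh₃, hdp⟩ := deep (T := T) (R := R) (Y := Y) (Rd := Rd) (cd := cd) (m := X / 2)
    (M := 3 / 2 * X) (y₀ := X / 32) hT hR hRd hcd hY0 hY hY2 (by positivity) (by linarith)
    (by rw [div_pow]; linarith) (by positivity) (by positivity)
  obtain ⟨h₄, hh₄, hS⟩ := hside (min (min h₁ h₂) h₂') (by positivity)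
  refine ⟨min (min h₄ h₃) (h₁ / 2), by positivity, ?_⟩
  intro ψ hψ W t H P₀ P₁ E₀ E₁ a₀ p₀ a₁ p₁ b hP₀ hP₁ hcomp₀ hcomp₁ hE₁ hE₀ hb hbm G₀ G₁ hG₀ hG₁
  have H0 : Drv T R (fun _ => (0 : ℝ)) 0 :=
    ⟨continuous_const, le_rfl, hT, fun s _ => by rw [abs_zero]; exact hR⟩
  have hmin : 0 < min (min h₄ h₃) (h₁ / 2) := by positivity
  have hm4 : min (min h₄ h₃) (h₁ / 2) ≤ h₄ := (min_le_left _ _).trans (min_le_left _ _)
  have hm3 : min (min h₄ h₃) (h₁ / 2) ≤ h₃ := (min_le_left _ _).trans (min_le_right _ _)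
  have S₀ := hS ψ hψ _ _ H0 P₀ a₀ p₀ (hP₀.mono hmin hm4)
  have S₁ := hS ψ hψ _ _ H P₁ a₁ p₁ (hP₁.mono hmin hm4)
  have hle1 : min (min h₁ h₂) h₂' ≤ h₁ := (min_le_left _ _).trans (min_le_left _ _)
  have hle2 : min (min h₁ h₂) h₂' ≤ h₂ := (min_le_left _ _).trans (min_le_right _ _)
  have hle3 : min (min h₁ h₂) h₂' ≤ h₂' := min_le_right _ _
  have hX64 : 64 * T ≤ X ^ 2 := by linarith
  have hF0 : ∀ z : ℂ, 0 < z.im → FD ψ (fun _ => 0) 0 (mb 1 Complex.I z) = ψ z := by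
    intro z hz
    have h1 := FD_mb H0 ψ (z := z) (by rw [dom_zero']; exact hz)
    rwa [Vale.Agent.P164.Zf_zero hz, Complex.ofReal_zero, sub_zero] at h1
  have hnr : ∀ z ∈ ball (X : ℂ) (X / 2), ‖z - X‖ ≤ X / 2 := fun z hz => by
    rw [mem_ball, dist_eq_norm] at hz
    exact hz.le
  -- agreement
  obtain ⟨X₁, hX₁, hX₁l, hX₁u⟩ := H.real_pt hX0 hX hX64
  have hagr : ∀ z ∈ ball (X : ℂ) (X / 16), 0 < z.im →
      (FD ψ (fun _ => 0) 0 (mb 1 Complex.I z) ∈ P₀ ↔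
        FD ψ (fun _ => 0) 0 (mb 1 Complex.I z) ∈ P₁) := by
    have h1 := hag X (by rw [hXa]; linarith) _ _ P₀ a₀ p₀ (S₀.mono hle2) E₁ P₁ hcomp₁
      (fun z hz hz0 => by rw [hF0 z hz0]; exact hE₁ z hz hz0)
      (fun z hz hzi => by
        rw [hF0 z (lt_of_lt_of_le (by positivity) hzi)]
        obtain ⟨k1, k2, -⟩ := H.near hX0 hX hX2 (hnr z hz)
        exact hdp ψ hψ W t H P₁ a₁ p₁ (hP₁.mono hmin hm3) z (by linarith) k1 k2)
    have h2 := hag' X₁ (by rw [abs_of_nonneg (by linarith)]; exact hX₁u) _ _ P₁ a₁ p₁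
      (S₁.mono hle3) E₀ P₀ hcomp₀
      (fun ζ hζ hζ0 hζP => by
        rw [mem_ball, dist_eq_norm, ← hX₁] at hζ
        obtain ⟨z, hzd, hzZ, hzX, -⟩ := H.back hX0 hX hX2 hζ0 hζ
        rw [← hzZ, FD_mb H ψ hzd] at hζP ⊢
        exact hE₀ z (by rw [mem_ball, dist_eq_norm]; exact hzX)
          (Vale.Agent.P164.im_pos_of_dom H.nn hzd) hζP)
      (fun ζ hζ hζi => by
        have hζ0 : 0 < ζ.im := lt_of_lt_of_le (by positivity) hζi
        rw [mem_ball, dist_eq_norm, ← hX₁] at hζ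
        obtain ⟨z, hzd, hzZ, hzX, hzi⟩ := H.back hX0 hX hX2 hζ0 hζ
        rw [← hzZ, FD_mb H ψ hzd]
        obtain ⟨k1, k2, -⟩ := H.near hX0 hX hX2 hzX.le
        exact hdp ψ hψ _ _ H0 P₀ a₀ p₀ (hP₀.mono hmin hm3) z (by linarith) k1 k2)
    intro z hz hz0
    rw [mem_ball, dist_eq_norm] at hz
    constructor
    · exact h1 z (by rw [mem_ball, dist_eq_norm]; linarith) hz0
    · intro hzP
      rw [hF0 z hz0] at hzP ⊢
      obtain ⟨k1, k2, k3, k4, k5, k6⟩ := H.near hX0 hX hX2 (z := z) (by linarith)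
      have hzd : z ∈ loewnerDomain W t := H.dom hz0 k3 k4
      have hZi := Vale.Agent.P164.Zf_im_pos H.nn hzd
      have e3 : Zf W z t = flow W t z - W t := by
        rw [flow_gf H.nn H.cont.continuousOn hzd, Vale.Agent.P164.Zf_eq]
      have h3 := h2 (Zf W z t) (by
        rw [mem_ball, dist_eq_norm, ← hX₁, e3]
        calc ‖(flow W t z - W t) - (flow W t X - W t)‖
            = ‖((flow W t z - W t) - (flow W t X - W t) - (z - X)) + (z - X)‖ := by congr 1; ring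
          _ ≤ ‖(flow W t z - W t) - (flow W t X - W t) - (z - X)‖ + ‖z - X‖ := norm_add_le _ _
          _ < X / 4 / 2 := by linarith) hZi
      rw [FD_mb H ψ hzd] at h3
      exact h3 hzP
  obtain ⟨φ₀, y₀, d₀, hφ₀, hy₀, hy₀0, hd₀0, hd₀, hG₀e⟩ := hG₀
  obtain ⟨φ₁, y₁, d₁, hφ₁, hy₁, hy₁0, hd₁0, hd₁, hG₁e⟩ := hG₁
  obtain ⟨hval1, hval2⟩ := trans_val H hX0.ne' (by rw [hXa]; exact hX) hX64
  have hMark : Mark (FD ψ (fun _ => 0) 0) P₀ b (mb 1 Complex.I X) h₁ := by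
    refine closure_mono (inter_subset_inter_right _ ?_) hbm
    rintro _ ⟨z, ⟨hz, hzn⟩, rfl⟩
    refine ⟨mb 1 Complex.I z, ⟨?_, ?_⟩, hF0 z hz⟩
    · rw [mem_ball_zero_iff]; exact norm_mb_lt norm_one hI hz
    · rw [mem_ball]
      refine (dist_mb_mb (le_of_lt hz) (by simp)).trans_lt ?_
      have : ‖z - X‖ < h₁ / 2 := hzn.trans_le (min_le_right _ _)
      linarith
  obtain ⟨x₀, x₁, s, Tr, hs, hx₀0, hx₁0, hx₀, hx₁, hTx, hTd, -, hTe, hest⟩ :=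
    hcm _ _ (fun z => flow W t z - W t) _ _ P₀ P₁ a₀ p₀ a₁ p₁ b (S₀.mono hle1) (S₁.mono hle1)
      (trans_FD' H ψ hX0.ne' (by rw [hXa]; exact hX) hX64 (by rw [hXa]; linarith)) hval1 hagr hb
      hMark φ₀ φ₁ hφ₀ hφ₁
  have hreal : ∀ x : ℝ, (x : ℂ) ∈ {z : ℂ | 0 ≤ z.im} := fun x => by simp
  have e₀ : y₀ = x₀ := by
    have h1 := (hφ₀.injOn hP₀.good.nocut).1 (hreal y₀) (hreal x₀) (hy₀.trans hx₀.symm)
    exact_mod_cast h1
  have e₁ : y₁ = x₁ := by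
    have h1 := (hφ₁.injOn hP₁.good.nocut).1 (hreal y₁) (hreal x₁) (hy₁.trans hx₁.symm)
    exact_mod_cast h1
  subst e₀ e₁
  have hratio := ratio_eq hs hTd hTx hTe hd₀ hd₁
  have hGG : G₁ / G₀ = ‖deriv Tr y₀ * y₀ / y₁‖ := by
    rw [hG₀e, hG₁e, hratio, norm_div, norm_mul, norm_mul, Complex.norm_real, Complex.norm_real,
      Real.norm_eq_abs, Real.norm_eq_abs]
    have h1 : ‖d₁‖ ≠ 0 := norm_ne_zero_iff.2 hd₁0
    have h2 : |y₁| ≠ 0 := abs_ne_zero.2 hy₁0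
    have h3 : |y₀| ≠ 0 := abs_ne_zero.2 hy₀0
    have h4 : ‖deriv Tr (y₀ : ℂ)‖ ≠ 0 := by
      rw [norm_ne_zero_iff]
      intro h5
      rw [h5, mul_zero] at hratio
      exact hd₀0 hratio
    field_simp
  have hO : obsF W X t ^ 3 = ‖((obsF W X t ^ 3 : ℝ) : ℂ)‖ := by
    rw [Complex.norm_real, Real.norm_of_nonneg (pow_nonneg (Vale.Agent.P167.H411.obsF_pos W X t).le 3)]
  rw [hGG, hO, ← hval2]
  exact (abs_norm_sub_norm_le _ _).trans hest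

/-- **The cube root of the ratio is close to the observable**, with a symmetric condition near
`b`. -/
theorem ratio_obsF' {T R X Y Rd cd ε : ℝ} (hT : 0 ≤ T) (hR : 0 ≤ R) (hRd : 0 < Rd) (hcd : 0 < cd)
    (hX0 : 0 < X) (hX : 8 * R ≤ X) (hX2 : 256 * T ≤ X ^ 2) (hY0 : 0 < Y) (hY : 8 * R ≤ Y)
    (hY2 : 64 * T ≤ Y ^ 2) (hε : 0 < ε) :
    ∃ h > 0, ∀ ψ : ℂ → ℂ, HConf Rd cd Y ψ → ∀ (W : ℝ → ℝ) (t : ℝ), Drv T R W t →
      ∀ (P₀ P₁ E₀ E₁ : Set ℂ) (a₀ p₀ a₁ p₁ b : ℂ),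
      PD h ψ (fun _ => 0) 0 Y P₀ a₀ p₀ → PD h ψ W t Y P₁ a₁ p₁ →
      (∀ C : Set ℂ, IsPreconnected C → C ⊆ E₀ → (C ∩ P₀).Nonempty → C ⊆ P₀) →
      (∀ C : Set ℂ, IsPreconnected C → C ⊆ E₁ → (C ∩ P₁).Nonempty → C ⊆ P₁) →
      (∀ z ∈ ball (X : ℂ) (X / 2), 0 < z.im → ψ z ∈ P₀ → ψ z ∈ E₁) →
      (∀ z ∈ ball (X : ℂ) (X / 2), 0 < z.im → ψ z ∈ P₁ → ψ z ∈ E₀) →
      b ∈ frontier P₀ → b ∈ closure (P₀ ∩ ψ '' {z | z ∈ HH ∧ ‖z - X‖ < h}) →
      ∀ G₀ G₁ : ℝ, GPos P₀ a₀ p₀ b G₀ → GPos P₁ a₁ p₁ b G₁ →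
        |(G₁ / G₀) ^ (1 / 3 : ℝ) - obsF W X t| ≤ ε := by
  obtain ⟨h, hh, H⟩ := glue' hT hR hRd hcd hX0 hX hX2 hY0 hY hY2 (show 0 < ε ^ 3 by positivity)
  refine ⟨h, hh, ?_⟩
  intro ψ hψ W t hW P₀ P₁ E₀ E₁ a₀ p₀ a₁ p₁ b hP₀ hP₁ hc₀ hc₁ hE₁ hE₀ hb hbm G₀ G₁ hG₀ hG₁
  have h1 := H ψ hψ W t hW P₀ P₁ E₀ E₁ a₀ p₀ a₁ p₁ b hP₀ hP₁ hc₀ hc₁ hE₁ hE₀ hb hbm G₀ G₁
    hG₀.gAt hG₁.gAt
  exact cube_root_close (div_nonneg hG₁.pos.le hG₀.pos.le)
    (Vale.Agent.P167.H411.obsF_pos W X t).le hε.le h1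

end Vale.Agent.P167.H756
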