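import Vale.Agent.P167.H756.PDs2
import Vale.Agent.P167.CL.GeoDefs

/-!
# P167, block CM: item (C) for the stages of `CL/GeoDefs.lean`

* `pdP_stg`, `pdE_stg`: `PD` for the polygons of a stage;
* `comp_stg`, `incl_stg`: the component property and the inclusions near `X`;
* `access_stg`: the access in the polygon;
* `mark_stg`: the vertex `b' = 0` is near `X`.
-/

set_option autoImplicit false
set_option linter.unusedVariables false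

open Set Topology Metric MeasureTheory Filter Bornology
open scoped ENNReal Real ComplexConjugate

namespace Vale.Agent.P167.H756

open Vale.Agent.P153.R2.R1 Vale.Agent.P153.R2.OBSV Vale.Agent.P167.H174
open Vale.Agent.P153.R2.L1 (HH IsHydro inv mem_HH isOpen_HH convex_HH)
open Vale.Agent.P164 (loewnerDomain gf Zf IsLoewnerSol)
open Vale.Agent.P167.H947 (surv flow flow_eq flow_conj flow_inj flow_gf surv_inter isOpen_surv)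
open Vale.Agent.P167.H450 (sqr reg bk obk GF Cmp br Data)
open Vale.Agent.P167.H446.Cut (D1 E1 Sys lo up lo')
open Vale.Agent.P167.E6
open Vale.Agent.P167.CL (Stg)

namespace SG

variable {s : Stg} {T R Rd cd : ℝ}

theorem D_eq (h : s.Ok T R Rd cd) : s.D = s.ψ '' loewnerDomain s.W s.t := FD_img h.drv s.ψ

theorem hℓ (h : s.Ok T R Rd cd) : 0 < s.ℓ := h.sysP.hℓ

theorem hη (h : s.Ok T R Rd cd) : s.ρm + 3 * s.ℓ ≤ s.η := by
  linarith [h.mesh, h.hρm, hℓ h]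

/-- The domain of the polygon with the cut `B`. -/
theorem SP_eq (h : s.Ok T R Rd cd) : D6 s.ℓ s.SP =
    BP s.ℓ s.ρm (s.ψ '' loewnerDomain s.W s.t \ s.B) (s.ψ '' loewnerDomain s.W s.t \ s.g) s.x s.k s.q
      s.K s.F₀ := by
  rw [← D_eq h]
  exact (BP_eq h.setP).symm

/-- The domain of the polygon with the cut `g`. -/
theorem SE_eq (h : s.Ok T R Rd cd) : D6 s.ℓ s.SE =
    BP s.ℓ s.ρm (s.ψ '' loewnerDomain s.W s.t \ s.g) (s.ψ '' loewnerDomain s.W s.t \ s.g) s.x s.k s.q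
      s.K s.F₀ := by
  rw [← D_eq h]
  exact (BP_eq h.setE).symm

theorem base' (h : s.Ok T R Rd cd) (hY0 : 0 < s.Y) (hY : 8 * R ≤ s.Y) (hY2 : 64 * T ≤ s.Y ^ 2) :
    s.ψ (s.Y * Complex.I) ∈ sqr s.ℓ s.F₀ := by
  obtain ⟨hd, -, -, -⟩ := h.drv.base hY0 hY hY2
  have h1 := h.base
  rwa [Stg.F, Stg.w₀, FD_mb h.drv s.ψ hd] at h1

/-- The vertex near the cut `j`. -/
theorem near_x (h : s.Ok T R Rd cd) (j : Bool) {u : ℝ} (hu0 : 0 ≤ u) (hu1 : u ≤ 1) :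
    |s.ℓ * (⌊s.x j / s.ℓ⌋ + u) - s.x j| + s.ρm + 4 * s.ℓ < s.q j := by
  have hl := hℓ h
  have h1 := Int.floor_le (s.x j / s.ℓ)
  have h2 := Int.lt_floor_add_one (s.x j / s.ℓ)
  rw [le_div_iff₀ hl] at h1
  rw [div_lt_iff₀ hl] at h2
  have h3 := h.mesh
  have h4 := (h.sysP.ntc j).q_ge
  have h5 := h.hρm
  have h6 : |s.ℓ * (⌊s.x j / s.ℓ⌋ + u) - s.x j| ≤ s.ℓ := by
    rw [abs_le]
    constructor
    · nlinarith
    · nlinarith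
  linarith

theorem re_mark (ℓ : ℝ) (v : ℤ × ℤ) : ((ℓ : ℂ) * pt v).re = ℓ * (v.1 + 0) := by
  rw [Complex.re_ofReal_mul, add_zero]; rfl

theorem im_mark (ℓ : ℝ) (v : ℤ × ℤ) : ((ℓ : ℂ) * pt v).im = ℓ * v.2 := by
  rw [Complex.im_ofReal_mul]; rfl

theorem re_mark' (ℓ : ℝ) (v : ℤ × ℤ) : ((ℓ : ℂ) * (pt v + 1 / 2)).re = ℓ * (v.1 + 1 / 2) := by
  rw [Complex.re_ofReal_mul, Complex.add_re]
  have e : ((1 : ℂ) / 2).re = 1 / 2 := by norm_num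
  rw [e]; rfl

theorem im_mark' (ℓ : ℝ) (v : ℤ × ℤ) : ((ℓ : ℂ) * (pt v + 1 / 2)).im = ℓ * v.2 := by
  rw [Complex.im_ofReal_mul, Complex.add_im]
  have e : ((1 : ℂ) / 2).im = 0 := by norm_num
  rw [e, add_zero]; rfl

/-- **`PD` for the polygon with the cut `B`.** -/
theorem pdP {T R Y h : ℝ} (hT : 0 ≤ T) (hR : 0 ≤ R) (hY0 : 0 < Y) (hY : 8 * R ≤ Y)
    (hY2 : 64 * T ≤ Y ^ 2) (hh : 0 < h) :
    ∃ ε₀ > 0, ∀ (s : Stg) (Rd cd : ℝ), s.Ok T R Rd cd → s.Y = Y → 0 < s.ε → s.ε ≤ ε₀ →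
      s.ρm + 3 * s.ℓ ≤ h / 2 → IsPathConnected s.B → (∃ w ∈ s.B, w ∉ s.D) →
      (∀ u ∈ s.B, ∀ z ∈ s.B, dist u z ≤ h / 2) →
      PD h s.ψ s.W s.t s.Y (D6 s.ℓ s.SP) (s.ℓ * pt (⌊s.x false / s.ℓ⌋, s.k false))
        (s.ℓ * (pt (⌊s.x true / s.ℓ⌋, s.k true) + 1 / 2)) := by
  obtain ⟨ε₀, hε₀, H⟩ := pd_of_sys (ι := Bool) hT hR hY0 hY hY2 hh
  refine ⟨ε₀, hε₀, ?_⟩
  intro s Rd cd h sY hε0 hε hρ hBp hBw hBd
  subst sY
  have hb := base' h hY0 hY hY2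
  have hP := H s.ψ Rd cd h.conf s.W s.t h.drv xi false true (by simp [xi]) (by simp [xi]) s.ε s.η s.ℓ s.ρm s.x s.k s.q s.K s.C s.B
    (s.D \ s.g) s.F₀ hε0 hε h.hρm h.mesh hρ h.sysP hb (fun z hz => by
      obtain ⟨w, hw, hwD⟩ := hBw
      refine ⟨w, hw, ?_, hBp.joinedIn z hz w hw, fun u hu => hBd u hu z hz⟩
      rw [← D_eq h]
      exact hwD) (s.ℓ * pt (⌊s.x false / s.ℓ⌋, s.k false)) (s.ℓ * (pt (⌊s.x true / s.ℓ⌋, s.k true) + 1 / 2))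
    (by rw [re_mark]; exact near_x h false le_rfl zero_le_one)
    (by rw [im_mark])
    (by rw [re_mark']; exact near_x h true (by norm_num) (by norm_num))
    (by rw [im_mark'])
    (by
      rw [D_eq h, ← SP_eq h]
      exact good_D6 (hℓ h) h.polyP h.enclP)
  rw [D_eq h, ← SP_eq h] at hP
  exact hP

/-- **`PD` for the polygon with the cut `g`.** -/
theorem pdE {T R Y h : ℝ} (hT : 0 ≤ T) (hR : 0 ≤ R) (hY0 : 0 < Y) (hY : 8 * R ≤ Y)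
    (hY2 : 64 * T ≤ Y ^ 2) (hh : 0 < h) :
    ∃ ε₀ > 0, ∀ (s : Stg) (Rd cd : ℝ), s.Ok T R Rd cd → s.Y = Y → 0 < s.ε → s.ε ≤ ε₀ →
      s.ρm + 3 * s.ℓ ≤ h / 2 → IsPathConnected s.g → (∃ w ∈ s.g, w ∉ s.D) →
      (∀ u ∈ s.g, ∀ z ∈ s.g, dist u z ≤ h / 2) →
      PD h s.ψ s.W s.t s.Y (D6 s.ℓ s.SE) (s.ℓ * pt (⌊s.x false / s.ℓ⌋, s.k false))
        (s.ℓ * (pt (⌊s.x true / s.ℓ⌋, s.k true) + 1 / 2)) := by
  obtain ⟨ε₀, hε₀, H⟩ := pd_of_sys (ι := Bool) hT hR hY0 hY hY2 hh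
  refine ⟨ε₀, hε₀, ?_⟩
  intro s Rd cd h sY hε0 hε hρ hBp hBw hBd
  subst sY
  have hb := base' h hY0 hY hY2
  have hP := H s.ψ Rd cd h.conf s.W s.t h.drv xi false true (by simp [xi]) (by simp [xi]) s.ε s.η s.ℓ s.ρm s.x s.k s.q s.K s.C s.g
    (s.D \ s.g) s.F₀ hε0 hε h.hρm h.mesh hρ h.sysE hb (fun z hz => by
      obtain ⟨w, hw, hwD⟩ := hBw
      refine ⟨w, hw, ?_, hBp.joinedIn z hz w hw, fun u hu => hBd u hu z hz⟩
      rw [← D_eq h]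
      exact hwD) (s.ℓ * pt (⌊s.x false / s.ℓ⌋, s.k false)) (s.ℓ * (pt (⌊s.x true / s.ℓ⌋, s.k true) + 1 / 2))
    (by rw [re_mark]; exact near_x h false le_rfl zero_le_one)
    (by rw [im_mark])
    (by rw [re_mark']; exact near_x h true (by norm_num) (by norm_num))
    (by rw [im_mark'])
    (by
      rw [D_eq h, ← SE_eq h]
      exact good_D6 (hℓ h) h.polyE h.enclE)
  rw [D_eq h, ← SE_eq h] at hP
  exact hP

/-- The set `E_i` of `ratio_obsF'`. -/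
def EP (s : Stg) : Set ℂ := Bul s.ℓ s.GP

/-- **Component property.** -/
theorem comp (h : s.Ok T R Rd cd) (hY0 : 0 < s.Y) (hY : 8 * R ≤ s.Y) (hY2 : 64 * T ≤ s.Y ^ 2)
    (C : Set ℂ) (hC : IsPreconnected C) (hsub : C ⊆ EP s) (hne : (C ∩ D6 s.ℓ s.SP).Nonempty) :
    C ⊆ D6 s.ℓ s.SP := by
  rw [SP_eq h] at hne ⊢
  rw [← D_eq h] at hne ⊢
  have h1 := comp_of_sys h.drv hY0 hY hY2 h.sysP h.hρm (hη h) (base' h hY0 hY hY2) C hC
  rw [← D_eq h] at h1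
  exact h1 hsub hne

/-- **Inclusion near `X`.** -/
theorem incl {T R X Y Rd cd : ℝ} (hT : 0 ≤ T) (hR : 0 ≤ R) (hRd : 0 < Rd) (hcd : 0 < cd)
    (hX0 : 0 < X) (hX : 16 * R ≤ X) (hX2 : 1024 * T ≤ X ^ 2) (hY0 : 0 < Y) (hY : 8 * R ≤ Y)
    (hY2 : 64 * T ≤ Y ^ 2) :
    ∃ ε₀ > 0, ∃ r₀ > 0, ∀ s₁ s₂ : Stg, s₁.Ok T R Rd cd → s₂.Ok T R Rd cd → s₁.Y = Y →
      s₂.ψ = s₁.ψ → s₂.Y = s₁.Y → s₂.ℓ = s₁.ℓ → s₂.ρm = s₁.ρm → s₂.ε = s₁.ε → s₂.g = s₁.g →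
      s₂.B = s₁.B → s₂.F₀ = s₁.F₀ → 0 < s₁.ε → s₁.ε ≤ ε₀ → 2 * s₁.ρm + 3 * s₁.ℓ ≤ r₀ →
      ∀ z ∈ ball (X : ℂ) (X / 2), 0 < z.im → s₁.ψ z ∈ D6 s₁.ℓ s₁.SP → s₁.ψ z ∈ EP s₂ := by
  obtain ⟨ε₀, hε₀, r₀, hr₀, H⟩ := incl_of_sys (ι := Bool) (T := T) (R := R) (X := X) hT hR hRd hcd
    hX0 hX hX2 hY0 hY hY2
  refine ⟨ε₀, hε₀, r₀, hr₀, ?_⟩
  intro s₁ s₂ h₁ h₂ sY eψ eY eℓ eρ eε eg hB eF hε0 hε hr z hz hz0 hzP
  have S₂ := h₂.sysP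
  rw [Stg.F, Stg.w₀, D_eq h₂, eψ, eY, eε, eℓ, hB, eg] at S₂
  have S₁ := h₁.sysP
  rw [Stg.F, Stg.w₀, D_eq h₁] at S₁
  subst sY
  have hb := base' h₁ hY0 hY hY2
  rw [SP_eq h₁] at hzP
  have h1 := H s₁.ψ h₁.conf s₁.W s₁.t h₁.drv s₂.W s₂.t h₂.drv xi xi_cases s₁.ε s₁.η s₂.η s₁.ℓ s₁.ρm
    s₁.x s₂.x s₁.k s₂.k s₁.q s₂.q s₁.K s₂.K s₁.C s₂.C s₁.B s₁.g s₁.F₀ hε0 hε h₁.hρm hr (hη h₁) hb S₁
    S₂ z hz hz0 hzP
  rw [EP, Stg.GP, D_eq h₂, hB, eψ, eℓ, eρ, eg]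
  exact h1

/-- **The access in the polygon.** -/
theorem access (h : s.Ok T R Rd cd) (hY0 : 0 < s.Y) (hY : 8 * R ≤ s.Y) (hY2 : 64 * T ≤ s.Y ^ 2)
    {C : Set ℂ} (hC : IsPreconnected C) (hC0 : s.ψ (s.Y * Complex.I) ∈ C) {η : ℝ}
    (hε : 2 * s.ε ≤ η) (hρ : 4 * (s.ρm + 3 * s.ℓ) ≤ η)
    (hfar : ∀ u ∈ C, ball u η ⊆ s.D \ s.B) : ∀ u ∈ C, ball u (η / 4) ⊆ D6 s.ℓ s.SP := by
  rw [SP_eq h]
  have hD := D_eq h
  have key : ∀ u ∈ C, ball u (2 * (η / 4)) ⊆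
      D1 (s.ψ '' loewnerDomain s.W s.t \ s.B) s.K := by
    intro u hu w hw
    rw [mem_ball] at hw
    have hl := hℓ h
    have h0 := h.hρm
    have hw1 := hfar u hu (show w ∈ ball u η by rw [mem_ball]; linarith)
    rw [hD] at hw1
    refine ⟨hw1, fun hK => ?_⟩
    obtain ⟨j, hj⟩ := mem_iUnion.1 hK
    obtain ⟨w', h1, h2⟩ := (h.sysP.ntc j).meet
    have h3 := (h.sysP.ntc j).diam w hj w' h1
    apply h2
    have h4 := dist_triangle w' w u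
    rw [dist_comm w' w] at h4
    exact (hfar u hu (show w' ∈ ball u η by rw [mem_ball]; linarith)).1
  have hsys := h.sysP
  rw [Stg.F, Stg.w₀, hD] at hsys
  exact access_of_sys h.drv hY0 hY hY2 hsys h.hρm (hη h) (base' h hY0 hY hY2) hC hC0
    (η' := η / 4) (by linarith) key

/-- **The point `b'` is near `X`.** -/
theorem mark {T R X Rd cd h : ℝ} (hR : 0 ≤ R) (hX0 : 0 < X) (hX : 16 * R ≤ X)
    (hX2 : 1024 * T ≤ X ^ 2) (hh : 0 < h) :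
    ∃ s₀ > 0, ∀ s : Stg, s.Ok T R Rd cd → ∀ y : ℂ, y ∈ closure (D6 s.ℓ s.SP) → y ∈ s.D →
      (∀ v ∈ ball (0 : ℂ) 1, s.F v = y →
        dist v (mb 1 Complex.I (flow s.W s.t X - s.W s.t)) ≤ s₀) →
      y ∈ closure (D6 s.ℓ s.SP ∩ s.ψ '' {z | z ∈ HH ∧ ‖z - X‖ < h}) := by
  have hI : 0 < Complex.I.im := by simp
  set κ : ℝ := min (h / 4) (X / 4) with hκ
  have hκ0 : 0 < κ := by positivity
  obtain ⟨s₀, hs₀, himb⟩ := imb_close (show 0 ≤ 2 * X by positivity) hκ0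
  refine ⟨s₀, hs₀, ?_⟩
  intro s hs y hy hyD hpre
  have H := hs.drv
  have hT : 0 ≤ T := H.nn.trans H.le
  have hκ1 : κ ≤ X / 4 := min_le_right _ _
  have hκ2 : κ ≤ h / 4 := min_le_left _ _
  rw [D_eq hs] at hyD
  obtain ⟨z, hz, rfl⟩ := hyD
  have hzi := Vale.Agent.P164.im_pos_of_dom H.nn hz
  have hZi := Vale.Agent.P164.Zf_im_pos H.nn hz
  have h1 := hpre (mb 1 Complex.I (Zf s.W z s.t)) (by
    rw [mem_ball_zero_iff]; exact norm_mb_lt norm_one hI hZi) (FD_mb H s.ψ hz)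
  obtain ⟨X₁, hX₁, hX₁l, hX₁u⟩ := H.real_pt hX0 (by linarith) (by linarith)
  rw [hX₁, dist_eq_norm] at h1
  have h2 := himb (X₁ : ℂ) _ (by simp) (by
    rw [Complex.norm_real, Real.norm_of_nonneg (by linarith)]; exact hX₁u) h1
  rw [imb_mb norm_one hI hZi.le, ← hX₁] at h2
  have h3 := H.back2 hX0 hX hX2 hz (lt_of_le_of_lt h2 (by linarith))
  have hflow : Zf s.W z s.t = flow s.W s.t z - s.W s.t := by
    rw [flow_gf H.nn H.cont.continuousOn hz, Vale.Agent.P164.Zf_eq]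
  -- the Lipschitz estimate
  set f : ℂ → ℂ := fun z => (flow s.W s.t z - s.W s.t) - (flow s.W s.t X - s.W s.t) - (z - X)
    with hf
  have hfb : ∀ z ∈ ball (X : ℂ) (3 / 8 * X + 3 / 8 * X), ‖f z‖ ≤ 1 / 32 * X := by
    intro z hz
    rw [mem_ball, dist_eq_norm] at hz
    exact (H.near2 hX0 hX hX2 (z := z) (by linarith)).2.2.2.2.2.1
  have habs : |X| = X := abs_of_pos hX0
  have hfd : DifferentiableOn ℂ f (ball (X : ℂ) (1 / 4 * X + 1 / 4 * X)) := by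
    have htr := trans_FD H s.ψ hX0.ne' (by rw [habs]; linarith) (by linarith)
    have h4 : DifferentiableOn ℂ (fun z => flow s.W s.t z - s.W s.t)
        (ball (X : ℂ) (1 / 4 * X + 1 / 4 * X)) :=
      htr.diff.mono (ball_subset_ball (by rw [habs]; linarith))
    exact (h4.sub_const _).sub (differentiableOn_id.sub_const _)
  obtain ⟨-, hlip⟩ := lip_of_bdd (f := f) (x := (X : ℂ)) (ρ := 1 / 4 * X + 1 / 8 * X)
    (s := 1 / 8 * X) (B := 1 / 32 * X) (by positivity)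
    (hfd.mono (ball_subset_ball (by linarith)))
    (fun z hz => hfb z (ball_subset_ball (by linarith) hz))
  have hfX : f X = 0 := by simp only [hf]; ring
  have hfz : f z = (Zf s.W z s.t - (flow s.W s.t X - s.W s.t)) - (z - X) := by rw [hflow]
  have h5 : ‖z - X‖ ≤ 9 / 32 * X := by
    have h6 := (H.near2 hX0 hX hX2 h3.le).2.2.2.2.2.1
    rw [← hflow] at h6
    calc ‖z - X‖ = ‖(Zf s.W z s.t - (flow s.W s.t X - s.W s.t)) -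
        (Zf s.W z s.t - (flow s.W s.t X - s.W s.t) - (z - X))‖ := by congr 1; ring
      _ ≤ ‖Zf s.W z s.t - (flow s.W s.t X - s.W s.t)‖ +
        ‖Zf s.W z s.t - (flow s.W s.t X - s.W s.t) - (z - X)‖ := norm_sub_le _ _
      _ ≤ 9 / 32 * X := by linarith
  have h7 := hlip X (mem_ball_self (by positivity)) z (by
    rw [mem_ball, dist_eq_norm]; linarith)
  rw [hfX, sub_zero] at h7
  have h8 : 1 / 32 * X / (1 / 8 * X / 2) = 1 / 2 := by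
    field_simp
    norm_num
  rw [h8] at h7
  have h9 : ‖z - X‖ < h := by
    have h10 : ‖z - X‖ ≤ ‖Zf s.W z s.t - (flow s.W s.t X - s.W s.t)‖ + ‖f z‖ := by
      calc ‖z - X‖ = ‖(Zf s.W z s.t - (flow s.W s.t X - s.W s.t)) - f z‖ := by
            rw [hfz]; congr 1; ring
        _ ≤ _ := norm_sub_le _ _
    linarith
  exact mark_b_of_mem hs.conf.diff hs.conf.inj hzi hy h9

end SG

end Vale.Agent.P167.H756
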