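import Vale.Agent.P167.H756.Small
import Vale.Agent.P167.H411.Crv

/-!
# P167, block CM: the uniformizer near a flat boundary point
-/

open Set Topology Metric MeasureTheory Filter Bornology
open scoped ENNReal Real ComplexConjugate

namespace Vale.Agent.P167.H756

open Vale.Agent.P153.R2.R1 Vale.Agent.P153.R2.OBSV Vale.Agent.P167.H174
open Vale.Agent.P153.R2.L1 (HH IsHydro inv mem_HH isOpen_HH convex_HH)
open Vale.Agent.P164 (loewnerDomain gf Zf IsLoewnerSol)

/-- `P` is the half-plane above `b` in the disc of radius `ρ` about `b`. -/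
def FlatUp (P : Set ℂ) (b : ℂ) (ρ : ℝ) : Prop := ∀ z ∈ ball b ρ, (z ∈ P ↔ b.im < z.im)

variable {P : Set ℂ} {a p b : ℂ} {ρ : ℝ} {φ : ℂ → ℂ}

theorem FlatUp.closure (hf : FlatUp P b ρ) {z : ℂ} (hz : z ∈ ball b ρ) :
    z ∈ closure P ↔ b.im ≤ z.im := by
  constructor
  · intro h
    by_contra hlt
    push Not at hlt
    have h1 : {y : ℂ | y.im < b.im} ∈ 𝓝 z :=
      (isOpen_lt Complex.continuous_im continuous_const).mem_nhds hlt
    obtain ⟨y, hy, hyP⟩ := mem_closure_iff_nhds.1 h _ (inter_mem h1 (isOpen_ball.mem_nhds hz))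
    have h2 := (hf y hy.2).1 hyP
    have h3 : y.im < b.im := hy.1
    linarith
  · intro h
    have h1 : ∀ᶠ ε : ℝ in 𝓝[>] 0, z + (ε : ℂ) * Complex.I ∈ P := by
      have hc : Tendsto (fun ε : ℝ => z + (ε : ℂ) * Complex.I) (𝓝[>] 0) (𝓝 z) := by
        have : Continuous fun ε : ℝ => z + (ε : ℂ) * Complex.I := by fun_prop
        have h2 := this.tendsto 0
        simp only [Complex.ofReal_zero, zero_mul, add_zero] at h2
        exact h2.mono_left nhdsWithin_le_nhds
      filter_upwards [hc.eventually (isOpen_ball.mem_nhds hz), self_mem_nhdsWithin] with ε h3 h4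
      rw [hf _ h3, Complex.add_im, Complex.im_ofReal_mul, Complex.I_im, mul_one]
      have : (0 : ℝ) < ε := h4
      linarith
    have hc : Tendsto (fun ε : ℝ => z + (ε : ℂ) * Complex.I) (𝓝[>] 0) (𝓝 z) := by
      have : Continuous fun ε : ℝ => z + (ε : ℂ) * Complex.I := by fun_prop
      have h2 := this.tendsto 0
      simp only [Complex.ofReal_zero, zero_mul, add_zero] at h2
      exact h2.mono_left nhdsWithin_le_nhds
    exact mem_closure_of_tendsto hc h1

theorem closure_isU (hφ : IsU φ P a p) : closure P ⊆ φ '' {z | 0 ≤ z.im} ∪ {p} := by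
  intro y hy
  rw [← hφ.toDisc.closure_eq] at hy
  obtain ⟨w, hw, rfl⟩ := hy
  by_cases hw1 : w = 1
  · right
    rw [hw1, toDisc_one]
    rfl
  · left
    refine ⟨imb 1 Complex.I w, imb_im_nonneg norm_one (by simp) (mem_closedBall_zero_iff.1 hw) hw1,
      ?_⟩
    simp [toDisc, hw1]

theorem isU_mem_closure (hφ : IsU φ P a p) {z : ℂ} (hz : 0 ≤ z.im) : φ z ∈ closure P := by
  rw [← hφ.toDisc.closure_eq, ← toDisc_mb (ψ := φ) (b := p) hz]
  exact mem_image_of_mem _ (mb_mem_closedBall norm_one (by simp) hz)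

/-- **The inverse of the uniformizer extends across a flat piece of the boundary.** -/
theorem flat_inv (hP : Good P) (hφ : IsU φ P a p) (hf : FlatUp P b ρ) (hp : ρ ≤ dist p b) :
    ∃ f : ℂ → ℂ, DifferentiableOn ℂ f (ball b ρ) ∧ InjOn f (ball b ρ) ∧
      (∀ z ∈ ball b ρ, b.im ≤ z.im → 0 ≤ (f z).im ∧ φ (f z) = z) ∧
      (∀ z ∈ ball b ρ, b.im < z.im → 0 < (f z).im) ∧
      (∀ z ∈ ball b ρ, z.im = b.im → (f z).im = 0) ∧
      (∀ z ∈ ball b ρ, z.im < b.im → (f z).im < 0) := by
  set A : Set ℂ := {z | 0 ≤ z.im} with hA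
  have hAc : IsClosed A := isClosed_le continuous_const Complex.continuous_im
  obtain ⟨hinj, hnep⟩ := hφ.injOn hP.nocut
  set e : ℂ → ℂ := Function.invFunOn φ A with he
  have hec : ContinuousOn e (φ '' A) :=
    Vale.Agent.P167.H411.inv_cont hAc hφ.cont hinj hφ.infty fun z hz => hnep z hz
  have hmem : ∀ z ∈ ball b ρ, b.im ≤ z.im → z ∈ φ '' A := by
    intro z hz h0
    rcases closure_isU hφ ((hf.closure hz).2 h0) with h1 | h1
    · exact h1
    · exfalso
      rw [mem_singleton_iff] at h1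
      rw [h1, mem_ball] at hz
      linarith
  have hespec : ∀ z ∈ φ '' A, e z ∈ A ∧ φ (e z) = z := fun z hz =>
    ⟨Function.invFunOn_mem hz, Function.invFunOn_eq hz⟩
  -- translation to the real line
  set s : ℂ := (b.im : ℂ) * Complex.I with hs
  have hbs : b = (b.re : ℂ) + s := by rw [hs]; exact (Complex.re_add_im b).symm
  have hball : ∀ u : ℂ, u ∈ ball (b.re : ℂ) ρ ↔ u + s ∈ ball b ρ := by
    intro u
    rw [mem_ball, mem_ball, dist_eq_norm, dist_eq_norm]
    have : u + s - b = u - (b.re : ℂ) := by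
      nth_rewrite 1 [hbs]; ring
    rw [this]
  have him : ∀ u : ℂ, (u + s).im = u.im + b.im := fun u => by
    rw [hs, Complex.add_im, Complex.im_ofReal_mul, Complex.I_im, mul_one]
  set T : ℂ → ℂ := fun u => e (u + s) with hT
  have hTc : ContinuousOn T (ball (b.re : ℂ) ρ ∩ {z | 0 ≤ z.im}) := by
    refine hec.comp (by fun_prop) fun u hu => hmem _ ((hball u).1 hu.1) ?_
    rw [him]
    have : 0 ≤ u.im := hu.2
    linarith
  -- the map on the open set
  have hconf := conf_of_isU hφ (c := Complex.I) (by simp)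
  have hTd : DifferentiableOn ℂ T (ball (b.re : ℂ) ρ ∩ {z | 0 < z.im}) := by
    have h1 : DifferentiableOn ℂ (fun z => imb 1 Complex.I (dinv (fun w => φ (imb 1 Complex.I w)) z))
        P := by
      intro z hz
      have h2 := hconf.dinv_mem hz
      have h3 : DifferentiableAt ℂ (dinv (fun w => φ (imb 1 Complex.I w))) z := by
        have h4 := hconf.dinv_hasDerivAt h2 (hconf.deriv_ne h2)
        rw [hconf.apply_dinv hz] at h4
        exact h4.differentiableAt
      exact ((imb_differentiableAt (ball_ne_one h2)).comp z h3).differentiableWithinAt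
    have h2 : ∀ z ∈ P, imb 1 Complex.I (dinv (fun w => φ (imb 1 Complex.I w)) z) = e z := by
      intro z hz
      have h3 := hconf.dinv_mem hz
      have h4 := imb_im_pos norm_one (show 0 < Complex.I.im by simp) (mem_ball_zero_iff.1 h3)
        (β := 1)
      have h5 : φ (imb 1 Complex.I (dinv (fun w => φ (imb 1 Complex.I w)) z)) = z :=
        hconf.apply_dinv hz
      have h6 : z ∈ φ '' A := ⟨_, le_of_lt h4, h5⟩
      exact hinj (le_of_lt h4) (hespec z h6).1 (h5.trans (hespec z h6).2.symm)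
    have h3 : DifferentiableOn ℂ e P := h1.congr fun z hz => (h2 z hz).symm
    refine h3.comp (by fun_prop) fun u hu => ?_
    rw [hf _ ((hball u).1 hu.1), him]
    have : 0 < u.im := hu.2
    linarith
  have hTr : ∀ u ∈ ball (b.re : ℂ) ρ, u.im = 0 → (T u).im = 0 := by
    intro u hu h0
    have h1 := hmem _ ((hball u).1 hu) (by rw [him, h0]; linarith)
    obtain ⟨h2, h3⟩ := hespec _ h1
    by_contra hne
    have h4 : 0 < (e (u + s)).im := lt_of_le_of_ne h2 (Ne.symm hne)
    have h5 : u + s ∈ P := by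
      rw [← h3, ← hφ.img]; exact mem_image_of_mem _ h4
    rw [hf _ ((hball u).1 hu), him, h0] at h5
    linarith
  obtain ⟨G, hGd, hGe, hGs⟩ := schwarz hTc hTd hTr
  have hcj : ∀ u ∈ ball (b.re : ℂ) ρ, conj u ∈ ball (b.re : ℂ) ρ := by
    intro u hu
    rw [mem_ball, dist_eq_norm] at hu ⊢
    have e1 : conj u - (b.re : ℂ) = conj (u - b.re) := by rw [map_sub, Complex.conj_ofReal]
    rwa [e1, RCLike.norm_conj]
  have hup : ∀ u ∈ ball (b.re : ℂ) ρ, 0 ≤ u.im → 0 ≤ (G u).im ∧ φ (G u) = u + s := by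
    intro u hu h0
    rw [hGe u hu h0]
    exact hespec _ (hmem _ ((hball u).1 hu) (by rw [him]; linarith))
  have hpos : ∀ u ∈ ball (b.re : ℂ) ρ, 0 < u.im → 0 < (G u).im := by
    intro u hu h0
    obtain ⟨h1, h2⟩ := hup u hu h0.le
    refine lt_of_le_of_ne h1 fun h3 => ?_
    have h4 : u + s ∈ P := (hf _ ((hball u).1 hu)).2 (by rw [him]; linarith)
    rw [← h2] at h4
    exact IsU.notMem hφ h3.symm h4
  have hzero : ∀ u ∈ ball (b.re : ℂ) ρ, u.im = 0 → (G u).im = 0 := by
    intro u hu h0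
    rw [hGe u hu h0.ge]
    exact hTr u hu h0
  have hneg : ∀ u ∈ ball (b.re : ℂ) ρ, u.im < 0 → (G u).im < 0 := by
    intro u hu h0
    have h1 := hpos (conj u) (hcj u hu) (by rw [Complex.conj_im]; linarith)
    rw [hGs u hu, Complex.conj_im] at h1
    linarith
  have hinjU : ∀ u ∈ ball (b.re : ℂ) ρ, ∀ v ∈ ball (b.re : ℂ) ρ, 0 ≤ u.im → 0 ≤ v.im →
      G u = G v → u = v := by
    intro u hu v hv hu0 hv0 h
    have h1 := (hup u hu hu0).2
    rw [h, (hup v hv hv0).2] at h1
    exact (add_right_cancel h1).symm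
  have hinjG : InjOn G (ball (b.re : ℂ) ρ) := by
    intro u hu v hv h
    rcases lt_or_ge u.im 0 with h1 | h1
    · have h2 : v.im < 0 := by
        by_contra h3
        push Not at h3
        have h4 := hneg u hu h1
        rw [h] at h4
        exact absurd (hup v hv h3).1 (not_le.2 h4)
      have h3 := hinjU (conj u) (hcj u hu) (conj v) (hcj v hv)
        (by rw [Complex.conj_im]; linarith) (by rw [Complex.conj_im]; linarith)
        (by rw [hGs u hu, hGs v hv, h])
      have h4 := congrArg conj h3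
      rwa [Complex.conj_conj, Complex.conj_conj] at h4
    · have h2 : 0 ≤ v.im := by
        by_contra h3
        push Not at h3
        have h4 := hneg v hv h3
        rw [← h] at h4
        exact absurd (hup u hu h1).1 (not_le.2 h4)
      exact hinjU u hu v hv h1 h2 h
  have hsub : ∀ z ∈ ball b ρ, z - s ∈ ball (b.re : ℂ) ρ := by
    intro z hz
    rw [hball, sub_add_cancel]; exact hz
  have him' : ∀ z : ℂ, (z - s).im = z.im - b.im := fun z => by
    rw [hs, Complex.sub_im, Complex.im_ofReal_mul, Complex.I_im, mul_one]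
  refine ⟨fun z => G (z - s), hGd.comp (by fun_prop) hsub, ?_, ?_, ?_, ?_, ?_⟩
  · intro z hz z' hz' h
    have := hinjG (hsub z hz) (hsub z' hz') h
    exact sub_left_inj.1 this
  · intro z hz h0
    have := hup (z - s) (hsub z hz) (by rw [him']; linarith)
    rwa [sub_add_cancel] at this
  · exact fun z hz h0 => hpos (z - s) (hsub z hz) (by rw [him']; linarith)
  · exact fun z hz h0 => hzero (z - s) (hsub z hz) (by rw [him']; linarith)
  · exact fun z hz h0 => hneg (z - s) (hsub z hz) (by rw [him']; linarith)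

/-- **The derivative at a flat boundary point**, with bounds. -/
theorem flat_G (hP : Good P) (hφ : IsU φ P a p) (hρ : 0 < ρ) (hf : FlatUp P b ρ)
    (hp : ρ ≤ dist p b) {x : ℝ} (hx : φ x = b) :
    ∃ D : ℝ, 0 < D ∧ HasDerivWithinAt φ ((1 / D : ℝ) : ℂ) {z | 0 ≤ z.im} x ∧
      (∀ w : ℂ, 0 < w.im → φ w = b + ((ρ / 2 : ℝ) : ℂ) * Complex.I → w.im / (2 * ρ) ≤ D) ∧
      (ρ ≤ dist a b → D ≤ 10 * |x| / ρ) := by
  obtain ⟨f, hfd, hfi, hfup, hfpos, hfzero, hfneg⟩ := flat_inv hP hφ hf hp
  obtain ⟨hinj, hnep⟩ := hφ.injOn hP.nocut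
  have hbb : b ∈ ball b ρ := mem_ball_self hρ
  have hreal : (x : ℂ) ∈ {z : ℂ | 0 ≤ z.im} := by simp
  have hfb : f b = x := by
    obtain ⟨h1, h2⟩ := hfup b hbb le_rfl
    exact hinj h1 hreal (h2.trans hx.symm)
  have hfat : DifferentiableAt ℂ f b := hfd.differentiableAt (isOpen_ball.mem_nhds hbb)
  set D' : ℂ := deriv f b with hD'
  have hd : HasDerivAt f D' b := hfat.hasDerivAt
  have hD'0 : D' ≠ 0 := Vale.Agent.P153.R2.L1.injOn_deriv_ne_zero isOpen_ball hfd hfi hbb
  -- a deep point of `P`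
  have hvim : (b + ((ρ / 2 : ℝ) : ℂ) * Complex.I).im = b.im + ρ / 2 := by
    rw [Complex.add_im, Complex.im_ofReal_mul, Complex.I_im, mul_one]
  set v : ℂ := b + ((ρ / 2 : ℝ) : ℂ) * Complex.I with hv
  have hvb : dist v b = ρ / 2 := by
    rw [hv, dist_eq_norm, add_sub_cancel_left, norm_mul, Complex.norm_I, mul_one,
      Complex.norm_real, Real.norm_of_nonneg (by positivity)]
  have hvball : v ∈ ball b ρ := by rw [mem_ball, hvb]; linarith
  have hvP : v ∈ P := (hf v hvball).2 (by rw [hvim]; linarith)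
  have hBsub : ball v (ρ / 2) ⊆ P := by
    intro z hz
    have h1 : dist z b < ρ := by
      have := dist_triangle z v b
      rw [mem_ball] at hz
      rw [hvb] at this
      linarith
    rw [hf z (mem_ball.2 h1)]
    rw [mem_ball, dist_eq_norm] at hz
    have h2 := (Complex.abs_im_le_norm (z - v)).trans_lt hz
    rw [Complex.sub_im, hvim] at h2
    have := (abs_lt.1 h2).1
    linarith
  -- the lower bound of the imaginary part of the derivative along the normal
  have hlow : ∀ w : ℂ, 0 < w.im → φ w = v → ∀ ε : ℝ, 0 < ε → ε < ρ / 2 →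
      ε * (w.im / (2 * ρ)) ≤ (f (b + (ε : ℂ) * Complex.I)).im := by
    intro w hw hwv ε hε hε2
    set z : ℂ := b + (ε : ℂ) * Complex.I with hz
    have hconf := conf_of_isU hφ hw
    have hzim : z.im = b.im + ε := by
      rw [hz, Complex.add_im, Complex.im_ofReal_mul, Complex.I_im, mul_one]
    have hzv : dist z v = ρ / 2 - ε := by
      have e1 : z - v = (((ε - ρ / 2 : ℝ) : ℝ) : ℂ) * Complex.I := by
        rw [hz, hv]; push_cast; ring
      rw [dist_eq_norm, e1, norm_mul, Complex.norm_I, mul_one, Complex.norm_real,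
        Real.norm_eq_abs, abs_sub_comm, abs_of_pos (by linarith)]
    have hzb : z ∈ ball v (ρ / 2) := by rw [mem_ball, hzv]; linarith
    have hzb' : z ∈ ball b ρ := by
      rw [mem_ball, hz, dist_eq_norm, add_sub_cancel_left, norm_mul, Complex.norm_I, mul_one,
        Complex.norm_real, Real.norm_of_nonneg hε.le]
      linarith
    set m : ℂ → ℂ := dinv (fun u => φ (imb 1 w u)) with hm
    have hmd : DifferentiableOn ℂ m (ball v (ρ / 2)) := by
      intro y hy
      have h2 := hconf.dinv_mem (hBsub hy)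
      have h4 := hconf.dinv_hasDerivAt h2 (hconf.deriv_ne h2)
      rw [hconf.apply_dinv (hBsub hy)] at h4
      exact h4.differentiableAt.differentiableWithinAt
    have hmv : m v = 0 := by
      have h0 : (0 : ℂ) ∈ ball (0 : ℂ) 1 := mem_ball_self one_pos
      have h1 := hconf.dinv_apply h0
      have e1 : imb 1 w 0 = w := by simp [imb]
      simp only [e1, hwv] at h1
      exact h1
    have hmaps : MapsTo m (ball v (ρ / 2)) (ball (m v) 1) := by
      rw [hmv]
      exact fun y hy => hconf.dinv_mem (hBsub hy)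
    have h1 := Complex.dist_le_div_mul_dist_of_mapsTo_ball hmd (hmaps.mono_right ball_subset_closedBall) hzb
    rw [hmv, dist_zero_right, hzv] at h1
    have hzP := hBsub hzb
    have hfz := hfpos z hzb' (by rw [hzim]; linarith)
    have hφf := (hfup z hzb' (by rw [hzim]; linarith)).2
    have hmz : m z = mb 1 w (f z) := by
      have h2 : φ (imb 1 w (mb 1 w (f z))) = z := by
        rw [imb_mb norm_one hw hfz.le, hφf]
      have h3 : mb 1 w (f z) ∈ ball (0 : ℂ) 1 := by
        rw [mem_ball_zero_iff]; exact norm_mb_lt norm_one hw hfz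
      have h4 := hconf.dinv_apply h3
      simp only [h2] at h4
      exact h4
    rw [hmz, norm_mb norm_one] at h1
    have hden : 0 < ‖f z - conj w‖ := norm_pos_iff.2 (mb_den hw hfz.le)
    have hdenw : w.im ≤ ‖f z - conj w‖ := by
      refine le_trans ?_ (Complex.abs_im_le_norm _)
      rw [Complex.sub_im, Complex.conj_im, sub_neg_eq_add]
      exact le_trans (by linarith) (le_abs_self _)
    have hq : 1 / (ρ / 2) * (ρ / 2 - ε) = 1 - 2 * ε / ρ := by field_simp
    rw [hq, div_le_iff₀ hden] at h1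
    have hs0 : 0 ≤ 1 - 2 * ε / ρ := by
      rw [sub_nonneg, div_le_one hρ]; linarith
    have h5 := normSq_diff w (f z)
    have h6 : ‖f z - w‖ ^ 2 ≤ (1 - 2 * ε / ρ) ^ 2 * ‖f z - conj w‖ ^ 2 := by
      rw [← mul_pow]
      exact pow_le_pow_left₀ (norm_nonneg _) h1 2
    have h7 : (1 - 2 * ε / ρ) ^ 2 ≤ 1 - 2 * ε / ρ := by
      have h8 : 0 ≤ 2 * ε / ρ := by positivity
      nlinarith
    have h8 : 2 * ε / ρ * ‖f z - conj w‖ ^ 2 ≤ 4 * (f z).im * w.im := by
      have h9 : 0 ≤ ‖f z - conj w‖ ^ 2 := by positivity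
      nlinarith
    have h9 : 2 * ε / ρ * w.im ^ 2 ≤ 2 * ε / ρ * ‖f z - conj w‖ ^ 2 := by
      gcongr
    have h10 : 2 * ε / ρ * w.im ≤ 4 * (f z).im := by
      have h11 : (2 * ε / ρ * w.im) * w.im ≤ (4 * (f z).im) * w.im := by nlinarith
      exact le_of_mul_le_mul_right h11 hw
    calc ε * (w.im / (2 * ρ)) = (2 * ε / ρ * w.im) / 4 := by field_simp; ring
      _ ≤ (f z).im := by linarith
  -- the derivative is real
  have hseg : ∀ᶠ ε : ℝ in 𝓝[>] 0, ε < ρ / 2 ∧ 0 < ε := by
    have h1 : ∀ᶠ ε : ℝ in 𝓝[>] 0, ε < ρ / 2 :=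
      (gt_mem_nhds (by positivity)).filter_mono nhdsWithin_le_nhds
    filter_upwards [h1, self_mem_nhdsWithin] with ε h2 h3 using ⟨h2, h3⟩
  have hlimI : Tendsto (fun ε : ℝ => (f (b + (ε : ℂ) * Complex.I) - f b) / (ε : ℂ)) (𝓝[>] 0)
      (𝓝 (D' * Complex.I)) := by
    have h1 : HasDerivAt (fun ε : ℝ => f (b + (ε : ℂ) * Complex.I)) (D' * Complex.I) 0 := by
      have h2 : HasDerivAt (fun ε : ℝ => b + (ε : ℂ) * Complex.I) (1 * Complex.I) 0 :=
        ((Complex.ofRealCLM.hasDerivAt (x := (0 : ℝ))).mul_const Complex.I).const_add b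
      rw [one_mul] at h2
      refine HasDerivAt.comp_of_eq (0 : ℝ) (h₂ := f) hd h2 ?_
      simp
    have h3 := h1.tendsto_slope
    have h4 : Tendsto (slope (fun ε : ℝ => f (b + (ε : ℂ) * Complex.I)) 0) (𝓝[>] 0)
        (𝓝 (D' * Complex.I)) := h3.mono_left (nhdsWithin_mono _ fun ε hε => ne_of_gt hε)
    refine h4.congr' ?_
    filter_upwards [self_mem_nhdsWithin] with ε hε
    rw [slope_def_module]
    simp only [Complex.ofReal_zero, zero_mul, add_zero, sub_zero]
    rw [Complex.real_smul, Complex.ofReal_inv, div_eq_inv_mul]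
  have hlimR : Tendsto (fun ε : ℝ => (f (b + (ε : ℂ)) - f b) / (ε : ℂ)) (𝓝[>] 0) (𝓝 D') := by
    have h1 : HasDerivAt (fun ε : ℝ => f (b + (ε : ℂ))) D' 0 := by
      have h2 : HasDerivAt (fun ε : ℝ => b + (ε : ℂ)) 1 0 :=
        (Complex.ofRealCLM.hasDerivAt (x := (0 : ℝ))).const_add b
      have := HasDerivAt.comp_of_eq (0 : ℝ) (h₂ := f) hd h2 (by simp)
      rwa [mul_one] at this
    have h3 := h1.tendsto_slope
    have h4 : Tendsto (slope (fun ε : ℝ => f (b + (ε : ℂ))) 0) (𝓝[>] 0) (𝓝 D') :=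
      h3.mono_left (nhdsWithin_mono _ fun ε hε => ne_of_gt hε)
    refine h4.congr' ?_
    filter_upwards [self_mem_nhdsWithin] with ε hε
    rw [slope_def_module]
    simp only [Complex.ofReal_zero, add_zero, sub_zero]
    rw [Complex.real_smul, Complex.ofReal_inv, div_eq_inv_mul]
  have hDim : D'.im = 0 := by
    have h1 : Tendsto (fun ε : ℝ => ((f (b + (ε : ℂ)) - f b) / (ε : ℂ)).im) (𝓝[>] 0) (𝓝 D'.im) :=
      (Complex.continuous_im.tendsto _).comp hlimR
    refine tendsto_nhds_unique h1 (tendsto_const_nhds.congr' ?_)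
    filter_upwards [hseg] with ε hε
    have h2 : b + (ε : ℂ) ∈ ball b ρ := by
      rw [mem_ball, dist_eq_norm, add_sub_cancel_left, Complex.norm_real,
        Real.norm_of_nonneg hε.2.le]
      linarith [hε.1]
    have h3 := hfzero _ h2 (by simp)
    have h4 : (f b).im = 0 := hfzero b hbb rfl
    rw [Complex.div_ofReal_im, Complex.sub_im, h3, h4, sub_zero, zero_div]
  have hnorm : ∀ w : ℂ, 0 < w.im → φ w = v → w.im / (2 * ρ) ≤ D'.re := by
    intro w hw hwv
    have h1 : Tendsto (fun ε : ℝ => ((f (b + (ε : ℂ) * Complex.I) - f b) / (ε : ℂ)).im) (𝓝[>] 0)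
        (𝓝 (D' * Complex.I).im) := (Complex.continuous_im.tendsto _).comp hlimI
    have h2 : (D' * Complex.I).im = D'.re := by simp
    rw [h2] at h1
    refine ge_of_tendsto h1 ?_
    filter_upwards [hseg] with ε hε
    have h3 := hlow w hw hwv ε hε.2 hε.1
    have h4 : (f b).im = 0 := hfzero b hbb rfl
    rw [Complex.div_ofReal_im, Complex.sub_im, h4, sub_zero, le_div_iff₀ hε.2]
    linarith
  obtain ⟨w₀, hw₀, hw₀v⟩ : v ∈ φ '' {z | 0 < z.im} := by rw [hφ.img]; exact hvP
  have hD0 : 0 < D'.re := lt_of_lt_of_le (by have : 0 < w₀.im := hw₀; positivity)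
    (hnorm w₀ hw₀ hw₀v)
  have hDre : D' = ((D'.re : ℝ) : ℂ) := Complex.ext (by simp) (by simp [hDim])
  refine ⟨D'.re, hD0, ?_, hnorm, ?_⟩
  · -- the derivative of `φ`
    rw [hasDerivWithinAt_iff_tendsto_slope]
    have hcont : Tendsto φ (𝓝[{z | 0 ≤ z.im} \ {(x : ℂ)}] (x : ℂ)) (𝓝 b) := by
      have := (hφ.cont x hreal).tendsto
      rw [hx] at this
      exact this.mono_left (nhdsWithin_mono _ sdiff_subset)
    have hne : ∀ᶠ y : ℂ in 𝓝[{z | 0 ≤ z.im} \ {(x : ℂ)}] (x : ℂ), y ≠ (x : ℂ) ∧ φ y ∈ ball b ρ ∧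
        f (φ y) = y ∧ φ y ≠ b := by
      filter_upwards [hcont.eventually (isOpen_ball.mem_nhds hbb), self_mem_nhdsWithin] with y h1 h2
      have h3 : b.im ≤ (φ y).im := (hf.closure h1).1 (isU_mem_closure hφ h2.1)
      obtain ⟨h4, h5⟩ := hfup _ h1 h3
      refine ⟨h2.2, h1, hinj h4 h2.1 h5, fun h6 => h2.2 ?_⟩
      exact hinj h2.1 hreal (h6.trans hx.symm)
    have hcont2 : Tendsto φ (𝓝[{z | 0 ≤ z.im} \ {(x : ℂ)}] (x : ℂ)) (𝓝[≠] b) :=
      tendsto_nhdsWithin_iff.2 ⟨hcont, hne.mono fun y hy => hy.2.2.2⟩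
    have h1 := ((hasDerivAt_iff_tendsto_slope.1 hd).comp hcont2).inv₀ hD'0
    have e1 : ((1 / D'.re : ℝ) : ℂ) = D'⁻¹ := by
      rw [hDre]; push_cast; simp
    rw [e1]
    refine h1.congr' ?_
    filter_upwards [hne] with y hy
    simp only [Function.comp_apply]
    rw [slope_def_field, slope_def_field, hy.2.2.1, hfb, hx, inv_div]
  · intro ha
    have hk := Vale.Agent.P164.koebe_image hρ hfd hfi
    have h0 : (0 : ℂ) ∉ f '' ball b ρ := by
      rintro ⟨z, hz, hz0⟩
      have h1 : z.im = b.im := by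
        rcases lt_trichotomy z.im b.im with h | h | h
        · have := hfneg z hz h
          rw [hz0] at this
          simp at this
        · exact h
        · have := hfpos z hz h
          rw [hz0] at this
          simp at this
      have h2 := (hfup z hz h1.ge).2
      rw [hz0, hφ.zero] at h2
      rw [← h2, mem_ball] at hz
      linarith
    have h1 : (0 : ℂ) ∉ ball (f b) (ρ * ‖deriv f b‖ / 10) := fun h => h0 (hk h)
    rw [mem_ball, not_lt, hfb, dist_comm, dist_zero_right, Complex.norm_real, Real.norm_eq_abs,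
      ← hD'] at h1
    have h2 : ‖D'‖ = D'.re := by
      rw [hDre, Complex.norm_real, Real.norm_of_nonneg hD0.le]; simp
    rw [h2] at h1
    rw [le_div_iff₀ hρ]
    linarith

end Vale.Agent.P167.H756
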