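import Vale.Agent.P167.H756.Q1
import Vale.Agent.P167.QE.Expn

/-!
# P167, general `q`, block CM: the ratio for two marked points on the free arc

`QPos P a p c d u v` : `u = x_c / x_d`, `v = D / (x_d - x_c)`, where `φ` is a uniformizer of
`(P; a, p)`, `φ x_c = c`, `φ x_d = d`, `D = (φ⁻¹)' (d)`.
-/

set_option autoImplicit false
set_option linter.unusedVariables false

open Set Topology Metric MeasureTheory Filter Bornology
open scoped ENNReal Real ComplexConjugate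

namespace Vale.Agent.P167.H756

open Vale.Agent.P153.R2.R1 Vale.Agent.P153.R2.OBSV Vale.Agent.P167.H174
open Vale.Agent.P153.R2.L1 (HH IsHydro inv mem_HH isOpen_HH convex_HH)
open Vale.Agent.P164 (loewnerDomain gf Zf IsLoewnerSol)
open Vale.Agent.P153.BESS (CSol RSol)
open Vale.Agent.P167.H411 (ldv obsF obsY exists_csol exists_rsol csol_unique)
open Vale.Agent.P167.H947 (surv flow flow_eq flow_conj flow_inj flow_gf surv_inter isOpen_surv
  differentiableOn_flow hasDerivAt_flow_real flow_rsol)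

/-- The conformal quantities of a polygon with the marks `p` (`∞`), `a` (`0`), `c`, `d`. -/
def QPos (P : Set ℂ) (a p c d : ℂ) (u v : ℝ) : Prop :=
  ∃ (φ : ℂ → ℂ) (xc xd D : ℝ), IsU φ P a p ∧ 0 < xc ∧ xc < xd ∧ 0 < D ∧ φ xc = c ∧ φ xd = d ∧
    HasDerivWithinAt φ ((1 / D : ℝ) : ℂ) {z | 0 ≤ z.im} xd ∧ u = xc / xd ∧ v = D / (xd - xc)

theorem QPos.pos {P : Set ℂ} {a p c d : ℂ} {u v : ℝ} (h : QPos P a p c d u v) : 0 < u ∧ 0 < v := by
  obtain ⟨φ, xc, xd, D, -, h1, h2, h3, -, -, -, rfl, rfl⟩ := h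
  have : 0 < xd - xc := by linarith
  have : 0 < xd := by linarith
  constructor <;> positivity

/-- The quantities do not depend on the uniformizer. -/
theorem QPos.transfer {P : Set ℂ} (hP : NoCut P) {a p c d : ℂ} {u v : ℝ}
    (h : QPos P a p c d u v) {φ : ℂ → ℂ} (hφ : IsU φ P a p) :
    ∃ xc xd D : ℝ, 0 < xc ∧ xc < xd ∧ 0 < D ∧ φ xc = c ∧ φ xd = d ∧
      HasDerivWithinAt φ ((1 / D : ℝ) : ℂ) {z | 0 ≤ z.im} xd ∧ u = xc / xd ∧
      v = D / (xd - xc) := by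
  obtain ⟨φ', xc, xd, D, hφ', h1, h2, h3, h4, h5, h6, rfl, rfl⟩ := h
  obtain ⟨s, hs, hsc⟩ := isU_scale hP hφ' hφ
  have hsc0 : (s : ℂ) ≠ 0 := by exact_mod_cast hs.ne'
  have e1 : ∀ x : ℝ, (s : ℂ) * ((x / s : ℝ) : ℂ) = x := fun x => by
    push_cast; field_simp
  have hd0 : 0 < xd := by linarith
  refine ⟨xc / s, xd / s, D / s, by positivity, by gcongr, by positivity, ?_, ?_, ?_, ?_, ?_⟩
  · rw [hsc _ (by simp), e1]; exact h4
  · rw [hsc _ (by simp), e1]; exact h5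
  · have h7 : HasDerivWithinAt (fun z : ℂ => (s : ℂ) * z) (s : ℂ) {z : ℂ | 0 ≤ z.im}
        ((xd / s : ℝ) : ℂ) := by
      simpa using ((hasDerivAt_id (((xd / s : ℝ)) : ℂ)).const_mul (s : ℂ)).hasDerivWithinAt
    have h8 : HasDerivWithinAt φ' ((1 / D : ℝ) : ℂ) {z | 0 ≤ z.im}
        ((s : ℂ) * ((xd / s : ℝ) : ℂ)) := by rw [e1]; exact h6
    have h9 := h8.comp (((xd / s : ℝ)) : ℂ) h7 (s' := {z : ℂ | 0 ≤ z.im}) (fun z hz => by
      show 0 ≤ ((s : ℂ) * z).im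
      rw [Complex.im_ofReal_mul]
      exact mul_nonneg hs.le hz)
    have e2 : ((1 / (D / s) : ℝ) : ℂ) = ((1 / D : ℝ) : ℂ) * s := by
      have hD : (D : ℂ) ≠ 0 := by exact_mod_cast h3.ne'
      push_cast
      field_simp
    rw [e2]
    refine h9.congr (fun z hz => ?_) ?_
    · exact hsc z hz
    · exact hsc _ (by simp)
  · field_simp
  · have : xd - xc ≠ 0 := by linarith
    have e3 : xd / s - xc / s = (xd - xc) / s := by ring
    rw [e3]
    field_simp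

/-- The condition near `X` in the coordinates of the slit domain. -/
theorem mark_near {T R : ℝ} {W : ℝ → ℝ} {t : ℝ} (H : Drv T R W t) {X : ℝ} (hX0 : 0 < X)
    (hX : 8 * R ≤ X) (hX2 : 64 * T ≤ X ^ 2) {X₁ : ℝ} (hX₁ : flow W t X - W t = X₁) {ψ : ℂ → ℂ}
    {P : Set ℂ} {b : ℂ} {h ε : ℝ} (h1 : h ≤ X / 8) (h2 : 32 * h ≤ ε)
    (hbm : b ∈ closure (P ∩ ψ '' {z | z ∈ HH ∧ ‖z - X‖ < h})) :
    Mark (FD ψ W t) P b (mb 1 Complex.I X₁) ε := by
  have hI : 0 < Complex.I.im := by simp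
  have habs : |X| = X := abs_of_pos hX0
  have htr := trans_FD H ψ hX0.ne' (by rw [habs]; exact hX) hX2
  obtain ⟨-, hlip⟩ := lip_of_bdd (f := fun z => flow W t z - W t) (x := (X : ℂ)) (ρ := X / 4)
    (s := X / 4) (B := 2 * |X|) (by positivity)
    (htr.diff.mono (ball_subset_ball (by rw [habs]; linarith)))
    (fun z hz => htr.bdd z (ball_subset_ball (by rw [habs]; linarith) hz))
  have hXb : (X : ℂ) ∈ ball (X : ℂ) (X / 4) := mem_ball_self (by positivity)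
  refine closure_mono (inter_subset_inter_right _ ?_) hbm
  rintro _ ⟨z, ⟨hz, hzn⟩, rfl⟩
  have hz8 : ‖z - X‖ < X / 8 := hzn.trans_le h1
  have hzb : z ∈ ball (X : ℂ) (X / 4) := by rw [mem_ball, dist_eq_norm]; linarith
  have hzX : X / 2 ≤ ‖z‖ := by
    have e : ‖(X : ℂ)‖ = X := by rw [Complex.norm_real, Real.norm_eq_abs, habs]
    have h1 : ‖(X : ℂ)‖ ≤ ‖z‖ + ‖z - X‖ := by
      have e2 : (X : ℂ) = z - (z - X) := by ring
      calc ‖(X : ℂ)‖ = ‖z - (z - X)‖ := by rw [← e2]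
        _ ≤ _ := norm_sub_le _ _
    rw [e] at h1
    linarith
  have hz2 : (X / 2) ^ 2 ≤ ‖z‖ ^ 2 := by gcongr
  rw [div_pow] at hz2
  have hdom : z ∈ loewnerDomain W t := H.dom hz (by linarith) (by linarith)
  have hzi := Vale.Agent.P164.Zf_im_pos H.nn hdom
  refine ⟨mb 1 Complex.I (Zf W z t), ⟨?_, ?_⟩, FD_mb H ψ hdom⟩
  · rw [mem_ball_zero_iff]; exact norm_mb_lt norm_one hI hzi
  · rw [mem_ball]
    refine (dist_mb_mb hzi.le (by simp)).trans_lt ?_
    have h3 := hlip X hXb z hzb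
    rw [hX₁] at h3
    have e3 : Zf W z t = flow W t z - W t := by
      rw [flow_gf H.nn H.cont.continuousOn hdom, Vale.Agent.P164.Zf_eq]
    rw [e3]
    have h4 : 2 * |X| / (X / 4 / 2) = 16 := by
      rw [habs]; field_simp; norm_num
    rw [h4] at h3
    linarith

end Vale.Agent.P167.H756
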