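import Vale.Agent.P167.H756.S22

/-!
# P167, general `q`, sandwich closeness (23): the Euclidean forms

* `pcT` : from `PF` to `PC` for all translates at once;
* `sandE`, `intE` : `sandT`, `intT` with the Euclidean conditions `PF`.
-/

set_option autoImplicit false
set_option linter.unusedVariables false

open Set Topology Metric MeasureTheory Filter Bornology
open scoped ENNReal Real ComplexConjugate

namespace Vale.Agent.P167.H756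

open Vale.Agent.P153.R2.R1 Vale.Agent.P153.R2.OBSV Vale.Agent.P167.H174
open Vale.Agent.P153.R2.L1 (HH IsHydro inv mem_HH isOpen_HH convex_HH)
open Vale.Agent.P164 (loewnerDomain gf Zf IsLoewnerSol)
open Vale.Agent.P167.QE (obsQ obsQ_eq)

variable {ι : Type*} {l : Filter ι} {ψn : ι → ℂ → ℂ} {Dn : ι → Set ℂ} {an bn : ι → ℂ}

/-- **From the Euclidean form `PF` to `PC`, uniformly in the translation `β`.** -/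
theorem pcT (S : SeqF l ψn Dn an bn) {s : ℂ} (hs : s ≠ 0) {T R Y Rb h : ℝ} (hT : 0 ≤ T)
    (hR : 0 ≤ R) (hY0 : 0 < Y) (hY : 8 * R ≤ Y) (hY2 : 64 * T ≤ Y ^ 2) (hh : 0 < h) :
    ∃ h' > 0, ∀ᶠ n in l, ∀ (β : ℂ) (W : ℝ → ℝ) (t : ℝ), Drv T R W t →
      ∀ (Q P : Set ℂ) (a : ℂ), PF h' (fun z => s * ψn n z + β) W t Y Rb Q P a →
        PC h (fun z => s * ψn n z + β) W t Y Rb Q P a := by
  obtain ⟨Rd, hRd, cd, hcd, hev⟩ := (S.aff hs).hconf Y hY0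
  obtain ⟨h', hh', hp⟩ := PC_of_PF (T := T) (R := R) (Rb := Rb) hT hR hRd hcd hY0 hY hY2 hh
  refine ⟨h', hh', ?_⟩
  rw [eventually_prod_principal_iff] at hev
  exact hev.mono fun n hn β W t H Q P a => hp _ (hn β (mem_univ β)) W t H Q P a

theorem PF.mono {h h' : ℝ} {ψ : ℂ → ℂ} {W : ℝ → ℝ} {t Y Rb : ℝ} {Q P : Set ℂ} {a : ℂ}
    (H : PF h ψ W t Y Rb Q P a) (hh : h ≤ h') : PF h' ψ W t Y Rb Q P a :=
  { H with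
    innerD := H.innerD.mono hh
    collarD := H.collarD.mono hh
    innerP := H.innerP.mono hh
    collarP := H.collarP.mono hh
    mark_a := by
      obtain ⟨C, h1, h2, h3, h4, h5⟩ := H.mark_a
      refine ⟨C, h1, h2, h3, fun u hu v hv => (h4 u hu v hv).trans hh, h5.mono ?_⟩
      refine inter_subset_inter_right _ (inter_subset_inter_right _ (image_mono ?_))
      exact fun z hz => ⟨hz.1, hz.2.trans_le hh⟩ }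

/-- **`sandT` with the Euclidean conditions.** -/
theorem sandE (S : SeqF l ψn Dn an bn) {s : ℂ} (hs : s ≠ 0) {T R X e h ε : ℝ} (hT : 0 ≤ T)
    (hR : 0 ≤ R) (hX0 : 0 < X) (hX : 8 * R ≤ X) (hX2 : 256 * T ≤ X ^ 2) (hε : 0 < ε) :
    ∃ X₀ : ℝ, 16 * X ≤ X₀ ∧ ∀ X' : ℝ, X₀ ≤ X' → ∀ Y Rb m : ℝ, 0 ≤ Rb → 0 < m →
      0 < Y → 8 * R ≤ Y → 64 * T ≤ Y ^ 2 →
    ∃ h₀ > 0, ∀ᶠ n in l, ∀ (β : ℂ) (W₀ W : ℝ → ℝ) (t : ℝ), Drv T R W₀ 0 → W₀ 0 = 0 →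
      Drv T R W t → ∀ (Q₀ P₀ Q₁ P₁ : Set ℂ) (a₀ p₀ a₁ p₁ c d : ℂ),
      PF h₀ (fun z => s * ψn n z + β) W₀ 0 Y Rb Q₀ P₀ a₀ →
      PF h₀ (fun z => s * ψn n z + β) W t Y Rb Q₁ P₁ a₁ →
      FlatAt P₀ c m → FlatAt P₀ d m → FlatAt P₀ p₀ m → FlatAt P₁ c m → FlatAt P₁ d m →
      FlatAt P₁ p₁ m → ‖c - (s * ψn n X + β)‖ ≤ h₀ → ‖d - (s * ψn n X' + β)‖ ≤ h₀ →
      ‖p₀ - (s * bn n + β)‖ ≤ h₀ → ‖p₁ - (s * bn n + β)‖ ≤ h₀ →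
      ∀ (ν : ℂ) (u₀ v₀ u₁ v₁ : ℝ), ν ≠ 0 → QPosL ν P₀ a₀ p₀ c d u₀ v₀ →
        QPosL ν P₁ a₁ p₁ c d u₁ v₁ →
        |(u₁ ^ e * v₁ ^ h) / (u₀ ^ e * v₀ ^ h) - obsQ e W X t| ≤ ε := by
  obtain ⟨X₀, hX₀, hst⟩ := sandT (e := e) (h := h) S hs hT hR hX0 hX hX2 hε
  refine ⟨X₀, hX₀, fun X' hX' Y Rb m hRb hm hY0 hY hY2 => ?_⟩
  obtain ⟨h₀, hh₀, hev⟩ := hst X' hX' Y Rb m hRb hm hY0 hY hY2
  obtain ⟨h₁, hh₁, hev'⟩ := pcT (Rb := Rb) S hs hT hR hY0 hY hY2 hh₀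
  refine ⟨min h₀ h₁, lt_min hh₀ hh₁, ?_⟩
  filter_upwards [hev, hev'] with n hn hn' β W₀ W t H₀ hW H Q₀ P₀ Q₁ P₁ a₀ p₀ a₁ p₁ c d hp hq
    f1 f2 f3 f4 f5 f6 g1 g2 g3 g4
  exact hn β W₀ W t H₀ hW H Q₀ P₀ Q₁ P₁ a₀ p₀ a₁ p₁ c d
    (hn' β W₀ 0 H₀ Q₀ P₀ a₀ (hp.mono (min_le_right _ _)))
    (hn' β W t H Q₁ P₁ a₁ (hq.mono (min_le_right _ _))) f1 f2 f3 f4 f5 f6
    (g1.trans (min_le_left _ _)) (g2.trans (min_le_left _ _)) (g3.trans (min_le_left _ _))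
    (g4.trans (min_le_left _ _))

theorem MarkP.mono {h h' : ℝ} (hh0 : 0 < h) {ψ : ℂ → ℂ} {W : ℝ → ℝ} {t : ℝ} {Q P : Set ℂ} {p : ℂ}
    (H : MarkP h ψ W t Q P p) (hh : h ≤ h') : MarkP h' ψ W t Q P p := by
  obtain ⟨C, h1, h2, h3, h4, h5⟩ := H
  refine ⟨C, h1, h2, h3, fun u hu v hv => (h4 u hu v hv).trans hh, h5.mono ?_⟩
  refine inter_subset_inter_right _ (inter_subset_inter_right _ (image_mono ?_))
  exact fun z hz => ⟨hz.1, lt_of_le_of_lt (inv_anti₀ hh0 hh) hz.2⟩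

/-- **`intT` with the Euclidean conditions.** -/
theorem intE (S : SeqF l ψn Dn an bn) {s : ℂ} (hs : s ≠ 0) {T R Y Rb y₀ M κ : ℝ} (hT : 0 ≤ T)
    (hR : 0 ≤ R) (hRb : 0 ≤ Rb) (hY0 : 0 < Y) (hY : 8 * R ≤ Y) (hY2 : 64 * T ≤ Y ^ 2)
    (hM : 0 ≤ M) (hy₀ : 0 < y₀) (hκ : 0 < κ) :
    ∃ h > 0, ∀ᶠ n in l, ∀ (β : ℂ) (W : ℝ → ℝ) (t : ℝ), Drv T R W t →
      ∀ (Q P : Set ℂ) (a p : ℂ), PF h (fun z => s * ψn n z + β) W t Y Rb Q P a →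
      p ∈ frontier P → MarkP h (fun z => s * ψn n z + β) W t Q P p →
      ∃ φ : ℂ → ℂ, IsU φ P a p ∧ InjOn φ {z | 0 ≤ z.im} ∧
        ∀ z ∈ loewnerDomain W t, y₀ ≤ (Zf W z t).im → ‖Zf W z t‖ ≤ M →
          s * ψn n z + β ∈ Q ∧ ∃ w : ℂ, 0 < w.im ∧ φ w = s * ψn n z + β ∧
            ‖w - Zf W z t‖ ≤ κ := by
  obtain ⟨h₀, hh₀, hev⟩ := intT (Rb := Rb) S hs hT hR hRb hY0 hY hY2 hM hy₀ hκ
  obtain ⟨h₁, hh₁, hev'⟩ := pcT (Rb := Rb) S hs hT hR hY0 hY hY2 hh₀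
  have hm : 0 < min h₀ h₁ := lt_min hh₀ hh₁
  refine ⟨min h₀ h₁, hm, ?_⟩
  filter_upwards [hev, hev'] with n hn hn' β W t H Q P a p hP hpf hpm
  exact hn β W t H Q P a p (hn' β W t H Q P a (hP.mono (min_le_right _ _))) hpf
    (hpm.mono hm (min_le_left _ _))

end Vale.Agent.P167.H756
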