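import Vale.Agent.P167.H756.S7

/-!
# P167, general `q`, sandwich closeness (8): domains which are flat near the target

* `deepInn` : points at a positive distance of the real line are in the inner polygon;
* `PF` : `PO` without the mark `p`; `PF.toPO` : the target `p = b` for polygons which agree with the
  domain `D₀ = ψ '' HH` near `b`;
* `flatO_of` : the condition `FlatO` for these polygons;
* `sandF` : the ratio of the observables for these polygons.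
-/

set_option autoImplicit false
set_option linter.unusedVariables false

open Set Topology Metric MeasureTheory Filter Bornology
open scoped ENNReal Real ComplexConjugate

namespace Vale.Agent.P167.H756

open Vale.Agent.P153.R2.R1 Vale.Agent.P153.R2.OBSV Vale.Agent.P167.H174
open Vale.Agent.P153.R2.L1 (HH IsHydro inv mem_HH isOpen_HH convex_HH)
open Vale.Agent.P164 (loewnerDomain gf Zf IsLoewnerSol)
open Vale.Agent.P167.H947 (surv flow flow_eq flow_conj flow_inj flow_gf surv_inter isOpen_surv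
  differentiableOn_flow hasDerivAt_flow_real flow_rsol)
open Vale.Agent.P167.QE (obsQ obsQ_eq)

variable {T R : ℝ} {W : ℝ → ℝ} {t : ℝ}

/-- The points at a positive distance of the real line are in the inner polygon. -/
theorem deepInn {Y Rd cd m M y₀ : ℝ} (hT : 0 ≤ T) (hR : 0 ≤ R) (hRd : 0 < Rd) (hcd : 0 < cd)
    (hY0 : 0 < Y) (hY : 8 * R ≤ Y) (hY2 : 64 * T ≤ Y ^ 2) (hm0 : 0 < m) (hm : 4 * R ≤ m)
    (hm2 : 16 * T ≤ m ^ 2) (hM : 0 ≤ M) (hy₀ : 0 < y₀) :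
    ∃ h > 0, ∀ ψ : ℂ → ℂ, HConf Rd cd Y ψ → ∀ (W : ℝ → ℝ) (t : ℝ), Drv T R W t →
      ∀ Q : Set ℂ, Inner (ψ '' loewnerDomain W t) Q (ψ (Y * Complex.I)) h →
      ∀ z : ℂ, y₀ ≤ z.im → m ≤ ‖z‖ → ‖z‖ ≤ M → ψ z ∈ Q := by
  have hI : 0 < Complex.I.im := by simp
  obtain ⟨c, hc, hcls⟩ := cls_FD (T := T) (R := R) hRd hcd hY0 hY hY2
  set ρ₀ : ℝ := √(1 - 4 * (3 * Y / 4) / (1 + 2 * Y) ^ 2) with hρ₀d
  have hρ₀ : ρ₀ < 1 := by
    rw [hρ₀d, Real.sqrt_lt' one_pos, one_pow, sub_lt_self_iff]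
    positivity
  set y₁ : ℝ := y₀ * Real.exp (-1) with hy₁
  have hy₁0 : 0 < y₁ := by positivity
  set M₁ : ℝ := 5 / 4 * M + R with hM₁
  set ρ₁ : ℝ := max ρ₀ √(1 - 4 * y₁ / (1 + M₁) ^ 2) with hρ₁
  have hρ₁1 : ρ₁ < 1 := by
    refine max_lt hρ₀ ?_
    rw [Real.sqrt_lt' one_pos, one_pow, sub_lt_self_iff]
    positivity
  obtain ⟨h₃, hh₃, hins⟩ := Cls.inside (R := Rd) (c := c) hRd hc hρ₁1
  refine ⟨h₃, hh₃, ?_⟩
  intro ψ hψ W t H Q hQ z hzi hzm hzM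
  have hC := hcls ψ hψ W t H
  obtain ⟨hd, h1, h2, h3⟩ := H.base hY0 hY hY2
  have hbase : FD ψ W t (mb 1 Complex.I (Zf W (Y * Complex.I) t)) = ψ (Y * Complex.I) :=
    FD_mb H ψ hd
  have hnorm : ∀ w : ℂ, ‖mb 1 Complex.I w‖ = ‖mb 1 w Complex.I‖ := by
    intro w
    rw [norm_mb norm_one, norm_mb norm_one, norm_sub_rev, Complex.conj_I]
    congr 1
    rw [← RCLike.norm_conj (Complex.I - _), map_sub, Complex.conj_conj, Complex.conj_I,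
      ← norm_neg]
    congr 1
    ring
  have hb0 : mb 1 Complex.I (Zf W (Y * Complex.I) t) ∈ closedBall (0 : ℂ) ρ₁ := by
    rw [mem_closedBall_zero_iff, hnorm]
    exact (norm_mb_le (by positivity) h1 h2).trans (le_max_left _ _)
  have hz0 : 0 < z.im := lt_of_lt_of_le hy₀ hzi
  have hzn0 : 0 < ‖z‖ := lt_of_lt_of_le hm0 hzm
  have h3 : m ^ 2 ≤ ‖z‖ ^ 2 := by gcongr
  have h4 := H.far hzn0 (by linarith) (by linarith)
  have hzd : z ∈ loewnerDomain W t := H.dom hz0 (by linarith) (by linarith)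
  have e3 : Zf W z t = flow W t z - W t := by
    rw [flow_gf H.nn H.cont.continuousOn hzd, Vale.Agent.P164.Zf_eq]
  have him : y₁ ≤ (Zf W z t).im := by
    refine le_trans ?_ (H.im_ge hz0 (by linarith) (by linarith))
    rw [hy₁]
    gcongr
  have hno : ‖Zf W z t‖ ≤ M₁ := by
    rw [e3]
    have h6 := H.bdd t ⟨H.nn, le_rfl⟩
    calc ‖flow W t z - W t‖ = ‖(flow W t z - z) + z - W t‖ := by congr 1; ring
      _ ≤ ‖flow W t z - z‖ + ‖z‖ + ‖(W t : ℂ)‖ :=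
        (norm_sub_le _ _).trans (by gcongr; exact norm_add_le _ _)
      _ ≤ ‖z‖ / 4 + ‖z‖ + R := by
        rw [Complex.norm_real, Real.norm_eq_abs]
        gcongr
        exact h4.2.2.1
      _ ≤ M₁ := by rw [hM₁]; linarith
  have hw : mb 1 Complex.I (Zf W z t) ∈ closedBall (0 : ℂ) ρ₁ := by
    rw [mem_closedBall_zero_iff, hnorm]
    exact (norm_mb_le (by positivity) him hno).trans (le_max_right _ _)
  rw [← FD_mb H ψ hzd]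
  refine hQ (FD ψ W t '' closedBall 0 ρ₁) ?_ ?_ ?_ (mem_image_of_mem _ hw)
  · exact (convex_closedBall (0 : ℂ) ρ₁).isPreconnected.image _
      (hC.diff.continuousOn.mono (closedBall_subset_ball hρ₁1))
  · rw [← hbase]; exact mem_image_of_mem _ hb0
  · rintro _ ⟨w, hw, rfl⟩
    rw [← FD_img H]
    exact hins _ hC w hw

/-- `PO` without the mark `p`. -/
structure PF (h : ℝ) (ψ : ℂ → ℂ) (W : ℝ → ℝ) (t Y Rb : ℝ) (Q P : Set ℂ) (a : ℂ) : Prop where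
  goodQ : Good Q
  good : Good P
  subD : Q ⊆ ψ '' loewnerDomain W t
  subP : Q ⊆ P
  bdd : ∀ z ∈ P, ‖z - ψ (Y * Complex.I)‖ ≤ Rb
  innerD : Inner (ψ '' loewnerDomain W t) Q (ψ (Y * Complex.I)) h
  collarD : Collar (ψ '' loewnerDomain W t) Q h
  innerP : Inner P Q (ψ (Y * Complex.I)) h
  collarP : Collar P Q h
  mem_a : a ∈ frontier P
  mark_a : ∃ C ⊆ P, IsPreconnected C ∧ a ∈ closure C ∧ (∀ u ∈ C, ∀ v ∈ C, dist u v ≤ h) ∧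
    (C ∩ (Q ∩ ψ '' {z | z ∈ loewnerDomain W t ∧ ‖Zf W z t‖ < h})).Nonempty

/-- The target of a uniformizer is not in the domain. -/
theorem tgt_notMem {ψ : ℂ → ℂ} {D₀ : Set ℂ} {a b : ℂ} (hψ : IsU ψ D₀ a b) (hn : NoCut D₀) :
    b ∉ D₀ := by
  intro hb
  rw [← hψ.img] at hb
  obtain ⟨z, hz, hzb⟩ := hb
  exact (hψ.injOn hn).2 z (le_of_lt hz) hzb

/-- The path `s ↦ ψ (i s)` joins the target to the inner polygon. -/
theorem mark_pO {Y Rd cd h M₁ : ℝ} (hT : 0 ≤ T) (hR : 0 ≤ R) (hRd : 0 < Rd) (hcd : 0 < cd)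
    (hY0 : 0 < Y) (hY : 8 * R ≤ Y) (hY2 : 64 * T ≤ Y ^ 2) (hh : 0 < h) (X : ℝ) :
    ∃ h' > 0, h' ≤ h ∧ ∀ ψ : ℂ → ℂ, HConf Rd cd Y ψ → ∀ (W : ℝ → ℝ) (t : ℝ), Drv T R W t →
      ∀ (D₀ : Set ℂ) (a b : ℂ), IsU ψ D₀ a b →
      (∀ z : ℂ, 0 ≤ z.im → M₁ ≤ ‖z‖ → ‖ψ z - b‖ ≤ h / 2) →
      ∀ ρ : ℝ, (∀ z : ℂ, 0 ≤ z.im → X ≤ ‖z‖ → ‖ψ z - b‖ < ρ) →
      ∀ Q P : Set ℂ, Inner (ψ '' loewnerDomain W t) Q (ψ (Y * Complex.I)) h' →
      (∀ z ∈ ball b ρ, z ∈ D₀ → z ∈ P) →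
      ∃ C ⊆ P, IsPreconnected C ∧ b ∈ closure C ∧ (∀ u ∈ C, ∀ v ∈ C, dist u v ≤ h) ∧
        (C ∩ (Q ∩ ψ '' {z | z ∈ loewnerDomain W t ∧ h⁻¹ < ‖z‖})).Nonempty := by
  set s : ℝ := |X| + |M₁| + h⁻¹ + 1 + 4 * R + 16 * T with hs
  have hX := le_abs_self X
  have hX' := abs_nonneg X
  have hM := le_abs_self M₁
  have hM' := abs_nonneg M₁
  have hhi : 0 < h⁻¹ := inv_pos.2 hh
  have hs1 : 1 ≤ s := by linarith
  have hs0 : 0 < s := by linarith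
  have hsq : s ≤ s ^ 2 := by nlinarith
  obtain ⟨h₁, hh₁, hdeep⟩ := deepInn (T := T) (R := R) (Rd := Rd) (cd := cd) (m := s) (M := s)
    (y₀ := s) hT hR hRd hcd hY0 hY hY2 hs0 (by linarith) (by linarith) hs0.le hs0
  refine ⟨min h₁ h, by positivity, min_le_right _ _, ?_⟩
  intro ψ hψ W t H D₀ a b hU hmod ρ hρ Q P hQ hP
  set C : Set ℂ := (fun x : ℝ => ψ (x * Complex.I)) '' Ici s with hC
  have him : ∀ x : ℝ, s ≤ x → 0 < ((x : ℂ) * Complex.I).im := fun x hx => by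
    rw [im_mulI]; linarith
  have hno : ∀ x : ℝ, s ≤ x → ‖(x : ℂ) * Complex.I‖ = x := fun x hx => norm_mulI (by linarith)
  have hcl : ∀ u ∈ C, ‖u - b‖ ≤ h / 2 := by
    rintro _ ⟨x, hx, rfl⟩
    exact hmod _ (him x hx).le (by rw [hno x hx]; have : s ≤ x := hx; linarith)
  refine ⟨C, ?_, ?_, ?_, ?_, ?_⟩
  · rintro _ ⟨x, hx, rfl⟩
    refine hP _ ?_ ?_
    · rw [mem_ball, dist_eq_norm]
      exact hρ _ (him x hx).le (by rw [hno x hx]; have : s ≤ x := hx; linarith)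
    · rw [← hU.img]
      exact mem_image_of_mem _ (him x hx)
  · refine (isPreconnected_Ici).image _ ?_
    intro x hx
    have h1 : ContinuousAt ψ ((x : ℂ) * Complex.I) :=
      (hψ.diff.differentiableAt (isOpen_HH.mem_nhds (him x hx))).continuousAt
    have h2 : ContinuousAt (fun x : ℝ => (x : ℂ) * Complex.I) x := by fun_prop
    exact (ContinuousAt.comp (g := ψ) (f := fun x : ℝ => (x : ℂ) * Complex.I) h1 h2).continuousWithinAt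
  · have h1 : Tendsto (fun x : ℝ => (x : ℂ) * Complex.I) atTop
        (cobounded ℂ ⊓ 𝓟 {z | 0 ≤ z.im}) := by
      refine tendsto_inf.2 ⟨?_, ?_⟩
      · rw [← tendsto_norm_atTop_iff_cobounded]
        refine tendsto_id.congr' ?_
        filter_upwards [eventually_ge_atTop s] with x hx
        rw [hno x hx]; rfl
      · rw [tendsto_principal]
        filter_upwards [eventually_ge_atTop s] with x hx
        exact (him x hx).le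
    refine mem_closure_of_tendsto (hU.infty.comp h1) ?_
    filter_upwards [eventually_ge_atTop s] with x hx
    exact ⟨x, hx, rfl⟩
  · intro u hu v hv
    have h1 := hcl u hu
    have h2 := hcl v hv
    rw [dist_eq_norm]
    calc ‖u - v‖ = ‖(u - b) - (v - b)‖ := by congr 1; ring
      _ ≤ _ := norm_sub_le _ _
      _ ≤ h := by linarith
  · refine ⟨ψ (s * Complex.I), ⟨s, self_mem_Ici, rfl⟩, ?_, (s : ℂ) * Complex.I, ⟨?_, ?_⟩, rfl⟩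
    · exact hdeep ψ hψ W t H Q (hQ.mono (min_le_left _ _)) _ (by rw [im_mulI])
        (by rw [hno s le_rfl]) (by rw [hno s le_rfl])
    · exact H.dom (him s le_rfl) (by rw [hno s le_rfl]; linarith) (by rw [hno s le_rfl]; linarith)
    · rw [hno s le_rfl]; linarith

/-- The target `b` for polygons which agree with the domain near `b`. -/
theorem PF.toPO {Y Rd cd Rb h M₁ : ℝ} (hT : 0 ≤ T) (hR : 0 ≤ R) (hRd : 0 < Rd) (hcd : 0 < cd)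
    (hY0 : 0 < Y) (hY : 8 * R ≤ Y) (hY2 : 64 * T ≤ Y ^ 2) (hh : 0 < h) (X : ℝ) :
    ∃ h' > 0, h' ≤ h ∧ ∀ ψ : ℂ → ℂ, HConf Rd cd Y ψ → ∀ (W : ℝ → ℝ) (t : ℝ), Drv T R W t →
      ∀ (D₀ : Set ℂ) (a b : ℂ), IsU ψ D₀ a b → NoCut D₀ →
      (∀ z : ℂ, 0 ≤ z.im → M₁ ≤ ‖z‖ → ‖ψ z - b‖ ≤ h / 2) →
      ∀ ρ : ℝ, (∀ z : ℂ, 0 ≤ z.im → X ≤ ‖z‖ → ‖ψ z - b‖ < ρ) →
      ∀ (Q P : Set ℂ) (a' : ℂ), PF h' ψ W t Y Rb Q P a' → (∀ z ∈ ball b ρ, z ∈ P ↔ z ∈ D₀) →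
      PO h ψ W t Y Rb Q P a' b := by
  obtain ⟨h', hh', hle, hm⟩ := mark_pO (T := T) (R := R) (M₁ := M₁) hT hR hRd hcd hY0 hY hY2 hh X
  refine ⟨h', hh', hle, ?_⟩
  intro ψ hψ W t H D₀ a b hU hn hmod ρ hρ Q P a' hP hag
  have hρ0 : 0 < ρ := by
    have h1 := hρ ((|X| : ℝ) * Complex.I) (by rw [im_mulI]; exact abs_nonneg X) (by
      rw [norm_mul, Complex.norm_I, mul_one, Complex.norm_real, Real.norm_of_nonneg (abs_nonneg X)]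
      exact le_abs_self X)
    exact lt_of_le_of_lt (norm_nonneg _) h1
  have hmark := hm ψ hψ W t H D₀ a b hU hmod ρ hρ Q P hP.innerD fun z hz hz2 => (hag z hz).2 hz2
  refine ⟨hP.goodQ, hP.good, hP.subD, hP.subP, hP.bdd, hP.innerD.mono hle, hP.collarD.mono hle,
    hP.innerP.mono hle, hP.collarP.mono hle, hP.mem_a, ?_, ?_, hmark⟩
  · obtain ⟨C, h1, h2, h3, -⟩ := hmark
    rw [hP.good.isOpen.frontier_eq]
    refine ⟨closure_mono h1 h3, fun hb => ?_⟩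
    exact tgt_notMem hU hn ((hag b (mem_ball_self hρ0)).1 hb)
  · obtain ⟨C, h1, h2, h3, h4, h5⟩ := hP.mark_a
    refine ⟨C, h1, h2, h3, fun u hu v hv => (h4 u hu v hv).trans hle, h5.mono ?_⟩
    refine inter_subset_inter_right _ (inter_subset_inter_right _ (image_mono ?_))
    exact fun z hz => ⟨hz.1, hz.2.trans_le hle⟩

/-- The condition `FlatO` for polygons which agree with the domain near the target. -/
theorem flatO_of {ψ : ℂ → ℂ} {D₀ P : Set ℂ} {a b : ℂ} (hU : IsU ψ D₀ a b) (hn : NoCut D₀)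
    {X X' ρ : ℝ} (hX : 0 < X) (hXX : X ≤ X')
    (hρ : ∀ z : ℂ, 0 ≤ z.im → X / 2 ≤ ‖z‖ → ‖ψ z - b‖ < ρ)
    (hag : ∀ z ∈ ball b ρ, z ∈ P ↔ z ∈ D₀) : FlatO ψ X X' P b := by
  have hnear : ∀ z ∈ ball (X : ℂ) (X / 4) ∪ ball (X' : ℂ) (X' / 4), X / 2 ≤ ‖z‖ := by
    rintro z (hz | hz)
    · exact (nearNorm hX hz).1
    · have := (nearNorm (hX.trans_le hXX) hz).1
      linarith
  have hb : ∀ z ∈ ball (X : ℂ) (X / 4) ∪ ball (X' : ℂ) (X' / 4), 0 ≤ z.im → ψ z ∈ ball b ρ := by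
    intro z hz h0
    rw [mem_ball, dist_eq_norm]
    exact hρ z h0 (hnear z hz)
  refine ⟨fun z hz h0 => ?_, fun z hz h0 => ⟨fun hP => ?_, (hU.injOn hn).2 z h0.ge⟩⟩
  · refine (hag _ (hb z hz h0.le)).2 ?_
    rw [← hU.img]
    exact mem_image_of_mem _ h0
  · exact IsU.notMem hU h0 ((hag _ (hb z hz h0.ge)).1 hP)

/-- **The ratio of the observables of two polygons of the sandwich which agree with the domain near
the target.** -/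
theorem sandF {X e h ε : ℝ} (hT : 0 ≤ T) (hR : 0 ≤ R) (hX0 : 0 < X) (hX : 8 * R ≤ X)
    (hX2 : 256 * T ≤ X ^ 2) (hε : 0 < ε) :
    ∃ X₀ : ℝ, 16 * X ≤ X₀ ∧ ∀ X' : ℝ, X₀ ≤ X' → ∀ Y Rd cd Rb : ℝ, 0 < Rd → 0 < cd → 0 ≤ Rb →
      0 < Y → 8 * R ≤ Y → 64 * T ≤ Y ^ 2 →
    ∃ η > 0, ∀ M₁ : ℝ, ∃ h₀ > 0, ∀ ψ : ℂ → ℂ, HConf Rd cd Y ψ → ∀ (D₀ : Set ℂ) (a b : ℂ),
      IsU ψ D₀ a b → NoCut D₀ → (∀ z : ℂ, 0 ≤ z.im → M₁ ≤ ‖z‖ → ‖ψ z - b‖ ≤ η) →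
      ∀ ρ : ℝ, (∀ z : ℂ, 0 ≤ z.im → X / 2 ≤ ‖z‖ → ‖ψ z - b‖ < ρ) →
      ∀ (W : ℝ → ℝ) (t : ℝ), Drv T R W t → ∀ (Q₀ P₀ Q₁ P₁ : Set ℂ) (a₀ a₁ : ℂ),
      PF h₀ ψ (fun _ => 0) 0 Y Rb Q₀ P₀ a₀ → PF h₀ ψ W t Y Rb Q₁ P₁ a₁ →
      (∀ z ∈ ball b ρ, z ∈ P₀ ↔ z ∈ D₀) → (∀ z ∈ ball b ρ, z ∈ P₁ ↔ z ∈ D₀) →
      ∀ xc xd : ℝ, |xc - X| ≤ h₀ → |xd - X'| ≤ h₀ →
      ∀ (ν : ℂ) (u₀ v₀ u₁ v₁ : ℝ), ν ≠ 0 → QPosL ν P₀ a₀ b (ψ xc) (ψ xd) u₀ v₀ →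
        QPosL ν P₁ a₁ b (ψ xc) (ψ xd) u₁ v₁ →
        |(u₁ ^ e * v₁ ^ h) / (u₀ ^ e * v₀ ^ h) - obsQ e W X t| ≤ ε := by
  obtain ⟨X₀, hX₀, hs⟩ := sandQ (e := e) (h := h) hT hR hX0 hX hX2 hε
  refine ⟨X₀, hX₀, fun X' hX' Y Rd cd Rb hRd hcd hRb hY0 hY hY2 => ?_⟩
  obtain ⟨h₁, hh₁, hs⟩ := hs X' hX' Y Rd cd Rb hRd hcd hRb hY0 hY hY2
  refine ⟨h₁ / 2, by positivity, fun M₁ => ?_⟩
  obtain ⟨h₀, hh₀, hle, hPF⟩ := PF.toPO (T := T) (R := R) (M₁ := M₁) (Rb := Rb) hT hR hRd hcd hY0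
    hY hY2 hh₁ (X / 2)
  refine ⟨h₀, hh₀, ?_⟩
  intro ψ hψ D₀ a b hU hn hM₁ ρ hρ W t H Q₀ P₀ Q₁ P₁ a₀ a₁ hP₀ hP₁ hag₀ hag₁ xc xd hxc hxd ν
    u₀ v₀ u₁ v₁ hν hQ₀ hQ₁
  have hXX : X ≤ X' := by linarith
  exact hs ψ hψ hU.cont W t H Q₀ P₀ Q₁ P₁ a₀ b a₁ b
    (hPF ψ hψ _ _ (drv_zero hT hR) D₀ a b hU hn hM₁ ρ hρ Q₀ P₀ a₀ hP₀ hag₀)
    (hPF ψ hψ W t H D₀ a b hU hn hM₁ ρ hρ Q₁ P₁ a₁ hP₁ hag₁)
    (flatO_of hU hn hX0 hXX hρ hag₀) (flatO_of hU hn hX0 hXX hρ hag₁) xc xd (hxc.trans hle)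
    (hxd.trans hle) ν u₀ v₀ u₁ v₁ hν hQ₀ hQ₁

end Vale.Agent.P167.H756
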