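import Vale.Agent.P167.H756.ThmB

/-!
# P167, block CM: tools (Schwarz reflection, inverse maps, uniqueness of uniformizers)
-/

open Set Topology Metric MeasureTheory Filter Bornology
open scoped ENNReal Real ComplexConjugate

namespace Vale.Agent.P167.H756

open Vale.Agent.P153.R2.R1 Vale.Agent.P153.R2.OBSV Vale.Agent.P167.H174

/-! ### The Möbius map near a finite point -/

theorem imb_eq (v : ℂ) : imb 1 Complex.I v = Complex.I * (1 + v) / (1 - v) := by
  rw [imb, Complex.conj_I]; ring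

theorem imb_close {M κ : ℝ} (hM : 0 ≤ M) (hκ : 0 < κ) : ∃ ε > 0, ∀ z v : ℂ, 0 ≤ z.im → ‖z‖ ≤ M →
    ‖v - mb 1 Complex.I z‖ ≤ ε → ‖imb 1 Complex.I v - z‖ ≤ κ := by
  refine ⟨min (1 / (M + 1)) (κ / (M + 1) ^ 2), by positivity, fun z v hz hzM hv => ?_⟩
  have h0 := add_I_ne hz
  set m : ℂ := mb 1 Complex.I z with hm
  have hm1 : 1 - m = 2 * Complex.I / (z + Complex.I) := by
    rw [hm, mb, Complex.conj_I, sub_neg_eq_add, one_mul]
    field_simp
    ring
  have hn : ‖1 - m‖ = 2 / ‖z + Complex.I‖ := by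
    rw [hm1, norm_div, norm_mul, Complex.norm_I, mul_one]
    norm_num
  have hp : 0 < ‖z + Complex.I‖ := norm_pos_iff.2 h0
  have hle : ‖z + Complex.I‖ ≤ M + 1 := (norm_add_I_le z).trans (by linarith)
  have hlow : 2 / (M + 1) ≤ ‖1 - m‖ := by
    rw [hn]; exact div_le_div_of_nonneg_left (by norm_num) hp hle
  have hv1 : ‖v - m‖ ≤ 1 / (M + 1) := hv.trans (min_le_left _ _)
  have hv2 : ‖v - m‖ ≤ κ / (M + 1) ^ 2 := hv.trans (min_le_right _ _)
  have hlow2 : 1 / (M + 1) ≤ ‖1 - v‖ := by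
    have e : (1 - m) = (1 - v) + (v - m) := by ring
    have h1 : ‖1 - m‖ ≤ ‖1 - v‖ + ‖v - m‖ := by rw [e]; exact norm_add_le _ _
    have e2 : (2 : ℝ) / (M + 1) = 1 / (M + 1) + 1 / (M + 1) := by ring
    linarith
  have hM1 : 0 < M + 1 := by linarith
  have hpos1 : 0 < ‖1 - m‖ := lt_of_lt_of_le (by positivity) hlow
  have hpos2 : 0 < ‖1 - v‖ := lt_of_lt_of_le (by positivity) hlow2
  have hne1 : 1 - m ≠ 0 := norm_pos_iff.1 hpos1
  have hne2 : 1 - v ≠ 0 := norm_pos_iff.1 hpos2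
  have hzm : z = Complex.I * (1 + m) / (1 - m) := by
    have := imb_mb (β := 1) (c := Complex.I) norm_one (by simp) hz
    rw [← hm, imb_eq] at this
    exact this.symm
  have e : imb 1 Complex.I v - z = 2 * Complex.I * (v - m) / ((1 - v) * (1 - m)) := by
    rw [imb_eq]
    nth_rewrite 1 [hzm]
    field_simp
    ring
  rw [e, norm_div, norm_mul, norm_mul, norm_mul, Complex.norm_I, mul_one]
  have h2 : ‖(2 : ℂ)‖ = 2 := by norm_num
  rw [h2, div_le_iff₀ (mul_pos hpos2 hpos1)]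
  calc 2 * ‖v - m‖ ≤ 2 * (κ / (M + 1) ^ 2) := by gcongr
    _ = κ * (1 / (M + 1) * (2 / (M + 1))) := by field_simp
    _ ≤ κ * (‖1 - v‖ * ‖1 - m‖) := by gcongr

/-! ### Inverse of the uniformizer -/

theorem inv_tendsto_bdd {ψ : ℂ → ℂ} (hc : ContinuousOn ψ {z | 0 ≤ z.im})
    (hi : InjOn ψ {z | 0 ≤ z.im}) {ι : Type*} {l : Filter ι} [l.NeBot] {w : ι → ℂ} {M : ℝ}
    (hw : ∀ᶠ i in l, 0 ≤ (w i).im ∧ ‖w i‖ ≤ M) {q : ℂ}
    (h : Tendsto (fun i => ψ (w i)) l (𝓝 q)) :
    ∃ w0 : ℂ, 0 ≤ w0.im ∧ ‖w0‖ ≤ M ∧ ψ w0 = q ∧ Tendsto w l (𝓝 w0) := by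
  have hcl : IsClosed {z : ℂ | 0 ≤ z.im ∧ ‖z‖ ≤ M} :=
    (isClosed_le continuous_const Complex.continuous_im).inter
      (isClosed_le continuous_norm continuous_const)
  have key : ∀ U : Ultrafilter ι, (U : Filter ι) ≤ l →
      ∃ w0 : ℂ, (0 ≤ w0.im ∧ ‖w0‖ ≤ M) ∧ ψ w0 = q ∧ Tendsto w U (𝓝 w0) := by
    intro U hU
    have hwU : ∀ᶠ i in (U : Filter ι), 0 ≤ (w i).im ∧ ‖w i‖ ≤ M := hU hw
    obtain ⟨w0, -, hw0⟩ := (isCompact_closedBall (0 : ℂ) M).ultrafilter_le_nhds (U.map w)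
      (by
        rw [Ultrafilter.coe_map, le_principal_iff]
        exact hwU.mono fun i hi => by
          rw [mem_closedBall_zero_iff]; exact hi.2)
    have hlim : Tendsto w U (𝓝 w0) := hw0
    have hw0' := hcl.mem_of_tendsto hlim hwU
    refine ⟨w0, hw0', ?_, hlim⟩
    have h1 : Tendsto (fun i => ψ (w i)) U (𝓝 (ψ w0)) := by
      refine (hc w0 hw0'.1).tendsto.comp ?_
      exact tendsto_nhdsWithin_iff.2 ⟨hlim, hwU.mono fun i hi => hi.1⟩
    exact tendsto_nhds_unique h1 (h.mono_left hU)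
  obtain ⟨w0, h0, h1, -⟩ := key (Ultrafilter.of l) (Ultrafilter.of_le l)
  refine ⟨w0, h0.1, h0.2, h1, ?_⟩
  rw [tendsto_iff_ultrafilter]
  intro U hU
  obtain ⟨w1, h2, h3, h4⟩ := key U hU
  have : w1 = w0 := hi h2.1 h0.1 (h3.trans h1.symm)
  rwa [this] at h4

theorem IsU.notMem {ψ : ℂ → ℂ} {P : Set ℂ} {a p : ℂ} (h : IsU ψ P a p) {z : ℂ} (hz : z.im = 0) :
    ψ z ∉ P := by
  have h1 := h.toDisc
  have h2 : mb 1 Complex.I z ∈ sphere (0 : ℂ) 1 := by
    rw [mem_sphere_zero_iff_norm]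
    exact norm_mb_eq norm_one (by simp) hz
  have h3 := h1.sphere_mem h2
  rw [toDisc_mb hz.ge] at h3
  exact notMem_of_frontier h1.isOpen h3

/-! ### Schwarz reflection -/

theorem schwarz {T : ℂ → ℂ} {x r : ℝ} (hc : ContinuousOn T (ball (x : ℂ) r ∩ {z | 0 ≤ z.im}))
    (hd : DifferentiableOn ℂ T (ball (x : ℂ) r ∩ {z | 0 < z.im}))
    (hr : ∀ z ∈ ball (x : ℂ) r, z.im = 0 → (T z).im = 0) :
    ∃ G : ℂ → ℂ, DifferentiableOn ℂ G (ball (x : ℂ) r) ∧
      (∀ z ∈ ball (x : ℂ) r, 0 ≤ z.im → G z = T z) ∧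
      ∀ z ∈ ball (x : ℂ) r, G (conj z) = conj (G z) := by
  classical
  set G : ℂ → ℂ := fun z => if 0 ≤ z.im then T z else conj (T (conj z)) with hG
  have hGpos : ∀ z : ℂ, 0 ≤ z.im → G z = T z := fun z hz => by simp [hG, hz]
  have hGneg : ∀ z : ℂ, z.im < 0 → G z = conj (T (conj z)) := fun z hz => by
    simp [hG, not_le.2 hz]
  have hGneg' : ∀ z ∈ ball (x : ℂ) r, z.im ≤ 0 → G z = conj (T (conj z)) := by
    intro z hz h0
    rcases h0.lt_or_eq with h | h
    · exact hGneg z h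
    · have e : conj z = z := Complex.conj_eq_iff_im.2 h
      rw [hGpos z h.ge, e]
      exact (Complex.conj_eq_iff_im.2 (hr z hz h)).symm
  have hconj : ∀ z ∈ ball (x : ℂ) r, conj z ∈ ball (x : ℂ) r := by
    intro z hz
    rw [mem_ball, dist_eq_norm] at hz ⊢
    have e : conj z - (x : ℂ) = conj (z - x) := by rw [map_sub, Complex.conj_ofReal]
    rwa [e, RCLike.norm_conj]
  have hup : ∀ z ∈ ball (x : ℂ) r, 0 ≤ z.im →
      ContinuousWithinAt G {w | 0 ≤ w.im} z := by
    intro z hz h0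
    have h1 : ContinuousWithinAt T {w | 0 ≤ w.im} z := by
      have := hc z ⟨hz, h0⟩
      refine this.mono_of_mem_nhdsWithin ?_
      exact inter_mem (mem_nhdsWithin_of_mem_nhds (isOpen_ball.mem_nhds hz)) self_mem_nhdsWithin
    exact h1.congr (fun w hw => hGpos w hw) (hGpos z h0)
  have hdown : ∀ z ∈ ball (x : ℂ) r, z.im ≤ 0 →
      ContinuousWithinAt G {w | w.im ≤ 0} z := by
    intro z hz h0
    have h1 : ContinuousWithinAt T {w | 0 ≤ w.im} (conj z) := by
      have := hc (conj z) ⟨hconj z hz, by simpa using h0⟩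
      refine this.mono_of_mem_nhdsWithin ?_
      exact inter_mem (mem_nhdsWithin_of_mem_nhds (isOpen_ball.mem_nhds (hconj z hz)))
        self_mem_nhdsWithin
    have h2 : ContinuousWithinAt (fun w => conj (T (conj w))) {w | w.im ≤ 0} z := by
      refine Complex.continuous_conj.continuousAt.comp_continuousWithinAt ?_
      refine h1.comp Complex.continuous_conj.continuousWithinAt ?_
      intro w hw
      show 0 ≤ (conj w).im
      rw [Complex.conj_im]
      have : w.im ≤ 0 := hw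
      linarith
    refine h2.congr_of_eventuallyEq ?_ (hGneg' z hz h0)
    filter_upwards [self_mem_nhdsWithin, mem_nhdsWithin_of_mem_nhds (isOpen_ball.mem_nhds hz)] with
      w hw hwb using hGneg' w hwb hw
  have hcont : ContinuousOn G (ball (x : ℂ) r) := by
    intro z hz
    refine ContinuousAt.continuousWithinAt ?_
    rcases lt_trichotomy z.im 0 with h | h | h
    · refine (hdown z hz h.le).continuousAt ?_
      filter_upwards [(isOpen_lt Complex.continuous_im continuous_const).mem_nhds h] with w hw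
      exact le_of_lt hw
    · have h1 := (hup z hz h.ge).union (hdown z hz h.le)
      have e : {w : ℂ | 0 ≤ w.im} ∪ {w | w.im ≤ 0} = univ := by
        ext w
        simp only [mem_union, mem_ofPred_eq, mem_univ, iff_true]
        exact le_total _ _
      rw [e] at h1
      exact continuousWithinAt_univ _ _ |>.1 h1
    · refine (hup z hz h.le).continuousAt ?_
      filter_upwards [(isOpen_lt continuous_const Complex.continuous_im).mem_nhds h] with w hw
      exact le_of_lt hw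
  have hHo : IsOpen {z : ℂ | 0 < z.im} := isOpen_lt continuous_const Complex.continuous_im
  have hdpos : ∀ z ∈ ball (x : ℂ) r, 0 < z.im → DifferentiableAt ℂ G z := by
    intro z hz h0
    have hn : ball (x : ℂ) r ∩ {z | 0 < z.im} ∈ 𝓝 z := (isOpen_ball.inter hHo).mem_nhds ⟨hz, h0⟩
    refine ((hd z ⟨hz, h0⟩).differentiableAt hn).congr_of_eventuallyEq ?_
    filter_upwards [hHo.mem_nhds h0] with w hw
    exact hGpos w (le_of_lt hw)
  have hdneg : ∀ z ∈ ball (x : ℂ) r, z.im < 0 → DifferentiableAt ℂ G z := by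
    intro z hz h0
    have h0' : 0 < (conj z).im := by simpa using h0
    have h1 := hdpos _ (hconj z hz) h0'
    have h2 : DifferentiableAt ℂ (fun w => conj (G (conj w))) z := by
      have := DifferentiableAt.conj_conj h1
      simpa [Function.comp_def] using this
    refine h2.congr_of_eventuallyEq ?_
    have hneg : {w : ℂ | w.im < 0} ∈ 𝓝 z :=
      (isOpen_lt Complex.continuous_im continuous_const).mem_nhds h0
    filter_upwards [hneg] with w hw
    have : 0 ≤ (conj w).im := by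
      rw [Complex.conj_im]
      have : w.im < 0 := hw
      linarith
    rw [hGneg w hw, hGpos (conj w) this]
  refine ⟨G, Vale.Agent.P153.R2.L1.diff_off_line isOpen_ball hcont fun z hz h0 => ?_,
    fun z _ h0 => hGpos z h0, fun z hz => ?_⟩
  · rcases lt_or_gt_of_ne h0 with h | h
    · exact hdneg z hz h
    · exact hdpos z hz h
  · rcases le_total 0 z.im with h | h
    · rw [hGneg' (conj z) (hconj z hz) (by rw [Complex.conj_im]; linarith), Complex.conj_conj,
        hGpos z h]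
    · rw [hGpos (conj z) (by rw [Complex.conj_im]; linarith), hGneg' z hz h, Complex.conj_conj]

end Vale.Agent.P167.H756
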