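import Vale.Agent.P167.H756.ThmD

/-!
# P167, block CM: two polygons which are components of sets which coincide near `b` coincide near `b`
-/

open Set Topology Metric MeasureTheory Filter Bornology
open scoped ENNReal Real ComplexConjugate

namespace Vale.Agent.P167.H756

open Vale.Agent.P153.R2.R1 Vale.Agent.P153.R2.OBSV Vale.Agent.P167.H174

/-- If `P` almost fills the domain `F (disc)` and near `X` the set `P` is contained in `E`, of which
`P₁` is a component which contains the points at a positive distance of the real line, then `P` is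
contained in `P₁` near `X`. -/
theorem agree {R c ρ₀ X r : ℝ} (hR : 0 < R) (hc : 0 < c) (hρ₀ : ρ₀ < 1) (hr : 0 < r) :
    ∃ h > 0, ∀ (F : ℂ → ℂ) (w₀ : ℂ) (P : Set ℂ) (a p : ℂ), Side R c ρ₀ h F w₀ P a p →
      ∀ E P₁ : Set ℂ, (∀ C : Set ℂ, IsPreconnected C → C ⊆ E → (C ∩ P₁).Nonempty → C ⊆ P₁) →
      (∀ z ∈ ball (X : ℂ) r, 0 < z.im → F (mb 1 Complex.I z) ∈ P → F (mb 1 Complex.I z) ∈ E) →
      (∀ z ∈ ball (X : ℂ) r, r / 8 ≤ z.im → F (mb 1 Complex.I z) ∈ P₁) →
      ∀ z ∈ ball (X : ℂ) (r / 2), 0 < z.im → F (mb 1 Complex.I z) ∈ P →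
        F (mb 1 Complex.I z) ∈ P₁ := by
  have hI : 0 < Complex.I.im := by simp
  have hM : 0 ≤ |X| + r := by positivity
  obtain ⟨ε, hε, himb⟩ := imb_close hM (show 0 < r / 16 by positivity)
  obtain ⟨h, hh, hhalf⟩ := halfplane (R := R) (c := c) hR hc hρ₀ hε
  refine ⟨h, hh, fun F w₀ P a p hS E P₁ hcomp hE hP₁ z hz hz0 hzP => ?_⟩
  obtain ⟨φ, hφ, hφi, hφc⟩ := hhalf F hS.cls w₀ hS.base P hS.good hS.sub hS.inner hS.collar a p
    hS.mem_a hS.mem_p hS.mark_a hS.mark_p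
  have hconf := hS.cls.conf
  have hmbm : ∀ y : ℂ, 0 < y.im → mb 1 Complex.I y ∈ ball (0 : ℂ) 1 := fun y hy => by
    rw [mem_ball_zero_iff]; exact norm_mb_lt norm_one hI hy
  have hnorm : ∀ y ∈ ball (X : ℂ) r, ‖y‖ ≤ |X| + r := by
    intro y hy
    rw [mem_ball, dist_eq_norm] at hy
    have e : ‖(X : ℂ)‖ = |X| := by rw [Complex.norm_real, Real.norm_eq_abs]
    calc ‖y‖ = ‖(y - X) + X‖ := by congr 1; ring
      _ ≤ ‖y - X‖ + ‖(X : ℂ)‖ := norm_add_le _ _
      _ ≤ |X| + r := by rw [e]; linarith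
  -- the point in the coordinate of `φ`
  obtain ⟨w, hw, hwz⟩ : F (mb 1 Complex.I z) ∈ φ '' {z | 0 < z.im} := by
    rw [hφ.img]; exact hzP
  have hw0 : 0 < w.im := hw
  have hwz' : ‖w - z‖ ≤ r / 16 := by
    have h1 := hφc w hw0
    rw [hwz, hconf.dinv_apply (hmbm z hz0), norm_sub_rev] at h1
    have h2 := himb z _ hz0.le (hnorm z (ball_subset_ball (by linarith) hz)) h1
    rwa [imb_mb norm_one hI hw0.le] at h2
  rw [mem_ball, dist_eq_norm] at hz
  -- the vertical path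
  have hpt : ∀ s ∈ Icc (0 : ℝ) 1, ∃ y ∈ ball (X : ℂ) r, 0 < y.im ∧ w.im + s * (r / 4) - r / 16 ≤ y.im ∧
      F (mb 1 Complex.I y) = φ (w + (s * (r / 4) : ℝ) * Complex.I) ∧
      F (mb 1 Complex.I y) ∈ P := by
    intro s hs
    set ws : ℂ := w + (s * (r / 4) : ℝ) * Complex.I with hws
    have hs0 : 0 ≤ s * (r / 4) := mul_nonneg hs.1 (by positivity)
    have hs1 : s * (r / 4) ≤ r / 4 := by
      have := mul_le_mul_of_nonneg_right hs.2 (show 0 ≤ r / 4 by positivity)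
      linarith
    have hwsi : ws.im = w.im + s * (r / 4) := by
      rw [hws, Complex.add_im, Complex.im_ofReal_mul, Complex.I_im, mul_one]
    have hws0 : 0 < ws.im := by rw [hwsi]; linarith
    have hwsX : ‖ws - X‖ ≤ 13 / 16 * r := by
      have e : ws - X = (w - z) + (z - X) + (s * (r / 4) : ℝ) * Complex.I := by rw [hws]; ring
      rw [e]
      calc ‖(w - z) + (z - X) + (s * (r / 4) : ℝ) * Complex.I‖
          ≤ ‖w - z‖ + ‖z - X‖ + ‖((s * (r / 4) : ℝ) : ℂ) * Complex.I‖ := norm_add₃_le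
        _ ≤ r / 16 + r / 2 + r / 4 := by
          rw [norm_mul, Complex.norm_I, mul_one, Complex.norm_real, Real.norm_of_nonneg hs0]
          linarith
        _ = 13 / 16 * r := by ring
    have hφm : φ ws ∈ P := by rw [← hφ.img]; exact mem_image_of_mem _ hws0
    obtain ⟨v, hv, hve⟩ := hS.sub hφm
    have h1 := hφc ws hws0
    rw [← hve, hconf.dinv_apply hv] at h1
    have h2 := himb ws v hws0.le (hnorm ws (by rw [mem_ball, dist_eq_norm]; linarith)) h1
    have hvn : ‖v‖ < 1 := mem_ball_zero_iff.1 hv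
    have hv1 : v ≠ 1 := by
      rintro rfl
      rw [norm_one] at hvn
      exact lt_irrefl _ hvn
    have h3 := imb_im_pos norm_one hI hvn (β := 1)
    have h4 := (mb_imb norm_one hI hv1).2
    refine ⟨imb 1 Complex.I v, ?_, h3, ?_, ?_, ?_⟩
    · rw [mem_ball, dist_eq_norm]
      calc ‖imb 1 Complex.I v - X‖ = ‖(imb 1 Complex.I v - ws) + (ws - X)‖ := by congr 1; ring
        _ ≤ ‖imb 1 Complex.I v - ws‖ + ‖ws - X‖ := norm_add_le _ _
        _ < r := by linarith
    · have h5 := (Complex.abs_im_le_norm (imb 1 Complex.I v - ws)).trans h2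
      rw [Complex.sub_im, hwsi] at h5
      have := (abs_le.1 h5).1
      linarith
    · rw [h4, hve]
    · rw [h4, hve]; exact hφm
  set C : Set ℂ := (fun s : ℝ => φ (w + (s * (r / 4) : ℝ) * Complex.I)) '' Icc 0 1 with hC
  have hCc : IsPreconnected C := by
    refine isPreconnected_Icc.image _ ?_
    refine hφ.diff.continuousOn.comp (by fun_prop) fun s hs => ?_
    show 0 < (w + (s * (r / 4) : ℝ) * Complex.I).im
    rw [Complex.add_im, Complex.im_ofReal_mul, Complex.I_im, mul_one]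
    have := mul_nonneg hs.1 (show 0 ≤ r / 4 by positivity)
    linarith
  have hCE : C ⊆ E := by
    rintro _ ⟨s, hs, rfl⟩
    obtain ⟨y, hy, hy0, -, hye, hyP⟩ := hpt s hs
    simp only
    rw [← hye]
    exact hE y hy hy0 hyP
  have h1 : φ (w + ((1 : ℝ) * (r / 4) : ℝ) * Complex.I) ∈ P₁ := by
    obtain ⟨y, hy, -, hyi, hye, -⟩ := hpt 1 ⟨zero_le_one, le_rfl⟩
    rw [← hye]
    refine hP₁ y hy ?_
    linarith
  have h2 := hcomp C hCc hCE ⟨_, ⟨1, ⟨zero_le_one, le_rfl⟩, rfl⟩, h1⟩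
  have h3 : φ (w + ((0 : ℝ) * (r / 4) : ℝ) * Complex.I) ∈ P₁ := h2 ⟨0, ⟨le_rfl, zero_le_one⟩, rfl⟩
  rw [zero_mul, Complex.ofReal_zero, zero_mul, add_zero, hwz] at h3
  exact h3

end Vale.Agent.P167.H756
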