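import Vale.Agent.P167.H756.Glue
import Vale.Agent.P167.H756.Agree

/-!
# P167, block CM, glue: the ratio of `G_P (b)` for the polygons of a Loewner chain is `obsF ^ 3`
-/

open Set Topology Metric MeasureTheory Filter Bornology
open scoped ENNReal Real ComplexConjugate

namespace Vale.Agent.P167.H756

open Vale.Agent.P153.R2.R1 Vale.Agent.P153.R2.OBSV Vale.Agent.P167.H174
open Vale.Agent.P153.R2.L1 (HH IsHydro inv mem_HH isOpen_HH convex_HH)
open Vale.Agent.P164 (loewnerDomain gf Zf IsLoewnerSol)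
open Vale.Agent.P153.BESS (CSol RSol)
open Vale.Agent.P167.H411 (ldv obsF obsY exists_csol exists_rsol csol_unique)
open Vale.Agent.P167.H947 (surv flow flow_eq flow_conj flow_inj flow_gf surv_inter isOpen_surv
  differentiableOn_flow hasDerivAt_flow_real flow_rsol)

/-- `G` is the value of `|(φ⁻¹)' (b)| / |φ⁻¹ (b)|`, where `φ` is a uniformizer of `(P; a, p)`
(`0 ↦ a`, `∞ ↦ p`). -/
def GAt (P : Set ℂ) (a p b : ℂ) (G : ℝ) : Prop :=
  ∃ (φ : ℂ → ℂ) (x : ℝ) (d : ℂ), IsU φ P a p ∧ φ x = b ∧ x ≠ 0 ∧ d ≠ 0 ∧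
    HasDerivWithinAt φ d {z | 0 ≤ z.im} x ∧ G = 1 / (‖d‖ * |x|)

/-- A polygon `P` with two marked points which almost fills the domain `ψ (loewnerDomain W t)`. -/
structure PD (h : ℝ) (ψ : ℂ → ℂ) (W : ℝ → ℝ) (t Y : ℝ) (P : Set ℂ) (a p : ℂ) : Prop where
  good : Good P
  sub : P ⊆ ψ '' loewnerDomain W t
  inner : Inner (ψ '' loewnerDomain W t) P (ψ (Y * Complex.I)) h
  collar : Collar (ψ '' loewnerDomain W t) P h
  mem_a : a ∈ frontier P
  mem_p : p ∈ frontier P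
  mark_a : a ∈ closure (P ∩ ψ '' {z | z ∈ loewnerDomain W t ∧ ‖Zf W z t‖ < h})
  mark_p : p ∈ closure (P ∩ ψ '' {z | z ∈ loewnerDomain W t ∧ h⁻¹ < ‖z‖})

theorem PD.mono {h h' : ℝ} {ψ : ℂ → ℂ} {W : ℝ → ℝ} {t Y : ℝ} {P : Set ℂ} {a p : ℂ}
    (H : PD h ψ W t Y P a p) (h0 : 0 < h) (hh : h ≤ h') : PD h' ψ W t Y P a p :=
  { H with
    inner := H.inner.mono hh
    collar := H.collar.mono hh
    mark_a := by
      refine closure_mono (inter_subset_inter_right _ (image_mono ?_)) H.mark_a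
      exact fun z hz => ⟨hz.1, hz.2.trans_le hh⟩
    mark_p := by
      refine closure_mono (inter_subset_inter_right _ (image_mono ?_)) H.mark_p
      exact fun z hz => ⟨hz.1, lt_of_le_of_lt (by gcongr) hz.2⟩ }

theorem dom_zero' (W : ℝ → ℝ) : loewnerDomain W 0 = HH := by
  ext z
  exact Vale.Agent.P164.dom_zero

/-- The polygons at time `0`. -/
theorem PD.of_zero {h : ℝ} {ψ : ℂ → ℂ} {Y : ℝ} {P : Set ℂ} {a p : ℂ} (good : Good P)
    (sub : P ⊆ ψ '' HH) (inner : Inner (ψ '' HH) P (ψ (Y * Complex.I)) h)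
    (collar : Collar (ψ '' HH) P h) (mem_a : a ∈ frontier P) (mem_p : p ∈ frontier P)
    (mark_a : a ∈ closure (P ∩ ψ '' {z | z ∈ HH ∧ ‖z‖ < h}))
    (mark_p : p ∈ closure (P ∩ ψ '' {z | z ∈ HH ∧ h⁻¹ < ‖z‖})) :
    PD h ψ (fun _ => 0) 0 Y P a p where
  good := good
  sub := by rw [dom_zero']; exact sub
  inner := by rw [dom_zero']; exact inner
  collar := by rw [dom_zero']; exact collar
  mem_a := mem_a
  mem_p := mem_p
  mark_a := by
    rw [dom_zero']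
    refine closure_mono (inter_subset_inter_right _ (image_mono ?_)) mark_a
    rintro z ⟨hz, hz2⟩
    refine ⟨hz, ?_⟩
    rw [Vale.Agent.P164.Zf_zero hz, Complex.ofReal_zero, sub_zero]
    exact hz2
  mark_p := by rw [dom_zero']; exact mark_p

variable {T R : ℝ} {W : ℝ → ℝ} {t : ℝ}

theorem norm_le_add_I {z : ℂ} (hz : 0 ≤ z.im) : ‖z‖ ≤ ‖z + Complex.I‖ := by
  rw [← sq_le_sq₀ (norm_nonneg _) (norm_nonneg _), Complex.sq_norm, Complex.sq_norm,
    Complex.normSq_apply, Complex.normSq_apply]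
  simp only [Complex.add_re, Complex.add_im, Complex.I_re, Complex.I_im]
  nlinarith

theorem dist_mb_one {z : ℂ} (hz : 0 < z.im) : dist (mb 1 Complex.I z) 1 ≤ 2 / ‖z‖ := by
  have h0 := add_I_ne hz.le
  have e : mb 1 Complex.I z - 1 = -(2 * Complex.I) / (z + Complex.I) := by
    rw [mb, Complex.conj_I, sub_neg_eq_add, one_mul]
    field_simp
    ring
  rw [dist_eq_norm, e, norm_div, norm_neg, norm_mul, Complex.norm_I, mul_one]
  have h1 : ‖(2 : ℂ)‖ = 2 := by norm_num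
  have h2 : 0 < ‖z‖ := norm_pos_iff.2 (by rintro rfl; simp at hz)
  rw [h1]
  exact div_le_div_of_nonneg_left (by norm_num) h2 (norm_le_add_I hz.le)

theorem dist_mb_mb {z z' : ℂ} (hz : 0 ≤ z.im) (hz' : 0 ≤ z'.im) :
    dist (mb 1 Complex.I z) (mb 1 Complex.I z') ≤ 2 * ‖z - z'‖ := by
  have h0 := add_I_ne hz
  have h0' := add_I_ne hz'
  have e : mb 1 Complex.I z - mb 1 Complex.I z' =
      2 * Complex.I * (z - z') / ((z + Complex.I) * (z' + Complex.I)) := by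
    rw [mb, mb, Complex.conj_I, sub_neg_eq_add, sub_neg_eq_add, one_mul, one_mul]
    field_simp
    ring
  rw [dist_eq_norm, e, norm_div, norm_mul, norm_mul, norm_mul, Complex.norm_I, mul_one]
  have h1 : ‖(2 : ℂ)‖ = 2 := by norm_num
  rw [h1]
  refine div_le_self (by positivity) ?_
  have h2 := one_le_norm_add_I hz
  have h3 := one_le_norm_add_I hz'
  nlinarith

/-- The position of the base point. -/
theorem Drv.base (H : Drv T R W t) {Y : ℝ} (hY0 : 0 < Y) (hY : 8 * R ≤ Y)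
    (hY2 : 64 * T ≤ Y ^ 2) :
    (Y : ℂ) * Complex.I ∈ loewnerDomain W t ∧ 3 * Y / 4 ≤ (Zf W (Y * Complex.I) t).im ∧
      ‖Zf W (Y * Complex.I) t‖ ≤ 2 * Y ∧
      ball ((Y : ℂ) * Complex.I) (Y / 2) ⊆ loewnerDomain W t := by
  have hn := norm_mulI hY0
  have hR := H.R_nonneg
  have hT : 0 ≤ T := H.nn.trans H.le
  have h1 := H.far (z := (Y : ℂ) * Complex.I) (by rw [hn]; exact hY0) (by rw [hn]; linarith)
    (by rw [hn]; linarith)
  rw [hn] at h1
  have hd : (Y : ℂ) * Complex.I ∈ loewnerDomain W t :=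
    H.dom (by rw [im_mulI]; exact hY0) (by rw [hn]; linarith) (by rw [hn]; linarith)
  have e : Zf W (Y * Complex.I) t = flow W t (Y * Complex.I) - W t := by
    rw [flow_gf H.nn H.cont.continuousOn hd, Vale.Agent.P164.Zf_eq]
  refine ⟨hd, ?_, ?_, fun z hz => ?_⟩
  · rw [e, Complex.sub_im, Complex.ofReal_im, sub_zero]
    have h2 := (Complex.abs_im_le_norm (flow W t (Y * Complex.I) - Y * Complex.I)).trans h1.2.2.1
    rw [Complex.sub_im, im_mulI] at h2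
    have := (abs_le.1 h2).1
    linarith
  · rw [e]
    have h4 := H.bdd t ⟨H.nn, le_rfl⟩
    calc ‖flow W t (Y * Complex.I) - W t‖
        = ‖(flow W t (Y * Complex.I) - Y * Complex.I) + Y * Complex.I - W t‖ := by
          congr 1; ring
      _ ≤ ‖flow W t (Y * Complex.I) - Y * Complex.I‖ + ‖(Y : ℂ) * Complex.I‖ + ‖(W t : ℂ)‖ :=
        (norm_sub_le _ _).trans (by gcongr; exact norm_add_le _ _)
      _ ≤ Y / 4 + Y + R := by
        rw [Complex.norm_real, Real.norm_eq_abs, hn]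
        gcongr
        exact h1.2.2.1
      _ ≤ 2 * Y := by linarith
  · rw [mem_ball, dist_eq_norm] at hz
    have h2 : Y / 2 ≤ ‖z‖ := by
      have h3 : ‖(Y : ℂ) * Complex.I‖ ≤ ‖z‖ + ‖z - Y * Complex.I‖ := by
        have e2 : (Y : ℂ) * Complex.I = z - (z - Y * Complex.I) := by ring
        calc ‖(Y : ℂ) * Complex.I‖ = ‖z - (z - Y * Complex.I)‖ := by rw [← e2]
          _ ≤ _ := norm_sub_le _ _
      rw [hn] at h3
      linarith
    have h3 : 0 < z.im := by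
      have h4 := (Complex.abs_im_le_norm (z - Y * Complex.I)).trans hz.le
      rw [Complex.sub_im, im_mulI] at h4
      have := (abs_le.1 h4).1
      linarith
    refine H.dom h3 (by linarith) ?_
    have h5 : (Y / 2) ^ 2 ≤ ‖z‖ ^ 2 := by gcongr
    rw [div_pow] at h5
    linarith

/-- The class of the maps `FD ψ W t`. -/
theorem cls_FD {Rd cd Y : ℝ} (hRd : 0 < Rd) (hcd : 0 < cd) (hY0 : 0 < Y) (hY : 8 * R ≤ Y)
    (hY2 : 64 * T ≤ Y ^ 2) :
    ∃ c > 0, ∀ ψ : ℂ → ℂ, HConf Rd cd Y ψ → ∀ (W : ℝ → ℝ) (t : ℝ), Drv T R W t →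
      Cls Rd c (FD ψ W t) := by
  obtain ⟨c₁, hc₁, hball⟩ := base_ball hRd hcd hY0
  obtain ⟨c, hc, hcls⟩ := cls_of_half (R := Rd) (c := c₁) (η := 3 * Y / 4) (M := 2 * Y) hRd hc₁
    (by positivity)
  refine ⟨c, hc, fun ψ hψ W t H => ?_⟩
  obtain ⟨hd, h1, h2, h3⟩ := H.base hY0 hY hY2
  refine hcls (Ps ψ W t) (Ps_diff H hψ.diff) (Ps_inj H hψ.inj) ?_ (Zf W (Y * Complex.I) t) h1 h2 ?_
  · intro z hz z' hz'
    exact hψ.bdd _ (Vale.Agent.P164.im_pos_of_dom H.nn (mapsTo_inv H hz).1) _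
      (Vale.Agent.P164.im_pos_of_dom H.nn (mapsTo_inv H hz').1)
  · rw [Ps_Zf H ψ hd, Ps_img H]
    exact (hball ψ hψ).trans (image_mono h3)

/-- From `PD` to `Side`. -/
theorem side_of_PD {Rd cd Y : ℝ} (hRd : 0 < Rd) (hcd : 0 < cd) (hY0 : 0 < Y) (hY : 8 * R ≤ Y)
    (hY2 : 64 * T ≤ Y ^ 2) (hT : 0 ≤ T) (hR : 0 ≤ R) :
    ∃ c > 0, ∃ ρ₀ < 1, ∀ h > 0, ∃ h' > 0, ∀ ψ : ℂ → ℂ, HConf Rd cd Y ψ →
      ∀ (W : ℝ → ℝ) (t : ℝ), Drv T R W t → ∀ (P : Set ℂ) (a p : ℂ), PD h' ψ W t Y P a p →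
        Side Rd c ρ₀ h (FD ψ W t) (mb 1 Complex.I (Zf W (Y * Complex.I) t)) P a p := by
  obtain ⟨c, hc, hcls⟩ := cls_FD (T := T) (R := R) hRd hcd hY0 hY hY2
  have hρ1 : √(1 - 4 * (3 * Y / 4) / (1 + 2 * Y) ^ 2) < 1 := by
    rw [Real.sqrt_lt' one_pos, one_pow, sub_lt_self_iff]
    positivity
  refine ⟨c, hc, _, hρ1, fun h hh => ?_⟩
  have hden : 0 < 4 * R + 16 * T + 1 := by positivity
  refine ⟨min (h / 4) (1 / (4 * R + 16 * T + 1)), by positivity, fun ψ hψ W t H P a p HP => ?_⟩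
  have hle : min (h / 4) (1 / (4 * R + 16 * T + 1)) ≤ h := (min_le_left _ _).trans (by linarith)
  have hpos : 0 < min (h / 4) (1 / (4 * R + 16 * T + 1)) := by positivity
  obtain ⟨hd, h1, h2, h3⟩ := H.base hY0 hY hY2
  refine ⟨hcls ψ hψ W t H, ?_, HP.good, ?_, ?_, ?_, HP.mem_a, HP.mem_p, ?_, ?_⟩
  · have hI : 0 < Complex.I.im := by simp
    have e : ‖mb 1 Complex.I (Zf W (Y * Complex.I) t)‖ =
        ‖mb 1 (Zf W (Y * Complex.I) t) Complex.I‖ := by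
      rw [norm_mb norm_one, norm_mb norm_one, norm_sub_rev, Complex.conj_I]
      congr 1
      rw [← RCLike.norm_conj (Complex.I - _), map_sub, Complex.conj_conj, Complex.conj_I,
        ← norm_neg]
      congr 1
      ring
    rw [mem_closedBall_zero_iff, e]
    exact norm_mb_le (by positivity) h1 h2
  · rw [FD_img H]; exact HP.sub
  · rw [FD_img H, FD_mb H ψ hd]; exact HP.inner.mono hle
  · rw [FD_img H]; exact HP.collar.mono hle
  · refine closure_mono (inter_subset_inter_right _ ?_) HP.mark_a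
    rintro _ ⟨z, ⟨hz, hzn⟩, rfl⟩
    have hzi := Vale.Agent.P164.Zf_im_pos H.nn hz
    refine ⟨mb 1 Complex.I (Zf W z t), ⟨?_, ?_⟩, FD_mb H ψ hz⟩
    · rw [mem_ball_zero_iff]; exact norm_mb_lt norm_one (by simp) hzi
    · rw [mem_ball]
      have h4 := chart_dist_le (ζ := -1) (z := Zf W z t) (by simp) hzi.le
      rw [neg_neg] at h4
      have h5 : ‖Zf W z t‖ < h / 4 := hzn.trans_le (min_le_left _ _)
      linarith
  · refine closure_mono (inter_subset_inter_right _ ?_) HP.mark_p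
    rintro _ ⟨z, ⟨hz, hzn⟩, rfl⟩
    have hzi := Vale.Agent.P164.Zf_im_pos H.nn hz
    refine ⟨mb 1 Complex.I (Zf W z t), ⟨?_, ?_⟩, FD_mb H ψ hz⟩
    · rw [mem_ball_zero_iff]; exact norm_mb_lt norm_one (by simp) hzi
    · rw [mem_ball]
      have hz0 : 0 < ‖z‖ := lt_trans (by positivity) hzn
      have h4 : 4 * R + 16 * T + 1 < ‖z‖ := by
        refine lt_of_le_of_lt ((le_inv_comm₀ hden hpos).2 ?_) hzn
        rw [← one_div]
        exact min_le_right _ _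
      have h5 : 4 / h < ‖z‖ := by
        refine lt_of_le_of_lt ((le_inv_comm₀ (by positivity) hpos).2 ?_) hzn
        rw [inv_div]
        exact min_le_left _ _
      have h6 : 16 * T ≤ ‖z‖ ^ 2 := by
        have h7 : ‖z‖ * 1 ≤ ‖z‖ * ‖z‖ := by
          apply mul_le_mul_of_nonneg_left _ hz0.le
          linarith
        rw [sq]
        linarith
      have h7 := (H.far hz0 (by linarith) h6).2.2.2
      have e : Zf W z t = flow W t z - W t := by
        rw [flow_gf H.nn H.cont.continuousOn hz, Vale.Agent.P164.Zf_eq]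
      rw [← e] at h7
      have h8 : 0 < ‖Zf W z t‖ := by linarith
      refine (dist_mb_one hzi).trans_lt ?_
      rw [div_lt_iff₀ h8]
      rw [div_lt_iff₀ hh] at h5
      nlinarith

/-- the transition map between the maps `FD` -/
theorem trans_FD' (H : Drv T R W t) (ψ : ℂ → ℂ) {X : ℝ} (hX0 : X ≠ 0) (hX : 8 * R ≤ |X|)
    (hX2 : 64 * T ≤ X ^ 2) {r : ℝ} (hr : r ≤ |X| / 2) :
    Trans X r (2 * |X|) (FD ψ (fun _ => 0) 0) (FD ψ W t) (fun z => flow W t z - W t) := by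
  have h := trans_FD H ψ hX0 hX hX2
  have hsub : ball (X : ℂ) r ⊆ ball (X : ℂ) (|X| / 2) := ball_subset_ball hr
  have hT : 0 ≤ T := H.nn.trans H.le
  have H0 : Drv T R (fun _ => (0 : ℝ)) 0 :=
    ⟨continuous_const, le_rfl, hT, fun s _ => by rw [abs_zero]; exact H.R_nonneg⟩
  refine ⟨h.diff.mono hsub, fun z hz => h.symm z (hsub hz), fun z hz => h.pos z (hsub hz),
    fun z hz => h.bdd z (hsub hz), fun z hz h0 => ?_⟩
  rw [← h.eq z (hsub hz) h0, F0_mb ψ h0.le]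
  have h1 := FD_mb H0 ψ (z := z) (by rw [dom_zero']; exact h0)
  rw [Vale.Agent.P164.Zf_zero h0, Complex.ofReal_zero, sub_zero] at h1
  exact h1

/-- **The ratio of the values `G_P (b)` for the polygons of a Loewner chain is `obsF ^ 3`.**
`P₀` almost fills `ψ (HH)`, `P₁` almost fills `ψ (loewnerDomain W t)`, `b` is close to `ψ X` with
`|X|` large, and near `b` the polygon `P₀` is contained in a set `E` of which `P₁` is a
component. -/
theorem glue {T R X Y Rd cd κ : ℝ} (hT : 0 ≤ T) (hR : 0 ≤ R) (hRd : 0 < Rd) (hcd : 0 < cd)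
    (hX0 : X ≠ 0) (hX : 8 * R ≤ |X|) (hX2 : 256 * T ≤ X ^ 2) (hY0 : 0 < Y) (hY : 8 * R ≤ Y)
    (hY2 : 64 * T ≤ Y ^ 2) (hκ : 0 < κ) :
    ∃ h > 0, ∀ ψ : ℂ → ℂ, HConf Rd cd Y ψ → ∀ (W : ℝ → ℝ) (t : ℝ), Drv T R W t →
      ∀ (P₀ P₁ E : Set ℂ) (a₀ p₀ a₁ p₁ b : ℂ),
      PD h ψ (fun _ => 0) 0 Y P₀ a₀ p₀ → PD h ψ W t Y P₁ a₁ p₁ →
      (∀ C : Set ℂ, IsPreconnected C → C ⊆ E → (C ∩ P₁).Nonempty → C ⊆ P₁) →
      (∀ z ∈ ball (X : ℂ) (|X| / 2), 0 < z.im → ψ z ∈ P₀ → ψ z ∈ E) →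
      (∀ z ∈ ball (X : ℂ) (|X| / 2), 0 < z.im → ψ z ∈ P₁ → ψ z ∈ P₀) →
      b ∈ frontier P₀ → b ∈ closure (P₀ ∩ ψ '' {z | z ∈ HH ∧ ‖z - X‖ < h}) →
      ∀ G₀ G₁ : ℝ, GAt P₀ a₀ p₀ b G₀ → GAt P₁ a₁ p₁ b G₁ →
        |G₁ / G₀ - obsF W X t ^ 3| ≤ κ := by
  have hXp : 0 < |X| := abs_pos.2 hX0
  have hI : 0 < Complex.I.im := by simp
  obtain ⟨c, hc, ρ₀, hρ₀, hside⟩ := side_of_PD (T := T) (R := R) hRd hcd hY0 hY hY2 hT hR
  obtain ⟨h₁, hh₁, hcm⟩ := cm (R := Rd) (c := c) (ρ₀ := ρ₀) (X := X) (r := |X| / 4)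
    (M := 2 * |X|) (m := |X| / 2) (κ := κ) hRd hc hρ₀ (by positivity) (by linarith) (by positivity)
    hX0 hκ
  obtain ⟨h₂, hh₂, hag⟩ := agree (R := Rd) (c := c) (ρ₀ := ρ₀) (X := X) (r := |X| / 2) hRd hc hρ₀
    (by positivity)
  -- the part of `P₁` at a positive distance of the real line
  set ρ₁ : ℝ := max ρ₀ √(1 - 4 * (|X| / 32) / (1 + 2 * |X|) ^ 2) with hρ₁
  have hρ₁1 : ρ₁ < 1 := by
    refine max_lt hρ₀ ?_
    rw [Real.sqrt_lt' one_pos, one_pow, sub_lt_self_iff]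
    positivity
  obtain ⟨h₃, hh₃, hins⟩ := Cls.inside (R := Rd) (c := c) hRd hc hρ₁1
  obtain ⟨h₄, hh₄, hS⟩ := hside (min (min h₁ h₂) h₃) (by positivity)
  refine ⟨min h₄ (h₁ / 2), by positivity, ?_⟩
  intro ψ hψ W t H P₀ P₁ E a₀ p₀ a₁ p₁ b hP₀ hP₁ hcomp hE h10 hb hbm G₀ G₁ hG₀ hG₁
  have H0 : Drv T R (fun _ => (0 : ℝ)) 0 :=
    ⟨continuous_const, le_rfl, hT, fun s _ => by rw [abs_zero]; exact hR⟩
  have hmin : 0 < min h₄ (h₁ / 2) := by positivity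
  have S₀ := hS ψ hψ _ _ H0 P₀ a₀ p₀ (hP₀.mono hmin (min_le_left _ _))
  have S₁ := hS ψ hψ _ _ H P₁ a₁ p₁ (hP₁.mono hmin (min_le_left _ _))
  have hle1 : min (min h₁ h₂) h₃ ≤ h₁ := (min_le_left _ _).trans (min_le_left _ _)
  have hle2 : min (min h₁ h₂) h₃ ≤ h₂ := (min_le_left _ _).trans (min_le_right _ _)
  have hle3 : min (min h₁ h₂) h₃ ≤ h₃ := min_le_right _ _
  have hX64 : 64 * T ≤ X ^ 2 := by linarith
  have hF0 : ∀ z : ℂ, 0 < z.im → FD ψ (fun _ => 0) 0 (mb 1 Complex.I z) = ψ z := by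
    intro z hz
    have h1 := FD_mb H0 ψ (z := z) (by rw [dom_zero']; exact hz)
    rwa [Vale.Agent.P164.Zf_zero hz, Complex.ofReal_zero, sub_zero] at h1
  -- points of `P₁`
  have hdeep : ∀ z ∈ ball (X : ℂ) (|X| / 2), |X| / 2 / 8 ≤ z.im → ψ z ∈ P₁ := by
    intro z hz hzi
    have hz0 : 0 < z.im := lt_of_lt_of_le (by positivity) hzi
    rw [mem_ball, dist_eq_norm] at hz
    have e : ‖(X : ℂ)‖ = |X| := by rw [Complex.norm_real, Real.norm_eq_abs]
    have h1 : ‖(X : ℂ)‖ ≤ ‖z‖ + ‖z - X‖ := by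
      have e2 : (X : ℂ) = z - (z - X) := by ring
      calc ‖(X : ℂ)‖ = ‖z - (z - X)‖ := by rw [← e2]
        _ ≤ _ := norm_sub_le _ _
    have h2 : ‖z‖ ≤ ‖z - X‖ + ‖(X : ℂ)‖ := by
      calc ‖z‖ = ‖(z - X) + X‖ := by congr 1; ring
        _ ≤ _ := norm_add_le _ _
    rw [e] at h1 h2
    have hzn : |X| / 2 ≤ ‖z‖ := by linarith
    have hzn0 : 0 < ‖z‖ := lt_of_lt_of_le (by positivity) hzn
    have h3 : (|X| / 2) ^ 2 ≤ ‖z‖ ^ 2 := by gcongr
    rw [div_pow, sq_abs] at h3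
    have h4 := H.far hzn0 (by linarith) (by linarith)
    have hzd : z ∈ loewnerDomain W t := H.dom hz0 (by linarith) (by linarith)
    have e3 : Zf W z t = flow W t z - W t := by
      rw [flow_gf H.nn H.cont.continuousOn hzd, Vale.Agent.P164.Zf_eq]
    have h5 : 4 * T / ‖z‖ ≤ |X| / 32 := by
      rw [div_le_iff₀ hzn0]
      have h6 : |X| / 32 * (|X| / 2) ≤ |X| / 32 * ‖z‖ := by gcongr
      have h7 : |X| * |X| = X ^ 2 := by rw [← sq, sq_abs]
      nlinarith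
    have him : |X| / 32 ≤ (Zf W z t).im := by
      rw [e3, Complex.sub_im, Complex.ofReal_im, sub_zero]
      have h6 := ((Complex.abs_im_le_norm (flow W t z - z)).trans h4.2.1).trans h5
      rw [Complex.sub_im] at h6
      have := (abs_le.1 h6).1
      linarith
    have hno : ‖Zf W z t‖ ≤ 2 * |X| := by
      rw [e3]
      have h6 := H.bdd t ⟨H.nn, le_rfl⟩
      calc ‖flow W t z - W t‖ = ‖(flow W t z - z) + z - W t‖ := by congr 1; ring
        _ ≤ ‖flow W t z - z‖ + ‖z‖ + ‖(W t : ℂ)‖ :=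
          (norm_sub_le _ _).trans (by gcongr; exact norm_add_le _ _)
        _ ≤ ‖z‖ / 4 + ‖z‖ + R := by
          rw [Complex.norm_real, Real.norm_eq_abs]
          gcongr
          exact h4.2.2.1
        _ ≤ 2 * |X| := by linarith
    have hw : mb 1 Complex.I (Zf W z t) ∈ closedBall (0 : ℂ) ρ₁ := by
      have e4 : ‖mb 1 Complex.I (Zf W z t)‖ = ‖mb 1 (Zf W z t) Complex.I‖ := by
        rw [norm_mb norm_one, norm_mb norm_one, norm_sub_rev, Complex.conj_I]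
        congr 1
        rw [← RCLike.norm_conj (Complex.I - _), map_sub, Complex.conj_conj, Complex.conj_I,
          ← norm_neg]
        congr 1
        ring
      rw [mem_closedBall_zero_iff, e4]
      exact (norm_mb_le (by positivity) him hno).trans (le_max_right _ _)
    rw [← FD_mb H ψ hzd]
    refine S₁.inner (FD ψ W t '' closedBall 0 ρ₁) ?_ ?_ ?_ (mem_image_of_mem _ hw)
    · exact (convex_closedBall (0 : ℂ) ρ₁).isPreconnected.image _
        (S₁.cls.diff.continuousOn.mono (closedBall_subset_ball hρ₁1))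
    · exact mem_image_of_mem _ (closedBall_subset_closedBall (le_max_left _ _) S₁.base)
    · rintro _ ⟨w, hw, rfl⟩
      exact (ball_subset_ball hle3).trans (hins _ S₁.cls w hw)
  -- agreement
  have hagr : ∀ z ∈ ball (X : ℂ) (|X| / 4), 0 < z.im →
      (FD ψ (fun _ => 0) 0 (mb 1 Complex.I z) ∈ P₀ ↔
        FD ψ (fun _ => 0) 0 (mb 1 Complex.I z) ∈ P₁) := by
    have h1 := hag _ _ P₀ a₀ p₀ (S₀.mono hle2) E P₁ hcomp
      (fun z hz hz0 => by rw [hF0 z hz0]; exact hE z hz hz0)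
      (fun z hz hzi => by
        rw [hF0 z (lt_of_lt_of_le (by positivity) hzi)]
        exact hdeep z hz hzi)
    intro z hz hz0
    have hz' : z ∈ ball (X : ℂ) (|X| / 2 / 2) := by
      have e : |X| / 2 / 2 = |X| / 4 := by ring
      rw [e]; exact hz
    constructor
    · exact h1 z hz' hz0
    · rw [hF0 z hz0]
      exact h10 z (ball_subset_ball (by linarith) hz) hz0
  obtain ⟨φ₀, y₀, d₀, hφ₀, hy₀, hy₀0, hd₀0, hd₀, hG₀e⟩ := hG₀
  obtain ⟨φ₁, y₁, d₁, hφ₁, hy₁, hy₁0, hd₁0, hd₁, hG₁e⟩ := hG₁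
  obtain ⟨hval1, hval2⟩ := trans_val H hX0 hX hX64
  have hMark : Mark (FD ψ (fun _ => 0) 0) P₀ b (mb 1 Complex.I X) h₁ := by
    refine closure_mono (inter_subset_inter_right _ ?_) hbm
    rintro _ ⟨z, ⟨hz, hzn⟩, rfl⟩
    refine ⟨mb 1 Complex.I z, ⟨?_, ?_⟩, hF0 z hz⟩
    · rw [mem_ball_zero_iff]; exact norm_mb_lt norm_one hI hz
    · rw [mem_ball]
      refine (dist_mb_mb (le_of_lt hz) (by simp)).trans_lt ?_
      have : ‖z - X‖ < h₁ / 2 := hzn.trans_le (min_le_right _ _)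
      linarith
  obtain ⟨x₀, x₁, s, Tr, hs, hx₀0, hx₁0, hx₀, hx₁, hTx, hTd, -, hTe, hest⟩ :=
    hcm _ _ (fun z => flow W t z - W t) _ _ P₀ P₁ a₀ p₀ a₁ p₁ b (S₀.mono hle1) (S₁.mono hle1)
      (trans_FD' H ψ hX0 hX hX64 (by linarith)) hval1 hagr hb hMark φ₀ φ₁ hφ₀ hφ₁
  have hreal : ∀ x : ℝ, (x : ℂ) ∈ {z : ℂ | 0 ≤ z.im} := fun x => by simp
  have e₀ : y₀ = x₀ := by
    have h1 := (hφ₀.injOn hP₀.good.nocut).1 (hreal y₀) (hreal x₀) (hy₀.trans hx₀.symm)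
    exact_mod_cast h1
  have e₁ : y₁ = x₁ := by
    have h1 := (hφ₁.injOn hP₁.good.nocut).1 (hreal y₁) (hreal x₁) (hy₁.trans hx₁.symm)
    exact_mod_cast h1
  subst e₀ e₁
  have hratio := ratio_eq hs hTd hTx hTe hd₀ hd₁
  have hGG : G₁ / G₀ = ‖deriv Tr y₀ * y₀ / y₁‖ := by
    rw [hG₀e, hG₁e, hratio, norm_div, norm_mul, norm_mul, Complex.norm_real, Complex.norm_real,
      Real.norm_eq_abs, Real.norm_eq_abs]
    have h1 : ‖d₁‖ ≠ 0 := norm_ne_zero_iff.2 hd₁0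
    have h2 : |y₁| ≠ 0 := abs_ne_zero.2 hy₁0
    have h3 : |y₀| ≠ 0 := abs_ne_zero.2 hy₀0
    have h4 : ‖deriv Tr (y₀ : ℂ)‖ ≠ 0 := by
      rw [norm_ne_zero_iff]
      intro h5
      rw [h5, mul_zero] at hratio
      exact hd₀0 hratio
    field_simp
  have hO : obsF W X t ^ 3 = ‖((obsF W X t ^ 3 : ℝ) : ℂ)‖ := by
    rw [Complex.norm_real, Real.norm_of_nonneg (pow_nonneg (Vale.Agent.P167.H411.obsF_pos W X t).le 3)]
  rw [hGG, hO, ← hval2]
  exact (abs_norm_sub_norm_le _ _).trans hest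

end Vale.Agent.P167.H756
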