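import Vale.Agent.P167.H756.S8
import Vale.Agent.P167.H756.Exn

/-!
# P167, general `q`, sandwich closeness (9): the sequences of the frame `Set6`

* `bd_real` : boundary points are images of real points;
* `mod_inf` : the modulus at infinity, uniform in `n`;
* `inv_mod` : the modulus of the inverse at one point, uniform in `n`;
* `mark_real` : boundary points close to `ψn n X` are images of real points close to `X`.
-/

set_option autoImplicit false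
set_option linter.unusedVariables false

open MeasureTheory ProbabilityTheory Filter Topology Set Metric Bornology
open scoped NNReal ENNReal

namespace Vale.Agent.P167.H756

open Vale.Agent.P153.R2
open Vale.Agent.P153.R2.DET (Uni HC)
open Vale.Agent.P153.R2.R1 (IsU)
open Vale.Agent.P153.R2.L1 (HH)
open Vale.Agent.P153.R2.Final (dom circ toC IsUniformizer)
open Vale.Agent.P167.SLE (bq)
open Vale.Agent.P167.E6 Vale.Agent.P167.E2 Vale.Agent.P167.H411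

/-- Boundary points different from the target are images of real points. -/
theorem bd_real {ψ : ℂ → ℂ} {P : Set ℂ} {a p c : ℂ} (h : IsU ψ P a p) (hc : c ∈ frontier P)
    (hcp : c ≠ p) : ∃ x : ℝ, ψ x = c := by
  have hI : 0 < Complex.I.im := by simp
  rw [← h.toDisc.frontier_eq] at hc
  obtain ⟨w, hw, hwc⟩ := hc
  have hw1 : w ≠ 1 := by
    rintro rfl
    rw [R1.toDisc_one] at hwc
    exact hcp hwc.symm
  have hwn : ‖w‖ = 1 := by rwa [mem_sphere_zero_iff_norm] at hw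
  set z : ℂ := R1.imb 1 Complex.I w with hz
  have hz0 : z.im = 0 := R1.imb_im_eq norm_one hI hwn hw1
  have hmb : R1.mb 1 Complex.I z = w := (R1.mb_imb norm_one hI hw1).2
  have e : ((z.re : ℝ) : ℂ) = z := Complex.ext (by simp) (by simp [hz0])
  refine ⟨z.re, ?_⟩
  rw [e, ← hwc, ← hmb, R1.toDisc_mb hz0.ge]

variable {Φ : (ℝ × ℝ) ≃ₜ (ℝ × ℝ)} {ψ : ℂ → ℂ} {δ : ℕ → ℝ} {N k : ℕ → ℕ}
  {p : ∀ n, ZMod (N n) → ℤ × ℤ} {S : ℕ → Finset (ℤ × ℤ)} {ψn : ℕ → ℂ → ℂ}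

/-- The modulus at infinity of one map. -/
theorem mod_inf1 {ψ : ℂ → ℂ} {b : ℂ} (hU : Uni ψ b) {η : ℝ} (hη : 0 < η) :
    ∃ M : ℝ, ∀ z : ℂ, 0 ≤ z.im → M ≤ ‖z‖ → ‖ψ z - b‖ < η := by
  have h1 := Metric.tendsto_nhds.1 hU.inf η hη
  rw [eventually_inf_principal] at h1
  obtain ⟨M, -, hM⟩ := (Metric.hasBasis_cobounded_compl_closedBall (0 : ℂ)).eventually_iff.1 h1
  refine ⟨M + 1, fun z hz hzM => ?_⟩
  rw [← dist_eq_norm]
  refine hM ?_ hz
  rw [mem_compl_iff, mem_closedBall_zero_iff, not_le]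
  linarith

/-- **The modulus at infinity.** -/
theorem mod_inf (H : Set6 Φ ψ δ N k p S ψn) {η : ℝ} (hη : 0 < η) :
    ∃ M : ℝ, ∀ᶠ n in atTop, ∀ z : ℂ, 0 ≤ z.im → M ≤ ‖z‖ →
      ‖ψn n z - bM (p n) (k n) (δ n)‖ < η := by
  have hU : Uni ψ (bq Φ) := SLE.uni_of_uniformizer R1.i_uinj H.unif
  obtain ⟨M, hM⟩ := mod_inf1 hU (show 0 < η / 8 by positivity)
  refine ⟨M, ?_⟩
  filter_upwards [H.conv (η / 8) (by positivity), good_ev H.appr] with n h1 h2 z hz hzM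
  have hcl : ∀ w : ℂ, 0 ≤ w.im → M ≤ ‖w‖ → ‖ψn n w - bq Φ‖ < η / 4 := by
    intro w hw hwM
    have h3 := hM w hw hwM
    have h4 := h1 w hw
    rw [dist_eq_norm] at h4
    calc ‖ψn n w - bq Φ‖ = ‖(ψn n w - ψ w) + (ψ w - bq Φ)‖ := by congr 1; ring
      _ ≤ _ := norm_add_le _ _
      _ < η / 4 := by linarith
  have hb : ‖bM (p n) (k n) (δ n) - bq Φ‖ ≤ η / 4 := by
    have h5 := (H.uni n h2).inf
    have h6 : Tendsto (fun x : ℝ => (x : ℂ) * Complex.I) atTop (cobounded ℂ ⊓ 𝓟 HC) := by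
      refine tendsto_inf.2 ⟨?_, ?_⟩
      · rw [← tendsto_norm_atTop_iff_cobounded]
        refine tendsto_id.congr' ?_
        filter_upwards [eventually_gt_atTop 0] with x hx
        rw [norm_mulI hx]; rfl
      · rw [tendsto_principal]
        filter_upwards [eventually_gt_atTop 0] with x hx
        change 0 ≤ ((x : ℂ) * Complex.I).im
        rw [im_mulI]; exact hx.le
    have h7 : Tendsto (fun x : ℝ => ‖ψn n ((x : ℂ) * Complex.I) - bq Φ‖) atTop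
        (𝓝 ‖bM (p n) (k n) (δ n) - bq Φ‖) := ((h5.comp h6).sub_const _).norm
    refine le_of_tendsto h7 ?_
    filter_upwards [eventually_gt_atTop (max 0 M)] with x hx
    have hx0 : 0 < x := (le_max_left _ _).trans_lt hx
    exact (hcl _ (by rw [im_mulI]; exact hx0.le)
      (by rw [norm_mulI hx0]; exact ((le_max_right _ _).trans_lt hx).le)).le
  have h8 := hcl z hz hzM
  calc ‖ψn n z - bM (p n) (k n) (δ n)‖
      = ‖(ψn n z - bq Φ) - (bM (p n) (k n) (δ n) - bq Φ)‖ := by congr 1; ring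
    _ ≤ _ := norm_sub_le _ _
    _ < η := by linarith

/-- The modulus of the inverse of one map. -/
theorem inv_mod1 {ψ : ℂ → ℂ} {b : ℂ} (hU : Uni ψ b) {z₀ : ℂ} (hz₀ : 0 ≤ z₀.im) {h : ℝ}
    (hh : 0 < h) : ∃ r > 0, ∀ z : ℂ, 0 ≤ z.im → h ≤ ‖z - z₀‖ → r ≤ ‖ψ z - ψ z₀‖ := by
  have hb : 0 < ‖ψ z₀ - b‖ := norm_pos_iff.2 (sub_ne_zero.2 (hU.ne z₀ hz₀))
  obtain ⟨M, hM⟩ := mod_inf1 hU (half_pos hb)
  set K : Set ℂ := {z | 0 ≤ z.im ∧ h ≤ ‖z - z₀‖} ∩ closedBall 0 M with hK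
  have hKc : IsCompact K := by
    have hc2 : Continuous fun z : ℂ => ‖z - z₀‖ := (continuous_id.sub continuous_const).norm
    exact (isCompact_closedBall _ _).inter_left
      ((isClosed_le continuous_const Complex.continuous_im).inter
        (isClosed_le continuous_const hc2))
  have hcont : ContinuousOn (fun z => ‖ψ z - ψ z₀‖) K :=
    ((hU.cont.mono fun z hz => hz.1.1).sub continuousOn_const).norm
  have hfar : ∀ z : ℂ, 0 ≤ z.im → M ≤ ‖z‖ → ‖ψ z₀ - b‖ / 2 ≤ ‖ψ z - ψ z₀‖ := by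
    intro z hz hzM
    have h1 := hM z hz hzM
    have h2 : ‖ψ z₀ - b‖ ≤ ‖ψ z - ψ z₀‖ + ‖ψ z - b‖ := by
      calc ‖ψ z₀ - b‖ = ‖(ψ z - b) - (ψ z - ψ z₀)‖ := by congr 1; ring
        _ ≤ ‖ψ z - b‖ + ‖ψ z - ψ z₀‖ := norm_sub_le _ _
        _ = _ := add_comm _ _
    linarith
  rcases K.eq_empty_or_nonempty with hKe | hKe
  · refine ⟨‖ψ z₀ - b‖ / 2, by positivity, fun z hz hzh => hfar z hz ?_⟩
    by_contra hlt
    push Not at hlt
    have : z ∈ K := ⟨⟨hz, hzh⟩, by rw [mem_closedBall_zero_iff]; exact hlt.le⟩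
    rw [hKe] at this
    exact this
  · obtain ⟨w, hw, hwm⟩ := hKc.exists_isMinOn hKe hcont
    have hw0 : 0 < ‖ψ w - ψ z₀‖ := by
      refine norm_pos_iff.2 (sub_ne_zero.2 fun he => ?_)
      have h3 := hU.inj hw.1.1 hz₀ he
      have h4 := hw.1.2
      rw [h3, sub_self, norm_zero] at h4
      linarith
    refine ⟨min (‖ψ z₀ - b‖ / 2) ‖ψ w - ψ z₀‖, by positivity, fun z hz hzh => ?_⟩
    rcases le_total M ‖z‖ with hzM | hzM
    · exact (min_le_left _ _).trans (hfar z hz hzM)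
    · exact (min_le_right _ _).trans
        (hwm (show z ∈ K from ⟨⟨hz, hzh⟩, by rw [mem_closedBall_zero_iff]; exact hzM⟩))

/-- **The modulus of the inverse.** -/
theorem inv_mod (H : Set6 Φ ψ δ N k p S ψn) {z₀ : ℂ} (hz₀ : 0 ≤ z₀.im) {h : ℝ} (hh : 0 < h) :
    ∃ r > 0, ∀ᶠ n in atTop, ∀ z : ℂ, 0 ≤ z.im → ‖ψn n z - ψn n z₀‖ ≤ r → ‖z - z₀‖ ≤ h := by
  have hU : Uni ψ (bq Φ) := SLE.uni_of_uniformizer R1.i_uinj H.unif
  obtain ⟨r, hr, hmod⟩ := inv_mod1 hU hz₀ hh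
  refine ⟨r / 4, by positivity, ?_⟩
  filter_upwards [H.conv (r / 4) (by positivity)] with n h1 z hz hzr
  by_contra hlt
  push Not at hlt
  have h2 := hmod z hz hlt.le
  have h3 := h1 z hz
  have h4 := h1 z₀ hz₀
  rw [dist_eq_norm] at h3 h4
  have h5 : ‖ψ z - ψ z₀‖ ≤ ‖ψn n z - ψn n z₀‖ + ‖ψn n z - ψ z‖ + ‖ψn n z₀ - ψ z₀‖ := by
    calc ‖ψ z - ψ z₀‖ = ‖(ψn n z - ψn n z₀) - (ψn n z - ψ z) + (ψn n z₀ - ψ z₀)‖ := by
          congr 1; ring
      _ ≤ _ := (norm_add_le _ _).trans (by gcongr; exact norm_sub_le _ _)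
  linarith

/-- **Marks on the boundary.** -/
theorem mark_real (H : Set6 Φ ψ δ N k p S ψn) (X : ℝ) {h : ℝ} (hh : 0 < h) :
    ∃ r > 0, ∀ᶠ n in atTop, ∀ c ∈ frontier (Om (δ n) (S n)), ‖c - ψn n X‖ ≤ r →
      ∃ x : ℝ, ψn n x = c ∧ |x - X| ≤ h := by
  have hX : (0 : ℝ) ≤ ((X : ℝ) : ℂ).im := by simp
  obtain ⟨r, hr, hmod⟩ := inv_mod H hX hh
  have hU : Uni ψ (bq Φ) := SLE.uni_of_uniformizer R1.i_uinj H.unif
  have hb : 0 < ‖ψ X - bq Φ‖ := norm_pos_iff.2 (sub_ne_zero.2 (hU.ne _ hX))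
  obtain ⟨M', hM'⟩ := mod_inf1 hU (show 0 < ‖ψ X - bq Φ‖ / 8 by positivity)
  obtain ⟨M₂, hM₂⟩ := mod_inf H (show 0 < ‖ψ X - bq Φ‖ / 8 by positivity)
  refine ⟨min r (‖ψ X - bq Φ‖ / 8), by positivity, ?_⟩
  filter_upwards [hmod, hM₂, H.conv (‖ψ X - bq Φ‖ / 8) (by positivity), good_ev H.appr] with
    n h1 h2 h3 h4 c hc hcr
  have hcb : c ≠ bM (p n) (k n) (δ n) := by
    intro he
    set z : ℂ := ((|M'| + |M₂| + 1 : ℝ) : ℂ) * Complex.I with hz
    have hpos : 0 < |M'| + |M₂| + 1 := by positivity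
    have hz0 : 0 ≤ z.im := by rw [hz, im_mulI]; exact hpos.le
    have hzn : ‖z‖ = |M'| + |M₂| + 1 := norm_mulI hpos
    have k1 := hM' z hz0 (by rw [hzn]; have := le_abs_self M'; have := abs_nonneg M₂; linarith)
    have k2 := h2 z hz0 (by rw [hzn]; have := le_abs_self M₂; have := abs_nonneg M'; linarith)
    have k3 := h3 z hz0
    have k4 := h3 X hX
    have k5 := hcr.trans (min_le_right _ _)
    rw [dist_eq_norm] at k3 k4
    rw [he] at k5
    have k6 : ‖ψ X - bq Φ‖ ≤ ‖ψ z - bq Φ‖ + ‖ψn n z - bM (p n) (k n) (δ n)‖ +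
        ‖ψn n z - ψ z‖ + ‖ψn n X - ψ X‖ + ‖bM (p n) (k n) (δ n) - ψn n X‖ := by
      calc ‖ψ X - bq Φ‖ = ‖(ψ z - bq Φ) + (ψn n z - ψ z) - (ψn n z - bM (p n) (k n) (δ n)) -
            (bM (p n) (k n) (δ n) - ψn n X) - (ψn n X - ψ X)‖ := by congr 1; ring
        _ ≤ ‖ψ z - bq Φ‖ + ‖ψn n z - ψ z‖ + ‖ψn n z - bM (p n) (k n) (δ n)‖ +
            ‖bM (p n) (k n) (δ n) - ψn n X‖ + ‖ψn n X - ψ X‖ := by
          refine (norm_sub_le _ _).trans ?_
          gcongr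
          refine (norm_sub_le _ _).trans ?_
          gcongr
          refine (norm_sub_le _ _).trans ?_
          gcongr
          exact norm_add_le _ _
        _ = _ := by ring
    linarith
  obtain ⟨x, hx⟩ := bd_real (H.isU n h4) hc hcb
  refine ⟨x, hx, ?_⟩
  have h5 := h1 x (by simp) (by rw [hx]; exact hcr.trans (min_le_left _ _))
  rwa [← Complex.ofReal_sub, Complex.norm_real, Real.norm_eq_abs] at h5

end Vale.Agent.P167.H756
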