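import Vale.Agent.P167.H756.S12

/-!
# P167, general `q`, sandwich closeness (13): polygons with a flat part near the marks

* `PC h ψ W t Y Rb Q P a` : as `PF`, with the side of the domain in the disc;
* `FlatAt P c m` : `P` is the half-plane above `c` in the disc of radius `m` around `c`;
* `deepC`, `boxC` : points of the inner polygon;
* `mark_flat` : the mark `p` for a flat target.
-/

set_option autoImplicit false
set_option linter.unusedVariables false

open Set Topology Metric MeasureTheory Filter Bornology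
open scoped ENNReal Real ComplexConjugate

namespace Vale.Agent.P167.H756

open Vale.Agent.P153.R2.R1 Vale.Agent.P153.R2.OBSV Vale.Agent.P167.H174
open Vale.Agent.P153.R2.L1 (HH IsHydro inv mem_HH isOpen_HH convex_HH)
open Vale.Agent.P164 (loewnerDomain gf Zf IsLoewnerSol)
open Vale.Agent.P167.H947 (surv flow flow_eq flow_conj flow_inj flow_gf surv_inter isOpen_surv
  differentiableOn_flow hasDerivAt_flow_real flow_rsol)

/-- The image of a compact disc is uniformly inside the image of a larger disc. -/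
theorem Cls.inside2 {R c : ℝ} (hR : 0 < R) (hc : 0 < c) {ρ ρ' : ℝ} (hρρ : ρ < ρ') (hρ' : ρ' < 1) :
    ∃ δ > 0, ∀ F : ℂ → ℂ, Cls R c F → ∀ w ∈ closedBall (0 : ℂ) ρ,
      ball (F w) δ ⊆ F '' ball 0 ρ' := by
  have hρ : ρ < 1 := hρρ.trans hρ'

  by_contra hcon
  push Not at hcon
  have hpos : ∀ n : ℕ, (0 : ℝ) < 1 / (n + 1) := fun n => by positivity
  choose F hF w hw hlt using fun n : ℕ => hcon (1 / (n + 1)) (hpos n)
  set 𝒰 : Ultrafilter ℕ := hyperfilter ℕ with h𝒰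
  have hle : (𝒰 : Filter ℕ) ≤ atTop := by
    rw [← Nat.cofinite_eq_atTop]; exact hyperfilter_le_cofinite
  obtain ⟨g, hg⟩ := exists_dsc_limit 𝒰 hR (fun n => (hF n).dsc)
  have hcpt := isCompact_closedBall (0 : ℂ) ρ
  obtain ⟨x, hx, hxl⟩ := hcpt.ultrafilter_le_nhds (𝒰.map w) (by
    rw [le_principal_iff]; exact Filter.Eventually.of_forall (p := fun n => w n ∈ closedBall 0 ρ) hw)
  have hsub : closedBall (0 : ℂ) ρ ⊆ ball 0 1 := closedBall_subset_ball hρ
  have hgc : ContinuousOn g (ball 0 1) := (lim_diff (fun n => (hF n).dsc) hg).continuousOn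
  have h1 : Tendsto (fun n => F n (w n) - F n 0) 𝒰 (𝓝 (g x)) := by
    refine hg.tendsto_comp (hgc x (hsub hx)) (hsub hx) ?_
    exact tendsto_nhdsWithin_iff.2 ⟨hxl, Filter.Eventually.of_forall fun n => hsub (hw n)⟩
  obtain ⟨ε, hε, hev⟩ := ker_low (fun n => (hF n).dsc) hc hg (hsub hx) (δ := ρ' - ρ) (by linarith)
  have h2 : ∀ᶠ n in (𝒰 : Filter ℕ), dist (F n (w n) - F n 0) (g x) < ε / 2 :=
    Metric.tendsto_nhds.1 h1 (ε / 2) (by positivity)
  have h3 : ∀ᶠ n : ℕ in (𝒰 : Filter ℕ), (1 : ℝ) / ((n : ℝ) + 1) < ε / 2 :=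
    (tendsto_one_div_add_atTop_nhds_zero_nat.mono_left hle).eventually (gt_mem_nhds (by positivity))
  obtain ⟨n, h4, h5, h6⟩ := (hev.and (h2.and h3)).exists
  refine hlt n fun z hz => ?_
  have hz' : z - F n 0 ∈ ball (g x) ε := by
    rw [mem_ball] at hz ⊢
    have h7 := dist_triangle (z - F n 0) (F n (w n) - F n 0) (g x)
    rw [dist_sub_right] at h7
    linarith
  obtain ⟨v, hv, hve⟩ := h4 hz'
  refine ⟨v, ?_, sub_left_inj.1 hve⟩
  have h8 := hv.1
  rw [mem_ball, dist_eq_norm] at h8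
  rw [mem_closedBall_zero_iff] at hx
  rw [mem_ball_zero_iff]
  calc ‖v‖ = ‖(v - x) + x‖ := by congr 1; ring
    _ ≤ ‖v - x‖ + ‖x‖ := norm_add_le _ _
    _ < ρ' := by linarith

/-- A polygon `P` with a marked point `a` and a common inner polygon `Q` of `P` and
`ψ (loewnerDomain W t)`; the conditions on the side of the domain are in the disc. -/
structure PC (h : ℝ) (ψ : ℂ → ℂ) (W : ℝ → ℝ) (t Y Rb : ℝ) (Q P : Set ℂ) (a : ℂ) : Prop where
  goodQ : Good Q
  good : Good P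
  subD : Q ⊆ ψ '' loewnerDomain W t
  subP : Q ⊆ P
  bdd : ∀ z ∈ P, ‖z - ψ (Y * Complex.I)‖ ≤ Rb
  innerD : ball (0 : ℂ) (1 - h) ⊆ dinv (FD ψ W t) '' Q
  collarD : CollarC (FD ψ W t) Q h
  innerP : Inner P Q (ψ (Y * Complex.I)) h
  collarP : Collar P Q h
  mem_a : a ∈ frontier P
  mark_a : ∃ C ⊆ P, IsPreconnected C ∧ a ∈ closure C ∧ (∀ u ∈ C, ∀ v ∈ C, dist u v ≤ h) ∧
    (C ∩ (Q ∩ ψ '' {z | z ∈ loewnerDomain W t ∧ ‖Zf W z t‖ < h})).Nonempty

theorem PC.mono {h h' : ℝ} {ψ : ℂ → ℂ} {W : ℝ → ℝ} {t Y Rb : ℝ} {Q P : Set ℂ} {a : ℂ}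
    (H : PC h ψ W t Y Rb Q P a) (hh : h ≤ h') : PC h' ψ W t Y Rb Q P a :=
  { H with
    innerD := (ball_subset_ball (by linarith)).trans H.innerD
    collarD := H.collarD.mono hh
    innerP := H.innerP.mono hh
    collarP := H.collarP.mono hh
    mark_a := by
      obtain ⟨C, h1, h2, h3, h4, h5⟩ := H.mark_a
      refine ⟨C, h1, h2, h3, fun u hu v hv => (h4 u hu v hv).trans hh, h5.mono ?_⟩
      refine inter_subset_inter_right _ (inter_subset_inter_right _ (image_mono ?_))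
      exact fun z hz => ⟨hz.1, hz.2.trans_le hh⟩ }

/-- The polygon is the half-plane above `c` in the disc of radius `m` around `c`. -/
def FlatAt (P : Set ℂ) (c : ℂ) (m : ℝ) : Prop := ∀ z ∈ ball c m, z ∈ P ↔ c.im < z.im

/-- The mark `p` of a polygon. -/
def MarkP (h : ℝ) (ψ : ℂ → ℂ) (W : ℝ → ℝ) (t : ℝ) (Q P : Set ℂ) (p : ℂ) : Prop :=
  ∃ C ⊆ P, IsPreconnected C ∧ p ∈ closure C ∧ (∀ u ∈ C, ∀ v ∈ C, dist u v ≤ h) ∧
    (C ∩ (Q ∩ ψ '' {z | z ∈ loewnerDomain W t ∧ h⁻¹ < ‖z‖})).Nonempty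

variable {T R : ℝ} {W : ℝ → ℝ} {t : ℝ}

/-- From `PC` to `SideC`. -/
theorem sideC_of_PC {Rd cd Y Rb : ℝ} (hRd : 0 < Rd) (hcd : 0 < cd) (hRb : 0 ≤ Rb) (hY0 : 0 < Y)
    (hY : 8 * R ≤ Y) (hY2 : 64 * T ≤ Y ^ 2) (hT : 0 ≤ T) (hR : 0 ≤ R) :
    ∃ c > 0, ∃ ρ₀ < 1, ∀ h > 0, ∃ h' > 0, ∀ ψ : ℂ → ℂ, HConf Rd cd Y ψ →
      ∀ (W : ℝ → ℝ) (t : ℝ), Drv T R W t → ∀ (Q P : Set ℂ) (a p : ℂ), PC h' ψ W t Y Rb Q P a →
        p ∈ frontier P → MarkP h' ψ W t Q P p →
        SideC (Rd + Rb) c ρ₀ h (FD ψ W t) (mb 1 Complex.I (Zf W (Y * Complex.I) t)) Q P a p := by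
  obtain ⟨c, hc, hcls⟩ := cls_FD (T := T) (R := R) hRd hcd hY0 hY hY2
  have hρ1 : √(1 - 4 * (3 * Y / 4) / (1 + 2 * Y) ^ 2) < 1 := by
    rw [Real.sqrt_lt' one_pos, one_pow, sub_lt_self_iff]
    positivity
  refine ⟨c, hc, _, hρ1, fun h hh => ?_⟩
  have hden : 0 < 4 * R + 16 * T + 1 := by positivity
  refine ⟨min (h / 4) (1 / (4 * R + 16 * T + 1)), by positivity,
    fun ψ hψ W t H Q P a p HP hpf hpm => ?_⟩
  have hle : min (h / 4) (1 / (4 * R + 16 * T + 1)) ≤ h := (min_le_left _ _).trans (by linarith)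
  have hpos : 0 < min (h / 4) (1 / (4 * R + 16 * T + 1)) := by positivity
  obtain ⟨hd, h1, h2, h3⟩ := H.base hY0 hY hY2
  have hbase : FD ψ W t (mb 1 Complex.I (Zf W (Y * Complex.I) t)) = ψ (Y * Complex.I) :=
    FD_mb H ψ hd
  refine ⟨(hcls ψ hψ W t H).mono (by linarith), ?_, HP.goodQ, HP.good, ?_, ?_, ?_, HP.subP, ?_, ?_,
    HP.collarP.mono hle, HP.mem_a, hpf, ?_, ?_⟩
  · have hI : 0 < Complex.I.im := by simp
    have e : ‖mb 1 Complex.I (Zf W (Y * Complex.I) t)‖ =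
        ‖mb 1 (Zf W (Y * Complex.I) t) Complex.I‖ := by
      rw [norm_mb norm_one, norm_mb norm_one, norm_sub_rev, Complex.conj_I]
      congr 1
      rw [← RCLike.norm_conj (Complex.I - _), map_sub, Complex.conj_conj, Complex.conj_I,
        ← norm_neg]
      congr 1
      ring
    rw [mem_closedBall_zero_iff, e]
    exact norm_mb_le (by positivity) h1 h2
  · rw [FD_img H]; exact HP.subD
  · exact (ball_subset_ball (by linarith)).trans HP.innerD
  · exact HP.collarD.mono hle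
  · intro z hz
    have k1 := HP.bdd z hz
    have k2 : ‖ψ (Y * Complex.I) - FD ψ W t 0‖ ≤ Rd := by
      rw [← hbase]
      refine (hcls ψ hψ W t H).bdd _ ?_
      rw [mem_ball_zero_iff]
      exact norm_mb_lt norm_one (by simp) (by linarith)
    calc ‖z - FD ψ W t 0‖ = ‖(z - ψ (Y * Complex.I)) + (ψ (Y * Complex.I) - FD ψ W t 0)‖ := by
          congr 1; ring
      _ ≤ _ := norm_add_le _ _
      _ ≤ Rd + Rb := by linarith
  · rw [hbase]; exact HP.innerP.mono hle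
  · obtain ⟨C, c1, c2, c3, c4, c5⟩ := HP.mark_a
    refine ⟨C, c1, c2, c3, fun u hu v hv => (c4 u hu v hv).trans hle, c5.mono ?_⟩
    refine inter_subset_inter_right _ (inter_subset_inter_right _ ?_)
    rintro _ ⟨z, ⟨hz, hzn⟩, rfl⟩
    have hzi := Vale.Agent.P164.Zf_im_pos H.nn hz
    refine ⟨mb 1 Complex.I (Zf W z t), ⟨?_, ?_⟩, FD_mb H ψ hz⟩
    · rw [mem_ball_zero_iff]; exact norm_mb_lt norm_one (by simp) hzi
    · rw [mem_ball]
      have h4 := chart_dist_le (ζ := -1) (z := Zf W z t) (by simp) hzi.le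
      rw [neg_neg] at h4
      have h5 : ‖Zf W z t‖ < h / 4 := hzn.trans_le (min_le_left _ _)
      linarith
  · obtain ⟨C, c1, c2, c3, c4, c5⟩ := hpm
    refine ⟨C, c1, c2, c3, fun u hu v hv => (c4 u hu v hv).trans hle, c5.mono ?_⟩
    refine inter_subset_inter_right _ (inter_subset_inter_right _ ?_)
    rintro _ ⟨z, ⟨hz, hzn⟩, rfl⟩
    have hzi := Vale.Agent.P164.Zf_im_pos H.nn hz
    refine ⟨mb 1 Complex.I (Zf W z t), ⟨?_, ?_⟩, FD_mb H ψ hz⟩
    · rw [mem_ball_zero_iff]; exact norm_mb_lt norm_one (by simp) hzi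
    · rw [mem_ball]
      have hz0 : 0 < ‖z‖ := lt_trans (by positivity) hzn
      have h4 : 4 * R + 16 * T + 1 < ‖z‖ := by
        refine lt_of_le_of_lt ((le_inv_comm₀ hden hpos).2 ?_) hzn
        rw [← one_div]
        exact min_le_right _ _
      have h5 : 4 / h < ‖z‖ := by
        refine lt_of_le_of_lt ((le_inv_comm₀ (by positivity) hpos).2 ?_) hzn
        rw [inv_div]
        exact min_le_left _ _
      have h6 : 16 * T ≤ ‖z‖ ^ 2 := by
        have h7 : ‖z‖ * 1 ≤ ‖z‖ * ‖z‖ := by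
          apply mul_le_mul_of_nonneg_left _ hz0.le
          linarith
        rw [sq]
        linarith
      have h7 := (H.far hz0 (by linarith) h6).2.2.2
      have e : Zf W z t = flow W t z - W t := by
        rw [flow_gf H.nn H.cont.continuousOn hz, Vale.Agent.P164.Zf_eq]
      rw [← e] at h7
      have h8 : 0 < ‖Zf W z t‖ := by linarith
      refine (dist_mb_one hzi).trans_lt ?_
      rw [div_lt_iff₀ h8]
      rw [div_lt_iff₀ hh] at h5
      nlinarith

end Vale.Agent.P167.H756
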