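import Vale.Agent.P167.H756.S8

/-!
# P167, general `q`, sandwich closeness (10): existence of the conformal quantities

* `symPos` : symmetric maps of a disc which map the upper half to the upper half-plane have a positive
  derivative at the centre;
* `derivO` : the derivative of the uniformizer of a polygon at a flat mark;
* `exists_pos` : the conformal quantities exist for the polygons of the sandwich.
-/

set_option autoImplicit false
set_option linter.unusedVariables false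

open Set Topology Metric MeasureTheory Filter Bornology
open scoped ENNReal Real ComplexConjugate

namespace Vale.Agent.P167.H756

open Vale.Agent.P153.R2.R1 Vale.Agent.P153.R2.OBSV Vale.Agent.P167.H174
open Vale.Agent.P153.R2.L1 (HH IsHydro inv mem_HH isOpen_HH convex_HH)
open Vale.Agent.P164 (loewnerDomain gf Zf IsLoewnerSol)
open Vale.Agent.P167.H947 (surv flow flow_eq flow_conj flow_inj flow_gf surv_inter isOpen_surv
  differentiableOn_flow hasDerivAt_flow_real flow_rsol)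

variable {T R : ℝ} {W : ℝ → ℝ} {t : ℝ}

/-- A symmetric map of a disc, which maps the upper half into the upper half-plane and is injective
on the upper half, is injective and has a positive derivative at the centre. -/
theorem symPos {f : ℂ → ℂ} {x r : ℝ} (hr : 0 < r) (hd : DifferentiableOn ℂ f (ball (x : ℂ) r))
    (hs : ∀ z ∈ ball (x : ℂ) r, f (conj z) = conj (f z))
    (hp : ∀ z ∈ ball (x : ℂ) r, 0 < z.im → 0 < (f z).im)
    (hi : InjOn f (ball (x : ℂ) r ∩ {z | 0 ≤ z.im})) :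
    (∀ z ∈ ball (x : ℂ) r, (f z).im = 0 ∨ (0 < z.im ∧ 0 < (f z).im) ∨ (z.im < 0 ∧ (f z).im < 0)) ∧
      ∃ m : ℝ, 0 < m ∧ HasDerivAt f (m : ℂ) x := by
  have hcb : ∀ z ∈ ball (x : ℂ) r, conj z ∈ ball (x : ℂ) r := by
    intro z hz
    rw [mem_ball, dist_eq_norm] at hz ⊢
    have e : conj z - (x : ℂ) = conj (z - x) := by rw [map_sub, Complex.conj_ofReal]
    rwa [e, RCLike.norm_conj]
  have hreal : ∀ z ∈ ball (x : ℂ) r, z.im = 0 → (f z).im = 0 := by
    intro z hz h0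
    have h1 := hs z hz
    rw [Complex.conj_eq_iff_im.2 h0] at h1
    exact Complex.conj_eq_iff_im.1 h1.symm
  have hneg : ∀ z ∈ ball (x : ℂ) r, z.im < 0 → (f z).im < 0 := by
    intro z hz h0
    have h1 := hp (conj z) (hcb z hz) (by rw [Complex.conj_im]; linarith)
    rw [hs z hz, Complex.conj_im] at h1
    linarith
  have hinj : InjOn f (ball (x : ℂ) r) := by
    intro z hz w hw he
    rcases lt_trichotomy z.im 0 with h | h | h
    · rcases lt_trichotomy w.im 0 with h' | h' | h'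
      · have h1 : f (conj z) = f (conj w) := by rw [hs z hz, hs w hw, he]
        have h2 := hi ⟨hcb z hz, by show 0 ≤ (conj z).im; rw [Complex.conj_im]; linarith⟩
          ⟨hcb w hw, by show 0 ≤ (conj w).im; rw [Complex.conj_im]; linarith⟩ h1
        exact (starRingEnd ℂ).injective h2
      · have h1 := hneg z hz h
        rw [he, hreal w hw h'] at h1
        exact absurd h1 (lt_irrefl _)
      · have h1 := hneg z hz h
        have h2 := hp w hw h'
        rw [he] at h1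
        linarith
    · rcases lt_trichotomy w.im 0 with h' | h' | h'
      · have h1 := hneg w hw h'
        rw [← he, hreal z hz h] at h1
        exact absurd h1 (lt_irrefl _)
      · exact hi ⟨hz, h.ge⟩ ⟨hw, h'.ge⟩ he
      · have h1 := hp w hw h'
        rw [← he, hreal z hz h] at h1
        exact absurd h1 (lt_irrefl _)
    · rcases lt_trichotomy w.im 0 with h' | h' | h'
      · have h1 := hneg w hw h'
        have h2 := hp z hz h
        rw [he] at h2
        linarith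
      · have h1 := hp z hz h
        rw [he, hreal w hw h'] at h1
        exact absurd h1 (lt_irrefl _)
      · exact hi ⟨hz, h.le⟩ ⟨hw, h'.le⟩ he
  have hx : (x : ℂ) ∈ ball (x : ℂ) r := mem_ball_self hr
  have hne : deriv f x ≠ 0 := Vale.Agent.P153.R2.L1.injOn_deriv_ne_zero isOpen_ball hd hinj hx
  have hder : HasDerivAt f (deriv f x) x :=
    (hd.differentiableAt (isOpen_ball.mem_nhds hx)).hasDerivAt
  -- the derivative is real
  have him0 : (deriv f x).im = 0 := by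
    have h1 : HasDerivAt (fun y : ℝ => (f y).im) (deriv f x).im x := by
      have h2 : HasDerivAt (fun y : ℝ => f y) (deriv f x) x := hder.comp_ofReal
      exact (Complex.imCLM.hasFDerivAt.comp_hasDerivAt x h2)
    have h3 : HasDerivAt (fun y : ℝ => (f y).im) 0 x := by
      refine (hasDerivAt_const x (0 : ℝ)).congr_of_eventuallyEq ?_
      have h4 : ∀ᶠ y : ℝ in 𝓝 x, (y : ℂ) ∈ ball (x : ℂ) r :=
        (Complex.continuous_ofReal.tendsto x).eventually (isOpen_ball.mem_nhds hx)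
      filter_upwards [h4] with y hy
      exact hreal y hy (by simp)
    exact h1.unique h3
  -- and nonnegative
  have hre : 0 ≤ (deriv f x).re := by
    have h1 : HasDerivAt (fun y : ℝ => (f ((x : ℂ) + (y : ℂ) * Complex.I)).im) (deriv f x).re 0 := by
      have h2 : HasDerivAt (fun y : ℝ => (x : ℂ) + (y : ℂ) * Complex.I) Complex.I 0 := by
        have h3 : HasDerivAt (fun y : ℝ => (y : ℂ)) 1 (0 : ℝ) := Complex.ofRealCLM.hasDerivAt
        simpa using (h3.mul_const Complex.I).const_add (x : ℂ)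
      have h3 : HasDerivAt f (deriv f x) ((x : ℂ) + ((0 : ℝ) : ℂ) * Complex.I) := by simpa using hder
      have h4 : HasDerivAt (fun y : ℝ => f ((x : ℂ) + (y : ℂ) * Complex.I))
          (deriv f x * Complex.I) 0 := h3.comp (0 : ℝ) h2
      have h5 := Complex.imCLM.hasFDerivAt.comp_hasDerivAt (0 : ℝ) h4
      have e : Complex.imCLM (deriv f x * Complex.I) = (deriv f x).re := by simp
      rw [e] at h5
      exact h5
    rw [hasDerivAt_iff_tendsto_slope_zero] at h1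
    have h6 : Tendsto (fun s : ℝ => s⁻¹ • ((f ((x : ℂ) + ((0 + s : ℝ) : ℂ) * Complex.I)).im -
        (f ((x : ℂ) + ((0 : ℝ) : ℂ) * Complex.I)).im)) (𝓝[>] 0) (𝓝 (deriv f x).re) :=
      h1.mono_left (nhdsWithin_mono _ fun s hs => (ne_of_gt hs : s ≠ 0))
    refine ge_of_tendsto h6 ?_
    have h7 : ∀ᶠ s : ℝ in 𝓝[>] 0, s < r := (eventually_lt_nhds hr).filter_mono nhdsWithin_le_nhds
    filter_upwards [h7, self_mem_nhdsWithin] with s hs hs0
    have hs0' : 0 < s := hs0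
    have e1 : (f ((x : ℂ) + ((0 : ℝ) : ℂ) * Complex.I)).im = 0 := by
      rw [Complex.ofReal_zero, zero_mul, add_zero]
      exact hreal x hx (by simp)
    rw [e1, sub_zero, zero_add, smul_eq_mul]
    have h8 := hp ((x : ℂ) + (s : ℂ) * Complex.I) (by
      rw [mem_ball, dist_eq_norm, add_sub_cancel_left, norm_mulI hs0']
      exact hs) (by simp [hs0'])
    positivity
  refine ⟨fun z hz => ?_, (deriv f x).re, ?_, ?_⟩
  · rcases lt_trichotomy z.im 0 with h | h | h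
    · exact Or.inr (Or.inr ⟨h, hneg z hz h⟩)
    · exact Or.inl (hreal z hz h)
    · exact Or.inr (Or.inl ⟨h, hp z hz h⟩)
  · refine lt_of_le_of_ne hre fun h => hne ?_
    exact Complex.ext h.symm him0
  · have e : (((deriv f x).re : ℝ) : ℂ) = deriv f x := Complex.ext (by simp) (by simp [him0])
    rw [e]
    exact hder

theorem QPosL.toQ {P : Set ℂ} {a p c d : ℂ} {u v : ℝ} (h : QPosL 1 P a p c d u v) :
    QPos P a p c d u v := by
  obtain ⟨φ, xc, xd, D, h1, h2, h3, h4, h5, h6, h7, h8, h9⟩ := h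
  exact ⟨φ, xc, xd, D, h1, h2, h3, h4, h5, h6, by rwa [one_mul] at h7, h8, h9⟩

/-- Similarities. -/
theorem QPosL.sim {ν s : ℂ} {P : Set ℂ} {a p c d : ℂ} {u v : ℝ} (hs : s ≠ 0) (z₀ : ℂ)
    (h : QPosL ν P a p c d u v) :
    QPosL (s * ν) ((fun z => s * z + z₀) '' P) (s * a + z₀) (s * p + z₀) (s * c + z₀)
      (s * d + z₀) u v := by
  obtain ⟨φ, xc, xd, D, h1, h2, h3, h4, h5, h6, h7, h8, h9⟩ := h
  refine ⟨fun z => s * φ z + z₀, xc, xd, D, ?_, h2, h3, h4, ?_, ?_, ?_, h8, h9⟩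
  · refine ⟨(h1.diff.const_mul s).add_const z₀, ?_, ?_, ?_, ?_, ?_⟩
    · intro x hx y hy e
      have e' : s * φ x = s * φ y := add_right_cancel e
      exact h1.inj hx hy (mul_left_cancel₀ hs e')
    · rw [← h1.img, image_image]
    · exact (continuousOn_const.mul h1.cont).add continuousOn_const
    · show s * φ 0 + z₀ = s * a + z₀
      rw [h1.zero]
    · exact (h1.infty.const_mul s).add_const z₀
  · show s * φ xc + z₀ = s * c + z₀
    rw [h5]
  · show s * φ xd + z₀ = s * d + z₀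
    rw [h6]
  · rw [mul_assoc]
    exact (h7.const_mul s).add_const z₀

/-- **The derivative of the uniformizer of a polygon at a flat mark.** -/
theorem derivO {φ ψ G : ℂ → ℂ} {xd r β : ℝ} {ν : ℂ} (hr : 0 < r) (hν : ν ≠ 0)
    (hψc : ContinuousOn ψ (ball (xd : ℂ) r ∩ {z | 0 ≤ z.im}))
    (hψd : DifferentiableOn ℂ ψ (ball (xd : ℂ) r ∩ {z | 0 < z.im}))
    (hψi : InjOn ψ (ball (xd : ℂ) r ∩ {z | 0 ≤ z.im}))
    (hflat : ∀ z ∈ ball (xd : ℂ) r, (0 < z.im → 0 < (ν⁻¹ * (ψ z - ψ xd)).im) ∧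
      (z.im = 0 → (ν⁻¹ * (ψ z - ψ xd)).im = 0))
    (hGd : DifferentiableOn ℂ G (ball (xd : ℂ) r))
    (hGs : ∀ z ∈ ball (xd : ℂ) r, G (conj z) = conj (G z))
    (hGe : ∀ z ∈ ball (xd : ℂ) r, 0 ≤ z.im → 0 ≤ (G z).im ∧ φ (G z) = ψ z)
    (hGp : ∀ z ∈ ball (xd : ℂ) r, 0 < z.im → 0 < (G z).im) (hβ : G xd = (β : ℂ)) :
    ∃ D : ℝ, 0 < D ∧ HasDerivWithinAt φ (ν * ((1 / D : ℝ) : ℂ)) {z | 0 ≤ z.im} β := by
  have hx : (xd : ℂ) ∈ ball (xd : ℂ) r := mem_ball_self hr
  have hνi : ν⁻¹ ≠ 0 := inv_ne_zero hν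
  -- the reflection of `ψ`
  obtain ⟨G₂, hG₂d, hG₂e, hG₂s⟩ := schwarz (T := fun z => ν⁻¹ * (ψ z - ψ xd)) (x := xd) (r := r)
    (continuousOn_const.mul (hψc.sub continuousOn_const))
    ((hψd.sub_const _).const_mul _) fun z hz h0 => (hflat z hz).2 h0
  obtain ⟨-, m, hm, hm'⟩ := symPos hr hG₂d hG₂s
    (fun z hz h0 => by rw [hG₂e z hz h0.le]; exact (hflat z hz).1 h0)
    (by
      intro z hz w hw he
      rw [hG₂e z hz.1 hz.2, hG₂e w hw.1 hw.2] at he
      have h1 := mul_left_cancel₀ hνi he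
      exact hψi hz hw (sub_left_injective h1))
  obtain ⟨hsgn, τ, hτ, hτ'⟩ := symPos hr hGd hGs hGp (by
      intro z hz w hw he
      refine hψi hz hw ?_
      rw [← (hGe z hz.1 hz.2).2, ← (hGe w hw.1 hw.2).2, he])
  have hτ0 : (τ : ℂ) ≠ 0 := by exact_mod_cast hτ.ne'
  -- the local inverse
  have hstr : HasStrictDerivAt G (τ : ℂ) xd := by
    have h1 := (hGd.analyticOnNhd isOpen_ball xd hx).hasStrictDerivAt
    rwa [hτ'.deriv] at h1
  set L : ℂ → ℂ := hstr.localInverse G (τ : ℂ) xd hτ0 with hL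
  have hLd : HasStrictDerivAt L (τ : ℂ)⁻¹ (G xd) := hstr.to_localInverse hτ0
  have hLr : ∀ᶠ w in 𝓝 (G xd), G (L w) = w :=
    (hstr.hasStrictFDerivAt_equiv hτ0).eventually_right_inverse
  have hLx : L (G xd) = xd :=
    (hstr.hasStrictFDerivAt_equiv hτ0).localInverse_apply_image
  rw [hβ] at hLd hLr hLx
  have hLb : ∀ᶠ w in 𝓝 (β : ℂ), L w ∈ ball (xd : ℂ) r := by
    have h1 : ContinuousAt L β := hLd.hasDerivAt.continuousAt
    have h2 : Tendsto L (𝓝 (β : ℂ)) (𝓝 (xd : ℂ)) := by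
      have := h1.tendsto
      rwa [hLx] at this
    exact h2.eventually (isOpen_ball.mem_nhds hx)
  refine ⟨τ / m, by positivity, ?_⟩
  have hcomp : HasDerivAt (fun w => ψ xd + ν * G₂ (L w)) (ν * ((m : ℂ) * (τ : ℂ)⁻¹)) β := by
    have h1 : HasDerivAt G₂ (m : ℂ) (L β) := by rw [hLx]; exact hm'
    have h2 : HasDerivAt (fun w => G₂ (L w)) ((m : ℂ) * (τ : ℂ)⁻¹) (β : ℂ) :=
      h1.comp (β : ℂ) hLd.hasDerivAt
    exact (h2.const_mul ν).const_add (ψ xd)
  have e : ν * ((1 / (τ / m) : ℝ) : ℂ) = ν * ((m : ℂ) * (τ : ℂ)⁻¹) := by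
    have hm0 : (m : ℂ) ≠ 0 := by exact_mod_cast hm.ne'
    push_cast
    field_simp
  rw [e]
  have hφψ : ∀ᶠ w in 𝓝 (β : ℂ), 0 ≤ w.im → φ w = ψ xd + ν * G₂ (L w) := by
    filter_upwards [hLr, hLb] with w h1 h2 h3
    have h4 : 0 ≤ (L w).im := by
      rcases hsgn (L w) h2 with h5 | h5 | h5
      · by_contra hlt
        push Not at hlt
        have h6 := hsgn (conj (L w)) (by
          rw [mem_ball, dist_eq_norm] at h2 ⊢
          have e : conj (L w) - (xd : ℂ) = conj (L w - xd) := by rw [map_sub, Complex.conj_ofReal]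
          rwa [e, RCLike.norm_conj])
        have h7 : (G (conj (L w))).im = 0 := by rw [hGs _ h2, Complex.conj_im, h5, neg_zero]
        have h8 := hGp (conj (L w)) (by
          rw [mem_ball, dist_eq_norm] at h2 ⊢
          have e : conj (L w) - (xd : ℂ) = conj (L w - xd) := by rw [map_sub, Complex.conj_ofReal]
          rwa [e, RCLike.norm_conj]) (by rw [Complex.conj_im]; linarith)
        linarith
      · exact h5.1.le
      · exfalso
        rw [h1] at h5
        linarith [h5.2]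
    have h5 := (hGe (L w) h2 h4).2
    rw [h1] at h5
    have h6 : G₂ (L w) = ν⁻¹ * (ψ (L w) - ψ xd) := hG₂e (L w) h2 h4
    rw [h5, h6, mul_inv_cancel_left₀ hν]
    ring
  refine hcomp.hasDerivWithinAt.congr_of_eventuallyEq ?_ ?_
  · filter_upwards [nhdsWithin_le_nhds hφψ, self_mem_nhdsWithin] with w h1 h2
    exact h1 h2
  · exact hφψ.self_of_nhds (by simp)

/-- **The conformal quantities exist** for the polygons of the sandwich with two flat marks. -/
theorem exists_pos {X X' Y Rd cd Rb : ℝ} (hT : 0 ≤ T) (hR : 0 ≤ R) (hRd : 0 < Rd) (hcd : 0 < cd)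
    (hRb : 0 ≤ Rb) (hX0 : 0 < X) (hX : 8 * R ≤ X) (hX2 : 256 * T ≤ X ^ 2) (hXX : 16 * X ≤ X')
    (hY0 : 0 < Y) (hY : 8 * R ≤ Y) (hY2 : 64 * T ≤ Y ^ 2) :
    ∃ h > 0, ∀ ψ : ℂ → ℂ, HConf Rd cd Y ψ → ContinuousOn ψ {z | 0 ≤ z.im} →
      InjOn ψ {z | 0 ≤ z.im} →
      ∀ (W : ℝ → ℝ) (t : ℝ), Drv T R W t → ∀ (Q P : Set ℂ) (a p : ℂ), PO h ψ W t Y Rb Q P a p →
      FlatO ψ X X' P p → ∀ xc xd : ℝ, |xc - X| ≤ h → |xd - X'| ≤ h → ∀ ν : ℂ, ν ≠ 0 →
      (∀ z ∈ ball (X' : ℂ) (X' / 4), (0 < z.im → 0 < (ν⁻¹ * (ψ z - ψ xd)).im) ∧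
        (z.im = 0 → (ν⁻¹ * (ψ z - ψ xd)).im = 0)) →
      ∃ u v : ℝ, QPosL ν P a p (ψ xc) (ψ xd) u v := by
  have hX'0 : 0 < X' := by linarith
  have hX' : 8 * R ≤ X' := by linarith
  have hXsq : X ^ 2 ≤ X' ^ 2 := by gcongr; linarith
  have hX2' : 256 * T ≤ X' ^ 2 := by linarith
  have hX64 : 64 * T ≤ X ^ 2 := by linarith
  have hX64' : 64 * T ≤ X' ^ 2 := by linarith
  obtain ⟨c, hc, ρ₀, hρ₀, hside⟩ := sideO_of_PO (T := T) (R := R) hRd hcd hRb hY0 hY hY2 hT hR
  have hRR : 0 < Rd + Rb := by positivity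
  obtain ⟨ε, hε, h₁, hh₁, htr⟩ := tranO (T := T) (R := R) (Y := Y) (κ := X / 8) hT hR hRd hcd hRb
    hX0 hX hX2 hY0 hY hY2 (by positivity)
  obtain ⟨ε', hε', h₂, hh₂, htr'⟩ := tranO (T := T) (R := R) (Y := Y) (κ := X / 8) hT hR hRd hcd
    hRb hX'0 hX' hX2' hY0 hY hY2 (by positivity)
  obtain ⟨h₃, hh₃, hhalf⟩ := halfplaneO (R := Rd + Rb) (c := c) hRR hc hρ₀
    (show 0 < min ε ε' by positivity)
  obtain ⟨h₄, hh₄, hS⟩ := hside h₃ hh₃
  obtain ⟨h₅, hh₅0, q1, q2, q4, qX⟩ : ∃ h > 0, h ≤ h₁ ∧ h ≤ h₂ ∧ h ≤ h₄ ∧ h ≤ X / 256 := by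
    refine ⟨min (min h₁ (min h₂ h₄)) (X / 256), by positivity,
      (min_le_left _ _).trans (min_le_left _ _),
      (min_le_left _ _).trans ((min_le_right _ _).trans (min_le_left _ _)),
      (min_le_left _ _).trans ((min_le_right _ _).trans (min_le_right _ _)), min_le_right _ _⟩
  refine ⟨h₅, hh₅0, ?_⟩
  intro ψ hψ hψc hψi W t H Q P a p hP hF xc xd hxc hxd ν hν hflat
  have S := hS ψ hψ _ _ H Q P a p (hP.mono hh₅0 q4)
  obtain ⟨φ, hφ, hφi, hφc⟩ := hhalf _ _ _ _ _ _ S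
  obtain ⟨G, hGd, hGs, hGe, hGc⟩ := htr ψ hψ hψc W t H Q P a p (hP.mono hh₅0 q1) φ hφ
    (fun z hz hzQ => (hφc z hz hzQ).trans (min_le_left _ _))
    (fun z hz h0 => hF.1 z (Or.inl hz) h0) (fun z hz h0 => hF.2 z (Or.inl hz) h0)
  obtain ⟨G', hGd', hGs', hGe', hGc'⟩ := htr' ψ hψ hψc W t H Q P a p (hP.mono hh₅0 q2) φ hφ
    (fun z hz hzQ => (hφc z hz hzQ).trans (min_le_right _ _))
    (fun z hz h0 => hF.1 z (Or.inr hz) h0) (fun z hz h0 => hF.2 z (Or.inr hz) h0)
  obtain ⟨n1, n2, -⟩ := nearO H hX0 hX hX64 hGd hGs hGc (y := xc) (by linarith)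
  obtain ⟨m1, m2, -⟩ := nearO H hX'0 hX' hX64' hGd' hGs' hGc' (y := xd) (by linarith)
  have hxcb : (xc : ℂ) ∈ ball (X : ℂ) (X / 8) := by
    rw [mem_ball, dist_eq_norm, ← Complex.ofReal_sub, Complex.norm_real, Real.norm_eq_abs]
    linarith
  have hxdn : ‖(xd : ℂ) - X'‖ < X' / 16 := by
    rw [← Complex.ofReal_sub, Complex.norm_real, Real.norm_eq_abs]
    linarith
  have hxdb : (xd : ℂ) ∈ ball (X' : ℂ) (X' / 8) := by
    rw [mem_ball, dist_eq_norm]; linarith
  have hφα : φ ((G xc).re : ℂ) = ψ xc := by rw [← n1]; exact (hGe xc hxcb (by simp)).2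
  have hφβ : φ ((G' xd).re : ℂ) = ψ xd := by rw [← m1]; exact (hGe' xd hxdb (by simp)).2
  have hball : ball (xd : ℂ) (X' / 16) ⊆ ball (X' : ℂ) (X' / 8) := by
    intro y hy
    rw [mem_ball, dist_eq_norm] at hy ⊢
    calc ‖y - X'‖ = ‖(y - xd) + (xd - X')‖ := by congr 1; ring
      _ ≤ _ := norm_add_le _ _
      _ < X' / 8 := by linarith
  have hball4 : ball (xd : ℂ) (X' / 16) ⊆ ball (X' : ℂ) (X' / 4) :=
    hball.trans (ball_subset_ball (by linarith))
  obtain ⟨D, hD, hD'⟩ := derivO (φ := φ) (ψ := ψ) (G := G') (xd := xd) (r := X' / 16)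
    (β := (G' xd).re) (ν := ν) (by positivity) hν (hψc.mono inter_subset_right)
    (hψ.diff.mono fun z hz => hz.2) (hψi.mono inter_subset_right)
    (fun z hz => hflat z (hball4 hz)) (hGd'.mono hball) (fun z hz => hGs' z (hball hz))
    (fun z hz h0 => hGe' z (hball hz) h0)
    (fun z hz h0 => by
      obtain ⟨k1, k2⟩ := hGe' z (hball hz) h0.le
      refine lt_of_le_of_ne k1 fun h => ?_
      have k3 := IsU.notMem hφ h.symm
      rw [k2] at k3
      exact k3 (hF.1 z (Or.inr (hball4 hz)) h0)) m1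
  obtain ⟨-, f2, f3⟩ := xT_bd H hX0 hX hX64
  obtain ⟨-, g2, g3⟩ := xT_bd H hX'0 hX' hX64'
  have a1 := abs_le.1 n2
  have a2 := abs_le.1 m2
  refine ⟨_, _, φ, (G xc).re, (G' xd).re, D, hφ, ?_, ?_, hD, hφα, hφβ, hD', rfl, rfl⟩
  · linarith [a1.1]
  · linarith [a1.2, a2.1]

end Vale.Agent.P167.H756
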