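import Vale.Agent.P153.R2.OBSV.Holo
import Vale.Agent.P153.R2.R1.HalfP
import Vale.Agent.P167.H174.LA

/-!
# P167, block CM: the class of conformal maps of the disc; small connected sets at the boundary

`Cls R c F` : `F` is conformal on the unit disc, its image has size at most `R` and contains the
ball of radius `c` around `F 0`. `Cls.small` : a connected set of the disc which comes close to the
unit circle and has a small image is small, uniformly over the class.
-/

open Set Topology Metric MeasureTheory Filter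
open scoped ENNReal Real ComplexConjugate

namespace Vale.Agent.P167.H756

open Vale.Agent.P153.R2.R1 Vale.Agent.P153.R2.OBSV Vale.Agent.P167.H174

/-- Normalised bounded conformal maps of the disc. -/
structure Cls (R c : ℝ) (F : ℂ → ℂ) : Prop where
  diff : DifferentiableOn ℂ F (ball 0 1)
  inj : InjOn F (ball 0 1)
  bdd : ∀ w ∈ ball (0 : ℂ) 1, ‖F w - F 0‖ ≤ R
  sub : ball (F 0) c ⊆ F '' ball 0 1

variable {R c : ℝ} {F : ℂ → ℂ}

theorem Cls.conf (h : Cls R c F) : Conf F (F '' ball 0 1) := ⟨h.diff, h.inj, rfl⟩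

theorem Cls.dsc (h : Cls R c F) : Dsc (fun w => F w - F 0) 0 R c where
  diff := h.diff.sub_const _
  inj := by
    intro w hw w' hw' e
    exact h.inj hw hw' (sub_left_inj.1 e)
  zero := sub_self _
  bdd := h.bdd
  sub := by
    intro z hz
    obtain ⟨w, hw, e⟩ := h.sub (show z + F 0 ∈ ball (F 0) c by
      rw [mem_ball, dist_eq_norm, add_sub_cancel_right, ← dist_zero_right]; exact hz)
    exact ⟨w, hw, by simp only [e, add_sub_cancel_right]⟩

/-- Uniform separation of the images of separated points. -/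
theorem Cls.sep (hR : 0 < R) (hc : 0 < c) {ρ s : ℝ} (hρ : ρ < 1) (hs : 0 < s) :
    ∃ δ > 0, ∀ F : ℂ → ℂ, Cls R c F → ∀ w ∈ closedBall (0 : ℂ) ρ, ∀ w' ∈ closedBall (0 : ℂ) ρ,
      s ≤ dist w w' → δ ≤ dist (F w) (F w') := by
  by_contra hcon
  push Not at hcon
  have hpos : ∀ n : ℕ, (0 : ℝ) < 1 / (n + 1) := fun n => by positivity
  choose F hF w hw w' hw' hs' hlt using fun n : ℕ => hcon (1 / (n + 1)) (hpos n)
  set 𝒰 : Ultrafilter ℕ := hyperfilter ℕ with h𝒰
  have hle : (𝒰 : Filter ℕ) ≤ atTop := by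
    rw [← Nat.cofinite_eq_atTop]; exact hyperfilter_le_cofinite
  obtain ⟨g, hg⟩ := exists_dsc_limit 𝒰 hR (fun n => (hF n).dsc)
  have hcpt := isCompact_closedBall (0 : ℂ) ρ
  obtain ⟨x, hx, hxl⟩ := hcpt.ultrafilter_le_nhds (𝒰.map w) (by
    rw [le_principal_iff]; exact Filter.Eventually.of_forall (p := fun n => w n ∈ closedBall 0 ρ) hw)
  obtain ⟨x', hx', hxl'⟩ := hcpt.ultrafilter_le_nhds (𝒰.map w') (by
    rw [le_principal_iff]
    exact Filter.Eventually.of_forall (p := fun n => w' n ∈ closedBall 0 ρ) hw')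
  have hsub : closedBall (0 : ℂ) ρ ⊆ ball 0 1 := closedBall_subset_ball hρ
  have hgc : ContinuousOn g (ball 0 1) := (lim_diff (fun n => (hF n).dsc) hg).continuousOn
  have key : ∀ (v : ℕ → ℂ) (y : ℂ), (∀ n, v n ∈ closedBall (0 : ℂ) ρ) → y ∈ closedBall (0 : ℂ) ρ →
      Tendsto v 𝒰 (𝓝 y) → Tendsto (fun n => F n (v n) - F n 0) 𝒰 (𝓝 (g y)) := by
    intro v y hv hy hl
    refine hg.tendsto_comp (hgc y (hsub hy)) (hsub hy) ?_
    exact tendsto_nhdsWithin_iff.2 ⟨hl, Filter.Eventually.of_forall fun n => hsub (hv n)⟩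
  have h1 := key w x hw hx hxl
  have h2 := key w' x' hw' hx' hxl'
  have h3 : Tendsto (fun n => dist (F n (w n)) (F n (w' n))) 𝒰 (𝓝 (dist (g x) (g x'))) := by
    refine (h1.dist h2).congr fun n => ?_
    rw [dist_sub_right]
  have h4 : Tendsto (fun n => dist (F n (w n)) (F n (w' n))) 𝒰 (𝓝 0) := by
    refine squeeze_zero (fun _ => dist_nonneg) (fun n => (hlt n).le) ?_
    exact tendsto_one_div_add_atTop_nhds_zero_nat.mono_left hle
  have h5 : dist (g x) (g x') = 0 := tendsto_nhds_unique h3 h4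
  have h6 := lim_inj (fun n => (hF n).dsc) hc hg (hsub hx) (hsub hx') (dist_eq_zero.1 h5)
  have h7 : s ≤ dist x x' :=
    ge_of_tendsto (Tendsto.dist hxl hxl') (Filter.Eventually.of_forall hs')
  rw [h6, dist_self] at h7
  linarith

/-- The image of a compact disc is uniformly inside the image. -/
theorem Cls.inside (hR : 0 < R) (hc : 0 < c) {ρ : ℝ} (hρ : ρ < 1) :
    ∃ δ > 0, ∀ F : ℂ → ℂ, Cls R c F → ∀ w ∈ closedBall (0 : ℂ) ρ,
      ball (F w) δ ⊆ F '' ball 0 1 := by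
  by_contra hcon
  push Not at hcon
  have hpos : ∀ n : ℕ, (0 : ℝ) < 1 / (n + 1) := fun n => by positivity
  choose F hF w hw hlt using fun n : ℕ => hcon (1 / (n + 1)) (hpos n)
  set 𝒰 : Ultrafilter ℕ := hyperfilter ℕ with h𝒰
  have hle : (𝒰 : Filter ℕ) ≤ atTop := by
    rw [← Nat.cofinite_eq_atTop]; exact hyperfilter_le_cofinite
  obtain ⟨g, hg⟩ := exists_dsc_limit 𝒰 hR (fun n => (hF n).dsc)
  have hcpt := isCompact_closedBall (0 : ℂ) ρ
  obtain ⟨x, hx, hxl⟩ := hcpt.ultrafilter_le_nhds (𝒰.map w) (by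
    rw [le_principal_iff]; exact Filter.Eventually.of_forall (p := fun n => w n ∈ closedBall 0 ρ) hw)
  have hsub : closedBall (0 : ℂ) ρ ⊆ ball 0 1 := closedBall_subset_ball hρ
  have hgc : ContinuousOn g (ball 0 1) := (lim_diff (fun n => (hF n).dsc) hg).continuousOn
  have h1 : Tendsto (fun n => F n (w n) - F n 0) 𝒰 (𝓝 (g x)) := by
    refine hg.tendsto_comp (hgc x (hsub hx)) (hsub hx) ?_
    exact tendsto_nhdsWithin_iff.2 ⟨hxl, Filter.Eventually.of_forall fun n => hsub (hw n)⟩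
  obtain ⟨ε, hε, hev⟩ := ker_low (fun n => (hF n).dsc) hc hg (hsub hx) (δ := 1) one_pos
  have h2 : ∀ᶠ n in (𝒰 : Filter ℕ), dist (F n (w n) - F n 0) (g x) < ε / 2 :=
    Metric.tendsto_nhds.1 h1 (ε / 2) (by positivity)
  have h3 : ∀ᶠ n : ℕ in (𝒰 : Filter ℕ), (1 : ℝ) / ((n : ℝ) + 1) < ε / 2 :=
    (tendsto_one_div_add_atTop_nhds_zero_nat.mono_left hle).eventually (gt_mem_nhds (by positivity))
  obtain ⟨n, h4, h5, h6⟩ := (hev.and (h2.and h3)).exists
  refine hlt n fun z hz => ?_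
  have hz' : z - F n 0 ∈ ball (g x) ε := by
    rw [mem_ball] at hz ⊢
    have h7 := dist_triangle (z - F n 0) (F n (w n) - F n 0) (g x)
    rw [dist_sub_right] at h7
    linarith
  obtain ⟨v, hv, hve⟩ := h4 hz'
  exact ⟨v, hv.2, sub_left_inj.1 hve⟩

/-! ### The chart around a point of the circle -/

theorem chart_eq (ζ z : ℂ) : mb (-ζ) Complex.I z = -ζ * ((z - Complex.I) / (z + Complex.I)) := by
  rw [mb, Complex.conj_I, sub_neg_eq_add]

theorem add_I_ne {z : ℂ} (hz : 0 ≤ z.im) : z + Complex.I ≠ 0 := by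
  intro h
  have := congrArg Complex.im h
  rw [Complex.add_im, Complex.I_im, Complex.zero_im] at this
  linarith

theorem one_le_norm_add_I {z : ℂ} (hz : 0 ≤ z.im) : 1 ≤ ‖z + Complex.I‖ := by
  refine le_trans ?_ (Complex.im_le_norm _)
  rw [Complex.add_im, Complex.I_im]
  linarith

theorem norm_add_I_le (z : ℂ) : ‖z + Complex.I‖ ≤ ‖z‖ + 1 := by
  have := norm_add_le z Complex.I
  rwa [Complex.norm_I] at this

theorem chart_dist {ζ z : ℂ} (hζ : ‖ζ‖ = 1) (hz : 0 ≤ z.im) :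
    dist (mb (-ζ) Complex.I z) ζ = 2 * ‖z‖ / ‖z + Complex.I‖ := by
  have h0 := add_I_ne hz
  have e : mb (-ζ) Complex.I z - ζ = -ζ * (2 * z / (z + Complex.I)) := by
    rw [chart_eq]
    field_simp
    ring
  rw [dist_eq_norm, e, norm_mul, norm_neg, hζ, one_mul, norm_div, norm_mul]
  norm_num

theorem chart_dist_le {ζ z : ℂ} (hζ : ‖ζ‖ = 1) (hz : 0 ≤ z.im) :
    dist (mb (-ζ) Complex.I z) ζ ≤ 2 * ‖z‖ := by
  rw [chart_dist hζ hz]
  exact div_le_self (by positivity) (one_le_norm_add_I hz)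

theorem le_chart_dist {ζ z : ℂ} (hζ : ‖ζ‖ = 1) (hz : 0 ≤ z.im) :
    2 * ‖z‖ / (‖z‖ + 1) ≤ dist (mb (-ζ) Complex.I z) ζ := by
  rw [chart_dist hζ hz]
  exact div_le_div_of_nonneg_left (by positivity)
    (zero_lt_one.trans_le (one_le_norm_add_I hz)) (norm_add_I_le z)

theorem chart_sep {ζ z z' : ℂ} (hζ : ‖ζ‖ = 1) (hz : 0 ≤ z.im) (hz' : 0 ≤ z'.im)
    (h1 : ‖z‖ ≤ 1) (h1' : ‖z'‖ ≤ 1) :
    dist z z' / 2 ≤ dist (mb (-ζ) Complex.I z) (mb (-ζ) Complex.I z') := by
  have h0 := add_I_ne hz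
  have h0' := add_I_ne hz'
  have e : mb (-ζ) Complex.I z - mb (-ζ) Complex.I z' =
      -ζ * (2 * Complex.I * (z - z') / ((z + Complex.I) * (z' + Complex.I))) := by
    rw [chart_eq, chart_eq]
    field_simp
    ring
  rw [dist_eq_norm (mb _ _ _), e, norm_mul, norm_neg, hζ, one_mul, norm_div, norm_mul, norm_mul,
    norm_mul, Complex.norm_I, ← dist_eq_norm]
  have h2 : ‖z + Complex.I‖ ≤ 2 := (norm_add_I_le z).trans (by linarith)
  have h2' : ‖z' + Complex.I‖ ≤ 2 := (norm_add_I_le z').trans (by linarith)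
  have h3 : ‖z + Complex.I‖ * ‖z' + Complex.I‖ ≤ 4 := by
    calc ‖z + Complex.I‖ * ‖z' + Complex.I‖ ≤ 2 * 2 := by gcongr
      _ = 4 := by norm_num
  have h4 : 0 < ‖z + Complex.I‖ * ‖z' + Complex.I‖ :=
    mul_pos (zero_lt_one.trans_le (one_le_norm_add_I hz))
      (zero_lt_one.trans_le (one_le_norm_add_I hz'))
  rw [le_div_iff₀ h4]
  have h5 : (0 : ℝ) ≤ dist z z' := dist_nonneg
  have h6 : ‖(2 : ℂ)‖ = 2 := by norm_num
  rw [h6]
  nlinarith

theorem chart_norm_le {ζ z : ℂ} (hζ : ‖ζ‖ = 1) (h1 : ‖z‖ ≤ 1) {t : ℝ} (ht : 0 ≤ t)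
    (hz : t ≤ z.im) : ‖mb (-ζ) Complex.I z‖ ≤ 1 - t / 2 := by
  have hz0 : 0 ≤ z.im := ht.trans hz
  have hn := norm_mb (z := z) (c := Complex.I) (β := -ζ) (by rwa [norm_neg])
  have hd := normSq_diff Complex.I z
  rw [Complex.conj_I, sub_neg_eq_add, Complex.I_im, mul_one] at hd
  rw [Complex.conj_I, sub_neg_eq_add] at hn
  have h2 : ‖z + Complex.I‖ ≤ 2 := (norm_add_I_le z).trans (by linarith)
  have h3 : 0 < ‖z + Complex.I‖ := zero_lt_one.trans_le (one_le_norm_add_I hz0)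
  have ht1 : t ≤ 1 := hz.trans ((Complex.im_le_norm z).trans h1)
  rw [hn, div_le_iff₀ h3]
  have h4 : ‖z - Complex.I‖ ^ 2 ≤ ((1 - t / 2) * ‖z + Complex.I‖) ^ 2 := by
    have : ‖z + Complex.I‖ ^ 2 ≤ 4 := by nlinarith
    nlinarith [mul_nonneg ht (sub_nonneg.2 this), mul_nonneg (mul_nonneg ht ht) (sq_nonneg ‖z + Complex.I‖)]
  have h5 : 0 ≤ (1 - t / 2) * ‖z + Complex.I‖ := by
    have : 0 ≤ 1 - t / 2 := by linarith
    positivity
  exact abs_le_of_sq_le_sq' h4 h5 |>.2

/-- **Small connected sets at the boundary.** A connected subset of the disc which comes close to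
the unit circle and whose image has a small diameter has a small diameter. -/
theorem Cls.small (hR : 0 < R) (hc : 0 < c) {ε : ℝ} (hε : 0 < ε) :
    ∃ η > 0, ∀ F : ℂ → ℂ, Cls R c F → ∀ T ⊆ ball (0 : ℂ) 1, IsPreconnected T →
      (∀ w ∈ T, ∀ w' ∈ T, dist (F w) (F w') ≤ η) → (∃ w ∈ T, 1 - η < ‖w‖) →
      ∀ w ∈ T, ∀ w' ∈ T, dist w w' ≤ ε := by
  set b : ℝ := min (ε / 4) 1 with hb
  have hb0 : 0 < b := lt_min (by positivity) one_pos
  have hb1 : b ≤ 1 := min_le_right _ _
  have hbε : b ≤ ε / 4 := min_le_left _ _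
  set L : ℝ := 2 * π ^ 2 * (3 + 2) ^ 2 + 1 with hL
  have hL0 : 0 < L := by positivity
  set a : ℝ := b * Real.exp (-L) with ha
  have ha0 : 0 < a := by positivity
  have hab : a < b := by
    have : Real.exp (-L) < 1 := by
      rw [← Real.exp_zero]; exact Real.exp_lt_exp.2 (by linarith)
    calc a = b * Real.exp (-L) := rfl
      _ < b * 1 := by gcongr
      _ = b := mul_one b
  have hlog : Real.log (b / a) = L := by
    rw [ha, div_mul_eq_div_div, div_self hb0.ne', one_div, Real.exp_neg, inv_inv, Real.log_exp]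
  -- the uniform separation
  obtain ⟨δ, hδ, hsep⟩ := Cls.sep (R := R) (c := c) hR hc (ρ := 1 - a / 4) (s := a / 2)
    (by linarith) (by positivity)
  refine ⟨min a (δ / 2), lt_min ha0 (by positivity), fun F hF T hT hTc hsm hnear => ?_⟩
  obtain ⟨w₁, hw₁, hw₁n⟩ := hnear
  have hηa : min a (δ / 2) ≤ a := min_le_left _ _
  have hηδ : min a (δ / 2) ≤ δ / 2 := min_le_right _ _
  have hn1 : ‖w₁‖ < 1 := mem_ball_zero_iff.1 (hT hw₁)
  have hn0 : 0 < ‖w₁‖ := by linarith
  set ζ : ℂ := w₁ / ‖w₁‖ with hζd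
  have hζ : ‖ζ‖ = 1 := by
    rw [hζd, norm_div, Complex.norm_real, norm_norm, div_self hn0.ne']
  have hζ' : ‖-ζ‖ = 1 := by rwa [norm_neg]
  have hI : 0 < Complex.I.im := by simp
  have hw₁ζ : dist w₁ ζ < a := by
    have e : w₁ - ζ = ζ * ((‖w₁‖ - 1 : ℝ) : ℂ) := by
      have : (‖w₁‖ : ℂ) ≠ 0 := by exact_mod_cast hn0.ne'
      rw [hζd]
      push_cast
      field_simp
    rw [dist_eq_norm, e, norm_mul, hζ, one_mul, Complex.norm_real, Real.norm_eq_abs, abs_sub_comm,
      abs_of_pos (by linarith)]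
    linarith
  -- the map on the half-plane
  set χ : ℂ → ℂ := mb (-ζ) Complex.I with hχ
  set ψ : ℂ → ℂ := fun z => F (χ z) with hψ
  have hψd : DifferentiableOn ℂ ψ HP := by
    refine hF.diff.comp (fun z hz => (mb_differentiableAt hI (le_of_lt hz)).differentiableWithinAt)
      fun z hz => ?_
    rw [mem_ball_zero_iff]; exact norm_mb_lt hζ' hI hz
  have hψi : InjOn ψ HP := by
    intro z hz z' hz' e
    have e1 : 0 < z.im := hz
    have e2 : 0 < z'.im := hz'
    refine mb_injOn hζ' hI e1.le e2.le (hF.inj ?_ ?_ e)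
    · rw [mem_ball_zero_iff]; exact norm_mb_lt hζ' hI hz
    · rw [mem_ball_zero_iff]; exact norm_mb_lt hζ' hI hz'
  have hψD : ψ '' HP = F '' ball 0 1 := by
    rw [← mb_image_open hζ' hI, image_image]
  have hfin : volume (ψ '' HP) ≠ ∞ := by
    rw [hψD]
    have hsub : F '' ball 0 1 ⊆ closedBall (F 0) R := by
      rintro _ ⟨w, hw, rfl⟩
      rw [mem_closedBall, dist_eq_norm]
      exact hF.bdd w hw
    exact ((measure_mono hsub).trans_lt measure_closedBall_lt_top).ne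
  obtain ⟨z₀, d, hd0, hdlen, hLA⟩ := length_area hψd hψi hfin (x := 0) ha0 hab
    (C₀ := 3) (by norm_num) (by rw [hlog, hL]; linarith)
  have hδd : δ ≤ d := by
    refine hdlen δ fun s hs => ?_
    have hs0 : 0 < s := ha0.trans hs.1
    have m1 : π / 4 ∈ Ioo 0 π := ⟨by positivity, by linarith [Real.pi_pos]⟩
    have m3 : 3 * π / 4 ∈ Ioo 0 π := ⟨by positivity, by linarith [Real.pi_pos]⟩
    have i1 : (pt 0 s (π / 4)).im = s * Real.sin (π / 4) := by
      rw [pt, Complex.add_im, Complex.ofReal_im, zero_add, Complex.im_ofReal_mul,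
        Complex.exp_ofReal_mul_I_im]
    have i3 : (pt 0 s (3 * π / 4)).im = s * Real.sin (π / 4) := by
      rw [pt, Complex.add_im, Complex.ofReal_im, zero_add, Complex.im_ofReal_mul,
        Complex.exp_ofReal_mul_I_im, show 3 * π / 4 = π - π / 4 by ring, Real.sin_pi_sub]
    have r1 : (pt 0 s (π / 4)).re = s * Real.cos (π / 4) := by
      rw [pt, Complex.add_re, Complex.ofReal_re, zero_add, Complex.re_ofReal_mul,
        Complex.exp_ofReal_mul_I_re]
    have r3 : (pt 0 s (3 * π / 4)).re = - (s * Real.cos (π / 4)) := by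
      rw [pt, Complex.add_re, Complex.ofReal_re, zero_add, Complex.re_ofReal_mul,
        Complex.exp_ofReal_mul_I_re, show 3 * π / 4 = π - π / 4 by ring, Real.cos_pi_sub]
      ring
    have hsq : (1 : ℝ) / 2 ≤ √2 / 2 := by
      have : (1 : ℝ) ≤ √2 := by
        rw [← Real.sqrt_one]; exact Real.sqrt_le_sqrt (by norm_num)
      linarith
    have him : a / 2 ≤ s * Real.sin (π / 4) := by
      rw [Real.sin_pi_div_four]
      calc a / 2 = a * (1 / 2) := by ring
        _ ≤ s * (√2 / 2) := by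
          have := hs.1.le
          gcongr
    have hnorm : ∀ θ : ℝ, ‖pt 0 s θ‖ ≤ 1 := by
      intro θ
      have := dist_pt (x := 0) hs0 θ
      rw [Complex.ofReal_zero, dist_zero_right] at this
      rw [this]
      linarith [hs.2]
    have him1 : (0 : ℝ) ≤ (pt 0 s (π / 4)).im := le_of_lt (pt_mem hs0 m1)
    have him3 : (0 : ℝ) ≤ (pt 0 s (3 * π / 4)).im := le_of_lt (pt_mem hs0 m3)
    have hle := dist_le_len' hψd hs0 (pt_mem hs0 m1) (pt_mem hs0 m3) (dist_pt (x := 0) hs0 _)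
      (dist_pt (x := 0) hs0 _)
    refine le_trans (ENNReal.ofReal_le_ofReal ?_) hle
    refine hsep F hF _ ?_ _ ?_ ?_
    · rw [mem_closedBall_zero_iff]
      have := chart_norm_le hζ (hnorm (π / 4)) (t := a / 2) (by positivity) (by rw [i1]; exact him)
      linarith
    · rw [mem_closedBall_zero_iff]
      have := chart_norm_le hζ (hnorm (3 * π / 4)) (t := a / 2) (by positivity)
        (by rw [i3]; exact him)
      linarith
    · refine le_trans ?_ (chart_sep hζ him1 him3 (hnorm _) (hnorm _))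
      have hre : a ≤ dist (pt 0 s (π / 4)) (pt 0 s (3 * π / 4)) := by
        rw [dist_eq_norm]
        refine le_trans ?_ (Complex.abs_re_le_norm _)
        rw [Complex.sub_re, r1, r3, Real.cos_pi_div_four, sub_neg_eq_add]
        refine le_trans ?_ (le_abs_self _)
        calc a = a * (1 / 2) + a * (1 / 2) := by ring
          _ ≤ s * (√2 / 2) + s * (√2 / 2) := by
            have := hs.1.le
            gcongr
      linarith
  -- all points are close to `ζ`
  have hclose : ∀ w ∈ T, dist w ζ ≤ 2 * b := by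
    intro w hw
    by_contra hlt
    push Not at hlt
    have hT' : IsPreconnected (F '' T) := hTc.image _ (hF.diff.continuousOn.mono hT)
    have hT's : F '' T ⊆ ψ '' HP := by
      rw [hψD]; exact image_mono hT
    have hex : ∀ v ∈ T, ∃ z ∈ HP, χ z = v := by
      intro v hv
      have hv' := hT hv
      rw [← mb_image_open hζ' hI] at hv'
      exact hv'
    obtain ⟨z₁, hz₁, e₁⟩ := hex w₁ hw₁
    obtain ⟨z₂, hz₂, e₂⟩ := hex w hw
    have h1 : dist z₁ ((0 : ℝ) : ℂ) ≤ a := by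
      rw [Complex.ofReal_zero, dist_zero_right]
      by_contra hgt
      push Not at hgt
      have h3 := le_chart_dist hζ (le_of_lt hz₁)
      rw [← hχ, e₁] at h3
      have h4 : a ≤ 2 * ‖z₁‖ / (‖z₁‖ + 1) := by
        rw [le_div_iff₀ (by positivity)]
        have ha1 : a ≤ 1 := hab.le.trans hb1
        nlinarith [norm_nonneg z₁]
      linarith
    have h2 : b ≤ dist z₂ ((0 : ℝ) : ℂ) := by
      rw [Complex.ofReal_zero, dist_zero_right]
      have h3 := chart_dist_le hζ (le_of_lt hz₂)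
      rw [← hχ, e₂] at h3
      linarith
    obtain ⟨⟨p, hp, hpd⟩, q, hq, hqd⟩ := hLA (F '' T) hT's hT'
      ⟨z₁, hz₁, h1, ⟨w₁, hw₁, by rw [hψ]; simp only; rw [e₁]⟩⟩
      ⟨z₂, hz₂, h2, ⟨w, hw, by rw [hψ]; simp only; rw [e₂]⟩⟩
    obtain ⟨u, hu, rfl⟩ := hp
    obtain ⟨v, hv, rfl⟩ := hq
    have h5 := hsm v hv u hu
    have h6 := dist_triangle (F v) (F u) z₀
    linarith
  intro w hw w' hw'
  have h1 := hclose w hw
  have h2 := hclose w' hw'
  have := dist_triangle_right w w' ζ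
  linarith

end Vale.Agent.P167.H756
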