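import Vale.Agent.P167.H756.Close

/-!
# P167, block CM: Theorem A (closeness up to the boundary)

`closeness` : if `P` is a domain inside `D = F (disc)`, which contains the part of `D` at distance
at least `h` from the complement, and every boundary point of `P` is joined to the complement of `D`
by a path of size at most `h` in the complement of `P`, then the normalised conformal maps `F` onto
`D` and `Φ` onto `P` are close: `|F⁻¹ (Φ z) - z| ≤ ε` for all `z` in the disc. Here `h` depends only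
on the bounds for `F`.
-/

open Set Topology Metric MeasureTheory Filter
open scoped ENNReal Real ComplexConjugate

namespace Vale.Agent.P167.H756

open Vale.Agent.P153.R2.R1 Vale.Agent.P153.R2.OBSV Vale.Agent.P167.H174

/-- `P` contains the part of `D`, connected with `z₀`, at distance at least `h` from the
complement. -/
def Inner (D P : Set ℂ) (z₀ : ℂ) (h : ℝ) : Prop :=
  ∀ C : Set ℂ, IsPreconnected C → z₀ ∈ C → (∀ z ∈ C, ball z h ⊆ D) → C ⊆ P

/-- Every boundary point of `P` is joined to the complement of `D` by a path of size at most `h` in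
the complement of `P`. -/
def Collar (D P : Set ℂ) (h : ℝ) : Prop :=
  ∀ y ∈ frontier P, ∃ γ : ℝ → ℂ, ContinuousOn γ (Icc 0 1) ∧ γ 0 = y ∧ γ 1 ∉ D ∧
    ∀ t ∈ Icc (0 : ℝ) 1, γ t ∉ P ∧ dist (γ t) y ≤ h

theorem Inner.mono {D P : Set ℂ} {z₀ : ℂ} {h h' : ℝ} (H : Inner D P z₀ h) (hh : h ≤ h') :
    Inner D P z₀ h' :=
  fun C h1 h2 h3 => H C h1 h2 fun z hz => (ball_subset_ball hh).trans (h3 z hz)

theorem Collar.mono {D P : Set ℂ} {h h' : ℝ} (H : Collar D P h) (hh : h ≤ h') :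
    Collar D P h' := by
  intro y hy
  obtain ⟨γ, h1, h2, h3, h4⟩ := H y hy
  exact ⟨γ, h1, h2, h3, fun t ht => ⟨(h4 t ht).1, (h4 t ht).2.trans hh⟩⟩

variable {R c : ℝ} {F : ℂ → ℂ}

/-- The boundary points of `F⁻¹ P` are joined to the circle by small sets. -/
theorem collar_disc (hR : 0 < R) (hc : 0 < c) {κ : ℝ} (hκ : 0 < κ) :
    ∃ h > 0, ∀ F : ℂ → ℂ, Cls R c F → ∀ P : Set ℂ, IsOpen P → P ⊆ F '' ball 0 1 →
      Collar (F '' ball 0 1) P h → ∀ p ∈ frontier (dinv F '' P), ∃ E : Set ℂ, IsPreconnected E ∧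
        p ∈ E ∧ Disjoint E (dinv F '' P) ∧ E ⊆ closedBall p κ ∧ ∃ u ∈ E, ‖u‖ = 1 := by
  obtain ⟨η, hη, hsmall⟩ := Cls.small (R := R) (c := c) hR hc hκ
  refine ⟨η / 2, by positivity, fun F hF P hPo hPD hcol p hp => ?_⟩
  have hconf := hF.conf
  set D : Set ℂ := F '' ball 0 1 with hD
  set Q : Set ℂ := dinv F '' P with hQ
  have hQ1 : Q ⊆ ball 0 1 := by
    rintro _ ⟨x, hx, rfl⟩
    exact hconf.dinv_mem (hPD hx)
  have hFQ : ∀ w ∈ Q, F w ∈ P := by
    rintro _ ⟨x, hx, rfl⟩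
    rw [hconf.apply_dinv (hPD hx)]
    exact hx
  have hQmem : ∀ w ∈ ball (0 : ℂ) 1, F w ∈ P → w ∈ Q := fun w hw h =>
    ⟨F w, h, hconf.dinv_apply hw⟩
  have hQo : IsOpen Q := by
    have e : Q = ball 0 1 ∩ F ⁻¹' P := by
      apply Subset.antisymm
      · exact fun w hw => ⟨hQ1 hw, hFQ w hw⟩
      · exact fun w hw => hQmem w hw.1 hw.2
    rw [e]
    exact hF.diff.continuousOn.isOpen_inter_preimage isOpen_ball hPo
  have hpQ : p ∉ Q := notMem_of_frontier hQo hp
  have hpc : p ∈ closure Q := frontier_subset_closure hp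
  have hp1 : ‖p‖ ≤ 1 := by
    have h2 := closure_minimal (hQ1.trans ball_subset_closedBall) isClosed_closedBall hpc
    rwa [mem_closedBall_zero_iff] at h2
  rcases hp1.lt_or_eq with hlt | heq
  · have hpb : p ∈ ball (0 : ℂ) 1 := by rwa [mem_ball_zero_iff]
    have hFc : ContinuousAt F p := hF.diff.continuousOn.continuousAt (isOpen_ball.mem_nhds hpb)
    have hyc : F p ∈ closure P := by
      have h1 : F p ∈ closure (F '' Q) := mem_closure_image hFc hpc
      exact closure_mono (by rintro _ ⟨w, hw, rfl⟩; exact hFQ w hw) h1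
    have hyP : F p ∉ P := fun h => hpQ (hQmem p hpb h)
    have hyf : F p ∈ frontier P := by
      rw [hPo.frontier_eq]
      exact ⟨hyc, hyP⟩
    obtain ⟨γ, hγc, hγ0, hγ1, hγ⟩ := hcol _ hyf
    -- the first exit time
    have hS : IsCompact (Icc (0 : ℝ) 1 ∩ γ ⁻¹' Dᶜ) :=
      isCompact_Icc.of_isClosed_subset (hγc.preimage_isClosed_of_isClosed isClosed_Icc
        hconf.isOpen.isClosed_compl) inter_subset_left
    obtain ⟨τ, ⟨hτ, hτD⟩, hleast⟩ := hS.exists_isLeast ⟨1, ⟨zero_le_one, le_rfl⟩, hγ1⟩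
    have hτ0 : 0 < τ := by
      rcases hτ.1.lt_or_eq with h | h
      · exact h
      · exfalso
        apply hτD
        rw [← h, hγ0]
        exact mem_image_of_mem _ hpb
    have hin : ∀ t ∈ Ico 0 τ, γ t ∈ D := by
      intro t ht
      by_contra hcon
      exact absurd (hleast ⟨⟨ht.1, ht.2.le.trans hτ.2⟩, hcon⟩) (not_le.2 ht.2)
    have hsub01 : Ico 0 τ ⊆ Icc (0 : ℝ) 1 := fun t ht => ⟨ht.1, ht.2.le.trans hτ.2⟩
    set T : Set ℂ := dinv F '' (γ '' Ico 0 τ) with hT
    have hγD : γ '' Ico 0 τ ⊆ D := by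
      rintro _ ⟨t, ht, rfl⟩
      exact hin t ht
    have hTb : T ⊆ ball 0 1 := by
      rintro _ ⟨x, hx, rfl⟩
      exact hconf.dinv_mem (hγD hx)
    have hTc : IsPreconnected T := by
      refine IsPreconnected.image (isPreconnected_Ico.image _ (hγc.mono hsub01)) _ ?_
      exact hconf.dinv_differentiableOn.continuousOn.mono hγD
    have hFT : ∀ w ∈ T, ∃ t ∈ Ico 0 τ, F w = γ t := by
      rintro _ ⟨x, ⟨t, ht, rfl⟩, rfl⟩
      exact ⟨t, ht, hconf.apply_dinv (hin t ht)⟩
    have hpT : p ∈ T := ⟨γ 0, ⟨0, ⟨le_rfl, hτ0⟩, rfl⟩, by rw [hγ0]; exact hconf.dinv_apply hpb⟩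
    have hnear : ∀ r < 1, ∃ w ∈ T, r < ‖w‖ := by
      intro r hr
      by_contra hcon
      push Not at hcon
      have h1 : γ '' Ico 0 τ ⊆ F '' closedBall 0 r := by
        rintro _ ⟨t, ht, rfl⟩
        refine ⟨dinv F (γ t), ?_, hconf.apply_dinv (hin t ht)⟩
        rw [mem_closedBall_zero_iff]
        exact hcon _ ⟨γ t, ⟨t, ht, rfl⟩, rfl⟩
      have hsubr : closedBall (0 : ℂ) r ⊆ ball 0 1 := closedBall_subset_ball hr
      have h2 : IsClosed (F '' closedBall 0 r) :=
        ((isCompact_closedBall (0 : ℂ) r).image_of_continuousOn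
          (hF.diff.continuousOn.mono hsubr)).isClosed
      have h3 : γ τ ∈ closure (γ '' Ico 0 τ) := by
        have h4 : ContinuousWithinAt γ (Ico 0 τ) τ := (hγc τ hτ).mono hsub01
        refine h4.mem_closure_image ?_
        rw [closure_Ico hτ0.ne]
        exact right_mem_Icc.2 hτ0.le
      have h4 := closure_minimal h1 h2 h3
      exact hτD (image_mono hsubr h4)
    have hdiam := hsmall F hF T hTb hTc (by
      intro w hw w' hw'
      obtain ⟨t, ht, e⟩ := hFT w hw
      obtain ⟨t', ht', e'⟩ := hFT w' hw'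
      rw [e, e']
      have h1 := (hγ t (hsub01 ht)).2
      have h2 := (hγ t' (hsub01 ht')).2
      have := dist_triangle_right (γ t) (γ t') (F p)
      linarith) (hnear (1 - η) (by linarith))
    have hTp : T ⊆ closedBall p κ := fun w hw => hdiam w hw p hpT
    have hTQ : Disjoint T Q := by
      rw [Set.disjoint_left]
      intro w hw hwQ
      obtain ⟨t, ht, e⟩ := hFT w hw
      exact (hγ t (hsub01 ht)).1 (e ▸ hFQ w hwQ)
    have hE1 : closure T ⊆ closedBall 0 1 :=
      closure_minimal (hTb.trans ball_subset_closedBall) isClosed_closedBall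
    have hEc : IsCompact (closure T) :=
      isCompact_of_isClosed_isBounded isClosed_closure (isBounded_closedBall.subset hE1)
    obtain ⟨u, hu, hmax⟩ := hEc.exists_isMaxOn ⟨p, subset_closure hpT⟩ continuous_norm.continuousOn
    refine ⟨closure T, hTc.closure, subset_closure hpT, hTQ.closure_left hQo,
      closure_minimal hTp isClosed_closedBall, u, hu, le_antisymm ?_ ?_⟩
    · exact mem_closedBall_zero_iff.1 (hE1 hu)
    · refine le_of_forall_lt fun r hr => ?_
      obtain ⟨w, hw, hrw⟩ := hnear r hr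
      exact hrw.trans_le (hmax (subset_closure hw))
  · exact ⟨{p}, isPreconnected_singleton, rfl, by
      rw [Set.disjoint_left]
      rintro x rfl hx
      exact hpQ hx, by
      rintro x rfl
      exact mem_closedBall_self hκ.le, p, rfl, heq⟩

/-- **Theorem A: closeness up to the boundary.** -/
theorem closeness (hR : 0 < R) (hc : 0 < c) {ρ₀ : ℝ} (hρ₀ : ρ₀ < 1) {ε : ℝ} (hε : 0 < ε) :
    ∃ h > 0, ∀ F : ℂ → ℂ, Cls R c F → ∀ w₀ ∈ closedBall (0 : ℂ) ρ₀, ∀ (P : Set ℂ) (Φ : ℂ → ℂ),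
      Conf Φ P → P ⊆ F '' ball 0 1 → Inner (F '' ball 0 1) P (F w₀) h →
      Collar (F '' ball 0 1) P h → Φ 0 = F 0 → (∃ s : ℝ, 0 ≤ s ∧ deriv Φ 0 = s * deriv F 0) →
      ∀ z ∈ ball (0 : ℂ) 1, ‖dinv F (Φ z) - z‖ ≤ ε := by
  obtain ⟨κ, hκ, hclose⟩ := close_of_collar hε
  obtain ⟨h₁, hh₁, hcol⟩ := collar_disc (R := R) (c := c) hR hc hκ
  set ρ₁ : ℝ := max ρ₀ (max (1 - κ) 0) with hρ₁
  have hρ₁1 : ρ₁ < 1 := max_lt hρ₀ (max_lt (by linarith) one_pos)
  obtain ⟨h₂, hh₂, hins⟩ := Cls.inside (R := R) (c := c) hR hc hρ₁1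
  refine ⟨min h₁ h₂, lt_min hh₁ hh₂, fun F hF w₀ hw₀ P Φ hΦ hPD hin hcl h0 hs z hz => ?_⟩
  have hconf := hF.conf
  have hcontain : F '' closedBall 0 ρ₁ ⊆ P := by
    refine hin _ ?_ ?_ ?_
    · refine IsPreconnected.image (convex_closedBall (0 : ℂ) ρ₁).isPreconnected _ ?_
      exact hF.diff.continuousOn.mono (closedBall_subset_ball hρ₁1)
    · exact mem_image_of_mem _ (closedBall_subset_closedBall (le_max_left _ _) hw₀)
    · rintro _ ⟨w, hw, rfl⟩
      exact (ball_subset_ball (min_le_right _ _)).trans (hins F hF w hw)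
  set Q : Set ℂ := dinv F '' P with hQ
  have hQ1 : Q ⊆ ball 0 1 := by
    rintro _ ⟨x, hx, rfl⟩
    exact hconf.dinv_mem (hPD hx)
  have z0 : (0 : ℂ) ∈ ball (0 : ℂ) 1 := mem_ball_self one_pos
  have hG : Conf (fun z => dinv F (Φ z)) Q := by
    refine ⟨?_, ?_, ?_⟩
    · exact hconf.dinv_differentiableOn.comp hΦ.diff fun w hw => hPD (hΦ.mem hw)
    · intro w hw w' hw' e
      have h1 : F (dinv F (Φ w)) = F (dinv F (Φ w')) := congrArg F e
      rw [hconf.apply_dinv (hPD (hΦ.mem hw)), hconf.apply_dinv (hPD (hΦ.mem hw'))] at h1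
      exact hΦ.inj hw hw' h1
    · rw [hQ, ← hΦ.img, image_image]
  have hG0 : dinv F (Φ 0) = 0 := by rw [h0]; exact hconf.dinv_apply z0
  have hGd : ∃ s : ℝ, 0 ≤ s ∧ deriv (fun z => dinv F (Φ z)) 0 = s := by
    obtain ⟨s, hs0, hs⟩ := hs
    refine ⟨s, hs0, ?_⟩
    have hne := hconf.deriv_ne z0
    have hΦd : HasDerivAt Φ (deriv Φ 0) 0 :=
      (hΦ.diff.differentiableAt (isOpen_ball.mem_nhds z0)).hasDerivAt
    have hid : HasDerivAt (dinv F) (deriv F 0)⁻¹ (F 0) := by
      have h1 := hconf.dinv_hasDerivAt z0 hne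
      exact h1
    rw [← h0] at hid
    have := hid.comp 0 hΦd
    have e := this.deriv
    rw [hs] at e
    have e2 : deriv (fun z => dinv F (Φ z)) 0 = (deriv F 0)⁻¹ * (s * deriv F 0) := e
    rw [e2]
    field_simp
  refine hclose _ Q hG hQ1 hG0 hGd ?_ ?_ z hz
  · intro w hw
    have hw' : w ∈ closedBall (0 : ℂ) ρ₁ := by
      rw [mem_closedBall_zero_iff]
      exact (mem_ball_zero_iff.1 hw).le.trans ((le_max_left _ _).trans (le_max_right _ _))
    exact ⟨F w, hcontain (mem_image_of_mem _ hw'),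
      hconf.dinv_apply (closedBall_subset_ball hρ₁1 hw')⟩
  · exact hcol F hF P hΦ.isOpen hPD (hcl.mono (min_le_left _ _))

end Vale.Agent.P167.H756
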