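import Vale.Agent.P167.H756.Tools

/-!
# P167, block CM: two uniformizers of `(P; a, p)` differ by a scaling
-/

open Set Topology Metric MeasureTheory Filter Bornology
open scoped ENNReal Real ComplexConjugate

namespace Vale.Agent.P167.H756

open Vale.Agent.P153.R2.R1

theorem conf_of_isU {ψ : ℂ → ℂ} {P : Set ℂ} {a p : ℂ} (h : IsU ψ P a p) {c : ℂ} (hc : 0 < c.im) :
    Conf (fun w => ψ (imb 1 c w)) P := by
  have h1 : ‖(1 : ℂ)‖ = 1 := norm_one
  have hne : ∀ w ∈ ball (0 : ℂ) 1, w ≠ 1 := by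
    rintro w hw rfl
    rw [mem_ball_zero_iff, norm_one] at hw
    exact lt_irrefl _ hw
  refine ⟨?_, ?_, ?_⟩
  · refine h.diff.comp ?_ ?_
    · intro w hw
      exact (imb_differentiableAt (hne w hw)).differentiableWithinAt
    · intro w hw
      exact imb_im_pos h1 hc (mem_ball_zero_iff.1 hw)
  · intro w hw w' hw' he
    have h2 := h.inj (imb_im_pos h1 hc (mem_ball_zero_iff.1 hw))
      (imb_im_pos h1 hc (mem_ball_zero_iff.1 hw')) he
    rw [← (mb_imb h1 hc (hne w hw)).2, h2, (mb_imb h1 hc (hne w' hw')).2]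
  · rw [← h.img]
    apply Subset.antisymm
    · rintro _ ⟨w, hw, rfl⟩
      exact ⟨_, imb_im_pos h1 hc (mem_ball_zero_iff.1 hw), rfl⟩
    · rintro _ ⟨z, hz, rfl⟩
      have hm : mb 1 c z ∈ ball (0 : ℂ) 1 := by
        rw [mem_ball_zero_iff]; exact norm_mb_lt h1 hc hz
      have hz' : 0 < z.im := hz
      exact ⟨_, hm, by simp only [imb_mb h1 hc hz'.le]⟩

theorem tendsto_seq (x : ℂ) (hx : ‖x‖ = 1) :
    (∀ n : ℕ, (1 - 1 / ((n : ℂ) + 1)) * x ∈ ball (0 : ℂ) 1) ∧
      Tendsto (fun n : ℕ => (1 - 1 / ((n : ℂ) + 1)) * x) atTop (𝓝 x) := by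
  constructor
  · intro n
    rw [mem_ball_zero_iff, norm_mul, hx, mul_one]
    have e : (1 - 1 / ((n : ℂ) + 1)) = ((1 - 1 / ((n : ℝ) + 1) : ℝ) : ℂ) := by push_cast; ring
    have h1 : 0 < 1 / ((n : ℝ) + 1) := by positivity
    have h2 : 1 / ((n : ℝ) + 1) ≤ 1 := by
      rw [div_le_one (by positivity)]
      have : (0 : ℝ) ≤ n := Nat.cast_nonneg n
      linarith
    rw [e, Complex.norm_real, Real.norm_of_nonneg (by linarith)]
    linarith
  · have h1 : Tendsto (fun n : ℕ => 1 / ((n : ℂ) + 1)) atTop (𝓝 0) :=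
      tendsto_one_div_add_atTop_nhds_zero_nat
    have h2 := (h1.const_sub 1).mul_const x
    rwa [sub_zero, one_mul] at h2

/-- Two uniformizers of `(P; a, p)` differ by a scaling. -/
theorem isU_scale {ψ ψ' : ℂ → ℂ} {P : Set ℂ} {a p : ℂ} (hP : NoCut P) (h : IsU ψ P a p)
    (h' : IsU ψ' P a p) : ∃ s : ℝ, 0 < s ∧ ∀ z : ℂ, 0 ≤ z.im → ψ' z = ψ ((s : ℂ) * z) := by
  have hI : 0 < Complex.I.im := by simp
  have h1 : ‖(1 : ℂ)‖ = 1 := norm_one
  have hI' : Complex.I ∈ {z : ℂ | 0 < z.im} := hI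
  obtain ⟨c, hc, hcI⟩ : ψ' Complex.I ∈ ψ '' {z | 0 < z.im} := by
    rw [h.img, ← h'.img]; exact mem_image_of_mem _ hI'
  have hc' : 0 < c.im := hc
  obtain ⟨hinj, hnep⟩ := h.injOn hP
  have hC1 := conf_of_isU h hc'
  have hC2 := h'.toDisc
  have hne : ∀ w ∈ ball (0 : ℂ) 1, w ≠ 1 := by
    rintro w hw rfl
    rw [mem_ball_zero_iff, norm_one] at hw
    exact lt_irrefl _ hw
  have htd : ∀ w ∈ ball (0 : ℂ) 1, toDisc ψ' p w = ψ' (imb 1 Complex.I w) := fun w hw => by
    simp [toDisc, hne w hw]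
  have z0 : (0 : ℂ) ∈ ball (0 : ℂ) 1 := mem_ball_self one_pos
  have h00 : (fun w => ψ (imb 1 c w)) 0 = toDisc ψ' p 0 := by
    rw [htd 0 z0]
    have e1 : imb 1 c 0 = c := by rw [imb]; simp
    have e2 : imb 1 Complex.I 0 = Complex.I := by rw [imb]; simp
    simp only [e1, e2, hcI]
  obtain ⟨u, hu, huE⟩ := hC1.rigid hC2.toConf h00
  -- the rotation is trivial
  have hu1 : u = 1 := by
    by_contra hne1
    obtain ⟨hb, hl⟩ := tendsto_seq 1 h1
    have l1 : Tendsto (fun n : ℕ => toDisc ψ' p ((1 - 1 / ((n : ℂ) + 1)) * 1)) atTop (𝓝 p) := by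
      have h2 := (hC2.cont 1 (by rw [mem_closedBall_zero_iff, h1])).tendsto
      rw [toDisc_one] at h2
      exact h2.comp (tendsto_nhdsWithin_iff.2 ⟨hl, Eventually.of_forall fun n =>
        ball_subset_closedBall (hb n)⟩)
    have him : (imb 1 c u).im = 0 := imb_im_eq h1 hc' hu hne1
    have l2 : Tendsto (fun n : ℕ => ψ (imb 1 c (u * ((1 - 1 / ((n : ℂ) + 1)) * 1)))) atTop
        (𝓝 (ψ (imb 1 c u))) := by
      refine (h.cont (imb 1 c u) him.ge).tendsto.comp (tendsto_nhdsWithin_iff.2 ⟨?_, ?_⟩)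
      · have h3 : Tendsto (fun n : ℕ => u * ((1 - 1 / ((n : ℂ) + 1)) * 1)) atTop (𝓝 u) := by
          have := hl.const_mul u
          rwa [mul_one] at this
        exact ((imb_differentiableAt hne1).continuousAt.tendsto).comp h3
      · refine Eventually.of_forall fun n => le_of_lt (imb_im_pos h1 hc' ?_)
        rw [norm_mul, hu, one_mul]
        exact mem_ball_zero_iff.1 (hb n)
    have h4 : ψ (imb 1 c u) = p := by
      refine tendsto_nhds_unique (l2.congr fun n => ?_) l1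
      exact (huE _ (hb n)).symm
    exact hnep _ him.ge h4
  subst hu1
  have hE : ∀ w ∈ ball (0 : ℂ) 1, ψ' (imb 1 Complex.I w) = ψ (imb 1 c w) := by
    intro w hw
    rw [← htd w hw, huE w hw, one_mul]
  -- the point `c` is on the imaginary axis
  have hneg1 : ‖(-1 : ℂ)‖ = 1 := by rw [norm_neg, h1]
  have hm1 : (-1 : ℂ) ≠ 1 := by norm_num
  have hcre : imb 1 c (-1) = 0 := by
    obtain ⟨hb, hl⟩ := tendsto_seq (-1) hneg1
    have him : (imb 1 c (-1)).im = 0 := imb_im_eq h1 hc' hneg1 hm1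
    have l1 : Tendsto (fun n : ℕ => toDisc ψ' p ((1 - 1 / ((n : ℂ) + 1)) * (-1))) atTop
        (𝓝 a) := by
      have h2 := (hC2.cont (-1) (by rw [mem_closedBall_zero_iff, hneg1])).tendsto
      rw [toDisc_neg_one h'] at h2
      exact h2.comp (tendsto_nhdsWithin_iff.2 ⟨hl, Eventually.of_forall fun n =>
        ball_subset_closedBall (hb n)⟩)
    have l2 : Tendsto (fun n : ℕ => ψ (imb 1 c ((1 - 1 / ((n : ℂ) + 1)) * (-1)))) atTop
        (𝓝 (ψ (imb 1 c (-1)))) := by
      refine (h.cont (imb 1 c (-1)) him.ge).tendsto.comp (tendsto_nhdsWithin_iff.2 ⟨?_, ?_⟩)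
      · exact ((imb_differentiableAt hm1).continuousAt.tendsto).comp hl
      · exact Eventually.of_forall fun n => le_of_lt (imb_im_pos h1 hc'
          (mem_ball_zero_iff.1 (hb n)))
    have h4 : ψ (imb 1 c (-1)) = a := by
      refine tendsto_nhds_unique (l2.congr fun n => ?_) l1
      rw [← hE _ (hb n), htd _ (hb n)]
    have h5 : (0 : ℂ) ∈ {z : ℂ | 0 ≤ z.im} := by simp
    exact hinj him.ge h5 (h4.trans h.zero.symm)
  have hre : c = (c.im : ℂ) * Complex.I := by
    rw [imb] at hcre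
    have h2 : (1 : ℂ) - -1 ≠ 0 := by norm_num
    have h3 : c + conj c = 0 := by
      have := (div_eq_zero_iff.1 hcre).resolve_right h2
      linear_combination this
    have h4 := congrArg Complex.re h3
    rw [Complex.add_re, Complex.conj_re, Complex.zero_re] at h4
    apply Complex.ext
    · simp; linarith
    · simp
  have hopen : ∀ z : ℂ, 0 < z.im → ψ' z = ψ ((c.im : ℂ) * z) := by
    intro z hz
    have hmb : mb 1 Complex.I z ∈ ball (0 : ℂ) 1 := by
      rw [mem_ball_zero_iff]; exact norm_mb_lt h1 hI hz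
    have h2 := hE _ hmb
    rw [imb_mb h1 hI hz.le] at h2
    have h3 := imb_mb (β := 1) (c := Complex.I) h1 hI hz.le
    set v : ℂ := mb 1 Complex.I z with hv
    have hv1 : 1 - v ≠ 0 := sub_ne_zero.2 (Ne.symm (hne v hmb))
    have e1 : imb 1 c v = (c.im : ℂ) * imb 1 Complex.I v := by
      generalize c.im = t at hre
      subst hre
      rw [imb, imb, Complex.conj_I, map_mul, Complex.conj_ofReal, Complex.conj_I]
      field_simp
    rw [h2, e1, h3]
  refine ⟨c.im, hc', fun z hz => ?_⟩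
  rcases hz.lt_or_eq with h2 | h2
  · exact hopen z h2
  · have l0 : Tendsto (fun n : ℕ => z + (1 / ((n : ℂ) + 1)) * Complex.I) atTop (𝓝 z) := by
      have h3 : Tendsto (fun n : ℕ => 1 / ((n : ℂ) + 1)) atTop (𝓝 0) :=
        tendsto_one_div_add_atTop_nhds_zero_nat
      have h4 := (h3.mul_const Complex.I).const_add z
      rwa [zero_mul, add_zero] at h4
    have him : ∀ n : ℕ, 0 < (z + (1 / ((n : ℂ) + 1)) * Complex.I).im := by
      intro n
      have e : (1 / ((n : ℂ) + 1)) = ((1 / ((n : ℝ) + 1) : ℝ) : ℂ) := by push_cast; ring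
      rw [e, Complex.add_im, Complex.im_ofReal_mul, Complex.I_im, mul_one, ← h2, zero_add]
      positivity
    have l1 : Tendsto (fun n : ℕ => ψ' (z + (1 / ((n : ℂ) + 1)) * Complex.I)) atTop
        (𝓝 (ψ' z)) :=
      (h'.cont z hz).tendsto.comp (tendsto_nhdsWithin_iff.2 ⟨l0, Eventually.of_forall fun n =>
        (him n).le⟩)
    have l2 : Tendsto (fun n : ℕ => ψ ((c.im : ℂ) * (z + (1 / ((n : ℂ) + 1)) * Complex.I))) atTop
        (𝓝 (ψ ((c.im : ℂ) * z))) := by
      refine (h.cont ((c.im : ℂ) * z) ?_).tendsto.comp (tendsto_nhdsWithin_iff.2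
        ⟨l0.const_mul _, Eventually.of_forall fun n => ?_⟩)
      · show 0 ≤ ((c.im : ℂ) * z).im
        rw [Complex.im_ofReal_mul, ← h2, mul_zero]
      · show 0 ≤ ((c.im : ℂ) * (z + (1 / ((n : ℂ) + 1)) * Complex.I)).im
        rw [Complex.im_ofReal_mul]
        exact (mul_pos hc' (him n)).le
    exact tendsto_nhds_unique l1 (l2.congr fun n => (hopen _ (him n)).symm)

end Vale.Agent.P167.H756
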