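import Vale.Agent.P167.H756.ThmC
import Vale.Agent.P167.H756.Scale

/-!
# P167, block CM: the conformal continuity theorem

`cm` : for polygons `P₀` inside `D₀ = F₀ (disc)` and `P₁` inside `D₁ = F₁ (disc)` which almost fill
these domains and coincide near a boundary point `b`, the ratio of the quantities
`G_P (b) = (ψ⁻¹)' (b) / ψ⁻¹ (b)` (`ψ` the uniformizer of `(P; a, p)` from the upper half-plane) is
close to `X g' (X) / g (X)`, where `g` is the transition map from the coordinates of `D₀` to the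
coordinates of `D₁`.
-/

open Set Topology Metric MeasureTheory Filter Bornology
open scoped ENNReal Real ComplexConjugate

namespace Vale.Agent.P167.H756

open Vale.Agent.P153.R2.R1 Vale.Agent.P153.R2.OBSV Vale.Agent.P167.H174

/-- Cauchy estimates for a bounded function. -/
theorem lip_of_bdd {f : ℂ → ℂ} {x : ℂ} {ρ s B : ℝ} (hs : 0 < s)
    (hf : DifferentiableOn ℂ f (ball x (ρ + s))) (hb : ∀ z ∈ ball x (ρ + s), ‖f z‖ ≤ B) :
    (∀ z ∈ ball x ρ, ‖deriv f z‖ ≤ B / (s / 2)) ∧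
      ∀ z ∈ ball x ρ, ∀ w ∈ ball x ρ, ‖f w - f z‖ ≤ B / (s / 2) * ‖w - z‖ := by
  have hder : ∀ w ∈ ball x ρ, ‖deriv f w‖ ≤ B / (s / 2) := by
    intro w hw
    have hcb : closedBall w (s / 2) ⊆ ball x (ρ + s) := by
      intro y hy
      rw [mem_closedBall] at hy
      rw [mem_ball] at hw ⊢
      have := dist_triangle y w x
      linarith
    apply Complex.norm_deriv_le_of_forall_mem_sphere_norm_le (by positivity)
    · exact (hf.mono hcb).diffContOnCl_ball Subset.rfl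
    · intro y hy
      exact hb y (hcb (sphere_subset_closedBall hy))
  refine ⟨hder, fun z hz w hw => ?_⟩
  refine (convex_ball x ρ).norm_image_sub_le_of_norm_deriv_le (f := f)
      (fun y hy => hf.differentiableAt (isOpen_ball.mem_nhds ?_)) hder hz hw
  exact ball_subset_ball (by linarith) hy

theorem quot_close {a a' b b' c c' : ℂ} {B m δ : ℝ} (hB1 : 1 ≤ B) (hm : 0 < m) (hδ : 0 < δ)
    (hδ1 : δ ≤ 1) (hδm : δ ≤ m / 2) (ha : ‖a - a'‖ ≤ δ) (hb : ‖b - b'‖ ≤ δ) (hc : ‖c - c'‖ ≤ δ)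
    (ha' : ‖a'‖ ≤ B) (hb' : ‖b'‖ ≤ B) (hc' : ‖c'‖ ≤ B) (hcm : m ≤ ‖c'‖) :
    ‖a * b / c - a' * b' / c'‖ ≤ 8 * B ^ 2 * δ / m ^ 2 := by
  have hcl : m / 2 ≤ ‖c‖ := by
    have h1 : ‖c'‖ ≤ ‖c‖ + ‖c - c'‖ := by
      have e : c' = c - (c - c') := by ring
      calc ‖c'‖ = ‖c - (c - c')‖ := by rw [← e]
        _ ≤ _ := norm_sub_le _ _
    linarith
  have hc0 : c ≠ 0 := norm_pos_iff.1 (by linarith)
  have hc'0 : c' ≠ 0 := norm_pos_iff.1 (by linarith)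
  have e : a * b / c - a' * b' / c' =
      (((a - a') * (b - b') + (a - a') * b' + a' * (b - b')) * c' + a' * b' * (c' - c)) /
        (c * c') := by
    field_simp
    ring
  have hB0 : 0 ≤ B := by linarith
  have hn1 : ‖((a - a') * (b - b') + (a - a') * b' + a' * (b - b')) * c' + a' * b' * (c' - c)‖ ≤
      3 * B * δ * ‖c'‖ + B ^ 2 * δ := by
    refine (norm_add_le _ _).trans (add_le_add ?_ ?_)
    · rw [norm_mul]
      gcongr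
      refine (norm_add₃_le).trans ?_
      rw [norm_mul, norm_mul, norm_mul]
      have h1 : ‖a - a'‖ * ‖b - b'‖ ≤ δ * δ := by gcongr
      have h2 : ‖a - a'‖ * ‖b'‖ ≤ δ * B := by gcongr
      have h3 : ‖a'‖ * ‖b - b'‖ ≤ B * δ := by gcongr
      nlinarith
    · rw [norm_mul, norm_mul, norm_sub_rev]
      calc ‖a'‖ * ‖b'‖ * ‖c - c'‖ ≤ B * B * δ := by gcongr
        _ = B ^ 2 * δ := by ring
  rw [e, norm_div, norm_mul c c', div_le_div_iff₀ (by positivity) (by positivity)]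
  have hmB : m ≤ B := hcm.trans hc'
  have hC0 : 0 ≤ ‖c'‖ := norm_nonneg _
  calc ‖((a - a') * (b - b') + (a - a') * b' + a' * (b - b')) * c' + a' * b' * (c' - c)‖ * m ^ 2
      ≤ (3 * B * δ * ‖c'‖ + B ^ 2 * δ) * m ^ 2 := by gcongr
    _ = 3 * B * δ * ‖c'‖ * m * m + B ^ 2 * δ * m * m := by ring
    _ ≤ 3 * B * δ * ‖c'‖ * m * B + B ^ 2 * δ * m * ‖c'‖ := by gcongr
    _ = 8 * B ^ 2 * δ * ((m / 2) * ‖c'‖) := by ring
    _ ≤ 8 * B ^ 2 * δ * (‖c‖ * ‖c'‖) := by gcongr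

/-- A polygon `P` with two marked points `a`, `p` which almost fills the domain `F (disc)` marked
at the images of `-1` and `1`. -/
structure Side (R c ρ₀ h : ℝ) (F : ℂ → ℂ) (w₀ : ℂ) (P : Set ℂ) (a p : ℂ) : Prop where
  cls : Cls R c F
  base : w₀ ∈ closedBall (0 : ℂ) ρ₀
  good : Good P
  sub : P ⊆ F '' ball 0 1
  inner : Inner (F '' ball 0 1) P (F w₀) h
  collar : Collar (F '' ball 0 1) P h
  mem_a : a ∈ frontier P
  mem_p : p ∈ frontier P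
  mark_a : Mark F P a (-1) h
  mark_p : Mark F P p 1 h

theorem Side.mono {R c ρ₀ h h' : ℝ} {F : ℂ → ℂ} {w₀ : ℂ} {P : Set ℂ} {a p : ℂ}
    (H : Side R c ρ₀ h F w₀ P a p) (hh : h ≤ h') : Side R c ρ₀ h' F w₀ P a p :=
  { H with
    inner := H.inner.mono hh
    collar := H.collar.mono hh
    mark_a := H.mark_a.mono hh
    mark_p := H.mark_p.mono hh }

/-- `g` is the transition map from the half-plane coordinates of `F₀` to those of `F₁` near the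
real point `X`. -/
structure Trans (X r M : ℝ) (F₀ F₁ g : ℂ → ℂ) : Prop where
  diff : DifferentiableOn ℂ g (ball (X : ℂ) r)
  symm : ∀ z ∈ ball (X : ℂ) r, g (conj z) = conj (g z)
  pos : ∀ z ∈ ball (X : ℂ) r, 0 < z.im → 0 < (g z).im
  bdd : ∀ z ∈ ball (X : ℂ) r, ‖g z‖ ≤ M
  eq : ∀ z ∈ ball (X : ℂ) r, 0 < z.im → F₀ (mb 1 Complex.I z) = F₁ (mb 1 Complex.I (g z))

/-- The position of a marked point in the half-plane. -/
theorem mark_point {M κ ε : ℝ} {X : ℝ} (hX : |X| ≤ M)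
    (himb : ∀ z v : ℂ, 0 ≤ z.im → ‖z‖ ≤ M →
      ‖v - mb 1 Complex.I z‖ ≤ ε → ‖imb 1 Complex.I v - z‖ ≤ κ)
    {F ψ : ℂ → ℂ} {P : Set ℂ} {a p b : ℂ} {h : ℝ} (hF : Conf F (F '' ball 0 1))
    (hψ : IsU ψ P a p) (hinj : InjOn ψ {z | 0 ≤ z.im})
    (hcl : ∀ z : ℂ, 0 < z.im → ‖dinv F (ψ z) - mb 1 Complex.I z‖ ≤ ε / 2) (hh : h ≤ ε / 2)
    (hPo : IsOpen P) (hb : b ∈ frontier P) (hm : Mark F P b (mb 1 Complex.I X) h) :
    ∃ x : ℝ, ψ x = b ∧ |x - X| ≤ κ := by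
  have hI : 0 < Complex.I.im := by simp
  obtain ⟨x, hx, hxl⟩ := mem_closure_iff_seq_limit.1 hm
  have hex : ∀ n, ∃ z : ℂ, 0 < z.im ∧ ψ z = x n := by
    intro n
    have := (hx n).1
    rw [← hψ.img] at this
    exact this
  choose z hz0 hze using hex
  have hnX : ‖(X : ℂ)‖ ≤ M := by rwa [Complex.norm_real, Real.norm_eq_abs]
  have hzX : ∀ n, ‖z n - X‖ ≤ κ := by
    intro n
    obtain ⟨v, hv, hvx⟩ := (hx n).2
    have h1 := hcl (z n) (hz0 n)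
    rw [hze n, ← hvx, hF.dinv_apply hv.1] at h1
    have h2 : ‖v - mb 1 Complex.I X‖ < h := by rw [← dist_eq_norm]; exact hv.2
    have h3 : ‖mb 1 Complex.I (z n) - mb 1 Complex.I X‖ ≤ ε := by
      calc ‖mb 1 Complex.I (z n) - mb 1 Complex.I X‖
          = ‖(v - mb 1 Complex.I X) - (v - mb 1 Complex.I (z n))‖ := by congr 1; ring
        _ ≤ ‖v - mb 1 Complex.I X‖ + ‖v - mb 1 Complex.I (z n)‖ := norm_sub_le _ _
        _ ≤ ε := by linarith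
    have h4 := himb X _ (by simp) hnX h3
    rwa [imb_mb norm_one hI (hz0 n).le] at h4
  have hlim : Tendsto (fun n => ψ (z n)) atTop (𝓝 b) := hxl.congr fun n => (hze n).symm
  obtain ⟨w, hw0, hwM, hwe, hwl⟩ := inv_tendsto_bdd hψ.cont hinj (M := M + κ)
    (Eventually.of_forall fun n => ⟨(hz0 n).le, by
      calc ‖z n‖ = ‖(X : ℂ) + (z n - X)‖ := by congr 1; ring
        _ ≤ ‖(X : ℂ)‖ + ‖z n - X‖ := norm_add_le _ _
        _ ≤ M + κ := add_le_add hnX (hzX n)⟩) hlim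
  have him : w.im = 0 := by
    rcases hw0.lt_or_eq with h1 | h1
    · exfalso
      have h2 : ψ w ∈ P := by rw [← hψ.img]; exact mem_image_of_mem _ h1
      rw [hwe] at h2
      exact notMem_of_frontier hPo hb h2
    · exact h1.symm
  have hre : w = (w.re : ℂ) := Complex.ext (by simp) (by simp [him])
  refine ⟨w.re, by rw [← hre]; exact hwe, ?_⟩
  have h5 : ‖w - X‖ ≤ κ := le_of_tendsto (hwl.sub_const (X : ℂ)).norm (Eventually.of_forall hzX)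
  rw [hre, ← Complex.ofReal_sub, Complex.norm_real, Real.norm_eq_abs] at h5
  exact h5

/-- **Conformal continuity.** The ratio of `G_P (b) = (ψ⁻¹)' (b) / ψ⁻¹ (b)` for two polygons which
coincide near `b` is close to `X g' (X) / g (X)`. -/
theorem cm {R c ρ₀ X r M m κ : ℝ} (hR : 0 < R) (hc : 0 < c) (hρ₀ : ρ₀ < 1) (hr : 0 < r)
    (hM : |X| + r ≤ M) (hm : 0 < m) (hX : X ≠ 0) (hκ : 0 < κ) :
    ∃ h > 0, ∀ (F₀ F₁ g : ℂ → ℂ) (w₀ w₁ : ℂ) (P₀ P₁ : Set ℂ) (a₀ p₀ a₁ p₁ b : ℂ),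
      Side R c ρ₀ h F₀ w₀ P₀ a₀ p₀ → Side R c ρ₀ h F₁ w₁ P₁ a₁ p₁ → Trans X r M F₀ F₁ g →
      m ≤ ‖g X‖ →
      (∀ z ∈ ball (X : ℂ) r, 0 < z.im →
        (F₀ (mb 1 Complex.I z) ∈ P₀ ↔ F₀ (mb 1 Complex.I z) ∈ P₁)) →
      b ∈ frontier P₀ → Mark F₀ P₀ b (mb 1 Complex.I X) h →
      ∀ ψ₀ ψ₁ : ℂ → ℂ, IsU ψ₀ P₀ a₀ p₀ → IsU ψ₁ P₁ a₁ p₁ →
      ∃ (x₀ x₁ s : ℝ) (T : ℂ → ℂ), 0 < s ∧ x₀ ≠ 0 ∧ x₁ ≠ 0 ∧ ψ₀ x₀ = b ∧ ψ₁ x₁ = b ∧
        T x₀ = x₁ ∧ DifferentiableOn ℂ T (ball (x₀ : ℂ) s) ∧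
        (∀ z ∈ ball (x₀ : ℂ) s, T (conj z) = conj (T z)) ∧
        (∀ z ∈ ball (x₀ : ℂ) s, 0 ≤ z.im → 0 ≤ (T z).im ∧ ψ₁ (T z) = ψ₀ z) ∧
        ‖deriv T x₀ * x₀ / x₁ - deriv g X * X / g X‖ ≤ κ := by
  have hXpos : 0 < |X| := abs_pos.2 hX
  have hM0 : 0 < M := by linarith
  set B : ℝ := max M (max (M / (r / 4)) 1) with hB
  have hB1 : 1 ≤ B := (le_max_right _ _).trans (le_max_right _ _)
  have hBM : M ≤ B := le_max_left _ _
  have hBd : M / (r / 4) ≤ B := (le_max_left _ _).trans (le_max_right _ _)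
  set δ : ℝ := min (min 1 (m / 2)) (min (|X| / 2) (κ * m ^ 2 / (8 * B ^ 2))) with hδ
  have hδ0 : 0 < δ := by positivity
  have hδ1 : δ ≤ 1 := (min_le_left _ _).trans (min_le_left _ _)
  have hδm : δ ≤ m / 2 := (min_le_left _ _).trans (min_le_right _ _)
  have hδX : δ ≤ |X| / 2 := (min_le_right _ _).trans (min_le_left _ _)
  have hδκ : δ ≤ κ * m ^ 2 / (8 * B ^ 2) := (min_le_right _ _).trans (min_le_right _ _)
  set L : ℝ := M / (r / 4) + M / (r / 4) / (r / 8) + 1 with hL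
  have hL0 : 0 < L := by positivity
  have hL1 : M / (r / 4) ≤ L := by
    have : 0 < M / (r / 4) / (r / 8) := by positivity
    rw [hL]; linarith
  have hL2 : M / (r / 4) / (r / 8) ≤ L := by
    have : 0 < M / (r / 4) := by positivity
    rw [hL]; linarith
  have hL3 : 1 ≤ L := by
    have h1 : 0 < M / (r / 4) / (r / 8) := by positivity
    have : 0 < M / (r / 4) := by positivity
    rw [hL]; linarith
  set κ₃ : ℝ := min (r / 8) (δ / (2 * L)) with hκ₃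
  have hκ₃0 : 0 < κ₃ := by positivity
  have hκ₃r : κ₃ ≤ r / 8 := min_le_left _ _
  have hκ₃L : L * κ₃ ≤ δ / 2 := by
    calc L * κ₃ ≤ L * (δ / (2 * L)) := by gcongr; exact min_le_right _ _
      _ = δ / 2 := by field_simp
  set κ₂ : ℝ := min (δ / 2) (δ * r / 16) with hκ₂
  have hκ₂0 : 0 < κ₂ := by positivity
  have hκ₂δ : κ₂ ≤ δ / 2 := min_le_left _ _
  have hκ₂r : κ₂ / (r / 8) ≤ δ / 2 := by
    rw [div_le_iff₀ (by positivity)]
    calc κ₂ ≤ δ * r / 16 := min_le_right _ _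
      _ = δ / 2 * (r / 8) := by ring
  obtain ⟨ε₂, hε₂, hcomp⟩ := compare (X := X) (r := r) (M := M) hr hκ₂0 hM
  obtain ⟨ε₃, hε₃, himb⟩ := imb_close hM0.le hκ₃0
  set ε : ℝ := min ε₂ (ε₃ / 2) with hε
  have hε0 : 0 < ε := by positivity
  obtain ⟨h₀, hh₀, hhalf⟩ := halfplane (R := R) (c := c) hR hc hρ₀ hε0
  refine ⟨min h₀ (ε₃ / 2), by positivity, ?_⟩
  intro F₀ F₁ g w₀ w₁ P₀ P₁ a₀ p₀ a₁ p₁ b hS₀ hS₁ hg hgX hagree hb hbm ψ₀ ψ₁ hψ₀ hψ₁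
  have hle : min h₀ (ε₃ / 2) ≤ h₀ := min_le_left _ _
  obtain ⟨φ₀, hφ₀, hφ₀i, hφ₀c⟩ := hhalf F₀ hS₀.cls w₀ hS₀.base P₀ hS₀.good hS₀.sub
    (hS₀.inner.mono hle) (hS₀.collar.mono hle) a₀ p₀ hS₀.mem_a hS₀.mem_p (hS₀.mark_a.mono hle)
    (hS₀.mark_p.mono hle)
  obtain ⟨φ₁, hφ₁, hφ₁i, hφ₁c⟩ := hhalf F₁ hS₁.cls w₁ hS₁.base P₁ hS₁.good hS₁.sub
    (hS₁.inner.mono hle) (hS₁.collar.mono hle) a₁ p₁ hS₁.mem_a hS₁.mem_p (hS₁.mark_a.mono hle)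
    (hS₁.mark_p.mono hle)
  obtain ⟨T, hTd, hTs, hTe, hTg⟩ := hcomp F₀ F₁ g P₀ P₁ φ₀ φ₁ a₀ p₀ a₁ p₁ hS₀.cls.conf
    hS₁.cls.conf hφ₀ hφ₁ hφ₁i hS₀.sub hS₁.sub
    (fun z hz => (hφ₀c z hz).trans (min_le_left _ _))
    (fun z hz => (hφ₁c z hz).trans (min_le_left _ _)) hg.diff hg.symm hg.pos hg.bdd hg.eq hagree
  obtain ⟨y₀, hy₀e, hy₀X⟩ := mark_point (X := X) (by linarith : |X| ≤ M) himb hS₀.cls.conf hφ₀ hφ₀i
    (fun z hz => (hφ₀c z hz).trans (min_le_right _ _)) (h := min h₀ (ε₃ / 2)) (min_le_right _ _)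
    hS₀.good.isOpen hb hbm
  -- the point `y₀` and its image
  have hy₀n : ‖(y₀ : ℂ) - X‖ ≤ κ₃ := by
    rw [← Complex.ofReal_sub, Complex.norm_real, Real.norm_eq_abs]; exact hy₀X
  have hy₀b : (y₀ : ℂ) ∈ ball (X : ℂ) (r / 4) := by
    rw [mem_ball, dist_eq_norm]; linarith
  have hXb : (X : ℂ) ∈ ball (X : ℂ) (r / 4) := mem_ball_self (by positivity)
  have hb42 : ball (X : ℂ) (r / 4) ⊆ ball (X : ℂ) (r / 2) := ball_subset_ball (by linarith)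
  have hb21 : ball (X : ℂ) (r / 2) ⊆ ball (X : ℂ) r := ball_subset_ball (by linarith)
  obtain ⟨hTy0, hTye⟩ := hTe y₀ (hb42 hy₀b) (by simp)
  have hTreal : (T y₀).im = 0 := by
    have := hTs y₀ (hb42 hy₀b)
    rw [Complex.conj_ofReal] at this
    exact Complex.conj_eq_iff_im.1 this.symm
  set y₁ : ℝ := (T y₀).re with hy₁
  have hy₁e : T y₀ = (y₁ : ℂ) := Complex.ext (by simp [hy₁]) (by simp [hTreal])
  -- estimates for `g`
  have e1 : r / 2 + r / 2 = r := by ring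
  have e2 : r / 4 + r / 4 = r / 2 := by ring
  have e3 : r / 2 / 2 = r / 4 := by ring
  have e4 : r / 4 / 2 = r / 8 := by ring
  obtain ⟨hg1, hg2⟩ := lip_of_bdd (f := g) (x := (X : ℂ)) (ρ := r / 2) (s := r / 2) (B := M)
    (by positivity) (by rw [e1]; exact hg.diff) (by rw [e1]; exact hg.bdd)
  rw [e3] at hg1 hg2
  obtain ⟨-, hg3⟩ := lip_of_bdd (f := deriv g) (x := (X : ℂ)) (ρ := r / 4) (s := r / 4)
    (B := M / (r / 4)) (by positivity)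
    (by rw [e2]; exact (hg.diff.mono hb21).deriv isOpen_ball) (by rw [e2]; exact hg1)
  rw [e4] at hg3
  obtain ⟨hT1, -⟩ := lip_of_bdd (f := fun z => T z - g z) (x := (X : ℂ)) (ρ := r / 4) (s := r / 4)
    (B := κ₂) (by positivity)
    (by rw [e2]; exact hTd.sub (hg.diff.mono hb21)) (by rw [e2]; exact hTg)
  rw [e4] at hT1
  have hTdat : DifferentiableAt ℂ T y₀ := hTd.differentiableAt (isOpen_ball.mem_nhds (hb42 hy₀b))
  have hgdat : DifferentiableAt ℂ g y₀ :=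
    hg.diff.differentiableAt (isOpen_ball.mem_nhds (hb21 (hb42 hy₀b)))
  have hderT : ‖deriv T y₀ - deriv g X‖ ≤ δ := by
    have h1 := hT1 y₀ hy₀b
    have e5 : deriv (fun z => T z - g z) (y₀ : ℂ) = deriv T y₀ - deriv g y₀ := by
      rw [deriv_fun_sub hTdat hgdat]
    rw [e5] at h1
    have h2 := hg3 X hXb y₀ hy₀b
    calc ‖deriv T y₀ - deriv g X‖
        = ‖(deriv T y₀ - deriv g y₀) + (deriv g y₀ - deriv g X)‖ := by congr 1; ring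
      _ ≤ ‖deriv T y₀ - deriv g y₀‖ + ‖deriv g y₀ - deriv g X‖ := norm_add_le _ _
      _ ≤ κ₂ / (r / 8) + M / (r / 4) / (r / 8) * ‖(y₀ : ℂ) - X‖ := add_le_add h1 h2
      _ ≤ δ / 2 + L * κ₃ := by gcongr
      _ ≤ δ := by linarith
  have hy₁X : ‖(y₁ : ℂ) - g X‖ ≤ δ := by
    rw [← hy₁e]
    have h1 := hTg y₀ (hb42 hy₀b)
    have h2 := hg2 X (hb42 hXb) y₀ (hb42 hy₀b)
    calc ‖T y₀ - g X‖ = ‖(T y₀ - g y₀) + (g y₀ - g X)‖ := by congr 1; ring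
      _ ≤ ‖T y₀ - g y₀‖ + ‖g y₀ - g X‖ := norm_add_le _ _
      _ ≤ κ₂ + M / (r / 4) * ‖(y₀ : ℂ) - X‖ := add_le_add h1 h2
      _ ≤ δ / 2 + L * κ₃ := by gcongr
      _ ≤ δ := by linarith
  have hκ₃δ : κ₃ ≤ δ := by
    have : κ₃ ≤ L * κ₃ := by nlinarith
    linarith
  have hquot := quot_close (a := deriv T y₀) (a' := deriv g X) (b := (y₀ : ℂ)) (b' := (X : ℂ))
    (c := (y₁ : ℂ)) (c' := g X) hB1 hm hδ0 hδ1 hδm hderT (hy₀n.trans hκ₃δ) hy₁X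
    ((hg1 X (hb42 hXb)).trans hBd)
    (by rw [Complex.norm_real, Real.norm_eq_abs]; linarith)
    ((hg.bdd X (hb21 (hb42 hXb))).trans hBM) hgX
  have hfin : 8 * B ^ 2 * δ / m ^ 2 ≤ κ := by
    rw [div_le_iff₀ (by positivity)]
    calc 8 * B ^ 2 * δ ≤ 8 * B ^ 2 * (κ * m ^ 2 / (8 * B ^ 2)) := by gcongr
      _ = κ * m ^ 2 := by field_simp
  have hy₀0 : y₀ ≠ 0 := by
    rintro rfl
    rw [zero_sub, abs_neg] at hy₀X
    linarith
  have hy₁0 : y₁ ≠ 0 := by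
    intro h
    rw [h, Complex.ofReal_zero, zero_sub, norm_neg] at hy₁X
    linarith
  -- back to the given uniformizers
  obtain ⟨t₀, ht₀, hsc₀⟩ := isU_scale hS₀.good.nocut hφ₀ hψ₀
  obtain ⟨t₁, ht₁, hsc₁⟩ := isU_scale hS₁.good.nocut hφ₁ hψ₁
  have ht₀c : (t₀ : ℂ) ≠ 0 := by exact_mod_cast ht₀.ne'
  have ht₁c : (t₁ : ℂ) ≠ 0 := by exact_mod_cast ht₁.ne'
  have hx₀ : (t₀ : ℂ) * ((y₀ / t₀ : ℝ) : ℂ) = y₀ := by
    push_cast; field_simp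
  have hx₁ : (t₁ : ℂ) * ((y₁ / t₁ : ℝ) : ℂ) = y₁ := by
    push_cast; field_simp
  have hball : ∀ z ∈ ball (((y₀ / t₀ : ℝ)) : ℂ) (r / 8 / t₀), (t₀ : ℂ) * z ∈ ball (X : ℂ) (r / 2) := by
    intro z hz
    rw [mem_ball, dist_eq_norm] at hz ⊢
    have e5 : (t₀ : ℂ) * z - X = t₀ * (z - ((y₀ / t₀ : ℝ) : ℂ)) + (y₀ - X) := by
      rw [mul_sub, hx₀]; ring
    rw [e5]
    calc ‖(t₀ : ℂ) * (z - ((y₀ / t₀ : ℝ) : ℂ)) + (y₀ - X)‖
        ≤ ‖(t₀ : ℂ) * (z - ((y₀ / t₀ : ℝ) : ℂ))‖ + ‖(y₀ : ℂ) - X‖ := norm_add_le _ _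
      _ ≤ r / 8 + r / 8 := by
        refine add_le_add ?_ (hy₀n.trans hκ₃r)
        rw [norm_mul, Complex.norm_real, Real.norm_of_nonneg ht₀.le]
        calc t₀ * ‖z - ((y₀ / t₀ : ℝ) : ℂ)‖ ≤ t₀ * (r / 8 / t₀) := by gcongr
          _ = r / 8 := by field_simp
      _ < r / 2 := by linarith
  refine ⟨y₀ / t₀, y₁ / t₁, r / 8 / t₀, fun z => T (t₀ * z) / t₁, by positivity,
    div_ne_zero hy₀0 ht₀.ne', div_ne_zero hy₁0 ht₁.ne', ?_, ?_, ?_, ?_, ?_, ?_, ?_⟩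
  · rw [hsc₀ _ (by simp), hx₀]; exact hy₀e
  · rw [hsc₁ _ (by simp), hx₁, ← hy₁e, hTye]; exact hy₀e
  · simp only [hx₀, hy₁e]; push_cast; rfl
  · exact (hTd.comp (by fun_prop) hball).div_const _
  · intro z hz
    simp only
    have h1 := hTs _ (hball z hz)
    rw [map_mul, Complex.conj_ofReal] at h1
    rw [h1, map_div₀, Complex.conj_ofReal]
  · intro z hz h0
    have h00 : 0 ≤ ((t₀ : ℂ) * z).im := by rw [Complex.im_ofReal_mul]; positivity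
    obtain ⟨h1, h2⟩ := hTe _ (hball z hz) h00
    have h3 : 0 ≤ (T (t₀ * z) / t₁).im := by
      rw [Complex.div_ofReal_im]; positivity
    refine ⟨h3, ?_⟩
    rw [hsc₁ _ h3, hsc₀ z h0, ← h2]
    congr 1
    field_simp
  · have h1 : HasDerivAt (fun z : ℂ => T (t₀ * z) / t₁) (deriv T y₀ * t₀ / t₁)
        (((y₀ / t₀ : ℝ)) : ℂ) := by
      have h2 : HasDerivAt T (deriv T y₀) ((t₀ : ℂ) * ((y₀ / t₀ : ℝ) : ℂ)) := by
        rw [hx₀]; exact hTdat.hasDerivAt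
      have h3 : HasDerivAt (fun z : ℂ => (t₀ : ℂ) * z) (t₀ : ℂ) (((y₀ / t₀ : ℝ)) : ℂ) := by
        simpa using (hasDerivAt_id (((y₀ / t₀ : ℝ)) : ℂ)).const_mul (t₀ : ℂ)
      exact (h2.comp _ h3).div_const _
    rw [h1.deriv]
    have hy₁c : (y₁ : ℂ) ≠ 0 := by exact_mod_cast hy₁0
    have e6 : deriv T y₀ * t₀ / t₁ * ((y₀ / t₀ : ℝ) : ℂ) / ((y₁ / t₁ : ℝ) : ℂ) =
        deriv T y₀ * y₀ / y₁ := by
      push_cast; field_simp
    rw [e6]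
    exact hquot.trans hfin

/-- The version with the derivatives of the uniformizers at the boundary point. -/
theorem ratio_eq {x₀ x₁ s : ℝ} {T ψ₀ ψ₁ : ℂ → ℂ} {d₀ d₁ : ℂ} (hs : 0 < s)
    (hT : DifferentiableOn ℂ T (ball (x₀ : ℂ) s)) (hTx : T x₀ = x₁)
    (hTe : ∀ z ∈ ball (x₀ : ℂ) s, 0 ≤ z.im → 0 ≤ (T z).im ∧ ψ₁ (T z) = ψ₀ z)
    (h₀ : HasDerivWithinAt ψ₀ d₀ {z | 0 ≤ z.im} x₀)
    (h₁ : HasDerivWithinAt ψ₁ d₁ {z | 0 ≤ z.im} x₁) : d₀ = d₁ * deriv T x₀ := by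
  have hx : (x₀ : ℂ) ∈ ball (x₀ : ℂ) s := mem_ball_self hs
  have hTd : HasDerivAt T (deriv T x₀) x₀ :=
    (hT.differentiableAt (isOpen_ball.mem_nhds hx)).hasDerivAt
  set S : Set ℂ := ball (x₀ : ℂ) s ∩ {z | 0 ≤ z.im} with hS
  have h2 : HasDerivWithinAt (ψ₁ ∘ T) (d₁ * deriv T x₀) S x₀ := by
    rw [← hTx] at h₁
    exact h₁.comp (x₀ : ℂ) hTd.hasDerivWithinAt fun z hz => (hTe z hz.1 hz.2).1
  have h3 : HasDerivWithinAt ψ₀ (d₁ * deriv T x₀) S x₀ :=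
    h2.congr (fun z hz => ((hTe z hz.1 hz.2).2).symm) ((hTe x₀ hx (by simp)).2).symm
  have h4 : HasDerivWithinAt ψ₀ d₀ S x₀ := h₀.mono inter_subset_right
  have hacc : UniqueDiffWithinAt ℂ S (x₀ : ℂ) := by
    rw [uniqueDiffWithinAt_iff_accPt, accPt_iff_nhds]
    intro U hU
    obtain ⟨η, hη, hsub⟩ := Metric.mem_nhds_iff.1 hU
    set t : ℝ := min (η / 2) (s / 2) with ht
    have ht0 : 0 < t := by positivity
    have hd : dist ((x₀ : ℂ) + (t : ℝ)) x₀ = t := by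
      rw [dist_eq_norm, add_sub_cancel_left, Complex.norm_real, Real.norm_of_nonneg ht0.le]
    refine ⟨(x₀ : ℂ) + (t : ℝ), ⟨hsub ?_, ?_, ?_⟩, ?_⟩
    · rw [mem_ball, hd]; exact (min_le_left _ _).trans_lt (by linarith)
    · rw [mem_ball, hd]; exact (min_le_right _ _).trans_lt (by linarith)
    · show 0 ≤ ((x₀ : ℂ) + (t : ℝ)).im
      simp
    · intro h
      have h5 : ((t : ℝ) : ℂ) = 0 := by linear_combination h
      exact ht0.ne' (by exact_mod_cast h5)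
  exact hacc.eq_deriv _ h4 h3

end Vale.Agent.P167.H756
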