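import Vale.Agent.P167.H756.Q5

/-!
# P167, general `q`, block CM: the flat mark at the target, agreement and the comparison theorem
-/

set_option autoImplicit false
set_option linter.unusedVariables false

open Set Topology Metric MeasureTheory Filter Bornology
open scoped ENNReal Real ComplexConjugate

namespace Vale.Agent.P167.H756

open Vale.Agent.P153.R2.R1 Vale.Agent.P153.R2.OBSV Vale.Agent.P167.H174
open Vale.Agent.P153.R2.L1 (HH IsHydro inv mem_HH isOpen_HH convex_HH)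
open Vale.Agent.P164 (loewnerDomain gf Zf IsLoewnerSol)
open Vale.Agent.P153.BESS (CSol RSol)
open Vale.Agent.P167.H411 (ldv obsF obsY exists_csol exists_rsol csol_unique)
open Vale.Agent.P167.H947 (surv flow flow_eq flow_conj flow_inj flow_gf surv_inter isOpen_surv
  differentiableOn_flow hasDerivAt_flow_real flow_rsol)
open Vale.Agent.P167.QE (obsQ obsQ_eq)

variable {T R : ℝ} {W : ℝ → ℝ} {t : ℝ}

/-- The centred Loewner map moves points by a bounded amount. -/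
theorem Drv.disp2 (H : Drv T R W t) {z : ℂ} (hz : z ∈ loewnerDomain W t) :
    ‖Zf W z t - z‖ ≤ 6 * (4 * R + 4 * √T) + R := by
  have hR := H.R_nonneg
  have hT : 0 ≤ T := H.nn.trans H.le
  have h1 := Vale.Agent.P153.R2.STEP.gf_disp H.cont H.nn (x₀ := 0) (r := 4 * R + 4 * √T)
    (by positivity) (fun z hz0 hz1 => by
      rw [Complex.ofReal_zero, sub_zero] at hz1
      have h2 := Real.sqrt_nonneg T
      refine H.dom hz0 (by linarith) ?_
      have h3 : (4 * √T) ^ 2 ≤ ‖z‖ ^ 2 := by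
        have : 4 * √T ≤ ‖z‖ := by linarith
        gcongr
      rw [mul_pow, Real.sq_sqrt hT] at h3
      linarith) hz
  have h2 := H.bdd t ⟨H.nn, le_rfl⟩
  rw [Vale.Agent.P164.Zf_eq]
  calc ‖gf W z t - W t - z‖ = ‖(gf W z t - z) - W t‖ := by congr 1; ring
    _ ≤ ‖gf W z t - z‖ + ‖(W t : ℂ)‖ := norm_sub_le _ _
    _ ≤ 6 * (4 * R + 4 * √T) + R := by
      rw [Complex.norm_real, Real.norm_eq_abs]
      gcongr

theorem im_neg_inv_eq {z : ℂ} : (-1 / z).im = z.im / ‖z‖ ^ 2 := by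
  rw [neg_div, one_div, Complex.neg_im, Complex.inv_im, ← Complex.normSq_eq_norm_sq]
  ring

/-- The points at positive height are in the polygon, in the coordinate of the slit domain. -/
theorem deepI {Y Rd cd r : ℝ} (hT : 0 ≤ T) (hR : 0 ≤ R) (hRd : 0 < Rd) (hcd : 0 < cd)
    (hY0 : 0 < Y) (hY : 8 * R ≤ Y) (hY2 : 64 * T ≤ Y ^ 2) (hr : 0 < r) (hrI : r ≤ rI T R) :
    ∃ h > 0, ∀ ψ : ℂ → ℂ, HConf Rd cd Y ψ → ∀ (W : ℝ → ℝ) (t : ℝ), Drv T R W t →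
      ∀ (P : Set ℂ) (a p : ℂ), PD h ψ W t Y P a p →
      ∀ z : ℂ, 1 / (8 * r) ≤ z.im → 1 / (2 * r) ≤ ‖z‖ → ‖z‖ ≤ 8 / r + 1 / (2 * r) → ψ z ∈ P := by
  have h1 : 8 * R + 16 * T + 1 ≤ 1 / r := by
    rw [rI, le_div_iff₀ (by positivity)] at hrI
    rw [le_div_iff₀ hr]
    linarith
  have e : 1 / (2 * r) = 1 / r / 2 := by rw [div_div, mul_comm]
  refine deep (T := T) (R := R) hT hR hRd hcd hY0 hY hY2 (by positivity) ?_ ?_ (by positivity)
    (by positivity)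
  · rw [e]; linarith
  · rw [e]
    have h2 : 8 * T + 1 / 2 ≤ 1 / r / 2 := by linarith
    have h3 : (8 * T + 1 / 2) ^ 2 ≤ (1 / r / 2) ^ 2 := by gcongr
    nlinarith [sq_nonneg (8 * T - 1 / 2)]

/-- **Agreement of the two polygons near the target.** -/
theorem agrI {Y Rd cd Z : ℝ} (hT : 0 ≤ T) (hR : 0 ≤ R) (hRd : 0 < Rd) (hcd : 0 < cd)
    (hY0 : 0 < Y) (hY : 8 * R ≤ Y) (hY2 : 64 * T ≤ Y ^ 2) (hZ : 0 < Z) :
    ∃ r > 0, r ≤ rI T R ∧ ∃ h > 0, ∀ ψ : ℂ → ℂ, HConf Rd cd Y ψ →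
      ∀ (W : ℝ → ℝ) (t : ℝ), Drv T R W t →
      ∀ (P₀ P₁ E₀ E₁ : Set ℂ) (a₀ p₀ a₁ p₁ : ℂ),
      PD h ψ (fun _ => 0) 0 Y P₀ a₀ p₀ → PD h ψ W t Y P₁ a₁ p₁ →
      (∀ C : Set ℂ, IsPreconnected C → C ⊆ E₀ → (C ∩ P₀).Nonempty → C ⊆ P₀) →
      (∀ C : Set ℂ, IsPreconnected C → C ⊆ E₁ → (C ∩ P₁).Nonempty → C ⊆ P₁) →
      (∀ z : ℂ, Z ≤ ‖z‖ → 0 < z.im → ψ z ∈ P₀ → ψ z ∈ E₁) →
      (∀ z : ℂ, Z ≤ ‖z‖ → 0 < z.im → ψ z ∈ P₁ → ψ z ∈ E₀) →
      ∀ w ∈ ball (0 : ℂ) r, 0 < w.im →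
        (rot (FD ψ (fun _ => 0) 0) (mb 1 Complex.I w) ∈ P₀ ↔
          rot (FD ψ (fun _ => 0) 0) (mb 1 Complex.I w) ∈ P₁) := by
  set Cd : ℝ := 6 * (4 * R + 4 * √T) + R with hCd
  have hCd0 : 0 ≤ Cd := by positivity
  set r₀ : ℝ := min (rI T R) (1 / (2 * (Z + Cd + 1))) with hr₀
  have hrI := rI_pos hT hR
  have hr₀0 : 0 < r₀ := by positivity
  have hr₀I : r₀ ≤ rI T R := min_le_left _ _
  have hr₀Z : Z + Cd + 1 ≤ 1 / (2 * r₀) := by
    have h1 : r₀ ≤ 1 / (2 * (Z + Cd + 1)) := min_le_right _ _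
    rw [le_div_iff₀ (by positivity)] at h1 ⊢
    linarith
  obtain ⟨c, hc, ρ₀, hρ₀, hside⟩ := side_of_PD (T := T) (R := R) hRd hcd hY0 hY hY2 hT hR
  obtain ⟨h₂, hh₂, hag⟩ := agreeM (R := Rd) (c := c) (ρ₀ := ρ₀) (B := 0) (r := r₀) hRd hc hρ₀
    le_rfl hr₀0
  obtain ⟨h₃, hh₃, hdp⟩ := deepI (T := T) (R := R) (Y := Y) (Rd := Rd) (cd := cd) (r := r₀) hT hR
    hRd hcd hY0 hY hY2 hr₀0 hr₀I
  obtain ⟨h₄, hh₄, hS⟩ := hside h₂ hh₂
  refine ⟨r₀ / 4, by positivity, by linarith, min h₄ h₃, by positivity, ?_⟩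
  intro ψ hψ W t H P₀ P₁ E₀ E₁ a₀ p₀ a₁ p₁ hP₀ hP₁ hcomp₀ hcomp₁ hE₁ hE₀
  have hmin : 0 < min h₄ h₃ := by positivity
  have H0 : Drv T R (fun _ => (0 : ℝ)) 0 :=
    ⟨continuous_const, le_rfl, hT, fun s _ => by rw [abs_zero]; exact hR⟩
  have S₀ := (hS ψ hψ _ _ H0 P₀ a₀ p₀ (hP₀.mono hmin (min_le_left _ _))).rot'
  have S₁ := (hS ψ hψ _ _ H P₁ a₁ p₁ (hP₁.mono hmin (min_le_left _ _))).rot'
  have hF0 : ∀ w : ℂ, 0 < w.im → rot (FD ψ (fun _ => 0) 0) (mb 1 Complex.I w) = ψ (-1 / w) := by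
    intro w hw
    have h1 := im_neg_inv hw
    simp only [rot]
    rw [← mb_neg_inv hw]
    have h3 := FD_mb H0 ψ (z := -1 / w) (by rw [dom_zero']; exact h1)
    rwa [Vale.Agent.P164.Zf_zero h1, Complex.ofReal_zero, sub_zero] at h3
  have hF1 : ∀ w : ℂ, 0 < w.im → ∃ z ∈ loewnerDomain W t, Zf W z t = -1 / w ∧
      rot (FD ψ W t) (mb 1 Complex.I w) = ψ z := by
    intro w hw
    have h1 := im_neg_inv hw
    obtain ⟨hd, hZ⟩ := mapsTo_inv H (ζ := -1 / w) h1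
    refine ⟨_, hd, hZ, ?_⟩
    simp only [rot]
    rw [← mb_neg_inv hw, ← FD_mb H ψ hd, hZ]
  have hz0 : ∀ w : ℂ, 0 < w.im → 0 < ‖w‖ := fun w hw => norm_pos_iff.2 (by rintro rfl; simp at hw)
  have hinv : ∀ w : ℂ, ‖w‖ < r₀ → 0 < w.im → 1 / r₀ ≤ ‖-1 / w‖ := by
    intro w hw hw0
    rw [norm_neg_inv]
    exact one_div_le_one_div_of_le (hz0 w hw0) hw.le
  have hinvu : ∀ w : ℂ, r₀ / 8 ≤ w.im → ‖-1 / w‖ ≤ 8 / r₀ := by
    intro w hw
    have h1 : r₀ / 8 ≤ ‖w‖ := hw.trans ((le_abs_self _).trans (Complex.abs_im_le_norm w))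
    rw [norm_neg_inv]
    calc 1 / ‖w‖ ≤ 1 / (r₀ / 8) := one_div_le_one_div_of_le (by positivity) h1
      _ = 8 / r₀ := by field_simp
  have himv : ∀ w : ℂ, ‖w‖ < r₀ → r₀ / 8 ≤ w.im → 1 / (8 * r₀) ≤ (-1 / w).im := by
    intro w hw hwi
    have hwn := hz0 w (lt_of_lt_of_le (by positivity) hwi)
    rw [im_neg_inv_eq, div_le_div_iff₀ (by positivity) (by positivity)]
    have h1 : ‖w‖ ^ 2 ≤ r₀ ^ 2 := by gcongr
    nlinarith
  have e2 : 1 / (2 * r₀) = 1 / r₀ / 2 := by rw [div_div, mul_comm]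
  have h1r : 0 < 1 / r₀ := by positivity
  -- first direction
  have d1 := hag 0 (by simp) _ _ P₀ p₀ a₀ S₀ E₁ P₁ hcomp₁
    (fun w hw hw0 hwP => by
      rw [Complex.ofReal_zero, mem_ball_zero_iff] at hw
      rw [hF0 w hw0] at hwP ⊢
      have := hinv w hw hw0
      exact hE₁ _ (by linarith) (im_neg_inv hw0) hwP)
    (fun w hw hwi => by
      rw [Complex.ofReal_zero, mem_ball_zero_iff] at hw
      have hw0 : 0 < w.im := lt_of_lt_of_le (by positivity) hwi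
      rw [hF0 w hw0]
      have k1 := hinv w hw hw0
      have k2 := hinvu w hwi
      exact hdp ψ hψ W t H P₁ a₁ p₁ (hP₁.mono hmin (min_le_right _ _)) _ (himv w hw hwi)
        (by linarith) (by linarith))
  -- second direction
  have d2 := hag 0 (by simp) _ _ P₁ p₁ a₁ S₁ E₀ P₀ hcomp₀
    (fun w hw hw0 hwP => by
      rw [Complex.ofReal_zero, mem_ball_zero_iff] at hw
      obtain ⟨z, hz, hZ, he⟩ := hF1 w hw0
      rw [he] at hwP ⊢
      have k1 := hinv w hw hw0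
      have k2 := H.disp2 hz
      rw [hZ] at k2
      have k3 : ‖-1 / w‖ ≤ ‖z‖ + Cd := by
        calc ‖-1 / w‖ = ‖z + (-1 / w - z)‖ := by congr 1; ring
          _ ≤ ‖z‖ + ‖-1 / w - z‖ := norm_add_le _ _
          _ ≤ ‖z‖ + Cd := by linarith
      exact hE₀ z (by linarith) (Vale.Agent.P164.im_pos_of_dom H.nn hz) hwP)
    (fun w hw hwi => by
      rw [Complex.ofReal_zero, mem_ball_zero_iff] at hw
      have hw0 : 0 < w.im := lt_of_lt_of_le (by positivity) hwi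
      obtain ⟨z, hz, hZ, he⟩ := hF1 w hw0
      rw [he]
      have k1 := hinv w hw hw0
      have k4 := hinvu w hwi
      have k2 := H.disp2 hz
      rw [hZ] at k2
      have k3 : ‖-1 / w‖ ≤ ‖z‖ + Cd := by
        calc ‖-1 / w‖ = ‖z + (-1 / w - z)‖ := by congr 1; ring
          _ ≤ ‖z‖ + ‖-1 / w - z‖ := norm_add_le _ _
          _ ≤ ‖z‖ + Cd := by linarith
      have k5 : ‖z‖ ≤ ‖-1 / w‖ + Cd := by
        calc ‖z‖ = ‖-1 / w - (-1 / w - z)‖ := by congr 1; ring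
          _ ≤ ‖-1 / w‖ + ‖-1 / w - z‖ := norm_sub_le _ _
          _ ≤ ‖-1 / w‖ + Cd := by linarith
      have k6 : 1 / (8 * r₀) ≤ z.im := by
        have h7 := (Vale.Agent.P153.R2.STEP.gf_isHydro H.cont H.nn).im_le (z := z)
          (by rw [Vale.Agent.P153.R2.STEP.dom_compl H.nn]; exact hz)
        rw [← Vale.Agent.P164.Zf_im_eq, hZ] at h7
        exact (himv w hw hwi).trans h7
      exact hdp ψ hψ _ _ H0 P₀ a₀ p₀ (hP₀.mono hmin (min_le_right _ _)) z k6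
        (by linarith) (by linarith))
  intro w hw hw0
  rw [mem_ball_zero_iff] at hw
  constructor
  · exact d1 w (by rw [Complex.ofReal_zero, mem_ball_zero_iff]; linarith) hw0
  · intro hwP
    have htr := trans_rot H ψ hr₀I
    have hwb : w ∈ ball ((0 : ℝ) : ℂ) r₀ := by
      rw [Complex.ofReal_zero, mem_ball_zero_iff]; linarith
    have h1 := htr.eq w hwb hw0
    have h2 := htr.pos w hwb hw0
    have h3 : ‖gI W t w‖ ≤ 2 * ‖w‖ := by
      have h4 : w ≠ 0 := by rintro rfl; simp at hw0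
      obtain ⟨-, -, k3⟩ := H.farI h4 (by linarith)
      have hwn := hz0 w hw0
      rw [gI_ne h4, norm_neg_inv]
      calc 1 / ‖flow W t (-1 / w) - W t‖ ≤ 1 / (1 / ‖w‖ / 2) :=
            one_div_le_one_div_of_le (by positivity) k3
        _ = 2 * ‖w‖ := by field_simp
    rw [h1] at hwP ⊢
    refine d2 _ ?_ h2 hwP
    rw [Complex.ofReal_zero, mem_ball_zero_iff]
    linarith

end Vale.Agent.P167.H756
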