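import Vale.Agent.P167.H756.Class
import Mathlib.Analysis.Complex.BorelCaratheodory

/-!
# P167, block CM: conformal maps of the disc onto almost the whole disc

`close_of_collar` : if `G` is conformal from the unit disc onto a domain `Q` of the unit disc which
contains the disc of radius `1 - κ`, and every boundary point of `Q` is joined to the unit circle by
a connected set of size at most `κ` in the complement of `Q`, then `G` is uniformly close to the
identity on the disc.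
-/

open Set Topology Metric MeasureTheory Filter
open scoped ENNReal Real ComplexConjugate

namespace Vale.Agent.P167.H756

open Vale.Agent.P153.R2.R1 Vale.Agent.P153.R2.OBSV Vale.Agent.P167.H174

/-- The cut lemma with a wall `B` in place of the frontier. -/
theorem cut_wall {φ : ℂ → ℂ} {D B : Set ℂ} (h : Conf φ D) (hB : IsCompact B)
    (hDB : Disjoint D B) (hfB : frontier D ⊆ B) {ζ : ℂ} (hζ : ‖ζ‖ = 1) {ρ : ℝ}
    (hρ1 : ρ < 1) {K : Set ℂ} (hK : IsCompact K) {c : ℂ} {r : ℝ}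
    (hKr : K ⊆ closedBall c r) (hcc : φ '' cc ζ ρ ⊆ K) (hKf : IsPreconnected (K ∩ B))
    (h0 : φ 0 ∉ closedBall c r) : φ '' (ball 0 1 ∩ ball ζ ρ) ⊆ closedBall c r := by
  rintro _ ⟨z, ⟨hz1, hz2⟩, rfl⟩
  by_contra hw
  have hcr : Disjoint (closedBall c r)ᶜ K := by
    rw [Set.disjoint_left]
    intro x hx hx'
    exact hx (hKr hx')
  have hj := janiszewski hK hB hKf (preconnected_compl_closedBall c r) hcr
    (show φ 0 ∈ (closedBall c r)ᶜ from h0) (show φ z ∈ (closedBall c r)ᶜ from hw)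
    h.isPreconnected hDB h.zero_mem (h.mem hz1)
  set W := connectedComponentIn (K ∪ B)ᶜ (φ 0) with hW
  have h0W : φ 0 ∈ W := by
    refine mem_connectedComponentIn ?_
    rintro (hx | hx)
    · exact h0 (hKr hx)
    · exact hDB.le_bot ⟨h.zero_mem, hx⟩
  have hWsub : W ⊆ (K ∪ B)ᶜ := connectedComponentIn_subset _ _
  have hWD : W ⊆ D := subset_of_frontier h.isOpen isPreconnected_connectedComponentIn
    ⟨_, h0W, h.zero_mem⟩ (by
      rw [Set.disjoint_left]
      intro x hx hx'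
      exact hWsub hx (Or.inr (hfB hx')))
  set A : Set ℂ := φ '' (ball 0 1 ∩ ball ζ ρ) with hA
  set B' : Set ℂ := φ '' (ball 0 1 ∩ (closedBall ζ ρ)ᶜ) with hB'
  have hAo : IsOpen A := h.isOpen_image inter_subset_left (isOpen_ball.inter isOpen_ball)
  have hBo : IsOpen B' := h.isOpen_image inter_subset_left
    (isOpen_ball.inter isClosed_closedBall.isOpen_compl)
  have hsub : W ⊆ A ∪ B' := by
    intro y hy
    have hyD := hWD hy
    rw [← h.img] at hyD
    obtain ⟨x, hx, rfl⟩ := hyD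
    rcases lt_trichotomy (dist x ζ) ρ with hlt | heq | hgt
    · exact Or.inl ⟨x, ⟨hx, hlt⟩, rfl⟩
    · exact (hWsub hy (Or.inl (hcc ⟨x, ⟨hx, heq⟩, rfl⟩))).elim
    · exact Or.inr ⟨x, ⟨hx, fun hc => absurd (mem_closedBall.1 hc) (not_le.2 hgt)⟩, rfl⟩
  have h0B : φ 0 ∈ B' := by
    refine ⟨0, ⟨mem_ball_self one_pos, fun hc => ?_⟩, rfl⟩
    rw [mem_closedBall, dist_zero_left, hζ] at hc
    linarith
  obtain ⟨y, hy, hyA, hyB⟩ := isPreconnected_connectedComponentIn A B' hAo hBo hsub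
    ⟨_, hj, ⟨z, ⟨hz1, hz2⟩, rfl⟩⟩ ⟨_, h0W, h0B⟩
  obtain ⟨x, ⟨hx1, hx2⟩, rfl⟩ := hyA
  obtain ⟨x', ⟨hx1', hx2'⟩, he⟩ := hyB
  have := h.inj hx1' hx1 he
  subst this
  exact hx2' (ball_subset_closedBall hx2)

/-! ### Closeness inside -/

/-- Schwarz's lemma near the extremal case. -/
theorem close_inside {G : ℂ → ℂ} (hd : DifferentiableOn ℂ G (ball 0 1))
    (hm : MapsTo G (ball 0 1) (ball 0 1)) (h0 : G 0 = 0) {s κ : ℝ} (hκ : 0 < κ)
    (hs : deriv G 0 = s) (hs1 : 1 - κ ≤ s) (hs1' : s ≤ 1) {z : ℂ} (hz : z ∈ ball (0 : ℂ) 1) :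
    ‖G z - z‖ ≤ 4 * κ / (1 - ‖z‖) := by
  have hz1 : ‖z‖ < 1 := mem_ball_zero_iff.1 hz
  have z0 : (0 : ℂ) ∈ ball (0 : ℂ) 1 := mem_ball_self one_pos
  set q : ℂ → ℂ := fun w => dslope G 0 w - 1 with hq
  have hqd : DifferentiableOn ℂ q (ball 0 1) :=
    ((Complex.differentiableOn_dslope (isOpen_ball.mem_nhds z0)).2 hd).sub_const 1
  have hqn : ∀ w ∈ ball (0 : ℂ) 1, ‖dslope G 0 w‖ ≤ 1 := by
    intro w hw
    have := Complex.norm_dslope_le_div_of_mapsTo_ball (c := 0) (R₁ := 1) (R₂ := 1) hd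
      (by rw [h0]; exact hm.mono_right ball_subset_closedBall) hw
    simpa using this
  have hre : ∀ w ∈ ball (0 : ℂ) 1, (q w).re ≤ κ := by
    intro w hw
    rw [hq]
    simp only [Complex.sub_re, Complex.one_re]
    have := (Complex.re_le_norm (dslope G 0 w)).trans (hqn w hw)
    linarith
  have hb := Complex.borelCaratheodory (f := q) (R := 1) (M := κ) hκ hqd
    (fun w hw => hre w hw) one_pos hz
  have hq0 : ‖q 0‖ ≤ κ := by
    rw [hq]
    simp only [dslope_same, hs]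
    rw [← Complex.ofReal_one, ← Complex.ofReal_sub, Complex.norm_real, Real.norm_eq_abs, abs_le]
    constructor <;> linarith
  have hqz : ‖q z‖ ≤ 4 * κ / (1 - ‖z‖) := by
    refine hb.trans ?_
    have h1 : 0 < 1 - ‖z‖ := by linarith
    rw [← add_div, div_le_div_iff_of_pos_right h1]
    nlinarith [norm_nonneg z, norm_nonneg (q 0)]
  have e : G z - z = z * q z := by
    rw [hq]
    simp only
    have := sub_smul_dslope G 0 z
    rw [h0, sub_zero, sub_zero, smul_eq_mul] at this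
    rw [mul_sub, this, mul_one]
  rw [e, norm_mul]
  calc ‖z‖ * ‖q z‖ ≤ 1 * (4 * κ / (1 - ‖z‖)) := by gcongr
    _ = _ := one_mul _

/-- Schwarz's lemma for the inverse: the derivative at `0`. -/
theorem deriv_low {G : ℂ → ℂ} {Q : Set ℂ} (h : Conf G Q) (hQ : Q ⊆ ball 0 1) (h0 : G 0 = 0)
    {s κ : ℝ} (hκ1 : κ < 1) (hs0 : 0 ≤ s) (hs : deriv G 0 = s)
    (hin : ball (0 : ℂ) (1 - κ) ⊆ Q) : 1 - κ ≤ s ∧ s ≤ 1 := by
  have z0 : (0 : ℂ) ∈ ball (0 : ℂ) 1 := mem_ball_self one_pos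
  have hp : 0 < 1 - κ := by linarith
  have hd0 : HasDerivAt G (s : ℂ) 0 := by
    rw [← hs]
    exact (h.diff.differentiableAt (isOpen_ball.mem_nhds z0)).hasDerivAt
  constructor
  · have hmaps : MapsTo (dinv G) (ball 0 (1 - κ)) (closedBall (dinv G 0) 1) := by
      have e : dinv G 0 = 0 := by
        have := h.dinv_apply z0
        rwa [h0] at this
      rw [e]
      intro w hw
      exact ball_subset_closedBall (h.dinv_mem (hin hw))
    have hdd := h.dinv_differentiableOn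
    have h1 := Complex.norm_deriv_le_div_of_mapsTo_ball (hdd.mono hin) hmaps hp
    have h2 : HasDerivAt (dinv G) (deriv (dinv G) (G 0)) (G 0) :=
      (hdd.differentiableAt (h.isOpen.mem_nhds (h.mem z0))).hasDerivAt
    have h3 := h2.comp 0 hd0
    have h4 : HasDerivAt (dinv G ∘ G) 1 0 := by
      refine (hasDerivAt_id 0).congr_of_eventuallyEq ?_
      filter_upwards [isOpen_ball.mem_nhds z0] with y hy
      exact h.dinv_apply hy
    have h5 := h3.unique h4
    rw [h0] at h5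
    have h6 := congrArg norm h5
    rw [norm_mul, norm_one, Complex.norm_real, Real.norm_of_nonneg hs0] at h6
    rw [le_div_iff₀ hp] at h1
    nlinarith [norm_nonneg (deriv (dinv G) 0)]
  · have hmaps : MapsTo G (ball 0 1) (closedBall (G 0) 1) := by
      rw [h0]
      intro w hw
      exact ball_subset_closedBall (hQ (h.mem hw))
    have h1 := Complex.norm_deriv_le_div_of_mapsTo_ball h.diff hmaps one_pos
    rw [hs, Complex.norm_real, Real.norm_of_nonneg hs0, div_one] at h1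
    exact h1

/-! ### Closeness up to the boundary -/

/-- The segment from a point `u` of the unit circle to a point outside of the tangent at `u` is
outside of the open disc. -/
theorem segment_out {u q z : ℂ} (hu : ‖u‖ = 1) (hq : 1 ≤ (q * conj u).re)
    (hz : z ∈ segment ℝ u q) : z ∉ ball (0 : ℂ) 1 := by
  obtain ⟨a, b, ha, hb, hab, rfl⟩ := hz
  rw [mem_ball_zero_iff, not_lt]
  have h1 : ((a • u + b • q) * conj u).re = a * (u * conj u).re + b * (q * conj u).re := by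
    simp only [Complex.real_smul, add_mul, Complex.add_re, mul_assoc, Complex.re_ofReal_mul]
  have h2 : (u * conj u).re = 1 := by
    rw [Complex.mul_conj, Complex.normSq_eq_norm_sq, hu]
    simp
  have h3 : ((a • u + b • q) * conj u).re ≤ ‖a • u + b • q‖ := by
    refine (Complex.re_le_norm _).trans ?_
    rw [norm_mul, RCLike.norm_conj, hu, mul_one]
  rw [h1, h2] at h3
  nlinarith

theorem re_mul_conj {u v : ℂ} (hu : ‖u‖ = 1) (hv : ‖v‖ = 1) :
    (v * conj u).re = 1 - dist u v ^ 2 / 2 := by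
  have h1 : ‖u - v‖ ^ 2 = 2 - 2 * (v * conj u).re := by
    have h2 := Complex.normSq_sub u v
    rw [← Complex.normSq_eq_norm_sq, h2, Complex.normSq_eq_norm_sq, Complex.normSq_eq_norm_sq, hu, hv]
    have : (u * conj v).re = (v * conj u).re := by
      rw [← Complex.conj_re (u * conj v), map_mul, Complex.conj_conj, mul_comm]
    rw [this]; ring
  rw [dist_eq_norm, h1]; ring

/-- **Closeness up to the boundary.** -/
theorem close_of_collar {ε : ℝ} (hε : 0 < ε) : ∃ κ > 0, ∀ (G : ℂ → ℂ) (Q : Set ℂ), Conf G Q →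
    Q ⊆ ball 0 1 → G 0 = 0 → (∃ s : ℝ, 0 ≤ s ∧ deriv G 0 = s) → ball (0 : ℂ) (1 - κ) ⊆ Q →
    (∀ p ∈ frontier Q, ∃ E : Set ℂ, IsPreconnected E ∧ p ∈ E ∧ Disjoint E Q ∧
      E ⊆ closedBall p κ ∧ ∃ u ∈ E, ‖u‖ = 1) →
    ∀ z ∈ ball (0 : ℂ) 1, ‖G z - z‖ ≤ ε := by
  -- constants
  set lam : ℝ := min (ε / 64) (1 / 16) with hlam
  have hlam0 : 0 < lam := lt_min (by positivity) (by norm_num)
  have hlam1 : lam ≤ 1 / 16 := min_le_right _ _
  have hlamε : lam ≤ ε / 64 := min_le_left _ _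
  set L : ℝ := 2 * π * π / lam ^ 2 + 1 with hL
  have hL0 : 0 < L := by positivity
  set ρ : ℝ := min (1 / 2 * Real.exp (-L)) (ε / 8) with hρd
  have hρ0 : 0 < ρ := lt_min (by positivity) (by positivity)
  have hρε : ρ ≤ ε / 8 := min_le_right _ _
  have hρ2 : ρ < 1 / 2 := by
    have : Real.exp (-L) < 1 := by
      rw [← Real.exp_zero]; exact Real.exp_lt_exp.2 (by linarith)
    exact (min_le_left _ _).trans_lt (by linarith)
  have hkey : 2 * π * π < lam ^ 2 * Real.log (1 / 2 / ρ) := by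
    have h1 : L ≤ Real.log (1 / 2 / ρ) := by
      rw [Real.le_log_iff_exp_le (by positivity), le_div_iff₀ hρ0]
      calc Real.exp L * ρ ≤ Real.exp L * (1 / 2 * Real.exp (-L)) := by
            gcongr; exact min_le_left _ _
        _ = 1 / 2 * (Real.exp L * Real.exp (-L)) := by ring
        _ = 1 / 2 := by rw [← Real.exp_add]; simp
    have h2 : 0 < lam ^ 2 := by positivity
    calc 2 * π * π < lam ^ 2 * L := by
          rw [hL, mul_add, mul_div_cancel₀ _ h2.ne']; linarith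
      _ ≤ _ := by gcongr
  set κ : ℝ := min (lam / 2) (ε * ρ / 16) with hκd
  have hκ0 : 0 < κ := lt_min (by positivity) (by positivity)
  have hκlam : κ ≤ lam / 2 := min_le_left _ _
  have hκρ : κ ≤ ε * ρ / 16 := min_le_right _ _
  refine ⟨κ, hκ0, fun G Q h hQ h0 hs hin hcol z hz => ?_⟩
  obtain ⟨s, hs0, hs⟩ := hs
  have hκ1 : κ < 1 := by linarith
  obtain ⟨hs1, hs1'⟩ := deriv_low h hQ h0 hκ1 hs0 hs hin
  have hm : MapsTo G (ball 0 1) (ball 0 1) := fun w hw => hQ (h.mem hw)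
  have hz1 : ‖z‖ < 1 := mem_ball_zero_iff.1 hz
  have hinside : ∀ w ∈ ball (0 : ℂ) 1, ‖w‖ ≤ 1 - ρ → ‖G w - w‖ ≤ ε / 4 := by
    intro w hw hwρ
    refine (close_inside h.diff hm h0 hκ0 hs hs1 hs1' hw).trans ?_
    rw [div_le_iff₀ (by linarith)]
    calc 4 * κ ≤ 4 * (ε * ρ / 16) := by gcongr
      _ = ε / 4 * ρ := by ring
      _ ≤ ε / 4 * (1 - ‖w‖) := by gcongr; linarith
  by_cases hcase : ‖z‖ ≤ 1 - ρ
  · exact (hinside z hz hcase).trans (by linarith)
  push Not at hcase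
  have hz0 : 0 < ‖z‖ := by linarith
  set ζ : ℂ := z / ‖z‖ with hζd
  have hζ : ‖ζ‖ = 1 := by
    rw [hζd, norm_div, Complex.norm_real, norm_norm, div_self hz0.ne']
  have hzζ : dist z ζ < ρ := by
    have e : z - ζ = ζ * ((‖z‖ - 1 : ℝ) : ℂ) := by
      have : (‖z‖ : ℂ) ≠ 0 := by exact_mod_cast hz0.ne'
      rw [hζd]
      push_cast
      field_simp
    rw [dist_eq_norm, e, norm_mul, hζ, one_mul, Complex.norm_real, Real.norm_eq_abs, abs_sub_comm,
      abs_of_pos (by linarith)]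
    linarith
  have hvol : volume Q ≤ ENNReal.ofReal π := by
    refine (measure_mono hQ).trans (le_of_eq ?_)
    rw [Complex.volume_ball, ENNReal.ofReal_one, one_pow, one_mul]
    rw [ENNReal.ofReal, Real.toNNReal_of_nonneg Real.pi_pos.le]
    rfl
  have hbQ : Bornology.IsBounded Q := isBounded_ball.subset hQ
  obtain ⟨ρ', hρ', hcross⟩ := h.exists_crosscut Real.pi_pos.le hvol hζ hρ0 hρ2 hkey
  have hρ'0 : 0 < ρ' := hρ0.trans hρ'.1
  have hρ'1 : ρ' < 1 := by linarith [hρ'.2]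
  have hcross' : ∀ w ∈ cc ζ ρ', ∀ w' ∈ cc ζ ρ', dist (G w) (G w') ≤ lam := by
    intro w hw w' hw'
    rw [dist_eq_norm]
    exact abs_le_of_sq_le_sq' (hcross w hw w' hw') hlam0.le |>.2
  obtain ⟨p₀, hp₀, hp₀c⟩ := h.exists_end hbQ hζ hρ'0 hρ'1
  -- the closure of the crosscut
  set C : Set ℂ := closure (G '' cc ζ ρ') with hC
  have hcl : C ⊆ closedBall p₀ lam := by
    refine closure_minimal ?_ isClosed_closedBall
    rintro _ ⟨w, hw, rfl⟩
    have : C ⊆ closedBall (G w) lam := by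
      refine closure_minimal ?_ isClosed_closedBall
      rintro _ ⟨w', hw', rfl⟩
      exact hcross' w' hw' w hw
    rw [mem_closedBall, dist_comm]
    exact this hp₀c
  have hCQ : C ⊆ closure Q := closure_mono (by
    rintro _ ⟨w, hw, rfl⟩
    exact h.mem hw.1)
  have hCc : IsCompact C :=
    isCompact_of_isClosed_isBounded isClosed_closure (isBounded_closedBall.subset hcl)
  -- the connecting sets
  choose! E hE1 hE2 hE3 hE4 hE5 using hcol
  choose! u hu1 hu2 using hE5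
  set δ' : ℝ := lam + 2 * κ with hδ'
  have hδ'0 : 0 < δ' := by positivity
  have hδ'1 : δ' ≤ 1 / 8 := by rw [hδ']; linarith
  have hδ'lam : δ' ≤ 2 * lam := by rw [hδ']; linarith
  set q : ℂ := (1 + δ' : ℝ) * u p₀ with hq
  have hU : ∀ p ∈ C ∩ Qᶜ, p ∈ frontier Q ∧ dist p p₀ ≤ lam := by
    intro p hp
    refine ⟨?_, hcl hp.1⟩
    rw [h.isOpen.frontier_eq]
    exact ⟨hCQ hp.1, hp.2⟩
  have hp₀U : p₀ ∈ C ∩ Qᶜ := ⟨hp₀c, fun hh => notMem_of_frontier h.isOpen hp₀ hh⟩
  have hudist : ∀ p ∈ C ∩ Qᶜ, dist (u p) p ≤ κ := fun p hp => hE4 p (hU p hp).1 (hu1 p (hU p hp).1)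
  have huu : ∀ p ∈ C ∩ Qᶜ, dist (u p) (u p₀) ≤ δ' := by
    intro p hp
    have h1 := hudist p hp
    have h2 := hudist p₀ hp₀U
    have h3 := (hU p hp).2
    have h4 := dist_triangle4 (u p) p p₀ (u p₀)
    rw [dist_comm p₀ (u p₀)] at h4
    rw [hδ']; linarith
  have hup : ∀ p ∈ C ∩ Qᶜ, dist (u p) p₀ ≤ 2 * δ' := by
    intro p hp
    have h1 := hudist p hp
    have h3 := (hU p hp).2
    have h4 := dist_triangle (u p) p p₀
    rw [hδ']; linarith
  have hqp : dist q p₀ ≤ 2 * δ' := by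
    have h2 := hudist p₀ hp₀U
    have h4 := dist_triangle q (u p₀) p₀
    have h5 : dist q (u p₀) = δ' := by
      have e : q - u p₀ = (δ' : ℝ) * u p₀ := by rw [hq]; push_cast; ring
      rw [dist_eq_norm, e, norm_mul, hu2 p₀ hp₀, mul_one, Complex.norm_real,
        Real.norm_of_nonneg hδ'0.le]
    rw [h5] at h4
    have : κ ≤ δ' := by rw [hδ']; linarith
    linarith
  have hout : ∀ p ∈ C ∩ Qᶜ, ∀ x ∈ segment ℝ (u p) q, x ∉ ball (0 : ℂ) 1 := by
    intro p hp x hx
    refine segment_out (hu2 p (hU p hp).1) ?_ hx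
    have e : q * conj (u p) = (1 + δ' : ℝ) * (u p₀ * conj (u p)) := by rw [hq]; ring
    rw [e, Complex.re_ofReal_mul, re_mul_conj (hu2 p (hU p hp).1) (hu2 p₀ hp₀)]
    have h1 : dist (u p) (u p₀) ^ 2 ≤ δ' ^ 2 := pow_le_pow_left₀ dist_nonneg (huu p hp) 2
    nlinarith [mul_pos hδ'0 hδ'0, mul_pos (mul_pos hδ'0 hδ'0) hδ'0]
  set S : Set ℂ := ⋃ p ∈ C ∩ Qᶜ, (E p ∪ segment ℝ (u p) q) with hS
  have hSc : IsPreconnected S := by
    refine isPreconnected_of_forall q fun x hx => ?_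
    obtain ⟨p, hp, hxp⟩ := mem_iUnion₂.1 hx
    refine ⟨E p ∪ segment ℝ (u p) q, subset_iUnion₂_of_subset p hp Subset.rfl,
      Or.inr (right_mem_segment ℝ _ _), hxp, ?_⟩
    refine IsPreconnected.union (u p) (hu1 p (hU p hp).1) (left_mem_segment ℝ _ _)
      (hE1 p (hU p hp).1) ?_
    exact (convex_segment (u p) q).isPreconnected
  have hSQ : Disjoint S Q := by
    rw [Set.disjoint_left]
    intro x hx hxQ
    obtain ⟨p, hp, hxp⟩ := mem_iUnion₂.1 hx
    rcases hxp with hxp | hxp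
    · exact (hE3 p (hU p hp).1).le_bot ⟨hxp, hxQ⟩
    · exact hout p hp x hxp (hQ hxQ)
  have hSr : S ⊆ closedBall p₀ (2 * δ') := by
    intro x hx
    obtain ⟨p, hp, hxp⟩ := mem_iUnion₂.1 hx
    rcases hxp with hxp | hxp
    · have h1 := hE4 p (hU p hp).1 hxp
      rw [mem_closedBall] at h1 ⊢
      have h2 := dist_triangle x p p₀
      have h3 := (hU p hp).2
      rw [hδ']; linarith
    · exact (convex_closedBall p₀ (2 * δ')).segment_subset (hup p hp) hqp hxp
  have hS1 : closure S ⊆ closedBall p₀ (2 * δ') := closure_minimal hSr isClosed_closedBall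
  have hS2 : Disjoint (closure S) Q := hSQ.closure_left h.isOpen
  have hp₀n : ‖p₀‖ ≤ 1 := by
    have h1 : p₀ ∈ closure Q := frontier_subset_closure hp₀
    have h2 := closure_minimal (hQ.trans ball_subset_closedBall) isClosed_closedBall h1
    rwa [mem_closedBall_zero_iff] at h2
  have hp₀m : 1 - κ ≤ ‖p₀‖ := by
    by_contra hlt
    push Not at hlt
    exact hp₀U.2 (hin (by rwa [mem_ball_zero_iff]))
  set B : Set ℂ := closedBall 0 2 \ Q with hB
  have hBc : IsCompact B := (isCompact_closedBall (0 : ℂ) 2).diff h.isOpen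
  have hball2 : closedBall p₀ (2 * δ') ⊆ closedBall (0 : ℂ) 2 := by
    intro x hx
    rw [mem_closedBall] at hx ⊢
    have := dist_triangle x p₀ 0
    rw [dist_zero_right p₀] at this
    linarith
  have hcut := cut_wall h hBc disjoint_sdiff_right (by
      intro x hx
      refine ⟨?_, notMem_of_frontier h.isOpen hx⟩
      have h1 : x ∈ closure Q := frontier_subset_closure hx
      have h2 := closure_minimal (hQ.trans ball_subset_closedBall) isClosed_closedBall h1
      rw [mem_closedBall] at h2 ⊢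
      linarith) hζ hρ'1 (K := C ∪ closure S) (c := p₀) (r := 2 * δ')
    (hCc.union (isCompact_of_isClosed_isBounded isClosed_closure
      (isBounded_closedBall.subset hS1)))
    (union_subset (hcl.trans (closedBall_subset_closedBall (by rw [hδ']; linarith))) hS1)
    (subset_closure.trans subset_union_left)
    (by
      have e : (C ∪ closure S) ∩ B = closure S := by
        apply Subset.antisymm
        · rintro x ⟨hx | hx, hxB⟩
          · refine subset_closure (mem_iUnion₂.2 ⟨x, ⟨hx, hxB.2⟩, Or.inl ?_⟩)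
            exact hE2 x (hU x ⟨hx, hxB.2⟩).1
          · exact hx
        · intro x hx
          exact ⟨Or.inr hx, hball2 (hS1 hx), fun hxQ => hS2.le_bot ⟨hx, hxQ⟩⟩
      rw [e]
      exact hSc.closure)
    (by
      rw [h0, mem_closedBall, dist_comm, dist_zero_right, not_le]
      linarith)
  -- conclusion
  have hw0 : (1 - ρ : ℝ) * ζ ∈ ball (0 : ℂ) 1 := by
    rw [mem_ball_zero_iff, norm_mul, hζ, mul_one, Complex.norm_real,
      Real.norm_of_nonneg (by linarith)]
    linarith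
  have hwn : ‖((1 - ρ : ℝ) : ℂ) * ζ‖ = 1 - ρ := by
    rw [norm_mul, hζ, mul_one, Complex.norm_real, Real.norm_of_nonneg (by linarith)]
  have hwζ : dist (((1 - ρ : ℝ) : ℂ) * ζ) ζ = ρ := by
    have e : ((1 - ρ : ℝ) : ℂ) * ζ - ζ = ((-ρ : ℝ) : ℂ) * ζ := by push_cast; ring
    rw [dist_eq_norm, e, norm_mul, hζ, mul_one, Complex.norm_real, norm_neg,
      Real.norm_of_nonneg hρ0.le]
  have c1 := hcut ⟨z, ⟨hz, by rw [mem_ball]; linarith [hρ'.1]⟩, rfl⟩
  have c2 := hcut ⟨_, ⟨hw0, by rw [mem_ball, hwζ]; exact hρ'.1⟩, rfl⟩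
  have c3 := hinside _ hw0 hwn.le
  rw [mem_closedBall] at c1 c2
  have c4 : dist (G z) (G (((1 - ρ : ℝ) : ℂ) * ζ)) ≤ 4 * δ' := by
    have := dist_triangle_right (G z) (G (((1 - ρ : ℝ) : ℂ) * ζ)) p₀
    linarith
  have c5 : dist (((1 - ρ : ℝ) : ℂ) * ζ) z ≤ 2 * ρ := by
    have := dist_triangle_right (((1 - ρ : ℝ) : ℂ) * ζ) z ζ
    linarith
  rw [← dist_eq_norm] at c3 ⊢
  have c6 := dist_triangle4 (G z) (G (((1 - ρ : ℝ) : ℂ) * ζ)) (((1 - ρ : ℝ) : ℂ) * ζ) z
  linarith

end Vale.Agent.P167.H756
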