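import Vale.Agent.P167.H756.ThmD
import Vale.Agent.P167.H947.Link2
import Vale.Agent.P167.H411.Expand

/-!
# P167, block CM, glue: the domains of a Loewner chain

`FD ψ W t` is the conformal map of the disc onto `ψ (loewnerDomain W t)` given by the centred
half-plane coordinate of the chain at time `t`.
-/

open Set Topology Metric MeasureTheory Filter Bornology
open scoped ENNReal Real ComplexConjugate

namespace Vale.Agent.P167.H756

open Vale.Agent.P153.R2.R1 Vale.Agent.P153.R2.OBSV Vale.Agent.P167.H174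
open Vale.Agent.P153.R2.L1 (HH IsHydro inv mem_HH isOpen_HH convex_HH)
open Vale.Agent.P164 (loewnerDomain gf Zf IsLoewnerSol)
open Vale.Agent.P153.BESS (CSol RSol)
open Vale.Agent.P167.H411 (ldv obsF obsY exists_csol exists_rsol csol_unique)
open Vale.Agent.P167.H947 (surv flow flow_eq flow_conj flow_inj flow_gf surv_inter isOpen_surv
  differentiableOn_flow hasDerivAt_flow_real flow_rsol)

/-! ### Conformal maps of the half-plane in the class -/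

theorem norm_mb_le {η M : ℝ} (hη : 0 < η) {ζ : ℂ} (h1 : η ≤ ζ.im) (h2 : ‖ζ‖ ≤ M) :
    ‖mb 1 ζ Complex.I‖ ≤ √(1 - 4 * η / (1 + M) ^ 2) := by
  have hζ : 0 < ζ.im := hη.trans_le h1
  have hden := mb_den hζ (show 0 ≤ Complex.I.im by simp)
  have hp : 0 < ‖Complex.I - conj ζ‖ := norm_pos_iff.2 hden
  apply Real.le_sqrt_of_sq_le
  rw [norm_mb norm_one, div_pow, div_le_iff₀ (by positivity)]
  have h3 := normSq_diff ζ Complex.I
  rw [Complex.I_im, mul_one] at h3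
  have h4 : ‖Complex.I - conj ζ‖ ≤ 1 + M := by
    refine (norm_sub_le _ _).trans ?_
    rw [Complex.norm_I, RCLike.norm_conj]
    linarith
  have hM : 0 < 1 + M := hp.trans_le h4
  have h5 : 4 * η / (1 + M) ^ 2 * ‖Complex.I - conj ζ‖ ^ 2 ≤ 4 * η := by
    rw [div_mul_eq_mul_div, div_le_iff₀ (by positivity)]
    gcongr
  nlinarith

theorem hp_img {c : ℂ} (hc : 0 < c.im) (Ψ : ℂ → ℂ) :
    (fun w => Ψ (imb 1 c w)) '' ball 0 1 = Ψ '' HH := by
  apply Subset.antisymm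
  · rintro _ ⟨w, hw, rfl⟩
    exact mem_image_of_mem _ (imb_im_pos norm_one hc (mem_ball_zero_iff.1 hw))
  · rintro _ ⟨z, hz, rfl⟩
    refine ⟨mb 1 c z, mem_ball_zero_iff.2 (norm_mb_lt norm_one hc hz), ?_⟩
    simp only [imb_mb norm_one hc (le_of_lt hz)]

theorem ball_ne_one {w : ℂ} (hw : w ∈ ball (0 : ℂ) 1) : w ≠ 1 := by
  rintro rfl
  rw [mem_ball_zero_iff, norm_one] at hw
  exact lt_irrefl _ hw

theorem cls_base {R c : ℝ} {Ψ : ℂ → ℂ} {ζ : ℂ} (hζ : 0 < ζ.im) (hd : DifferentiableOn ℂ Ψ HH)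
    (hi : InjOn Ψ HH) (hb : ∀ z ∈ HH, ∀ z' ∈ HH, ‖Ψ z - Ψ z'‖ ≤ R)
    (hs : ball (Ψ ζ) c ⊆ Ψ '' HH) : Cls R c (fun w => Ψ (imb 1 ζ w)) := by
  have hmap : MapsTo (imb 1 ζ) (ball 0 1) HH := fun w hw =>
    imb_im_pos norm_one hζ (mem_ball_zero_iff.1 hw)
  have h0 : (0 : ℂ) ∈ ball (0 : ℂ) 1 := mem_ball_self one_pos
  have hz : imb 1 ζ 0 = ζ := by simp [imb]
  refine ⟨?_, ?_, fun w hw => hb _ (hmap hw) _ (hmap h0), ?_⟩
  · exact hd.comp (fun w hw => (imb_differentiableAt (ball_ne_one hw)).differentiableWithinAt) hmap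
  · intro w hw w' hw' e
    have h3 := hi (hmap hw) (hmap hw') e
    have h4 := congrArg (mb 1 ζ) h3
    rwa [(mb_imb norm_one hζ (ball_ne_one hw)).2, (mb_imb norm_one hζ (ball_ne_one hw')).2] at h4
  · rw [hp_img hζ]
    simp only [hz]
    exact hs

/-- The map of the disc induced by a conformal map of the half-plane is in the class, uniformly. -/
theorem cls_of_half {R c η M : ℝ} (hR : 0 < R) (hc : 0 < c) (hη : 0 < η) :
    ∃ c' > 0, ∀ Ψ : ℂ → ℂ, DifferentiableOn ℂ Ψ HH → InjOn Ψ HH →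
      (∀ z ∈ HH, ∀ z' ∈ HH, ‖Ψ z - Ψ z'‖ ≤ R) → ∀ ζ : ℂ, η ≤ ζ.im → ‖ζ‖ ≤ M →
      ball (Ψ ζ) c ⊆ Ψ '' HH → Cls R c' (fun w => Ψ (imb 1 Complex.I w)) := by
  set ρ : ℝ := √(1 - 4 * η / (1 + M) ^ 2) with hρ
  by_cases hM : η ≤ M
  swap
  · refine ⟨1, one_pos, fun Ψ _ _ _ ζ h1 h2 _ => absurd ?_ hM⟩
    exact h1.trans ((Complex.im_le_norm ζ).trans h2)
  have hM0 : 0 < 1 + M := by linarith
  have hρ1 : ρ < 1 := by
    rw [hρ, Real.sqrt_lt' one_pos, one_pow, sub_lt_self_iff]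
    positivity
  obtain ⟨δ, hδ, hins⟩ := Cls.inside (R := R) (c := c) hR hc hρ1
  refine ⟨δ, hδ, fun Ψ hd hi hb ζ h1 h2 hs => ?_⟩
  have hζ : 0 < ζ.im := hη.trans_le h1
  have hI : 0 < Complex.I.im := by simp
  refine cls_base hI hd hi hb ?_
  have h3 := hins _ (cls_base hζ hd hi hb hs) (mb 1 ζ Complex.I) (by
    rw [mem_closedBall_zero_iff]
    exact norm_mb_le hη h1 h2)
  rw [hp_img hζ] at h3
  simp only [imb_mb norm_one hζ hI.le] at h3
  exact h3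

/-- The image of a smaller disc contains a disc, uniformly. -/
theorem Cls.small_ball {R c : ℝ} (hR : 0 < R) (hc : 0 < c) {ρ : ℝ} (hρ0 : 0 < ρ) (hρ : ρ < 1) :
    ∃ δ > 0, ∀ F : ℂ → ℂ, Cls R c F → ball (F 0) δ ⊆ F '' ball 0 ρ := by
  obtain ⟨δ, hδ, hsep⟩ := Cls.sep (R := R) (c := c) hR hc hρ hρ0
  refine ⟨δ, hδ, fun F hF => ?_⟩
  have hsub : closedBall (0 : ℂ) ρ ⊆ ball 0 1 := closedBall_subset_ball hρ
  have hcont : ContinuousOn F (closedBall 0 ρ) := hF.diff.continuousOn.mono hsub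
  have hopen : IsOpen (F '' ball 0 ρ) :=
    hF.conf.isOpen_image (ball_subset_closedBall.trans hsub) isOpen_ball
  have hcl : IsClosed (F '' closedBall 0 ρ) :=
    ((isCompact_closedBall (0 : ℂ) ρ).image_of_continuousOn hcont).isClosed
  have h0 : (0 : ℂ) ∈ closedBall (0 : ℂ) ρ := mem_closedBall_self hρ0.le
  refine subset_of_frontier hopen (convex_ball (F 0) δ).isPreconnected
    ⟨F 0, mem_ball_self hδ, mem_image_of_mem _ (mem_ball_self hρ0)⟩ ?_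
  rw [Set.disjoint_left]
  intro y hy hyf
  have h1 : y ∈ F '' closedBall 0 ρ :=
    closure_minimal (image_mono ball_subset_closedBall) hcl (frontier_subset_closure hyf)
  obtain ⟨w, hw, rfl⟩ := h1
  have h2 : ρ ≤ dist w 0 := by
    by_contra hlt
    push Not at hlt
    exact notMem_of_frontier hopen hyf (mem_image_of_mem _ (mem_ball.2 hlt))
  have h3 := hsep F hF w hw 0 h0 h2
  rw [mem_ball] at hy
  linarith

/-- Conformal maps of the half-plane with a bounded image. -/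
structure HConf (Rd cd Y : ℝ) (ψ : ℂ → ℂ) : Prop where
  diff : DifferentiableOn ℂ ψ HH
  inj : InjOn ψ HH
  bdd : ∀ z ∈ HH, ∀ z' ∈ HH, ‖ψ z - ψ z'‖ ≤ Rd
  sub : ball (ψ (Y * Complex.I)) cd ⊆ ψ '' HH

theorem im_mulI (Y : ℝ) : ((Y : ℂ) * Complex.I).im = Y := by simp

theorem norm_mulI {Y : ℝ} (hY : 0 < Y) : ‖(Y : ℂ) * Complex.I‖ = Y := by
  rw [norm_mul, Complex.norm_I, mul_one, Complex.norm_real, Real.norm_of_nonneg hY.le]

theorem base_ball {Rd cd Y : ℝ} (hRd : 0 < Rd) (hcd : 0 < cd) (hY : 0 < Y) :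
    ∃ c₁ > 0, ∀ ψ : ℂ → ℂ, HConf Rd cd Y ψ →
      ball (ψ (Y * Complex.I)) c₁ ⊆ ψ '' ball ((Y : ℂ) * Complex.I) (Y / 2) := by
  obtain ⟨δ, hδ, h⟩ := Cls.small_ball (R := Rd) (c := cd) hRd hcd (ρ := 1 / 5) (by norm_num)
    (by norm_num)
  refine ⟨δ, hδ, fun ψ hψ => ?_⟩
  have hζ : 0 < ((Y : ℂ) * Complex.I).im := by rw [im_mulI]; exact hY
  have h1 := h _ (cls_base hζ hψ.diff hψ.inj hψ.bdd hψ.sub)
  have hz : imb 1 ((Y : ℂ) * Complex.I) 0 = (Y : ℂ) * Complex.I := by simp [imb]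
  simp only [hz] at h1
  refine h1.trans ?_
  rintro _ ⟨w, hw, rfl⟩
  refine ⟨_, ?_, rfl⟩
  rw [mem_ball_zero_iff] at hw
  have hw1 : 1 - w ≠ 0 := by
    intro h0
    have : w = 1 := by linear_combination -h0
    rw [this, norm_one] at hw
    norm_num at hw
  have e : imb 1 ((Y : ℂ) * Complex.I) w - (Y : ℂ) * Complex.I =
      (Y : ℂ) * Complex.I * (2 * w) / (1 - w) := by
    rw [imb, map_mul, Complex.conj_ofReal, Complex.conj_I]
    field_simp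
    ring
  have h2 : 4 / 5 < ‖1 - w‖ := by
    have := norm_sub_norm_le (1 : ℂ) w
    rw [norm_one] at this
    linarith
  rw [mem_ball, dist_eq_norm, e, norm_div, norm_mul, norm_mulI hY, norm_mul]
  have h3 : ‖(2 : ℂ)‖ = 2 := by norm_num
  rw [h3, div_lt_iff₀ (by linarith)]
  nlinarith [norm_nonneg w]

/-! ### The flow at far points -/

/-- A driver and a time, with bounds. -/
structure Drv (T R : ℝ) (W : ℝ → ℝ) (t : ℝ) : Prop where
  cont : Continuous W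
  nn : 0 ≤ t
  le : t ≤ T
  bdd : ∀ s ∈ Icc 0 t, |W s| ≤ R

variable {T R : ℝ} {W : ℝ → ℝ} {t : ℝ}

theorem Drv.R_nonneg (H : Drv T R W t) : 0 ≤ R := (abs_nonneg _).trans (H.bdd 0 ⟨le_rfl, H.nn⟩)

theorem Drv.far (H : Drv T R W t) {z : ℂ} (hz : 0 < ‖z‖) (h1 : 4 * R ≤ ‖z‖)
    (h2 : 16 * T ≤ ‖z‖ ^ 2) : z ∈ surv W t ∧ ‖flow W t z - z‖ ≤ 4 * T / ‖z‖ ∧
      ‖flow W t z - z‖ ≤ ‖z‖ / 4 ∧ ‖z‖ / 2 ≤ ‖flow W t z - W t‖ := by
  have hWc : ContinuousOn W (Icc 0 t) := H.cont.continuousOn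
  have hc : 0 < ‖z‖ / 2 := by positivity
  obtain ⟨α, h0, hα⟩ := Vale.Agent.P153.BESS.exists_reg H.nn hc hWc z
  have h3 : ∀ s ∈ Icc 0 t, ‖α s - z‖ ≤ 4 / ‖z‖ * s := by
    intro s hs
    have h4 := norm_image_sub_le_of_norm_deriv_le_segment' (C := 4 / ‖z‖) hα
      (fun u _ => by
        refine (Vale.Agent.P153.BESS.fld_norm_le hc _).trans (le_of_eq ?_)
        field_simp
        norm_num) s hs
    rwa [h0, sub_zero] at h4
  have h4 : ∀ s ∈ Icc 0 t, 4 / ‖z‖ * s ≤ ‖z‖ / 4 := by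
    intro s hs
    rw [div_mul_eq_mul_div, div_le_div_iff₀ hz (by norm_num)]
    nlinarith [hs.2, H.le]
  have h5 : ∀ s ∈ Icc 0 t, ‖z‖ / 2 ≤ ‖α s - (W s : ℂ)‖ := by
    intro s hs
    have h6 : ‖z‖ ≤ ‖α s - (W s : ℂ)‖ + ‖(W s : ℂ)‖ + ‖α s - z‖ := by
      have e : z = (α s - (W s : ℂ)) + (W s : ℂ) - (α s - z) := by ring
      calc ‖z‖ = ‖(α s - (W s : ℂ)) + (W s : ℂ) - (α s - z)‖ := by rw [← e]
        _ ≤ _ := (norm_sub_le _ _).trans (by gcongr; exact norm_add_le _ _)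
    rw [Complex.norm_real, Real.norm_eq_abs] at h6
    linarith [H.bdd s hs, h3 s hs, h4 s hs]
  have hcs : CSol W z t α := Vale.Agent.P153.BESS.CSol_of_reg hc h0 hα h5
  have he := flow_eq H.nn hWc hcs
  have htt : t ∈ Icc 0 t := ⟨H.nn, le_rfl⟩
  rw [he]
  refine ⟨⟨α, hcs⟩, (h3 t htt).trans ?_, (h3 t htt).trans (h4 t htt), h5 t htt⟩
  rw [div_mul_eq_mul_div]
  gcongr
  exact H.le

theorem Drv.dom (H : Drv T R W t) {z : ℂ} (hz0 : 0 < z.im) (h1 : 4 * R ≤ ‖z‖)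
    (h2 : 16 * T ≤ ‖z‖ ^ 2) : z ∈ loewnerDomain W t := by
  have hz : 0 < ‖z‖ := norm_pos_iff.2 (by rintro rfl; simp at hz0)
  exact (surv_inter H.cont.continuousOn hz0).1 (H.far hz h1 h2).1

/-! ### The maps of the disc -/

/-- The map of the disc onto the image of the Loewner domain at time `t`, in the centred
half-plane coordinate. -/
noncomputable def FD (ψ : ℂ → ℂ) (W : ℝ → ℝ) (t : ℝ) (w : ℂ) : ℂ :=
  ψ (inv (HH \ loewnerDomain W t) (fun z => gf W z t) (imb 1 Complex.I w + W t))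

/-- The map of the disc onto the image of the half-plane. -/
noncomputable def F0 (ψ : ℂ → ℂ) (w : ℂ) : ℂ := ψ (imb 1 Complex.I w)

theorem FD_mb (H : Drv T R W t) (ψ : ℂ → ℂ) {z : ℂ} (hz : z ∈ loewnerDomain W t) :
    FD ψ W t (mb 1 Complex.I (Zf W z t)) = ψ z := by
  have h1 := Vale.Agent.P164.Zf_im_pos H.nn hz
  have hyd := Vale.Agent.P153.R2.STEP.gf_isHydro H.cont H.nn
  rw [FD, imb_mb norm_one (by simp) h1.le]
  have h2 : Zf W z t + (W t : ℂ) = gf W z t := rfl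
  rw [h2]
  congr 1
  have h3 := hyd.inv_g (z := z)
    (by rw [Vale.Agent.P153.R2.STEP.dom_compl H.nn]; exact hz)
  exact h3

theorem F0_mb (ψ : ℂ → ℂ) {z : ℂ} (hz : 0 ≤ z.im) : F0 ψ (mb 1 Complex.I z) = ψ z := by
  rw [F0, imb_mb norm_one (by simp) hz]

/-- The half-plane form of `FD`. -/
noncomputable def Ps (ψ : ℂ → ℂ) (W : ℝ → ℝ) (t : ℝ) (ζ : ℂ) : ℂ :=
  ψ (inv (HH \ loewnerDomain W t) (fun z => gf W z t) (ζ + W t))

theorem mapsTo_inv (H : Drv T R W t) {ζ : ℂ} (hζ : ζ ∈ HH) :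
    inv (HH \ loewnerDomain W t) (fun z => gf W z t) (ζ + W t) ∈ loewnerDomain W t ∧
      Zf W (inv (HH \ loewnerDomain W t) (fun z => gf W z t) (ζ + W t)) t = ζ := by
  have hyd := Vale.Agent.P153.R2.STEP.gf_isHydro H.cont H.nn
  have hm : ζ + (W t : ℂ) ∈ HH := by
    rw [mem_HH, Complex.add_im, Complex.ofReal_im, add_zero]; exact hζ
  have h1 := hyd.inv_mem hm
  have h2 := hyd.g_inv hm
  rw [Vale.Agent.P153.R2.STEP.dom_compl H.nn] at h1
  refine ⟨h1, ?_⟩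
  rw [Vale.Agent.P164.Zf_eq]
  have h3 : gf W (inv (HH \ loewnerDomain W t) (fun z => gf W z t) (ζ + W t)) t = ζ + W t := h2
  rw [h3]
  ring

theorem Ps_diff (H : Drv T R W t) {ψ : ℂ → ℂ} (hψ : DifferentiableOn ℂ ψ HH) :
    DifferentiableOn ℂ (Ps ψ W t) HH := by
  have hyd := Vale.Agent.P153.R2.STEP.gf_isHydro H.cont H.nn
  have hm : MapsTo (fun ζ : ℂ => ζ + (W t : ℂ)) HH HH := fun ζ hζ => by
    rw [mem_HH, Complex.add_im, Complex.ofReal_im, add_zero]; exact hζ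
  have h1 : DifferentiableOn ℂ (fun ζ : ℂ => inv (HH \ loewnerDomain W t)
      (fun z => gf W z t) (ζ + W t)) HH :=
    hyd.inv_diff.comp (by fun_prop) hm
  refine hψ.comp h1 fun ζ hζ => ?_
  exact Vale.Agent.P164.im_pos_of_dom H.nn (mapsTo_inv H hζ).1

theorem Ps_inj (H : Drv T R W t) {ψ : ℂ → ℂ} (hψ : InjOn ψ HH) : InjOn (Ps ψ W t) HH := by
  intro ζ hζ ζ' hζ' e
  have h1 := mapsTo_inv H hζ
  have h2 := mapsTo_inv H hζ'
  have h3 := hψ (Vale.Agent.P164.im_pos_of_dom H.nn h1.1)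
    (Vale.Agent.P164.im_pos_of_dom H.nn h2.1) e
  rw [← h1.2, ← h2.2, h3]

theorem Ps_img (H : Drv T R W t) (ψ : ℂ → ℂ) : Ps ψ W t '' HH = ψ '' loewnerDomain W t := by
  apply Subset.antisymm
  · rintro _ ⟨ζ, hζ, rfl⟩
    exact mem_image_of_mem _ (mapsTo_inv H hζ).1
  · rintro _ ⟨z, hz, rfl⟩
    refine ⟨Zf W z t, Vale.Agent.P164.Zf_im_pos H.nn hz, ?_⟩
    have h := FD_mb H ψ hz
    rwa [FD, imb_mb norm_one (by simp) (Vale.Agent.P164.Zf_im_pos H.nn hz).le] at h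

theorem Ps_Zf (H : Drv T R W t) (ψ : ℂ → ℂ) {z : ℂ} (hz : z ∈ loewnerDomain W t) :
    Ps ψ W t (Zf W z t) = ψ z := by
  have h := FD_mb H ψ hz
  rwa [FD, imb_mb norm_one (by simp) (Vale.Agent.P164.Zf_im_pos H.nn hz).le] at h

theorem img_half (Ψ : ℂ → ℂ) : (fun w => Ψ (imb 1 Complex.I w)) '' ball 0 1 = Ψ '' HH := by
  have hI : 0 < Complex.I.im := by simp
  apply Subset.antisymm
  · rintro _ ⟨w, hw, rfl⟩
    exact mem_image_of_mem _ (imb_im_pos norm_one hI (mem_ball_zero_iff.1 hw))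
  · rintro _ ⟨z, hz, rfl⟩
    refine ⟨mb 1 Complex.I z, mem_ball_zero_iff.2 (norm_mb_lt norm_one hI hz), ?_⟩
    simp only [imb_mb norm_one hI (le_of_lt hz)]

theorem FD_img (H : Drv T R W t) (ψ : ℂ → ℂ) : FD ψ W t '' ball 0 1 = ψ '' loewnerDomain W t := by
  rw [← Ps_img H ψ]
  exact img_half (Ps ψ W t)

theorem F0_img (ψ : ℂ → ℂ) : F0 ψ '' ball 0 1 = ψ '' HH := img_half ψ

/-! ### The transition map -/

theorem trans_FD (H : Drv T R W t) (ψ : ℂ → ℂ) {X : ℝ} (hX0 : X ≠ 0) (hX : 8 * R ≤ |X|)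
    (hX2 : 64 * T ≤ X ^ 2) :
    Trans X (|X| / 2) (2 * |X|) (F0 ψ) (FD ψ W t) (fun z => flow W t z - W t) := by
  have hXp : 0 < |X| := abs_pos.2 hX0
  have hWc : ContinuousOn W (Icc 0 t) := H.cont.continuousOn
  have hfar : ∀ z ∈ ball (X : ℂ) (|X| / 2), |X| / 2 ≤ ‖z‖ ∧ ‖z‖ ≤ 3 / 2 * |X| := by
    intro z hz
    rw [mem_ball, dist_eq_norm] at hz
    have e : ‖(X : ℂ)‖ = |X| := by rw [Complex.norm_real, Real.norm_eq_abs]
    have h1 : ‖(X : ℂ)‖ ≤ ‖z‖ + ‖z - X‖ := by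
      have e2 : (X : ℂ) = z - (z - X) := by ring
      calc ‖(X : ℂ)‖ = ‖z - (z - X)‖ := by rw [← e2]
        _ ≤ _ := norm_sub_le _ _
    have h2 : ‖z‖ ≤ ‖z - X‖ + ‖(X : ℂ)‖ := by
      calc ‖z‖ = ‖(z - X) + X‖ := by congr 1; ring
        _ ≤ _ := norm_add_le _ _
    rw [e] at h1 h2
    constructor <;> linarith
  have hF : ∀ z ∈ ball (X : ℂ) (|X| / 2), z ∈ surv W t ∧ ‖flow W t z - z‖ ≤ ‖z‖ / 4 := by
    intro z hz
    obtain ⟨h1, h2⟩ := hfar z hz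
    have h3 : 0 < ‖z‖ := by linarith
    have h4 : 16 * T ≤ ‖z‖ ^ 2 := by
      have h5 : (|X| / 2) ^ 2 ≤ ‖z‖ ^ 2 := by gcongr
      rw [div_pow, sq_abs] at h5
      linarith
    have h5 := H.far h3 (by linarith) h4
    exact ⟨h5.1, h5.2.2.1⟩
  refine ⟨?_, ?_, ?_, ?_, ?_⟩
  · exact ((differentiableOn_flow H.nn hWc).mono fun z hz => (hF z hz).1).sub_const _
  · intro z hz
    rw [flow_conj H.nn hWc (hF z hz).1, map_sub, Complex.conj_ofReal]
  · intro z hz h0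
    have h1 := (surv_inter hWc h0).1 (hF z hz).1
    rw [flow_gf H.nn hWc h1, Complex.sub_im, Complex.ofReal_im, sub_zero,
      ← Vale.Agent.P164.Zf_im_eq]
    exact Vale.Agent.P164.Zf_im_pos H.nn h1
  · intro z hz
    obtain ⟨h1, h2⟩ := hfar z hz
    have h3 := (hF z hz).2
    have h4 := H.bdd t ⟨H.nn, le_rfl⟩
    calc ‖flow W t z - W t‖ = ‖(flow W t z - z) + z - W t‖ := by congr 1; ring
      _ ≤ ‖flow W t z - z‖ + ‖z‖ + ‖(W t : ℂ)‖ :=
        (norm_sub_le _ _).trans (by gcongr; exact norm_add_le _ _)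
      _ ≤ ‖z‖ / 4 + ‖z‖ + R := by
        rw [Complex.norm_real, Real.norm_eq_abs]
        gcongr
      _ ≤ 2 * |X| := by linarith
  · intro z hz h0
    have h1 := (surv_inter hWc h0).1 (hF z hz).1
    rw [F0_mb ψ h0.le, flow_gf H.nn hWc h1, ← Vale.Agent.P164.Zf_eq, FD_mb H ψ h1]

theorem obsF_cube {b : ℝ} {y : ℝ → ℝ} (ht : 0 ≤ t) (hW : ContinuousOn W (Icc 0 t))
    (hy : RSol W b t y) (h : 0 < (y t - W t) / b) :
    obsF W b t ^ 3 = b * Real.exp (ldv W y t) / (y t - W t) := by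
  rw [Vale.Agent.P167.H411.obsF_eq ht hW hy, Vale.Agent.P167.H411.obsY_eq_rpow h]
  have hb : b ≠ 0 := by rintro rfl; simp at h
  have hy : y t - W t ≠ 0 := by
    intro h0
    rw [h0, zero_div] at h
    exact lt_irrefl _ h
  have e : b * Real.exp (ldv W y t) / (y t - W t) =
      Real.exp (ldv W y t) / ((y t - W t) / b) := by
    field_simp
  have hpos : 0 ≤ b * Real.exp (ldv W y t) / (y t - W t) := by
    rw [e]
    positivity
  rw [← Real.rpow_natCast, ← Real.rpow_mul hpos]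
  norm_num

/-- The value of the transition map and of its derivative. -/
theorem trans_val (H : Drv T R W t) {X : ℝ} (hX0 : X ≠ 0) (hX : 8 * R ≤ |X|)
    (hX2 : 64 * T ≤ X ^ 2) :
    |X| / 2 ≤ ‖flow W t X - W t‖ ∧
    deriv (fun z => flow W t z - W t) (X : ℂ) * X / (flow W t X - W t) =
      ((obsF W X t ^ 3 : ℝ) : ℂ) := by
  have hXp : 0 < |X| := abs_pos.2 hX0
  have hR := H.R_nonneg
  have hT : 0 ≤ T := H.nn.trans H.le
  have hWc : ContinuousOn W (Icc 0 t) := H.cont.continuousOn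
  have h2 : 16 * t ≤ X ^ 2 := by linarith [H.le]
  obtain ⟨y, hy⟩ := exists_rsol H.nn hWc H.bdd hX0 (by linarith) h2
  obtain ⟨-, -, h3, h4⟩ := Vale.Agent.P167.H411.RSol.bounds H.nn hWc H.bdd hX0 (by linarith) h2 hy t
    ⟨H.nn, le_rfl⟩
  rw [flow_rsol H.nn hWc hy, ← Complex.ofReal_sub]
  constructor
  · rw [Complex.norm_real, Real.norm_eq_abs]
    exact h3
  · rw [((hasDerivAt_flow_real H.nn hWc hy).sub_const _).deriv, obsF_cube H.nn hWc hy h4]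
    push_cast
    ring

end Vale.Agent.P167.H756
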