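import Vale.Agent.P167.H756.Chain
import Vale.Agent.P167.H446.NotchA
import Vale.Agent.P167.E6.Defs

/-!
# P167, block CM: brick polygons with flat cuts satisfy `PD`

* `pd_of_sys`: the structure `PD` from `H446.Cut.Sys`;
* `comp_of_data`: the polygon is a component of the set of the points all of whose faces are good;
* `near_good`: near the point `X` the good faces of two domains of a Loewner chain coincide.
-/

set_option autoImplicit false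
set_option linter.unusedVariables false

open Set Topology Metric MeasureTheory Filter Bornology
open scoped ENNReal Real ComplexConjugate

namespace Vale.Agent.P167.H756

open Vale.Agent.P153.R2.R1 Vale.Agent.P153.R2.OBSV Vale.Agent.P167.H174
open Vale.Agent.P153.R2.L1 (HH IsHydro inv mem_HH isOpen_HH convex_HH)
open Vale.Agent.P164 (loewnerDomain gf Zf IsLoewnerSol)
open Vale.Agent.P167.H947 (surv flow flow_eq flow_conj flow_inj flow_gf surv_inter isOpen_surv)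
open Vale.Agent.P167.H450 (sqr reg bk obk GF Cmp br Data)
open Vale.Agent.P167.H446.Cut (D1 E1 Sys lo up lo')

/-! ### The disc and the half-plane -/

theorem add_I_ne' {ζ : ℂ} (hζ : 0 < ζ.im) : ζ + Complex.I ≠ 0 := by
  intro h0
  have := congrArg Complex.im h0
  rw [Complex.add_im, Complex.I_im, Complex.zero_im] at this
  linarith

theorem norm_of_near_neg_one {ζ : ℂ} (hζ : 0 < ζ.im) {ε : ℝ} (hε : ε ≤ 1)
    (h : dist (mb 1 Complex.I ζ) (-1) ≤ ε) : ‖ζ‖ ≤ ε := by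
  have h0 := add_I_ne' hζ
  have e : mb 1 Complex.I ζ - (-1) = 2 * ζ / (ζ + Complex.I) := by
    simp only [mb, Complex.conj_I, sub_neg_eq_add, one_mul]
    field_simp
    ring
  rw [dist_eq_norm, e, norm_div, norm_mul, div_le_iff₀ (norm_pos_iff.2 h0)] at h
  have h2 : ‖(2 : ℂ)‖ = 2 := by norm_num
  have h3 : ‖ζ + Complex.I‖ ≤ ‖ζ‖ + 1 := by
    have := norm_add_le ζ Complex.I
    rwa [Complex.norm_I] at this
  have hε0 : 0 ≤ ε := by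
    by_contra hlt
    push Not at hlt
    have h4 := norm_pos_iff.2 h0
    have h5 : ε * ‖ζ + Complex.I‖ < 0 := mul_neg_of_neg_of_pos hlt h4
    have h6 : 0 ≤ ‖(2 : ℂ)‖ * ‖ζ‖ := by positivity
    linarith
  rw [h2] at h
  have h4 : ε * ‖ζ + Complex.I‖ ≤ ε * (‖ζ‖ + 1) := by gcongr
  nlinarith [norm_nonneg ζ]

theorem norm_of_near_one {ζ : ℂ} (hζ : 0 < ζ.im) {ε : ℝ} (hε : 0 < ε)
    (h : dist (mb 1 Complex.I ζ) 1 ≤ ε) : 2 / ε - 1 ≤ ‖ζ‖ := by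
  have h0 := add_I_ne' hζ
  have e : mb 1 Complex.I ζ - 1 = -(2 * Complex.I) / (ζ + Complex.I) := by
    rw [mb, Complex.conj_I, sub_neg_eq_add, one_mul]
    field_simp
    ring
  rw [dist_eq_norm, e, norm_div, norm_neg, norm_mul, Complex.norm_I, mul_one,
    div_le_iff₀ (norm_pos_iff.2 h0)] at h
  have h2 : ‖(2 : ℂ)‖ = 2 := by norm_num
  rw [h2] at h
  have h3 : ‖ζ + Complex.I‖ ≤ ‖ζ‖ + 1 := by
    have := norm_add_le ζ Complex.I
    rwa [Complex.norm_I] at this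
  have h4 : 2 / ε ≤ ‖ζ + Complex.I‖ := by
    rw [div_le_iff₀ hε]
    linarith
  linarith

variable {T R : ℝ} {W : ℝ → ℝ} {t : ℝ}

/-- The centred Loewner map moves points by a bounded amount. -/
theorem Drv.disp (H : Drv T R W t) {z : ℂ} (hz : z ∈ loewnerDomain W t) :
    ‖Zf W z t‖ ≤ ‖z‖ + (6 * (4 * R + 4 * √T) + R) := by
  have hR := H.R_nonneg
  have hT : 0 ≤ T := H.nn.trans H.le
  have h1 := Vale.Agent.P153.R2.STEP.gf_disp H.cont H.nn (x₀ := 0) (r := 4 * R + 4 * √T)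
    (by positivity) (fun z hz0 hz1 => by
      rw [Complex.ofReal_zero, sub_zero] at hz1
      have h2 := Real.sqrt_nonneg T
      refine H.dom hz0 (by linarith) ?_
      have h3 : (4 * √T) ^ 2 ≤ ‖z‖ ^ 2 := by
        have : 4 * √T ≤ ‖z‖ := by linarith
        gcongr
      rw [mul_pow, Real.sq_sqrt hT] at h3
      linarith) hz
  have h2 := H.bdd t ⟨H.nn, le_rfl⟩
  rw [Vale.Agent.P164.Zf_eq]
  calc ‖gf W z t - W t‖ = ‖(gf W z t - z) + z - W t‖ := by congr 1; ring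
    _ ≤ ‖gf W z t - z‖ + ‖z‖ + ‖(W t : ℂ)‖ :=
      (norm_sub_le _ _).trans (by gcongr; exact norm_add_le _ _)
    _ ≤ 6 * (4 * R + 4 * √T) + ‖z‖ + R := by
      rw [Complex.norm_real, Real.norm_eq_abs]
      gcongr
    _ = ‖z‖ + (6 * (4 * R + 4 * √T) + R) := by ring

/-! ### `PD` -/

/-- The marks of the two cuts: `false` at the tip, `true` at infinity. -/
def xi : Bool → ℂ := fun j => if j then 1 else -1

theorem norm_xi (j : Bool) : ‖xi j‖ = 1 := by cases j <;> simp [xi]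

theorem xi_cases (j : Bool) : xi j = -1 ∨ xi j = 1 := by cases j <;> simp [xi]

variable {ι : Type} {ψ : ℂ → ℂ} {Y ε η ℓ ρ : ℝ} {ξ : ι → ℂ} {x : ι → ℝ} {k : ι → ℤ} {q : ι → ℝ}
  {K C : ι → Set ℂ} {B E : Set ℂ} {F₀ : ℤ × ℤ}

/-- The brick polygon. -/
def BP (ℓ ρ : ℝ) (D E : Set ℂ) (x : ι → ℝ) (k : ι → ℤ) (q : ι → ℝ) (K : ι → Set ℂ)
    (F₀ : ℤ × ℤ) : Set ℂ :=
  interior (reg ℓ (Cmp (GF ℓ ρ (D1 D K) (E1 ℓ E x k q K)) F₀))

/-- **The structure `PD` of the brick polygons with flat cuts.** The cut `jt` is at the tip, the cut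
`ji` at infinity; `B` is a further small removed set (the cut at `b`), which leads to the complement
of the domain. -/
theorem pd_of_sys {ι : Type} {T R Y h : ℝ} (hT : 0 ≤ T) (hR : 0 ≤ R) (hY0 : 0 < Y) (hY : 8 * R ≤ Y)
    (hY2 : 64 * T ≤ Y ^ 2) (hh : 0 < h) :
    ∃ ε₀ > 0, ∀ (ψ : ℂ → ℂ) (Rd cd : ℝ), HConf Rd cd Y ψ → ∀ (W : ℝ → ℝ) (t : ℝ), Drv T R W t →
      ∀ (ξ : ι → ℂ) (jt ji : ι), ξ jt = -1 → ξ ji = 1 →
      ∀ (ε η ℓ ρ : ℝ) (x : ι → ℝ) (k : ι → ℤ) (q : ι → ℝ) (K C : ι → Set ℂ)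
        (B E : Set ℂ) (F₀ : ℤ × ℤ), 0 < ε → ε ≤ ε₀ → 0 < ρ → 2 * (ρ + 4 * ℓ) ≤ η →
      ρ + 3 * ℓ ≤ h / 2 →
      Sys (FD ψ W t) (mb 1 Complex.I (Zf W (Y * Complex.I) t)) ξ ε η ℓ x k q K C B E →
      ψ (Y * Complex.I) ∈ sqr ℓ F₀ →
      (∀ z ∈ B, ∃ w ∈ B, w ∉ ψ '' loewnerDomain W t ∧ JoinedIn B z w ∧
        ∀ u ∈ B, dist u z ≤ h / 2) →
      ∀ a p : ℂ, |a.re - x jt| + ρ + 4 * ℓ < q jt → a.im = ℓ * k jt →
      |p.re - x ji| + ρ + 4 * ℓ < q ji → p.im = ℓ * k ji →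
      Good (BP ℓ ρ (ψ '' loewnerDomain W t \ B) E x k q K F₀) →
      PD h ψ W t Y (BP ℓ ρ (ψ '' loewnerDomain W t \ B) E x k q K F₀) a p := by
  set A : ℝ := 6 * (4 * R + 4 * √T) + R with hA
  have hA0 : 0 ≤ A := by positivity
  refine ⟨min (min 1 (h / 2)) (1 / (h⁻¹ + A + 1)), by positivity, ?_⟩
  intro ψ Rd cd hψ W t H ξ jt ji hjt hji ε η ℓ ρ x k q K C B E F₀ hε0 hε hρ hη hρh S hF₀ hB a p ha1
    ha2 hp1 hp2 hgood
  have : Nonempty ι := ⟨jt⟩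
  have hε1 : ε ≤ 1 := hε.trans ((min_le_left _ _).trans (min_le_left _ _))
  have hε2 : ε ≤ h / 2 := hε.trans ((min_le_left _ _).trans (min_le_right _ _))
  have hε3 : ε ≤ 1 / (h⁻¹ + A + 1) := hε.trans (min_le_right _ _)
  have hI : 0 < Complex.I.im := by simp
  obtain ⟨hd, -, -, -⟩ := H.base hY0 hY hY2
  have hℓ := S.hℓ
  have hFw : FD ψ W t (mb 1 Complex.I (Zf W (Y * Complex.I) t)) = ψ (Y * Complex.I) :=
    FD_mb H ψ hd
  have himg : FD ψ W t '' ball 0 1 = ψ '' loewnerDomain W t := FD_img H ψ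
  have hF₀' : FD ψ W t (mb 1 Complex.I (Zf W (Y * Complex.I) t)) ∈ sqr ℓ F₀ := by rw [hFw]; exact hF₀
  have hη3 : ρ + 3 * ℓ ≤ η := by linarith
  -- points of the disc
  have hv : ∀ v ∈ ball (0 : ℂ) 1, ∃ z ∈ loewnerDomain W t, v = mb 1 Complex.I (Zf W z t) ∧
      FD ψ W t v = ψ z := by
    intro v hv
    have hvn : ‖v‖ < 1 := mem_ball_zero_iff.1 hv
    have hv1 : v ≠ 1 := by
      rintro rfl
      rw [norm_one] at hvn
      exact lt_irrefl _ hvn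
    have h3 := imb_im_pos norm_one hI hvn (β := 1)
    have h4 := (mb_imb norm_one hI hv1).2
    obtain ⟨h5, h6⟩ := mapsTo_inv H (ζ := imb 1 Complex.I v) h3
    refine ⟨_, h5, ?_, ?_⟩
    · rw [h6, h4]
    · have h7 := FD_mb H ψ h5
      rw [h6, h4] at h7
      exact h7
  have hcl1 := S.mem_closure hρ hη hF₀' jt ha1 ha2
  have hcl2 := S.mem_closure hρ hη hF₀' ji hp1 hp2
  have hfr1 := S.mem_frontier hρ hη hF₀' jt ha1 ha2
  have hfr2 := S.mem_frontier hρ hη hF₀' ji hp1 hp2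
  have hsub := (Vale.Agent.P167.H446.Cut.data S.cuts hℓ hρ (S.good hρ hη3 hF₀')).subset_dom
  have hinn := fun C' => S.inner hρ hη3 hF₀' (h' := h / 2) (C' := C') hε0.le hε2
    (fun z hz => by
      obtain ⟨w, hw, hwD, -, hd⟩ := hB z hz
      rw [himg]
      refine ⟨w, hwD, ?_⟩
      rw [dist_comm]
      exact hd w hw)
  have hcol := fun y => S.collar hρ hη3 hF₀' (h' := h / 2) (y := y) hε0.le hε2
    (by rw [himg]; exact hB)
  rw [himg] at hcl1 hcl2 hfr1 hfr2 hsub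
  simp only [himg] at hinn hcol
  refine ⟨hgood, ?_, ?_, ?_, hfr1, hfr2, ?_, ?_⟩
  · exact fun z hz => (hsub hz).1.1
  · intro C' hC' hz hb
    refine hinn C' hC' (by rw [hFw]; exact hz) fun z hz => ?_
    exact (ball_subset_ball (by linarith)).trans (hb z hz)
  · intro y hy
    obtain ⟨g, hg, hg0, hg1, hg2⟩ := hcol y hy
    exact ⟨g, hg, hg0, hg1, fun s hs => ⟨(hg2 s hs).1, (hg2 s hs).2.trans (by linarith)⟩⟩
  · refine closure_mono (inter_subset_inter_right _ ?_) hcl1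
    rintro _ ⟨v, ⟨hv0, hvd⟩, rfl⟩
    obtain ⟨z, hz, hvz, hvF⟩ := hv v hv0
    refine ⟨z, ⟨hz, ?_⟩, hvF.symm⟩
    rw [hvz, hjt] at hvd
    have h1 := norm_of_near_neg_one (Vale.Agent.P164.Zf_im_pos H.nn hz) hε1 hvd
    linarith
  · refine closure_mono (inter_subset_inter_right _ ?_) hcl2
    rintro _ ⟨v, ⟨hv0, hvd⟩, rfl⟩
    obtain ⟨z, hz, hvz, hvF⟩ := hv v hv0
    refine ⟨z, ⟨hz, ?_⟩, hvF.symm⟩
    rw [hvz, hji] at hvd
    have h1 := norm_of_near_one (Vale.Agent.P164.Zf_im_pos H.nn hz) hε0 hvd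
    have h2 := H.disp hz
    rw [← hA] at h2
    have h3 : h⁻¹ + A + 1 ≤ 1 / ε := by
      rw [le_div_iff₀ hε0]
      rw [le_div_iff₀ (by positivity)] at hε3
      linarith
    have h4 : 2 / ε = 2 * (1 / ε) := by ring
    have h5 : 0 < h⁻¹ := inv_pos.2 hh
    rw [h4] at h1
    linarith

/-! ### Components -/

/-- The points all of whose faces are in `A`. -/
def Bul (ℓ : ℝ) (A : Set (ℤ × ℤ)) : Set ℂ := {z | ∀ F, z ∈ sqr ℓ F → F ∈ A}

/-- The polygon is a component of the set of the points all of whose faces are good. -/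
theorem comp_of_data {ℓ ρ : ℝ} {D E : Set ℂ} {F₀ : ℤ × ℤ} (H : Data ℓ ρ D E F₀) {C : Set ℂ}
    (hC : IsPreconnected C) (hCG : C ⊆ Bul ℓ (GF ℓ ρ D E))
    (hne : (C ∩ interior (reg ℓ (Cmp (GF ℓ ρ D E) F₀))).Nonempty) :
    C ⊆ interior (reg ℓ (Cmp (GF ℓ ρ D E) F₀)) := by
  have hsub : C ⊆ reg ℓ (Cmp (GF ℓ ρ D E) F₀) := by
    by_contra hns
    obtain ⟨u, hu, hun⟩ := not_subset.1 hns
    have hcov : C ⊆ reg ℓ (Cmp (GF ℓ ρ D E) F₀) ∪
        reg ℓ (GF ℓ ρ D E \ Cmp (GF ℓ ρ D E) F₀) := by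
      intro z hz
      obtain ⟨F, hF⟩ := Vale.Agent.P167.H450.exists_sqr H.hℓ z
      by_cases h : F ∈ Cmp (GF ℓ ρ D E) F₀
      · exact Or.inl ⟨F, h, hF⟩
      · exact Or.inr ⟨F, ⟨hCG hz F hF, h⟩, hF⟩
    have h2 : u ∈ reg ℓ (GF ℓ ρ D E \ Cmp (GF ℓ ρ D E) F₀) := by
      rcases hcov hu with h | h
      · exact absurd h hun
      · exact h
    obtain ⟨v, hvC, hv⟩ := hne
    obtain ⟨z, hz, ⟨F, hF, hzF⟩, F', hF', hzF'⟩ := isPreconnected_closed_iff.1 hC _ _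
      (Vale.Agent.P167.H450.isClosed_reg H.hℓ _) (Vale.Agent.P167.H450.isClosed_reg H.hℓ _) hcov
      ⟨v, hvC, interior_subset hv⟩ ⟨u, hu, h2⟩
    exact hF'.2 (H.same_cmp (hCG hz) hzF hzF' hF)
  intro z hz
  obtain ⟨F, hF, hzF⟩ := hsub hz
  exact Vale.Agent.P167.H450.mem_interior_reg H.hℓ fun F' hF' => H.same_cmp (hCG hz) hzF hF' hF


/-! ### The flow near `X`, larger radius -/

/-- The flow on the closed disc around `X` of radius `3 X / 4`. -/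
theorem Drv.near2 (H : Drv T R W t) {X : ℝ} (hX0 : 0 < X) (hX : 16 * R ≤ X)
    (hX2 : 1024 * T ≤ X ^ 2) {z : ℂ} (hz : ‖z - X‖ ≤ 3 / 4 * X) :
    X / 4 ≤ ‖z‖ ∧ ‖z‖ ≤ 7 / 4 * X ∧ 4 * R ≤ ‖z‖ ∧ 16 * T ≤ ‖z‖ ^ 2 ∧ z ∈ surv W t ∧
      ‖(flow W t z - W t) - (flow W t X - W t) - (z - X)‖ ≤ 1 / 32 * X ∧
      X / 8 ≤ ‖flow W t z - W t‖ ∧ ‖flow W t z - W t‖ ≤ 3 * X := by
  have e : ‖(X : ℂ)‖ = X := by rw [Complex.norm_real, Real.norm_of_nonneg hX0.le]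
  have h1 : ‖(X : ℂ)‖ ≤ ‖z‖ + ‖z - X‖ := by
    have e2 : (X : ℂ) = z - (z - X) := by ring
    calc ‖(X : ℂ)‖ = ‖z - (z - X)‖ := by rw [← e2]
      _ ≤ _ := norm_sub_le _ _
  have h2 : ‖z‖ ≤ ‖z - X‖ + ‖(X : ℂ)‖ := by
    calc ‖z‖ = ‖(z - X) + X‖ := by congr 1; ring
      _ ≤ _ := norm_add_le _ _
  rw [e] at h1 h2
  have hT : 0 ≤ T := H.nn.trans H.le
  have hR := H.R_nonneg
  have h4 : X / 4 ≤ ‖z‖ := by linarith
  have h3 : (X / 4) ^ 2 ≤ ‖z‖ ^ 2 := by gcongr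
  rw [div_pow] at h3
  have hz0 : 0 < ‖z‖ := by linarith
  have h5 := H.far hz0 (by linarith) (by linarith)
  have h6 := H.far (z := (X : ℂ)) (by rw [e]; exact hX0) (by rw [e]; linarith)
    (by rw [e]; linarith)
  have h7 : 4 * T / ‖z‖ ≤ X / 64 := by
    rw [div_le_iff₀ hz0]
    nlinarith
  have h8 : 4 * T / ‖(X : ℂ)‖ ≤ X / 64 := by
    rw [e, div_le_iff₀ hX0]
    nlinarith
  refine ⟨h4, by linarith, by linarith, by linarith, h5.1, ?_, by linarith [h5.2.2.2], ?_⟩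
  · have e3 : (flow W t z - W t) - (flow W t X - W t) - (z - X) =
        (flow W t z - z) - (flow W t X - X) := by ring
    rw [e3]
    have h9 := norm_sub_le (flow W t z - z) (flow W t X - X)
    linarith [h5.2.1, h6.2.1]
  · have h9 := H.bdd t ⟨H.nn, le_rfl⟩
    calc ‖flow W t z - W t‖ = ‖(flow W t z - z) + z - W t‖ := by congr 1; ring
      _ ≤ ‖flow W t z - z‖ + ‖z‖ + ‖(W t : ℂ)‖ :=
        (norm_sub_le _ _).trans (by gcongr; exact norm_add_le _ _)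
      _ ≤ X / 64 + ‖z‖ + R := by
        rw [Complex.norm_real, Real.norm_eq_abs]
        gcongr
        exact h5.2.1.trans h7
      _ ≤ 3 * X := by linarith

/-- The preimages of the points near the image of `X` are near `X`, larger radius. -/
theorem Drv.back2 (H : Drv T R W t) {X : ℝ} (hX0 : 0 < X) (hX : 16 * R ≤ X)
    (hX2 : 1024 * T ≤ X ^ 2) {z : ℂ} (hz : z ∈ loewnerDomain W t)
    (hb : ‖Zf W z t - (flow W t X - W t)‖ < 9 / 16 * X) : ‖z - X‖ < 3 / 4 * X := by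
  have hyd := Vale.Agent.P153.R2.STEP.gf_isHydro H.cont H.nn
  have hT : 0 ≤ T := H.nn.trans H.le
  set I : ℂ → ℂ := fun ζ => inv (HH \ loewnerDomain W t) (fun z => gf W z t) (ζ + W t) with hI
  have hIc : ContinuousOn I HH := by
    refine hyd.inv_cont.comp (by fun_prop) fun ζ hζ => ?_
    rw [mem_HH, Complex.add_im, Complex.ofReal_im, add_zero]; exact hζ
  have hIZ : ∀ z ∈ loewnerDomain W t, I (Zf W z t) = z := by
    intro z hz
    have h8 : Zf W z t + (W t : ℂ) = gf W z t := rfl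
    simp only [hI]
    rw [h8]
    exact hyd.inv_g (z := z) (by rw [Vale.Agent.P153.R2.STEP.dom_compl H.nn]; exact hz)
  set X₁ : ℂ := flow W t X - W t with hX₁
  set s : Set ℂ := ball X₁ (9 / 16 * X) ∩ HH with hs
  set u : Set ℂ := HH ∩ I ⁻¹' ball (X : ℂ) (3 / 4 * X) with hu
  have huo : IsOpen u := hIc.isOpen_inter_preimage isOpen_HH isOpen_ball
  have hsc : IsPreconnected s := ((convex_ball X₁ (9 / 16 * X)).inter convex_HH).isPreconnected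
  have hflow : ∀ z ∈ loewnerDomain W t, Zf W z t = flow W t z - W t := fun z hz => by
    rw [flow_gf H.nn H.cont.continuousOn hz, Vale.Agent.P164.Zf_eq]
  have hne : (s ∩ u).Nonempty := by
    set z₀ : ℂ := X + (X / 16 : ℝ) * Complex.I with hz₀
    have h0 : ‖z₀ - X‖ = X / 16 := by
      rw [hz₀, add_sub_cancel_left, norm_mul, Complex.norm_I, mul_one, Complex.norm_real,
        Real.norm_of_nonneg (by positivity)]
    have hi : z₀.im = X / 16 := by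
      rw [hz₀, Complex.add_im, Complex.im_ofReal_mul, Complex.I_im, mul_one, Complex.ofReal_im,
        zero_add]
    obtain ⟨h1, h2, h3, h4, h5, h6, -⟩ := H.near2 hX0 hX hX2 (z := z₀) (by rw [h0]; linarith)
    have hd : z₀ ∈ loewnerDomain W t := H.dom (by rw [hi]; positivity) h3 h4
    have hZi : 0 < (Zf W z₀ t).im := Vale.Agent.P164.Zf_im_pos H.nn hd
    refine ⟨Zf W z₀ t, ⟨?_, hZi⟩, hZi, ?_⟩
    · rw [mem_ball, dist_eq_norm, hflow z₀ hd]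
      calc ‖(flow W t z₀ - W t) - X₁‖
          = ‖((flow W t z₀ - W t) - X₁ - (z₀ - X)) + (z₀ - X)‖ := by congr 1; ring
        _ ≤ ‖(flow W t z₀ - W t) - X₁ - (z₀ - X)‖ + ‖z₀ - X‖ := norm_add_le _ _
        _ < 9 / 16 * X := by rw [h0]; linarith
    · show I (Zf W z₀ t) ∈ ball (X : ℂ) (3 / 4 * X)
      rw [hIZ z₀ hd, mem_ball, dist_eq_norm, h0]
      linarith
  have hcl : closure u ∩ s ⊆ u := by
    rintro ζ ⟨hζu, hζs⟩
    have hζ0 : ζ ∈ HH := hζs.2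
    have h1 : I ζ ∈ closedBall (X : ℂ) (3 / 4 * X) := by
      have h2 : I ζ ∈ closure (I '' u) := by
        have hcw : ContinuousWithinAt I u ζ :=
          (hIc.continuousAt (isOpen_HH.mem_nhds hζ0)).continuousWithinAt
        exact hcw.mem_closure_image hζu
      refine closure_ball_subset_closedBall (closure_mono ?_ h2)
      rintro _ ⟨v, hv, rfl⟩
      exact hv.2
    rw [mem_closedBall, dist_eq_norm] at h1
    obtain ⟨hd, hZ⟩ := mapsTo_inv H hζ0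
    change I ζ ∈ loewnerDomain W t at hd
    change Zf W (I ζ) t = ζ at hZ
    obtain ⟨h2, h3, h4, h5, h6, h7, -⟩ := H.near2 hX0 hX hX2 h1
    rw [← hflow _ hd, hZ] at h7
    refine ⟨hζ0, ?_⟩
    show I ζ ∈ ball (X : ℂ) (3 / 4 * X)
    rw [mem_ball, dist_eq_norm]
    have h8 := hζs.1
    rw [mem_ball, dist_eq_norm] at h8
    calc ‖I ζ - X‖ = ‖(ζ - X₁) - (ζ - X₁ - (I ζ - X))‖ := by congr 1; ring
      _ ≤ ‖ζ - X₁‖ + ‖ζ - X₁ - (I ζ - X)‖ := norm_sub_le _ _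
      _ < 3 / 4 * X := by linarith
  have hsu := hsc.subset_of_closure_inter_subset huo hne hcl
  have hζs : Zf W z t ∈ s := ⟨by rw [mem_ball, dist_eq_norm]; exact hb,
    Vale.Agent.P164.Zf_im_pos H.nn hz⟩
  have hu2 := (hsu hζs).2
  change I (Zf W z t) ∈ ball (X : ℂ) (3 / 4 * X) at hu2
  rwa [hIZ z hz, mem_ball, dist_eq_norm] at hu2

/-! ### The good faces near `X` -/

/-- The facts on the cuts used near `X`. -/
structure CutF (ψ : ℂ → ℂ) (W : ℝ → ℝ) (t ε ℓ : ℝ) (ξ : ι → ℂ) (x : ι → ℝ) (k : ι → ℤ) (q : ι → ℝ)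
    (K : ι → Set ℂ) : Prop where
  mark : ∀ j, ξ j = -1 ∨ ξ j = 1
  low : ∀ j, lo (x j) (ℓ * k j) (q j) ⊆ K j
  loD : ∀ j, lo (x j) (ℓ * k j) (q j) ⊆ ψ '' loewnerDomain W t
  pre : ∀ j, ∀ v ∈ ball (0 : ℂ) 1, FD ψ W t v ∈ K j → dist v (ξ j) ≤ ε

theorem CutF.of_sys (H : Drv T R W t) (hξ : ∀ j, ξ j = -1 ∨ ξ j = 1)
    (S : Sys (FD ψ W t) (mb 1 Complex.I (Zf W (Y * Complex.I) t)) ξ ε η ℓ x k q K C B E) :
    CutF ψ W t ε ℓ ξ x k q K where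
  mark := hξ
  low j := (S.ntc j).low
  loD j := by
    have := (S.ntc j).loD
    rwa [FD_img H ψ] at this
  pre j := (S.ntc j).preK

/-- The points near `X` are not in the cuts. -/
theorem CutF.not_mem (H : Drv T R W t) (S : CutF ψ W t ε ℓ ξ x k q K) {X : ℝ} (hX0 : 0 < X)
    (hX : 16 * R ≤ X) (hX2 : 1024 * T ≤ X ^ 2) (hε0 : 0 < ε) (hε1 : ε ≤ 1) (hε2 : ε ≤ X / 16)
    (hε3 : ε ≤ 1 / (3 * X + 1)) {z : ℂ} (hz : ‖z - X‖ ≤ 3 / 4 * X) (hz0 : 0 < z.im) (j : ι) :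
    ψ z ∉ K j := by
  intro hK
  obtain ⟨h1, h2, h3, h4, h5, h6, h7, h8⟩ := H.near2 hX0 hX hX2 hz
  have hd : z ∈ loewnerDomain W t := H.dom hz0 h3 h4
  have hZi := Vale.Agent.P164.Zf_im_pos H.nn hd
  have e3 : Zf W z t = flow W t z - W t := by
    rw [flow_gf H.nn H.cont.continuousOn hd, Vale.Agent.P164.Zf_eq]
  rw [← e3] at h7 h8
  rw [← FD_mb H ψ hd] at hK
  have h9 := S.pre j _ (by
    rw [mem_ball_zero_iff]; exact norm_mb_lt norm_one (by simp) hZi) hK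
  rcases S.mark j with hj | hj
  · rw [hj] at h9
    have := norm_of_near_neg_one hZi hε1 h9
    linarith
  · rw [hj] at h9
    have h10 := norm_of_near_one hZi hε0 h9
    have h11 : 3 * X + 1 ≤ 1 / ε := by
      rw [le_div_iff₀ hε0]
      rw [le_div_iff₀ (by positivity)] at hε3
      linarith
    have h12 : 2 / ε = 2 * (1 / ε) := by ring
    rw [h12] at h10
    linarith

/-- **The good faces near `X`** are the same for two domains of Loewner chains. -/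
theorem near_good {ι : Type} {T R X Y Rd cd : ℝ} (hT : 0 ≤ T) (hR : 0 ≤ R) (hRd : 0 < Rd) (hcd : 0 < cd)
    (hX0 : 0 < X) (hX : 16 * R ≤ X) (hX2 : 1024 * T ≤ X ^ 2) (hY0 : 0 < Y) (hY : 8 * R ≤ Y)
    (hY2 : 64 * T ≤ Y ^ 2) :
    ∃ ε₀ > 0, ∃ r₀ > 0, ∀ ψ : ℂ → ℂ, HConf Rd cd Y ψ →
      ∀ (W₁ : ℝ → ℝ) (t₁ : ℝ), Drv T R W₁ t₁ → ∀ (W₂ : ℝ → ℝ) (t₂ : ℝ), Drv T R W₂ t₂ →
      ∀ (ξ : ι → ℂ) (ε ℓ ρ : ℝ) (x₁ x₂ : ι → ℝ) (k₁ k₂ : ι → ℤ) (q₁ q₂ : ι → ℝ)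
        (K₁ K₂ : ι → Set ℂ) (B g : Set ℂ), 0 < ε → ε ≤ ε₀ → 0 < ρ → 0 < ℓ → 2 * ρ + 3 * ℓ ≤ r₀ →
      CutF ψ W₁ t₁ ε ℓ ξ x₁ k₁ q₁ K₁ → CutF ψ W₂ t₂ ε ℓ ξ x₂ k₂ q₂ K₂ →
      ∀ z ∈ ball (X : ℂ) (X / 2), 0 < z.im → ∀ F : ℤ × ℤ, ψ z ∈ sqr ℓ F →
      F ∈ GF ℓ ρ (D1 (ψ '' loewnerDomain W₁ t₁ \ B) K₁)
        (E1 ℓ (ψ '' loewnerDomain W₁ t₁ \ g) x₁ k₁ q₁ K₁) →
      F ∈ GF ℓ ρ (D1 (ψ '' loewnerDomain W₂ t₂ \ B) K₂)
        (E1 ℓ (ψ '' loewnerDomain W₂ t₂ \ g) x₂ k₂ q₂ K₂) := by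
  have hI : 0 < Complex.I.im := by simp
  obtain ⟨δ₀, hδ₀, himb⟩ := imb_close (show 0 ≤ 3 * X by positivity) (show 0 < X / 64 by positivity)
  obtain ⟨r₀, hr₀, hsm⟩ := small_dom (T := T) (R := R) hRd hcd hY0 hY hY2 hδ₀
  refine ⟨min 1 (min (X / 16) (1 / (3 * X + 1))), by positivity, r₀, hr₀, ?_⟩
  intro ψ hψ W₁ t₁ H₁ W₂ t₂ H₂ ξ ε ℓ ρ x₁ x₂ k₁ k₂ q₁ q₂ K₁ K₂ B g hε0 hε hρ hℓ hr S₁ S₂ z hz hz0 F
    hzF hF
  have hε1 : ε ≤ 1 := hε.trans (min_le_left _ _)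
  have hε2 : ε ≤ X / 16 := hε.trans ((min_le_right _ _).trans (min_le_left _ _))
  have hε3 : ε ≤ 1 / (3 * X + 1) := hε.trans ((min_le_right _ _).trans (min_le_right _ _))
  rw [mem_ball, dist_eq_norm] at hz
  obtain ⟨hF1, hF2⟩ := hF
  set A : Set ℂ := Metric.thickening ρ (bk ℓ (br F)) with hA
  have hbkA : bk ℓ (br F) ⊆ A := Metric.self_subset_thickening hρ _
  have hzA : ψ z ∈ A := hbkA (Vale.Agent.P167.H450.sqr_subset_bk hℓ hzF)
  have hAE : A ⊆ E1 ℓ (ψ '' loewnerDomain W₁ t₁ \ g) x₁ k₁ q₁ K₁ := by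
    intro v hv
    obtain ⟨u, hu, huv⟩ := Metric.mem_thickening_iff.1 hv
    exact hF1 u hu huv
  have hAD : A ⊆ ψ '' loewnerDomain W₁ t₁ := by
    intro v hv
    rcases hAE hv with h | h
    · exact h.1.1
    · obtain ⟨j, h1, h2, h3⟩ := mem_iUnion.1 h
      exact S₁.loD j ⟨h1.le, h2.le, h3⟩
  have hAc : IsPreconnected A :=
    ((Vale.Agent.P167.H450.convex_bk ℓ _).thickening ρ).isPreconnected
  have hAd : ∀ u ∈ A, ∀ v ∈ A, dist u v ≤ r₀ := by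
    intro u hu v hv
    obtain ⟨u', hu', huu'⟩ := Metric.mem_thickening_iff.1 hu
    obtain ⟨v', hv', hvv'⟩ := Metric.mem_thickening_iff.1 hv
    have h1 := Vale.Agent.P167.H450.dist_le_of_bk hu' hv'
    have h3 := dist_triangle u u' v
    have h4 := dist_triangle u' v' v
    rw [dist_comm v' v] at h4
    linarith
  -- the points of `A`
  obtain ⟨n1, n2, n3, n4, n5, n6, n7, n8⟩ := H₁.near2 hX0 hX hX2 (z := z) (by linarith)
  have hzd : z ∈ loewnerDomain W₁ t₁ := H₁.dom hz0 n3 n4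
  have hflow : ∀ z ∈ loewnerDomain W₁ t₁, Zf W₁ z t₁ = flow W₁ t₁ z - W₁ t₁ := fun z hz => by
    rw [flow_gf H₁.nn H₁.cont.continuousOn hz, Vale.Agent.P164.Zf_eq]
  have hpt : ∀ v ∈ A, ∃ z' : ℂ, v = ψ z' ∧ 0 < z'.im ∧ ‖z' - X‖ ≤ 3 / 4 * X := by
    intro v hv
    obtain ⟨z', hz', rfl⟩ := hAD hv
    refine ⟨z', rfl, Vale.Agent.P164.im_pos_of_dom H₁.nn hz', ?_⟩
    have h1 := hsm ψ hψ W₁ t₁ H₁ A hAD hAc hAd z' hz' z hzd hv hzA
    have hZi := Vale.Agent.P164.Zf_im_pos H₁.nn hzd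
    have hZi' := Vale.Agent.P164.Zf_im_pos H₁.nn hz'
    rw [dist_eq_norm] at h1
    have h2 := himb (Zf W₁ z t₁) _ hZi.le (by rw [hflow z hzd]; exact n8) h1
    rw [imb_mb norm_one hI hZi'.le] at h2
    refine (H₁.back2 hX0 hX hX2 hz' ?_).le
    have e : Zf W₁ z' t₁ - (flow W₁ t₁ X - W₁ t₁) = (Zf W₁ z' t₁ - Zf W₁ z t₁) +
        ((flow W₁ t₁ z - W₁ t₁) - (flow W₁ t₁ X - W₁ t₁) - (z - X)) + (z - X) := by
      rw [hflow z hzd]; ring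
    rw [e]
    calc _ ≤ ‖Zf W₁ z' t₁ - Zf W₁ z t₁‖ +
        ‖(flow W₁ t₁ z - W₁ t₁) - (flow W₁ t₁ X - W₁ t₁) - (z - X)‖ + ‖z - X‖ := norm_add₃_le
      _ < 9 / 16 * X := by linarith
  have key : ∀ v ∈ A, v ∈ ψ '' loewnerDomain W₂ t₂ ∧ v ∉ g ∧ ∀ j, v ∉ K₂ j := by
    intro v hv
    obtain ⟨z', rfl, hz'0, hz'X⟩ := hpt v hv
    obtain ⟨m1, m2, m3, m4, -⟩ := H₂.near2 hX0 hX hX2 hz'X
    refine ⟨mem_image_of_mem _ (H₂.dom hz'0 m3 m4), ?_, fun j =>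
      S₂.not_mem H₂ hX0 hX hX2 hε0 hε1 hε2 hε3 hz'X hz'0 j⟩
    rcases hAE hv with h | h
    · exact h.1.2
    · obtain ⟨j, h1, h2, h3⟩ := mem_iUnion.1 h
      exact absurd (S₁.low j ⟨h1.le, h2.le, h3⟩)
        (S₁.not_mem H₁ hX0 hX hX2 hε0 hε1 hε2 hε3 hz'X hz'0 j)
  constructor
  · intro u hu v hv
    obtain ⟨h1, h2, h3⟩ := key v (Metric.mem_thickening_iff.2 ⟨u, hu, hv⟩)
    refine Or.inl ⟨⟨h1, h2⟩, fun h => ?_⟩
    obtain ⟨j, hj⟩ := mem_iUnion.1 h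
    exact h3 j hj
  · intro v hv
    obtain ⟨h1, h2, h3⟩ := key v (hbkA (Vale.Agent.P167.H450.obk_subset_bk hv))
    refine ⟨⟨h1, (hF2 hv).1.2⟩, fun h => ?_⟩
    obtain ⟨j, hj⟩ := mem_iUnion.1 h
    exact h3 j hj

end Vale.Agent.P167.H756
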