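import Vale.Agent.P167.H756.Stg

/-!
# P167, general `q`, block CM: conformal continuity with all outputs
-/

set_option autoImplicit false
set_option linter.unusedVariables false

open Set Topology Metric MeasureTheory Filter Bornology
open scoped ENNReal Real ComplexConjugate

namespace Vale.Agent.P167.H756

open Vale.Agent.P153.R2.R1 Vale.Agent.P153.R2.OBSV Vale.Agent.P167.H174
open Vale.Agent.P153.R2.L1 (HH IsHydro inv mem_HH isOpen_HH convex_HH)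
open Vale.Agent.P164 (loewnerDomain gf Zf IsLoewnerSol)
open Vale.Agent.P153.BESS (CSol RSol)
open Vale.Agent.P167.H411 (ldv obsF obsY exists_csol exists_rsol csol_unique)
open Vale.Agent.P167.H947 (surv flow flow_eq flow_conj flow_inj flow_gf surv_inter isOpen_surv
  differentiableOn_flow hasDerivAt_flow_real flow_rsol)

/-- **Conformal continuity**, all outputs: the normalised uniformizers `φ₀`, `φ₁` of two polygons which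
coincide near `b`, the positions of `b` and the transition map `T`. -/
theorem cm2 {R c ρ₀ X r M κ : ℝ} (hR : 0 < R) (hc : 0 < c) (hρ₀ : ρ₀ < 1) (hr : 0 < r)
    (hM : |X| + r ≤ M) (hκ : 0 < κ) :
    ∃ h > 0, ∀ (F₀ F₁ g : ℂ → ℂ) (w₀ w₁ : ℂ) (P₀ P₁ : Set ℂ) (a₀ p₀ a₁ p₁ b : ℂ),
      Side R c ρ₀ h F₀ w₀ P₀ a₀ p₀ → Side R c ρ₀ h F₁ w₁ P₁ a₁ p₁ → Trans X r M F₀ F₁ g →
      (∀ z ∈ ball (X : ℂ) r, 0 < z.im →
        (F₀ (mb 1 Complex.I z) ∈ P₀ ↔ F₀ (mb 1 Complex.I z) ∈ P₁)) →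
      b ∈ frontier P₀ → Mark F₀ P₀ b (mb 1 Complex.I X) h →
      ∃ φ₀ φ₁ : ℂ → ℂ, IsU φ₀ P₀ a₀ p₀ ∧ IsU φ₁ P₁ a₁ p₁ ∧ InjOn φ₀ {z | 0 ≤ z.im} ∧
        InjOn φ₁ {z | 0 ≤ z.im} ∧
        (∀ z : ℂ, 0 < z.im → ‖dinv F₀ (φ₀ z) - mb 1 Complex.I z‖ ≤ κ) ∧
        (∀ z : ℂ, 0 < z.im → ‖dinv F₁ (φ₁ z) - mb 1 Complex.I z‖ ≤ κ) ∧
      ∃ (x₀ x₁ s : ℝ) (T : ℂ → ℂ), 0 < s ∧ φ₀ x₀ = b ∧ φ₁ x₁ = b ∧
        T x₀ = x₁ ∧ DifferentiableOn ℂ T (ball (x₀ : ℂ) s) ∧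
        (∀ z ∈ ball (x₀ : ℂ) s, 0 ≤ z.im → 0 ≤ (T z).im ∧ φ₁ (T z) = φ₀ z) ∧
        |x₀ - X| ≤ κ ∧ ‖(x₁ : ℂ) - g X‖ ≤ κ ∧ ‖deriv T x₀ - deriv g X‖ ≤ κ := by
  have hM0 : 0 < M := by
    have := abs_nonneg X
    linarith
  set δ : ℝ := κ with hδ
  have hδ0 : 0 < δ := hκ
  set L : ℝ := M / (r / 4) + M / (r / 4) / (r / 8) + 1 with hL
  have hL0 : 0 < L := by positivity
  have hL1 : M / (r / 4) ≤ L := by
    have : 0 < M / (r / 4) / (r / 8) := by positivity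
    rw [hL]; linarith
  have hL2 : M / (r / 4) / (r / 8) ≤ L := by
    have : 0 < M / (r / 4) := by positivity
    rw [hL]; linarith
  have hL3 : 1 ≤ L := by
    have h1 : 0 < M / (r / 4) / (r / 8) := by positivity
    have : 0 < M / (r / 4) := by positivity
    rw [hL]; linarith
  set κ₃ : ℝ := min (r / 8) (δ / (2 * L)) with hκ₃
  have hκ₃0 : 0 < κ₃ := by positivity
  have hκ₃r : κ₃ ≤ r / 8 := min_le_left _ _
  have hκ₃L : L * κ₃ ≤ δ / 2 := by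
    calc L * κ₃ ≤ L * (δ / (2 * L)) := by gcongr; exact min_le_right _ _
      _ = δ / 2 := by field_simp
  set κ₂ : ℝ := min (δ / 2) (δ * r / 16) with hκ₂
  have hκ₂0 : 0 < κ₂ := by positivity
  have hκ₂δ : κ₂ ≤ δ / 2 := min_le_left _ _
  have hκ₂r : κ₂ / (r / 8) ≤ δ / 2 := by
    rw [div_le_iff₀ (by positivity)]
    calc κ₂ ≤ δ * r / 16 := min_le_right _ _
      _ = δ / 2 * (r / 8) := by ring
  obtain ⟨ε₂, hε₂, hcomp⟩ := compare (X := X) (r := r) (M := M) hr hκ₂0 hM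
  obtain ⟨ε₃, hε₃, himb⟩ := imb_close hM0.le hκ₃0
  set ε : ℝ := min (min ε₂ (ε₃ / 2)) κ with hε
  have hε0 : 0 < ε := by positivity
  obtain ⟨h₀, hh₀, hhalf⟩ := halfplane (R := R) (c := c) hR hc hρ₀ hε0
  refine ⟨min h₀ (ε₃ / 2), by positivity, ?_⟩
  intro F₀ F₁ g w₀ w₁ P₀ P₁ a₀ p₀ a₁ p₁ b hS₀ hS₁ hg hagree hb hbm
  have hle : min h₀ (ε₃ / 2) ≤ h₀ := min_le_left _ _
  obtain ⟨φ₀, hφ₀, hφ₀i, hφ₀c⟩ := hhalf F₀ hS₀.cls w₀ hS₀.base P₀ hS₀.good hS₀.sub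
    (hS₀.inner.mono hle) (hS₀.collar.mono hle) a₀ p₀ hS₀.mem_a hS₀.mem_p (hS₀.mark_a.mono hle)
    (hS₀.mark_p.mono hle)
  obtain ⟨φ₁, hφ₁, hφ₁i, hφ₁c⟩ := hhalf F₁ hS₁.cls w₁ hS₁.base P₁ hS₁.good hS₁.sub
    (hS₁.inner.mono hle) (hS₁.collar.mono hle) a₁ p₁ hS₁.mem_a hS₁.mem_p (hS₁.mark_a.mono hle)
    (hS₁.mark_p.mono hle)
  obtain ⟨T, hTd, hTs, hTe, hTg⟩ := hcomp F₀ F₁ g P₀ P₁ φ₀ φ₁ a₀ p₀ a₁ p₁ hS₀.cls.conf
    hS₁.cls.conf hφ₀ hφ₁ hφ₁i hS₀.sub hS₁.sub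
    (fun z hz => (hφ₀c z hz).trans ((min_le_left _ _).trans (min_le_left _ _)))
    (fun z hz => (hφ₁c z hz).trans ((min_le_left _ _).trans (min_le_left _ _))) hg.diff hg.symm hg.pos hg.bdd hg.eq hagree
  obtain ⟨y₀, hy₀e, hy₀X⟩ := mark_point (X := X) (by linarith : |X| ≤ M) himb hS₀.cls.conf hφ₀ hφ₀i
    (fun z hz => (hφ₀c z hz).trans ((min_le_left _ _).trans (min_le_right _ _))) (h := min h₀ (ε₃ / 2)) (min_le_right _ _)
    hS₀.good.isOpen hb hbm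
  -- the point `y₀` and its image
  have hy₀n : ‖(y₀ : ℂ) - X‖ ≤ κ₃ := by
    rw [← Complex.ofReal_sub, Complex.norm_real, Real.norm_eq_abs]; exact hy₀X
  have hy₀b : (y₀ : ℂ) ∈ ball (X : ℂ) (r / 4) := by
    rw [mem_ball, dist_eq_norm]; linarith
  have hXb : (X : ℂ) ∈ ball (X : ℂ) (r / 4) := mem_ball_self (by positivity)
  have hb42 : ball (X : ℂ) (r / 4) ⊆ ball (X : ℂ) (r / 2) := ball_subset_ball (by linarith)
  have hb21 : ball (X : ℂ) (r / 2) ⊆ ball (X : ℂ) r := ball_subset_ball (by linarith)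
  obtain ⟨hTy0, hTye⟩ := hTe y₀ (hb42 hy₀b) (by simp)
  have hTreal : (T y₀).im = 0 := by
    have := hTs y₀ (hb42 hy₀b)
    rw [Complex.conj_ofReal] at this
    exact Complex.conj_eq_iff_im.1 this.symm
  set y₁ : ℝ := (T y₀).re with hy₁
  have hy₁e : T y₀ = (y₁ : ℂ) := Complex.ext (by simp [hy₁]) (by simp [hTreal])
  -- estimates for `g`
  have e1 : r / 2 + r / 2 = r := by ring
  have e2 : r / 4 + r / 4 = r / 2 := by ring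
  have e3 : r / 2 / 2 = r / 4 := by ring
  have e4 : r / 4 / 2 = r / 8 := by ring
  obtain ⟨hg1, hg2⟩ := lip_of_bdd (f := g) (x := (X : ℂ)) (ρ := r / 2) (s := r / 2) (B := M)
    (by positivity) (by rw [e1]; exact hg.diff) (by rw [e1]; exact hg.bdd)
  rw [e3] at hg1 hg2
  obtain ⟨-, hg3⟩ := lip_of_bdd (f := deriv g) (x := (X : ℂ)) (ρ := r / 4) (s := r / 4)
    (B := M / (r / 4)) (by positivity)
    (by rw [e2]; exact (hg.diff.mono hb21).deriv isOpen_ball) (by rw [e2]; exact hg1)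
  rw [e4] at hg3
  obtain ⟨hT1, -⟩ := lip_of_bdd (f := fun z => T z - g z) (x := (X : ℂ)) (ρ := r / 4) (s := r / 4)
    (B := κ₂) (by positivity)
    (by rw [e2]; exact hTd.sub (hg.diff.mono hb21)) (by rw [e2]; exact hTg)
  rw [e4] at hT1
  have hTdat : DifferentiableAt ℂ T y₀ := hTd.differentiableAt (isOpen_ball.mem_nhds (hb42 hy₀b))
  have hgdat : DifferentiableAt ℂ g y₀ :=
    hg.diff.differentiableAt (isOpen_ball.mem_nhds (hb21 (hb42 hy₀b)))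
  have hderT : ‖deriv T y₀ - deriv g X‖ ≤ δ := by
    have h1 := hT1 y₀ hy₀b
    have e5 : deriv (fun z => T z - g z) (y₀ : ℂ) = deriv T y₀ - deriv g y₀ := by
      rw [deriv_fun_sub hTdat hgdat]
    rw [e5] at h1
    have h2 := hg3 X hXb y₀ hy₀b
    calc ‖deriv T y₀ - deriv g X‖
        = ‖(deriv T y₀ - deriv g y₀) + (deriv g y₀ - deriv g X)‖ := by congr 1; ring
      _ ≤ ‖deriv T y₀ - deriv g y₀‖ + ‖deriv g y₀ - deriv g X‖ := norm_add_le _ _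
      _ ≤ κ₂ / (r / 8) + M / (r / 4) / (r / 8) * ‖(y₀ : ℂ) - X‖ := add_le_add h1 h2
      _ ≤ δ / 2 + L * κ₃ := by gcongr
      _ ≤ δ := by linarith
  have hy₁X : ‖(y₁ : ℂ) - g X‖ ≤ δ := by
    rw [← hy₁e]
    have h1 := hTg y₀ (hb42 hy₀b)
    have h2 := hg2 X (hb42 hXb) y₀ (hb42 hy₀b)
    calc ‖T y₀ - g X‖ = ‖(T y₀ - g y₀) + (g y₀ - g X)‖ := by congr 1; ring
      _ ≤ ‖T y₀ - g y₀‖ + ‖g y₀ - g X‖ := norm_add_le _ _
      _ ≤ κ₂ + M / (r / 4) * ‖(y₀ : ℂ) - X‖ := add_le_add h1 h2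
      _ ≤ δ / 2 + L * κ₃ := by gcongr
      _ ≤ δ := by linarith
  have hκ₃δ : κ₃ ≤ δ := by
    have : κ₃ ≤ L * κ₃ := by nlinarith
    linarith
  refine ⟨φ₀, φ₁, hφ₀, hφ₁, hφ₀i, hφ₁i, fun z hz => (hφ₀c z hz).trans (min_le_right _ _),
    fun z hz => (hφ₁c z hz).trans (min_le_right _ _), y₀, y₁, r / 8, T, by positivity, hy₀e, ?_,
    hy₁e, hTd.mono ?_, fun z hz => hTe z ?_, ?_, hy₁X, hderT⟩
  · rw [← hy₁e, hTye]; exact hy₀e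
  · intro z hz
    rw [mem_ball, dist_eq_norm] at hz ⊢
    calc ‖z - X‖ = ‖(z - y₀) + (y₀ - X)‖ := by congr 1; ring
      _ ≤ ‖z - y₀‖ + ‖(y₀ : ℂ) - X‖ := norm_add_le _ _
      _ < r / 2 := by linarith
  · rw [mem_ball, dist_eq_norm] at hz ⊢
    calc ‖z - X‖ = ‖(z - y₀) + (y₀ - X)‖ := by congr 1; ring
      _ ≤ ‖z - y₀‖ + ‖(y₀ : ℂ) - X‖ := norm_add_le _ _
      _ < r / 2 := by linarith
  · exact hy₀X.trans hκ₃δ

end Vale.Agent.P167.H756
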