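import Vale.Agent.P167.H756.Q2

/-!
# P167, general `q`, block CM: agreement near `X`, and the comparison theorem
-/

set_option autoImplicit false
set_option linter.unusedVariables false

open Set Topology Metric MeasureTheory Filter Bornology
open scoped ENNReal Real ComplexConjugate

namespace Vale.Agent.P167.H756

open Vale.Agent.P153.R2.R1 Vale.Agent.P153.R2.OBSV Vale.Agent.P167.H174
open Vale.Agent.P153.R2.L1 (HH IsHydro inv mem_HH isOpen_HH convex_HH)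
open Vale.Agent.P164 (loewnerDomain gf Zf IsLoewnerSol)
open Vale.Agent.P153.BESS (CSol RSol)
open Vale.Agent.P167.H411 (ldv obsF obsY exists_csol exists_rsol csol_unique)
open Vale.Agent.P167.H947 (surv flow flow_eq flow_conj flow_inj flow_gf surv_inter isOpen_surv
  differentiableOn_flow hasDerivAt_flow_real flow_rsol)

/-- **Agreement of the two polygons near `X`.** -/
theorem agr_of {T R X Y Rd cd : ℝ} (hT : 0 ≤ T) (hR : 0 ≤ R) (hRd : 0 < Rd) (hcd : 0 < cd)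
    (hX0 : 0 < X) (hX : 8 * R ≤ X) (hX2 : 256 * T ≤ X ^ 2) (hY0 : 0 < Y) (hY : 8 * R ≤ Y)
    (hY2 : 64 * T ≤ Y ^ 2) :
    ∃ h > 0, ∀ ψ : ℂ → ℂ, HConf Rd cd Y ψ → ∀ (W : ℝ → ℝ) (t : ℝ), Drv T R W t →
      ∀ (P₀ P₁ E₀ E₁ : Set ℂ) (a₀ p₀ a₁ p₁ : ℂ),
      PD h ψ (fun _ => 0) 0 Y P₀ a₀ p₀ → PD h ψ W t Y P₁ a₁ p₁ →
      (∀ C : Set ℂ, IsPreconnected C → C ⊆ E₀ → (C ∩ P₀).Nonempty → C ⊆ P₀) →
      (∀ C : Set ℂ, IsPreconnected C → C ⊆ E₁ → (C ∩ P₁).Nonempty → C ⊆ P₁) →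
      (∀ z ∈ ball (X : ℂ) (X / 2), 0 < z.im → ψ z ∈ P₀ → ψ z ∈ E₁) →
      (∀ z ∈ ball (X : ℂ) (X / 2), 0 < z.im → ψ z ∈ P₁ → ψ z ∈ E₀) →
      ∀ z ∈ ball (X : ℂ) (X / 16), 0 < z.im →
        (FD ψ (fun _ => 0) 0 (mb 1 Complex.I z) ∈ P₀ ↔
          FD ψ (fun _ => 0) 0 (mb 1 Complex.I z) ∈ P₁) := by
  have hXa : |X| = X := abs_of_pos hX0
  have hI : 0 < Complex.I.im := by simp
  have hexp : (0 : ℝ) < Real.exp (-1) := Real.exp_pos _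
  obtain ⟨c, hc, ρ₀, hρ₀, hside⟩ := side_of_PD (T := T) (R := R) hRd hcd hY0 hY hY2 hT hR
  obtain ⟨h₂, hh₂, hag⟩ := agreeM (R := Rd) (c := c) (ρ₀ := ρ₀) (B := 2 * X) (r := X / 2) hRd hc hρ₀
    (by positivity) (by positivity)
  obtain ⟨h₂', hh₂', hag'⟩ := agreeM (R := Rd) (c := c) (ρ₀ := ρ₀) (B := 2 * X) (r := X / 4) hRd hc
    hρ₀ (by positivity) (by positivity)
  obtain ⟨h₃, hh₃, hdp⟩ := deep (T := T) (R := R) (Y := Y) (Rd := Rd) (cd := cd) (m := X / 2)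
    (M := 3 / 2 * X) (y₀ := X / 32) hT hR hRd hcd hY0 hY hY2 (by positivity) (by linarith)
    (by rw [div_pow]; linarith) (by positivity) (by positivity)
  obtain ⟨h₄, hh₄, hS⟩ := hside (min h₂ h₂') (by positivity)
  refine ⟨min h₄ h₃, by positivity, ?_⟩
  intro ψ hψ W t H P₀ P₁ E₀ E₁ a₀ p₀ a₁ p₁ hP₀ hP₁ hcomp₀ hcomp₁ hE₁ hE₀
  have H0 : Drv T R (fun _ => (0 : ℝ)) 0 :=
    ⟨continuous_const, le_rfl, hT, fun s _ => by rw [abs_zero]; exact hR⟩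
  have hmin : 0 < min h₄ h₃ := by positivity
  have hm4 : min h₄ h₃ ≤ h₄ := min_le_left _ _
  have hm3 : min h₄ h₃ ≤ h₃ := min_le_right _ _
  have S₀ := hS ψ hψ _ _ H0 P₀ a₀ p₀ (hP₀.mono hmin hm4)
  have S₁ := hS ψ hψ _ _ H P₁ a₁ p₁ (hP₁.mono hmin hm4)
  have hle2 : min h₂ h₂' ≤ h₂ := min_le_left _ _
  have hle3 : min h₂ h₂' ≤ h₂' := min_le_right _ _
  have hX64 : 64 * T ≤ X ^ 2 := by linarith
  have hF0 : ∀ z : ℂ, 0 < z.im → FD ψ (fun _ => 0) 0 (mb 1 Complex.I z) = ψ z := by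
    intro z hz
    have h1 := FD_mb H0 ψ (z := z) (by rw [dom_zero']; exact hz)
    rwa [Vale.Agent.P164.Zf_zero hz, Complex.ofReal_zero, sub_zero] at h1
  have hnr : ∀ z ∈ ball (X : ℂ) (X / 2), ‖z - X‖ ≤ X / 2 := fun z hz => by
    rw [mem_ball, dist_eq_norm] at hz
    exact hz.le
  -- agreement
  obtain ⟨X₁, hX₁, hX₁l, hX₁u⟩ := H.real_pt hX0 hX hX64
  have h1 := hag X (by rw [hXa]; linarith) _ _ P₀ a₀ p₀ (S₀.mono hle2) E₁ P₁ hcomp₁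
    (fun z hz hz0 => by rw [hF0 z hz0]; exact hE₁ z hz hz0)
    (fun z hz hzi => by
      rw [hF0 z (lt_of_lt_of_le (by positivity) hzi)]
      obtain ⟨k1, k2, -⟩ := H.near hX0 hX hX2 (hnr z hz)
      exact hdp ψ hψ W t H P₁ a₁ p₁ (hP₁.mono hmin hm3) z (by linarith) k1 k2)
  have h2 := hag' X₁ (by rw [abs_of_nonneg (by linarith)]; exact hX₁u) _ _ P₁ a₁ p₁
    (S₁.mono hle3) E₀ P₀ hcomp₀
    (fun ζ hζ hζ0 hζP => by
      rw [mem_ball, dist_eq_norm, ← hX₁] at hζ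
      obtain ⟨z, hzd, hzZ, hzX, -⟩ := H.back hX0 hX hX2 hζ0 hζ
      rw [← hzZ, FD_mb H ψ hzd] at hζP ⊢
      exact hE₀ z (by rw [mem_ball, dist_eq_norm]; exact hzX)
        (Vale.Agent.P164.im_pos_of_dom H.nn hzd) hζP)
    (fun ζ hζ hζi => by
      have hζ0 : 0 < ζ.im := lt_of_lt_of_le (by positivity) hζi
      rw [mem_ball, dist_eq_norm, ← hX₁] at hζ
      obtain ⟨z, hzd, hzZ, hzX, hzi⟩ := H.back hX0 hX hX2 hζ0 hζ
      rw [← hzZ, FD_mb H ψ hzd]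
      obtain ⟨k1, k2, -⟩ := H.near hX0 hX hX2 hzX.le
      exact hdp ψ hψ _ _ H0 P₀ a₀ p₀ (hP₀.mono hmin hm3) z (by linarith) k1 k2)
  intro z hz hz0
  rw [mem_ball, dist_eq_norm] at hz
  constructor
  · exact h1 z (by rw [mem_ball, dist_eq_norm]; linarith) hz0
  · intro hzP
    rw [hF0 z hz0] at hzP ⊢
    obtain ⟨k1, k2, k3, k4, k5, k6⟩ := H.near hX0 hX hX2 (z := z) (by linarith)
    have hzd : z ∈ loewnerDomain W t := H.dom hz0 k3 k4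
    have hZi := Vale.Agent.P164.Zf_im_pos H.nn hzd
    have e3 : Zf W z t = flow W t z - W t := by
      rw [flow_gf H.nn H.cont.continuousOn hzd, Vale.Agent.P164.Zf_eq]
    have h3 := h2 (Zf W z t) (by
      rw [mem_ball, dist_eq_norm, ← hX₁, e3]
      calc ‖(flow W t z - W t) - (flow W t X - W t)‖
          = ‖((flow W t z - W t) - (flow W t X - W t) - (z - X)) + (z - X)‖ := by congr 1; ring
        _ ≤ ‖(flow W t z - W t) - (flow W t X - W t) - (z - X)‖ + ‖z - X‖ := norm_add_le _ _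
        _ < X / 4 / 2 := by linarith) hZi
    rw [FD_mb H ψ hzd] at h3
    exact h3 hzP

/-- The image of a far real point. -/
noncomputable def xT (W : ℝ → ℝ) (t X : ℝ) : ℝ := (flow W t X - W t).re

/-- The derivative of the flow at a far real point. -/
noncomputable def dT (W : ℝ → ℝ) (t X : ℝ) : ℝ := ‖deriv (fun z => flow W t z - W t) (X : ℂ)‖

theorem xT_bd {T R : ℝ} {W : ℝ → ℝ} {t : ℝ} (H : Drv T R W t) {X : ℝ} (hX0 : 0 < X)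
    (hX : 8 * R ≤ X) (hX2 : 64 * T ≤ X ^ 2) :
    flow W t X - W t = xT W t X ∧ X / 2 ≤ xT W t X ∧ xT W t X ≤ 2 * X := by
  obtain ⟨X₁, h1, h2, h3⟩ := H.real_pt hX0 hX hX2
  have e : xT W t X = X₁ := by rw [xT, h1, Complex.ofReal_re]
  rw [e]
  exact ⟨h1, h2, h3⟩

theorem dT_eq {T R : ℝ} {W : ℝ → ℝ} {t : ℝ} (H : Drv T R W t) {X : ℝ} {y : ℝ → ℝ}
    (hy : RSol W X t y) : dT W t X = Real.exp (ldv W y t) := by
  have h := ((hasDerivAt_flow_real H.nn H.cont.continuousOn hy).sub_const (W t : ℂ)).deriv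
  rw [dT, h, Complex.norm_real, Real.norm_of_nonneg (Real.exp_pos _).le]

theorem dT_le {T R : ℝ} {W : ℝ → ℝ} {t : ℝ} (H : Drv T R W t) {X : ℝ} (hX0 : 0 < X)
    (hX : 8 * R ≤ X) (hX2 : 64 * T ≤ X ^ 2) : dT W t X ≤ 1 := by
  have habs : |X| = X := abs_of_pos hX0
  have hT : 0 ≤ T := H.nn.trans H.le
  obtain ⟨y, hy⟩ := exists_rsol H.nn H.cont.continuousOn H.bdd hX0.ne'
    (by rw [habs]; linarith [H.R_nonneg]) (by linarith [H.le])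
  rw [dT_eq H hy, Real.exp_le_one_iff, ldv, neg_nonpos]
  exact intervalIntegral.integral_nonneg H.nn fun s hs => by positivity

/-- A uniform modulus of continuity. -/
theorem modQ {X X' κ : ℝ} (hX0 : 0 < X) (hXX : 16 * X ≤ X') (hκ : 0 < κ) :
    ∃ η > 0, η ≤ X / 4 ∧ η ≤ 1 ∧ ∀ c₀ d₀ c₁ d₁ τ C₁ D₁ τ' : ℝ, X / 2 ≤ C₁ → C₁ ≤ 2 * X →
      X' / 2 ≤ D₁ → D₁ ≤ 2 * X' → 0 ≤ τ' → τ' ≤ 1 → 0 ≤ τ →
      |c₀ - X| ≤ η → |d₀ - X'| ≤ η → |c₁ - C₁| ≤ η → |d₁ - D₁| ≤ η → |τ - τ'| ≤ η →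
      |(c₁ / d₁) / (c₀ / d₀) - (C₁ / X) / (D₁ / X')| ≤ κ ∧
      |τ * ((d₀ - c₀) / (d₁ - c₁)) - τ' * ((X' - X) / (D₁ - C₁))| ≤ κ := by
  have hX'0 : 0 < X' := by linarith
  set f : ℝ × ℝ × ℝ × ℝ × ℝ → ℝ × ℝ := fun x =>
    ((x.2.2.1 / x.2.2.2.1) / (x.1 / x.2.1), x.2.2.2.2 * ((x.2.1 - x.1) / (x.2.2.2.1 - x.2.2.1)))
    with hf
  set K : Set (ℝ × ℝ × ℝ × ℝ × ℝ) := Icc (X / 2) (2 * X) ×ˢ Icc (X' / 2) (2 * X') ×ˢ
    Icc (X / 4) (3 * X) ×ˢ Icc (X' / 4) (3 * X') ×ˢ Icc 0 2 with hK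
  have hKc : IsCompact K := isCompact_Icc.prod (isCompact_Icc.prod (isCompact_Icc.prod
    (isCompact_Icc.prod isCompact_Icc)))
  have hfc : ContinuousOn f K := by
    rintro ⟨a, b, c, d, e⟩ ⟨⟨ha, ha'⟩, ⟨hb, hb'⟩, ⟨hc, hc'⟩, ⟨hd, hd'⟩, he⟩
    simp only at ha ha' hb hb' hc hc' hd hd'
    have h1 : a ≠ 0 := by linarith
    have h2 : b ≠ 0 := by linarith
    have h3 : d ≠ 0 := by linarith
    have h4 : d - c ≠ 0 := by linarith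
    have h5 : a / b ≠ 0 := div_ne_zero h1 h2
    refine ContinuousAt.continuousWithinAt ?_
    simp only [hf]
    refine ContinuousAt.prodMk ?_ ?_
    · refine ContinuousAt.div (ContinuousAt.div (by fun_prop) (by fun_prop) ?_)
        (ContinuousAt.div (by fun_prop) (by fun_prop) ?_) ?_
      · exact h3
      · exact h2
      · exact h5
    · refine ContinuousAt.mul (by fun_prop) (ContinuousAt.div (by fun_prop) (by fun_prop) ?_)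
      exact h4
  obtain ⟨η, hη, hη'⟩ := Metric.uniformContinuousOn_iff.1
    (hKc.uniformContinuousOn_of_continuous hfc) κ hκ
  refine ⟨min (η / 2) (min (X / 4) 1), by positivity, (min_le_right _ _).trans (min_le_left _ _),
    (min_le_right _ _).trans (min_le_right _ _), ?_⟩
  intro c₀ d₀ c₁ d₁ τ C₁ D₁ τ' k1 k2 k3 k4 k5 k6 k7 e1 e2 e3 e4 e5
  set η₁ : ℝ := min (η / 2) (min (X / 4) 1) with hη₁
  have l1 : η₁ ≤ η / 2 := min_le_left _ _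
  have l2 : η₁ ≤ X / 4 := (min_le_right _ _).trans (min_le_left _ _)
  have l3 : η₁ ≤ 1 := (min_le_right _ _).trans (min_le_right _ _)
  have a1 := abs_le.1 e1
  have a2 := abs_le.1 e2
  have a3 := abs_le.1 e3
  have a4 := abs_le.1 e4
  have a5 := abs_le.1 e5
  have m1 : ((c₀, d₀, c₁, d₁, τ) : ℝ × ℝ × ℝ × ℝ × ℝ) ∈ K :=
    ⟨⟨by linarith, by linarith⟩, ⟨by linarith, by linarith⟩, ⟨by linarith, by linarith⟩,
      ⟨by linarith, by linarith⟩, k7, by linarith⟩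
  have m2 : ((X, X', C₁, D₁, τ') : ℝ × ℝ × ℝ × ℝ × ℝ) ∈ K :=
    ⟨⟨by linarith, by linarith⟩, ⟨by linarith, by linarith⟩, ⟨by linarith, by linarith⟩,
      ⟨by linarith, by linarith⟩, k5, by linarith⟩
  have hd : dist ((c₀, d₀, c₁, d₁, τ) : ℝ × ℝ × ℝ × ℝ × ℝ) (X, X', C₁, D₁, τ') < η := by
    refine lt_of_le_of_lt ?_ (by linarith : η / 2 < η)
    simp only [Prod.dist_eq, Real.dist_eq, max_le_iff]
    exact ⟨e1.trans l1, e2.trans l1, e3.trans l1, e4.trans l1, e5.trans l1⟩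
  have h := hη' _ m1 _ m2 hd
  rw [Prod.dist_eq, max_lt_iff] at h
  simp only [hf, Real.dist_eq] at h
  have hX0' : X ≠ 0 := hX0.ne'
  have hX'0' : X' ≠ 0 := hX'0.ne'
  have e6 : (C₁ / X) / (D₁ / X') = (C₁ / D₁) / (X / X') := by
    have : D₁ ≠ 0 := by linarith
    field_simp
  rw [e6]
  exact ⟨h.1.le, h.2.le⟩

/-- **The comparison theorem for two marked points.** -/
theorem glueQ {T R X X' Y Rd cd κ : ℝ} (hT : 0 ≤ T) (hR : 0 ≤ R) (hRd : 0 < Rd) (hcd : 0 < cd)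
    (hX0 : 0 < X) (hX : 8 * R ≤ X) (hX2 : 256 * T ≤ X ^ 2) (hXX : 16 * X ≤ X') (hY0 : 0 < Y)
    (hY : 8 * R ≤ Y) (hY2 : 64 * T ≤ Y ^ 2) (hκ : 0 < κ) :
    ∃ h > 0, ∀ ψ : ℂ → ℂ, HConf Rd cd Y ψ → ∀ (W : ℝ → ℝ) (t : ℝ), Drv T R W t →
      ∀ (P₀ P₁ E₀ E₁ : Set ℂ) (a₀ p₀ c₀ a₁ p₁ c₁ d : ℂ),
      PD h ψ (fun _ => 0) 0 Y P₀ a₀ p₀ → PD h ψ W t Y P₁ a₁ p₁ →
      (∀ C : Set ℂ, IsPreconnected C → C ⊆ E₀ → (C ∩ P₀).Nonempty → C ⊆ P₀) →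
      (∀ C : Set ℂ, IsPreconnected C → C ⊆ E₁ → (C ∩ P₁).Nonempty → C ⊆ P₁) →
      (∀ z ∈ ball (X' : ℂ) (X' / 2), 0 < z.im → ψ z ∈ P₀ → ψ z ∈ E₁) →
      (∀ z ∈ ball (X' : ℂ) (X' / 2), 0 < z.im → ψ z ∈ P₁ → ψ z ∈ E₀) →
      d ∈ frontier P₀ → d ∈ closure (P₀ ∩ ψ '' {z | z ∈ HH ∧ ‖z - X'‖ < h}) →
      c₀ ∈ frontier P₀ → c₀ ∈ closure (P₀ ∩ ψ '' {z | z ∈ HH ∧ ‖z - X‖ < h}) →
      c₁ ∈ frontier P₁ → c₁ ∈ closure (P₁ ∩ ψ '' {z | z ∈ HH ∧ ‖z - X‖ < h}) →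
      ∀ u₀ v₀ u₁ v₁ : ℝ, QPos P₀ a₀ p₀ c₀ d u₀ v₀ → QPos P₁ a₁ p₁ c₁ d u₁ v₁ →
        |u₁ / u₀ - (xT W t X / X) / (xT W t X' / X')| ≤ κ ∧
        |v₁ / v₀ - dT W t X' * ((X' - X) / (xT W t X' - xT W t X))| ≤ κ := by
  have hX'0 : 0 < X' := by linarith
  have hX' : 8 * R ≤ X' := by linarith
  have hXsq : X ^ 2 ≤ X' ^ 2 := by gcongr; linarith
  have hX2' : 256 * T ≤ X' ^ 2 := by linarith
  have hXa : |X'| = X' := abs_of_pos hX'0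
  obtain ⟨η, hη, hηX, hη1, hmod⟩ := modQ hX0 hXX hκ
  obtain ⟨c, hc, ρ₀, hρ₀, hside⟩ := side_of_PD (T := T) (R := R) hRd hcd hY0 hY hY2 hT hR
  -- the position of a mark
  have hMX : (0 : ℝ) ≤ 2 * X' := by positivity
  obtain ⟨ε₁, hε₁, himb⟩ := imb_close hMX hη
  obtain ⟨h₁, hh₁, hcm⟩ := cm2 (R := Rd) (c := c) (ρ₀ := ρ₀) (X := X') (r := X' / 16)
    (M := 2 * X') (κ := min η (ε₁ / 2)) hRd hc hρ₀ (by positivity) (by rw [hXa]; linarith)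
    (by positivity)
  obtain ⟨h₂, hh₂, hagr⟩ := agr_of (T := T) (R := R) (X := X') (Y := Y) (Rd := Rd) (cd := cd) hT hR
    hRd hcd hX'0 hX' hX2' hY0 hY hY2
  obtain ⟨h₄, hh₄, hS⟩ := hside h₁ hh₁
  refine ⟨min (min h₄ h₂) (min (min (h₁ / 32) (ε₁ / 64)) (X / 8)), by positivity, ?_⟩
  intro ψ hψ W t H P₀ P₁ E₀ E₁ a₀ p₀ c₀ a₁ p₁ c₁ d hP₀ hP₁ hcomp₀ hcomp₁ hE₁ hE₀ hd hdm hc₀ hcm₀
    hc₁ hcm₁ u₀ v₀ u₁ v₁ hQ₀ hQ₁
  set h₅ : ℝ := min (min h₄ h₂) (min (min (h₁ / 32) (ε₁ / 64)) (X / 8)) with hh₅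
  have hh₅0 : 0 < h₅ := by positivity
  have q4 : h₅ ≤ h₄ := (min_le_left _ _).trans (min_le_left _ _)
  have q2 : h₅ ≤ h₂ := (min_le_left _ _).trans (min_le_right _ _)
  have q1 : 32 * h₅ ≤ h₁ := by
    have : h₅ ≤ h₁ / 32 := (min_le_right _ _).trans ((min_le_left _ _).trans (min_le_left _ _))
    linarith
  have qε : 32 * h₅ ≤ ε₁ / 2 := by
    have : h₅ ≤ ε₁ / 64 := (min_le_right _ _).trans ((min_le_left _ _).trans (min_le_right _ _))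
    linarith
  have qX : h₅ ≤ X / 8 := (min_le_right _ _).trans (min_le_right _ _)
  have H0 : Drv T R (fun _ => (0 : ℝ)) 0 :=
    ⟨continuous_const, le_rfl, hT, fun s _ => by rw [abs_zero]; exact hR⟩
  have S₀ := hS ψ hψ _ _ H0 P₀ a₀ p₀ (hP₀.mono hh₅0 q4)
  have S₁ := hS ψ hψ _ _ H P₁ a₁ p₁ (hP₁.mono hh₅0 q4)
  have hX64' : 64 * T ≤ X' ^ 2 := by linarith
  have hX64 : 64 * T ≤ X ^ 2 := by linarith
  obtain ⟨f1, f2, f3⟩ := xT_bd H hX0 hX hX64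
  obtain ⟨g1, g2, g3⟩ := xT_bd H hX'0 hX' hX64'
  obtain ⟨f01, -, -⟩ := xT_bd H0 hX0 hX hX64
  obtain ⟨g01, -, -⟩ := xT_bd H0 hX'0 hX' hX64'
  have hz0 : ∀ x : ℝ, 0 < x → 8 * R ≤ x → 64 * T ≤ x ^ 2 →
      flow (fun _ => (0 : ℝ)) 0 x - ((fun _ => (0 : ℝ)) (0 : ℝ) : ℂ) = ((x : ℝ) : ℂ) := by
    intro x hx1 hx2 hx3
    obtain ⟨y, hy⟩ := exists_rsol (W := fun _ => (0 : ℝ)) (t := 0) (R := R) (b := x) le_rfl
      continuousOn_const (fun s _ => by rw [abs_zero]; exact hR) hx1.ne'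
      (by rw [abs_of_pos hx1]; linarith) (by nlinarith)
    rw [flow_rsol le_rfl continuousOn_const hy, hy.1, Complex.ofReal_zero, sub_zero]
  have hagr' := hagr ψ hψ W t H P₀ P₁ E₀ E₁ a₀ p₀ a₁ p₁ (hP₀.mono hh₅0 q2) (hP₁.mono hh₅0 q2)
    hcomp₀ hcomp₁ hE₁ hE₀
  have hMd : Mark (FD ψ (fun _ => 0) 0) P₀ d (mb 1 Complex.I X') h₁ :=
    mark_near H0 hX'0 hX' hX64' (hz0 X' hX'0 hX' hX64') (qX.trans (by linarith)) q1 hdm
  have hMc₀ : Mark (FD ψ (fun _ => 0) 0) P₀ c₀ (mb 1 Complex.I X) (ε₁ / 2) :=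
    mark_near H0 hX0 hX hX64 (hz0 X hX0 hX hX64) qX qε hcm₀
  have hMc₁ : Mark (FD ψ W t) P₁ c₁ (mb 1 Complex.I (xT W t X)) (ε₁ / 2) :=
    mark_near H hX0 hX hX64 f1 qX qε hcm₁
  obtain ⟨φ₀, φ₁, hφ₀, hφ₁, hφ₀i, hφ₁i, hcl₀, hcl₁, x₀, x₁, s, Tr, hs, hx₀, hx₁, hTx, hTd, hTe, m1,
    m2, m3⟩ := hcm _ _ (fun z => flow W t z - W t) _ _ P₀ P₁ a₀ p₀ a₁ p₁ d S₀ S₁ (by
      have := trans_FD' H ψ hX'0.ne' (by rw [hXa]; exact hX') hX64' (r := X' / 16)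
        (by rw [hXa]; linarith)
      rwa [hXa] at this) hagr' hd hMd
  obtain ⟨y₀, hy₀, hy₀'⟩ := mark_point (X := X) (M := 2 * X') (κ := η) (ε := ε₁) (h := ε₁ / 2)
    (by rw [abs_of_pos hX0]; linarith) himb S₀.cls.conf hφ₀ hφ₀i
    (fun z hz => (hcl₀ z hz).trans (min_le_right _ _)) le_rfl S₀.good.isOpen hc₀ hMc₀
  obtain ⟨y₁, hy₁, hy₁'⟩ := mark_point (X := xT W t X) (M := 2 * X') (κ := η) (ε := ε₁)
    (h := ε₁ / 2) (by rw [abs_of_pos (by linarith)]; linarith) himb S₁.cls.conf hφ₁ hφ₁i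
    (fun z hz => (hcl₁ z hz).trans (min_le_right _ _)) le_rfl S₁.good.isOpen hc₁ hMc₁
  obtain ⟨α₀, β₀, D₀, -, k2, k3, k4, k5, k6, k7, k8⟩ := hQ₀.transfer hP₀.good.nocut hφ₀
  obtain ⟨α₁, β₁, D₁, -, l2, l3, l4, l5, l6, l7, l8⟩ := hQ₁.transfer hP₁.good.nocut hφ₁
  have hreal : ∀ x : ℝ, (x : ℂ) ∈ {z : ℂ | 0 ≤ z.im} := fun x => by simp
  have i1 : α₀ = y₀ := by exact_mod_cast hφ₀i (hreal α₀) (hreal y₀) (k4.trans hy₀.symm)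
  have i2 : β₀ = x₀ := by exact_mod_cast hφ₀i (hreal β₀) (hreal x₀) (k5.trans hx₀.symm)
  have i3 : α₁ = y₁ := by exact_mod_cast hφ₁i (hreal α₁) (hreal y₁) (l4.trans hy₁.symm)
  have i4 : β₁ = x₁ := by exact_mod_cast hφ₁i (hreal β₁) (hreal x₁) (l5.trans hx₁.symm)
  subst i1 i2 i3 i4
  have hratio := ratio_eq hs hTd hTx hTe k6 l6
  have hD0 : (D₀ : ℂ) ≠ 0 := by exact_mod_cast k3.ne'
  have hD1 : (D₁ : ℂ) ≠ 0 := by exact_mod_cast l3.ne'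
  have hτ : deriv Tr (β₀ : ℂ) = ((D₁ / D₀ : ℝ) : ℂ) := by
    push_cast at hratio ⊢
    field_simp at hratio
    field_simp
    linear_combination -hratio
  have hτ' : |D₁ / D₀ - dT W t X'| ≤ η := by
    have h1 : D₁ / D₀ = ‖deriv Tr (β₀ : ℂ)‖ := by
      rw [hτ, Complex.norm_real, Real.norm_of_nonneg (by positivity)]
    rw [h1, dT]
    exact (abs_norm_sub_norm_le _ _).trans (m3.trans (min_le_left _ _))
  have hβ₁ : |β₁ - xT W t X'| ≤ η := by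
    have := m2.trans (min_le_left _ _)
    rwa [g1, ← Complex.ofReal_sub, Complex.norm_real, Real.norm_eq_abs] at this
  have hfin := hmod α₀ β₀ α₁ β₁ (D₁ / D₀) (xT W t X) (xT W t X') (dT W t X') f2 f3 g2 g3
    (norm_nonneg _) (dT_le H hX'0 hX' hX64') (by positivity) hy₀' (m1.trans (min_le_left _ _)) hy₁'
    hβ₁ hτ'
  rw [k7, k8, l7, l8]
  have e1 : D₁ / (β₁ - α₁) / (D₀ / (β₀ - α₀)) = D₁ / D₀ * ((β₀ - α₀) / (β₁ - α₁)) := by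
    have h1 : β₁ - α₁ ≠ 0 := by linarith
    have h2 : β₀ - α₀ ≠ 0 := by linarith
    field_simp
  rw [e1]
  exact hfin

end Vale.Agent.P167.H756
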