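import Vale.Agent.P167.H756.Q3

/-!
# P167, general `q`, block CM: the ratio of the observables is close to `obsQ`
-/

set_option autoImplicit false
set_option linter.unusedVariables false

open Set Topology Metric MeasureTheory Filter Bornology
open scoped ENNReal Real ComplexConjugate

namespace Vale.Agent.P167.H756

open Vale.Agent.P153.R2.R1 Vale.Agent.P153.R2.OBSV Vale.Agent.P167.H174
open Vale.Agent.P153.R2.L1 (HH IsHydro inv mem_HH isOpen_HH convex_HH)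
open Vale.Agent.P164 (loewnerDomain gf Zf IsLoewnerSol)
open Vale.Agent.P153.BESS (CSol RSol)
open Vale.Agent.P167.H411 (ldv obsF obsY exists_csol exists_rsol csol_unique)
open Vale.Agent.P167.H947 (surv flow flow_eq flow_conj flow_inj flow_gf surv_inter isOpen_surv
  differentiableOn_flow hasDerivAt_flow_real flow_rsol)
open Vale.Agent.P167.QE (obsQ obsQ_eq)

/-- The far point hardly moves. -/
theorem far_est {T R X κ : ℝ} (hT : 0 ≤ T) (hR : 0 ≤ R) (hX0 : 0 < X) (hX : 8 * R ≤ X)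
    (hX2 : 64 * T ≤ X ^ 2) (hκ : 0 < κ) :
    ∃ X₀ : ℝ, 16 * X ≤ X₀ ∧ ∀ X' : ℝ, X₀ ≤ X' → ∀ (W : ℝ → ℝ) (t : ℝ), Drv T R W t →
      |(xT W t X / X) / (xT W t X' / X') - xT W t X / X| ≤ κ ∧
      |dT W t X' * ((X' - X) / (xT W t X' - xT W t X)) - 1| ≤ κ := by
  set A : ℝ := R + 4 * T with hA
  set B : ℝ := 2 * T + 20 * (4 * T + R) * T with hB
  have hA0 : 0 ≤ A := by positivity
  have hB0 : 0 ≤ B := by positivity
  set C : ℝ := 8 * (A + X) + 2 * B with hC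
  have hC0 : 0 < C := by positivity
  refine ⟨max (16 * X) (max 1 (max B (C / κ))), le_max_left _ _, ?_⟩
  intro X' hX' W t H
  have b1 : 16 * X ≤ X' := (le_max_left _ _).trans hX'
  have b2 : 1 ≤ X' := (le_max_left _ _).trans ((le_max_right _ _).trans hX')
  have b3 : B ≤ X' :=
    (le_max_left _ _).trans ((le_max_right _ _).trans ((le_max_right _ _).trans hX'))
  have b4 : C / κ ≤ X' :=
    (le_max_right _ _).trans ((le_max_right _ _).trans ((le_max_right _ _).trans hX'))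
  have hX'0 : 0 < X' := by linarith
  have hX'R : 8 * R ≤ X' := by linarith
  have hXsq : X ^ 2 ≤ X' ^ 2 := by gcongr; linarith
  have hX'2 : 64 * T ≤ X' ^ 2 := by linarith
  have hCX : C / X' ≤ κ := by
    rw [div_le_iff₀ hX'0]
    rw [div_le_iff₀ hκ] at b4
    linarith
  obtain ⟨f1, f2, f3⟩ := xT_bd H hX0 hX hX2
  obtain ⟨g1, g2, g3⟩ := xT_bd H hX'0 hX'R hX'2
  have habs : |X'| = X' := abs_of_pos hX'0
  obtain ⟨y, hy⟩ := exists_rsol H.nn H.cont.continuousOn H.bdd hX'0.ne'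
    (by rw [habs]; linarith) (by linarith [H.le])
  obtain ⟨h5, -, -, -⟩ := Vale.Agent.P167.H411.RSol.bounds H.nn H.cont.continuousOn H.bdd hX'0.ne'
    (by rw [habs]; linarith) (by linarith [H.le]) hy t ⟨H.nn, le_rfl⟩
  have hxt : xT W t X' = y t - W t := by
    rw [xT, flow_rsol H.nn H.cont.continuousOn hy, ← Complex.ofReal_sub, Complex.ofReal_re]
  have hdisp : |xT W t X' - X'| ≤ A := by
    rw [hxt]
    have h6 := H.bdd t ⟨H.nn, le_rfl⟩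
    rw [habs] at h5
    have h7 : 4 / X' * t ≤ 4 * T := by
      have h8 : 4 / X' ≤ 4 := by
        rw [div_le_iff₀ hX'0]; linarith
      exact mul_le_mul h8 H.le H.nn (by norm_num)
    calc |y t - W t - X'| = |(y t - X') - W t| := by congr 1; ring
      _ ≤ |y t - X'| + |W t| := abs_sub _ _
      _ ≤ A := by rw [hA]; linarith
  have hld := Vale.Agent.P167.H411.RSol.ldv_bound H.nn hR H.cont.continuousOn H.bdd hX'0.ne'
    (by rw [habs]; linarith) (by linarith [H.le]) hy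
  have hl : |ldv W y t| ≤ B / X' := by
    have e : ldv W y t = (ldv W y t + 2 * t / X' ^ 2) - 2 * t / X' ^ 2 := by ring
    have ht0 := H.nn
    have htT := H.le
    have p1 : |2 * t / X' ^ 2| ≤ 2 * T / X' := by
      rw [abs_of_nonneg (by positivity)]
      have : X' ≤ X' ^ 2 := by nlinarith
      gcongr
    have p2 : 20 * (4 * t / |X'| + R) * t / |X'| ^ 3 ≤ 20 * (4 * T + R) * T / X' := by
      rw [habs]
      have h1 : 4 * t / X' ≤ 4 * T := by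
        rw [div_le_iff₀ hX'0]
        nlinarith
      have h2 : X' ≤ X' ^ 3 := by nlinarith [pow_pos hX'0 2]
      gcongr
    calc |ldv W y t| = |(ldv W y t + 2 * t / X' ^ 2) - 2 * t / X' ^ 2| := by rw [← e]
      _ ≤ |ldv W y t + 2 * t / X' ^ 2| + |2 * t / X' ^ 2| := abs_sub _ _
      _ ≤ 20 * (4 * T + R) * T / X' + 2 * T / X' := add_le_add (hld.trans p2) p1
      _ = B / X' := by rw [hB]; ring
  have hl1 : |ldv W y t| ≤ 1 := hl.trans (by rw [div_le_iff₀ hX'0]; linarith)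
  have hdT : |dT W t X' - 1| ≤ 2 * B / X' := by
    rw [dT_eq H hy]
    refine (Real.abs_exp_sub_one_le hl1).trans ?_
    calc 2 * |ldv W y t| ≤ 2 * (B / X') := by gcongr
      _ = 2 * B / X' := by ring
  have hdl := dT_le H hX'0 hX'R hX'2
  have hd0 : 0 ≤ dT W t X' := norm_nonneg _
  set u := xT W t X with hu
  set v := xT W t X' with hv
  have hv0 : 0 < v := by linarith
  have hden : X' / 4 ≤ v - u := by linarith
  have hden0 : 0 < v - u := by linarith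
  constructor
  · have e : (u / X) / (v / X') - u / X = u / X * ((X' - v) / v) := by
      field_simp
    rw [e, abs_mul, abs_of_nonneg (div_nonneg (by linarith : 0 ≤ u) hX0.le), abs_div,
      abs_of_pos hv0]
    refine le_trans ?_ hCX
    have h1 : u / X ≤ 2 := by rw [div_le_iff₀ hX0]; linarith
    have h2 : |X' - v| / v ≤ 2 * A / X' := by
      rw [div_le_div_iff₀ hv0 hX'0, abs_sub_comm]
      have := mul_le_mul hdisp (show X' ≤ 2 * v by linarith) hX'0.le hA0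
      linarith
    calc u / X * (|X' - v| / v) ≤ 2 * (2 * A / X') := by gcongr
      _ = 4 * A / X' := by ring
      _ ≤ C / X' := by gcongr; rw [hC]; linarith
  · have e : dT W t X' * ((X' - X) / (v - u)) - 1 =
        dT W t X' * (((X' - v) + (u - X)) / (v - u)) + (dT W t X' - 1) := by
      field_simp
      ring
    rw [e]
    refine le_trans ?_ hCX
    have h1 : |(X' - v) + (u - X)| ≤ A + X := by
      refine (abs_add_le _ _).trans (add_le_add ?_ ?_)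
      · rw [abs_sub_comm]; exact hdisp
      · rw [abs_le]; constructor <;> linarith
    have h2 : |((X' - v) + (u - X)) / (v - u)| ≤ 4 * (A + X) / X' := by
      rw [abs_div, abs_of_pos hden0, div_le_div_iff₀ hden0 hX'0]
      have := mul_le_mul h1 (show X' ≤ 4 * (v - u) by linarith) hX'0.le (by positivity)
      linarith
    calc |dT W t X' * (((X' - v) + (u - X)) / (v - u)) + (dT W t X' - 1)|
        ≤ |dT W t X' * (((X' - v) + (u - X)) / (v - u))| + |dT W t X' - 1| := abs_add_le _ _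
      _ ≤ 1 * (4 * (A + X) / X') + 2 * B / X' := by
          rw [abs_mul, abs_of_nonneg hd0]
          gcongr
      _ = (4 * (A + X) + 2 * B) / X' := by ring
      _ ≤ C / X' := by gcongr; rw [hC]; linarith

/-- Powers, uniformly. -/
theorem modP (e h : ℝ) {ε : ℝ} (hε : 0 < ε) :
    ∃ κ > 0, ∀ u v O : ℝ, 1 / 2 ≤ O → O ≤ 2 → |u - O| ≤ κ → |v - 1| ≤ κ →
      |u ^ e * v ^ h - O ^ e| ≤ ε := by
  set f : ℝ × ℝ → ℝ := fun x => x.1 ^ e * x.2 ^ h with hf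
  set K : Set (ℝ × ℝ) := Icc (1 / 4) 3 ×ˢ Icc (1 / 4) 3 with hK
  have hKc : IsCompact K := isCompact_Icc.prod isCompact_Icc
  have hfc : ContinuousOn f K := by
    rintro ⟨a, b⟩ ⟨⟨ha, ha'⟩, ⟨hb, hb'⟩⟩
    simp only at ha ha' hb hb'
    refine ContinuousAt.continuousWithinAt ?_
    simp only [hf]
    refine ContinuousAt.mul ?_ ?_
    · exact (Real.continuousAt_rpow_const a e (Or.inl (by linarith))).comp_of_eq
        (by fun_prop) rfl
    · exact (Real.continuousAt_rpow_const b h (Or.inl (by linarith))).comp_of_eq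
        (by fun_prop) rfl
  obtain ⟨η, hη, hη'⟩ := Metric.uniformContinuousOn_iff.1
    (hKc.uniformContinuousOn_of_continuous hfc) ε hε
  refine ⟨min (η / 2) (1 / 4), by positivity, fun u v O k1 k2 e1 e2 => ?_⟩
  have l1 : min (η / 2) (1 / 4) ≤ η / 2 := min_le_left _ _
  have l2 : min (η / 2) (1 / 4) ≤ 1 / 4 := min_le_right _ _
  have a1 := abs_le.1 e1
  have a2 := abs_le.1 e2
  have m1 : ((u, v) : ℝ × ℝ) ∈ K := ⟨⟨by linarith, by linarith⟩, ⟨by linarith, by linarith⟩⟩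
  have m2 : ((O, 1) : ℝ × ℝ) ∈ K := ⟨⟨by linarith, by linarith⟩, ⟨by norm_num, by norm_num⟩⟩
  have hd : dist ((u, v) : ℝ × ℝ) (O, 1) < η := by
    refine lt_of_le_of_lt ?_ (by linarith : η / 2 < η)
    simp only [Prod.dist_eq, Real.dist_eq, max_le_iff]
    exact ⟨e1.trans l1, e2.trans l1⟩
  have h1 := hη' _ m1 _ m2 hd
  simp only [hf, Real.dist_eq, Real.one_rpow, mul_one] at h1
  exact h1.le

/-- **The ratio of the observables of two polygons is close to `obsQ`.** -/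
theorem ratio_obsQ {T R X e h ε : ℝ} (hT : 0 ≤ T) (hR : 0 ≤ R) (hX0 : 0 < X) (hX : 8 * R ≤ X)
    (hX2 : 256 * T ≤ X ^ 2) (hε : 0 < ε) :
    ∃ X₀ : ℝ, 16 * X ≤ X₀ ∧ ∀ X' : ℝ, X₀ ≤ X' → ∀ Y Rd cd : ℝ, 0 < Rd → 0 < cd → 0 < Y →
      8 * R ≤ Y → 64 * T ≤ Y ^ 2 →
    ∃ h₀ > 0, ∀ ψ : ℂ → ℂ, HConf Rd cd Y ψ → ∀ (W : ℝ → ℝ) (t : ℝ), Drv T R W t →
      ∀ (P₀ P₁ E₀ E₁ : Set ℂ) (a₀ p₀ c₀ a₁ p₁ c₁ d : ℂ),
      PD h₀ ψ (fun _ => 0) 0 Y P₀ a₀ p₀ → PD h₀ ψ W t Y P₁ a₁ p₁ →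
      (∀ C : Set ℂ, IsPreconnected C → C ⊆ E₀ → (C ∩ P₀).Nonempty → C ⊆ P₀) →
      (∀ C : Set ℂ, IsPreconnected C → C ⊆ E₁ → (C ∩ P₁).Nonempty → C ⊆ P₁) →
      (∀ z ∈ ball (X' : ℂ) (X' / 2), 0 < z.im → ψ z ∈ P₀ → ψ z ∈ E₁) →
      (∀ z ∈ ball (X' : ℂ) (X' / 2), 0 < z.im → ψ z ∈ P₁ → ψ z ∈ E₀) →
      d ∈ frontier P₀ → d ∈ closure (P₀ ∩ ψ '' {z | z ∈ HH ∧ ‖z - X'‖ < h₀}) →
      c₀ ∈ frontier P₀ → c₀ ∈ closure (P₀ ∩ ψ '' {z | z ∈ HH ∧ ‖z - X‖ < h₀}) →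
      c₁ ∈ frontier P₁ → c₁ ∈ closure (P₁ ∩ ψ '' {z | z ∈ HH ∧ ‖z - X‖ < h₀}) →
      ∀ u₀ v₀ u₁ v₁ : ℝ, QPos P₀ a₀ p₀ c₀ d u₀ v₀ → QPos P₁ a₁ p₁ c₁ d u₁ v₁ →
        |(u₁ ^ e * v₁ ^ h) / (u₀ ^ e * v₀ ^ h) - obsQ e W X t| ≤ ε := by
  obtain ⟨κ, hκ, hmod⟩ := modP e h hε
  have hX64 : 64 * T ≤ X ^ 2 := by linarith
  obtain ⟨X₀, hX₀, hfar⟩ := far_est hT hR hX0 hX hX64 (half_pos hκ)
  refine ⟨X₀, hX₀, fun X' hX' Y Rd cd hRd hcd hY0 hY hY2 => ?_⟩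
  obtain ⟨h₀, hh₀, hgl⟩ := glueQ (X' := X') hT hR hRd hcd hX0 hX hX2 (hX₀.trans hX') hY0 hY hY2
    (half_pos hκ)
  refine ⟨h₀, hh₀, ?_⟩
  intro ψ hψ W t H P₀ P₁ E₀ E₁ a₀ p₀ c₀ a₁ p₁ c₁ d hP₀ hP₁ hcomp₀ hcomp₁ hE₁ hE₀ hd hdm hc₀ hcm₀
    hc₁ hcm₁ u₀ v₀ u₁ v₁ hQ₀ hQ₁
  obtain ⟨r1, r2⟩ := hgl ψ hψ W t H P₀ P₁ E₀ E₁ a₀ p₀ c₀ a₁ p₁ c₁ d hP₀ hP₁ hcomp₀ hcomp₁ hE₁ hE₀
    hd hdm hc₀ hcm₀ hc₁ hcm₁ u₀ v₀ u₁ v₁ hQ₀ hQ₁
  obtain ⟨s1, s2⟩ := hfar X' hX' W t H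
  obtain ⟨f1, f2, f3⟩ := xT_bd H hX0 hX hX64
  have hO : obsQ e W X t = (xT W t X / X) ^ e := by
    obtain ⟨y, hy⟩ := exists_rsol H.nn H.cont.continuousOn H.bdd hX0.ne'
      (by rw [abs_of_pos hX0]; linarith) (by linarith [H.le])
    rw [obsQ_eq H.nn H.cont.continuousOn hy, xT, flow_rsol H.nn H.cont.continuousOn hy,
      ← Complex.ofReal_sub, Complex.ofReal_re]
  rw [hO]
  obtain ⟨p1, p2⟩ := hQ₀.pos
  obtain ⟨p3, p4⟩ := hQ₁.pos
  have e1 : (u₁ ^ e * v₁ ^ h) / (u₀ ^ e * v₀ ^ h) = (u₁ / u₀) ^ e * (v₁ / v₀) ^ h := by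
    rw [Real.div_rpow p3.le p1.le, Real.div_rpow p4.le p2.le]
    have := Real.rpow_pos_of_pos p1 e
    have := Real.rpow_pos_of_pos p2 h
    field_simp
  rw [e1]
  refine hmod _ _ _ ?_ ?_ ?_ ?_
  · rw [le_div_iff₀ hX0]; linarith
  · rw [div_le_iff₀ hX0]; linarith
  · have := abs_sub_le (u₁ / u₀) (xT W t X / X / (xT W t X' / X')) (xT W t X / X)
    linarith
  · have := abs_sub_le (v₁ / v₀) (dT W t X' * ((X' - X) / (xT W t X' - xT W t X))) 1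
    linarith

end Vale.Agent.P167.H756
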