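import Vale.Agent.P167.H756.Q4

/-!
# P167, general `q`, block CM: the flat mark at the target

The coordinate `w = -1 / z` near `∞`: rotation of the disc by `-1`.
-/

set_option autoImplicit false
set_option linter.unusedVariables false

open Set Topology Metric MeasureTheory Filter Bornology
open scoped ENNReal Real ComplexConjugate

namespace Vale.Agent.P167.H756

open Vale.Agent.P153.R2.R1 Vale.Agent.P153.R2.OBSV Vale.Agent.P167.H174
open Vale.Agent.P153.R2.L1 (HH IsHydro inv mem_HH isOpen_HH convex_HH)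
open Vale.Agent.P164 (loewnerDomain gf Zf IsLoewnerSol)
open Vale.Agent.P153.BESS (CSol RSol)
open Vale.Agent.P167.H411 (ldv obsF obsY exists_csol exists_rsol csol_unique)
open Vale.Agent.P167.H947 (surv flow flow_eq flow_conj flow_inj flow_gf surv_inter isOpen_surv
  differentiableOn_flow hasDerivAt_flow_real flow_rsol)
open Vale.Agent.P167.QE (obsQ obsQ_eq)

/-! ### The rotation -/

/-- The map of the disc rotated by `-1`. -/
def rot (F : ℂ → ℂ) : ℂ → ℂ := fun v => F (-v)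

theorem neg_ball {v : ℂ} : -v ∈ ball (0 : ℂ) 1 ↔ v ∈ ball (0 : ℂ) 1 := by
  rw [mem_ball_zero_iff, mem_ball_zero_iff, norm_neg]

theorem rot_img' (F : ℂ → ℂ) (S : Set ℂ) : rot F '' S = F '' (-S) := by
  ext z
  constructor
  · rintro ⟨v, hv, rfl⟩
    exact ⟨-v, by simpa using hv, rfl⟩
  · rintro ⟨v, hv, rfl⟩
    exact ⟨-v, hv, by simp [rot]⟩

theorem rot_img (F : ℂ → ℂ) : rot F '' ball 0 1 = F '' ball 0 1 := by
  rw [rot_img']
  congr 1
  ext v
  rw [Set.mem_neg]
  exact neg_ball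

theorem Cls.rot' {R c : ℝ} {F : ℂ → ℂ} (h : Cls R c F) : Cls R c (rot F) where
  diff := h.diff.comp (by fun_prop) fun v hv => neg_ball.2 hv
  inj := by
    intro v hv v' hv' e
    exact neg_injective (h.inj (neg_ball.2 hv) (neg_ball.2 hv') e)
  bdd := by
    intro w hw
    simp only [rot, neg_zero]
    exact h.bdd _ (neg_ball.2 hw)
  sub := by
    rw [rot_img]
    simp only [rot, neg_zero]
    exact h.sub

theorem Mark.rot' {F : ℂ → ℂ} {P : Set ℂ} {y ξ : ℂ} {h : ℝ} (H : Mark F P y ξ h) :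
    Mark (rot F) P y (-ξ) h := by
  refine closure_mono (inter_subset_inter_right _ ?_) H
  rintro _ ⟨v, ⟨hv, hvξ⟩, rfl⟩
  refine ⟨-v, ⟨neg_ball.2 hv, ?_⟩, by simp [rot]⟩
  rw [mem_ball, dist_neg_neg]
  exact hvξ

theorem Side.rot' {R c ρ₀ h : ℝ} {F : ℂ → ℂ} {w₀ : ℂ} {P : Set ℂ} {a p : ℂ}
    (H : Side R c ρ₀ h F w₀ P a p) : Side R c ρ₀ h (rot F) (-w₀) P p a where
  cls := H.cls.rot'
  base := by
    have := H.base
    rw [mem_closedBall_zero_iff] at this ⊢
    rwa [norm_neg]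
  good := H.good
  sub := by rw [rot_img]; exact H.sub
  inner := by
    rw [rot_img]
    simp only [rot, neg_neg]
    exact H.inner
  collar := by rw [rot_img]; exact H.collar
  mem_a := H.mem_p
  mem_p := H.mem_a
  mark_a := H.mark_p.rot'
  mark_p := by
    have := H.mark_a.rot'
    rwa [neg_neg] at this

/-- The Möbius map and `-1 / z`. -/
theorem mb_neg_inv {z : ℂ} (hz : 0 < z.im) :
    mb 1 Complex.I (-1 / z) = -mb 1 Complex.I z := by
  have h0 : z ≠ 0 := by rintro rfl; simp at hz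
  have h1 := add_I_ne' hz
  have h2 : -1 / z + Complex.I ≠ 0 := by
    intro h
    have h3 : z + Complex.I = 0 := by
      have h4 : (-1 / z + Complex.I) * z = 0 := by rw [h, zero_mul]
      rw [add_mul, div_mul_cancel₀ _ h0] at h4
      have h5 : Complex.I * (-1 + Complex.I * z) = 0 := by rw [h4, mul_zero]
      have h6 : Complex.I * Complex.I = -1 := Complex.I_mul_I
      linear_combination -h5 + z * h6
    exact h1 h3
  simp only [mb, Complex.conj_I, sub_neg_eq_add, one_mul]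
  rw [← neg_div, div_eq_div_iff h2 h1]
  have h6 : Complex.I * Complex.I = -1 := Complex.I_mul_I
  field_simp
  linear_combination (-2 * z) * h6

theorem im_neg_inv {z : ℂ} (hz : 0 < z.im) : 0 < (-1 / z).im := by
  have h0 : z ≠ 0 := by rintro rfl; simp at hz
  have : (-1 / z).im = z.im / Complex.normSq z := by
    rw [neg_div, one_div, Complex.neg_im, Complex.inv_im]
    ring
  rw [this]
  exact div_pos hz (Complex.normSq_pos.2 h0)

/-! ### The transition map at the target -/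

/-- The transition map in the coordinate `-1 / z`. -/
noncomputable def gI (W : ℝ → ℝ) (t : ℝ) (w : ℂ) : ℂ :=
  if w = 0 then 0 else -1 / (flow W t (-1 / w) - W t)

theorem gI_zero (W : ℝ → ℝ) (t : ℝ) : gI W t 0 = 0 := if_pos rfl

theorem gI_ne {W : ℝ → ℝ} {t : ℝ} {w : ℂ} (hw : w ≠ 0) :
    gI W t w = -1 / (flow W t (-1 / w) - W t) := if_neg hw

variable {T R : ℝ} {W : ℝ → ℝ} {t : ℝ}

/-- The size of the neighbourhood of the target. -/
noncomputable def rI (T R : ℝ) : ℝ := 1 / (8 * R + 16 * T + 1)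

theorem rI_pos (hT : 0 ≤ T) (hR : 0 ≤ R) : 0 < rI T R := by unfold rI; positivity

theorem norm_neg_inv (w : ℂ) : ‖-1 / w‖ = 1 / ‖w‖ := by
  rw [norm_div, norm_neg, norm_one]

/-- Bounds near the target. -/
theorem Drv.farI (H : Drv T R W t) {w : ℂ} (hw0 : w ≠ 0) (hw : ‖w‖ < rI T R) :
    -1 / w ∈ surv W t ∧ ‖flow W t (-1 / w) - (-1 / w)‖ ≤ 4 * T * ‖w‖ ∧
      1 / ‖w‖ / 2 ≤ ‖flow W t (-1 / w) - W t‖ := by
  have hT : 0 ≤ T := H.nn.trans H.le
  have hR := H.R_nonneg
  have hwn : 0 < ‖w‖ := norm_pos_iff.2 hw0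
  have h1 : 8 * R + 16 * T + 1 < 1 / ‖w‖ := by
    rw [rI, lt_div_iff₀ (by positivity)] at hw
    rw [lt_div_iff₀ hwn]
    linarith
  have e := norm_neg_inv w
  have h2 : 16 * T ≤ (1 / ‖w‖) ^ 2 := by
    nlinarith
  obtain ⟨k1, k2, -, k4⟩ := H.far (z := -1 / w) (by rw [e]; positivity) (by rw [e]; linarith)
    (by rw [e]; exact h2)
  rw [e] at k2 k4
  refine ⟨k1, k2.trans (le_of_eq ?_), k4⟩
  field_simp

/-- The transition map is close to the identity. -/
theorem Drv.gI_sub (H : Drv T R W t) {w : ℂ} (hw : ‖w‖ < rI T R) :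
    ‖gI W t w - w‖ ≤ 2 * (4 * T + R) * ‖w‖ ^ 2 := by
  have hT : 0 ≤ T := H.nn.trans H.le
  have hR := H.R_nonneg
  rcases eq_or_ne w 0 with rfl | hw0
  · rw [gI_zero]; simp
  obtain ⟨k1, k2, k3⟩ := H.farI hw0 hw
  have hwn : 0 < ‖w‖ := norm_pos_iff.2 hw0
  set f : ℂ := flow W t (-1 / w) - W t with hf
  have hf0 : f ≠ 0 := by
    rw [← norm_pos_iff]
    exact lt_of_lt_of_le (by positivity) k3
  have hw1 : ‖w‖ ≤ 1 := by
    have : rI T R ≤ 1 := by
      rw [rI, div_le_one (by positivity)]; linarith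
    linarith
  rw [gI_ne hw0, ← hf]
  have e : -1 / f - w = -((f - (-1 / w)) * w / f) := by field_simp; ring
  have h1 : ‖f - (-1 / w)‖ ≤ 4 * T + R := by
    have h2 := H.bdd t ⟨H.nn, le_rfl⟩
    have e2 : f - (-1 / w) = (flow W t (-1 / w) - (-1 / w)) - W t := by rw [hf]; ring
    rw [e2]
    calc ‖(flow W t (-1 / w) - (-1 / w)) - W t‖
        ≤ ‖flow W t (-1 / w) - (-1 / w)‖ + ‖(W t : ℂ)‖ := norm_sub_le _ _
      _ ≤ 4 * T * ‖w‖ + R := by
          rw [Complex.norm_real, Real.norm_eq_abs]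
          gcongr
      _ ≤ 4 * T + R := by nlinarith
  rw [e, norm_neg, norm_div, norm_mul, div_le_iff₀ (norm_pos_iff.2 hf0)]
  have h3 : 1 ≤ 2 * ‖w‖ * ‖f‖ := by
    have := mul_le_mul_of_nonneg_left k3 (show 0 ≤ 2 * ‖w‖ by positivity)
    have e3 : 2 * ‖w‖ * (1 / ‖w‖ / 2) = 1 := by field_simp
    rwa [e3] at this
  calc ‖f - (-1 / w)‖ * ‖w‖ ≤ (4 * T + R) * ‖w‖ := by gcongr
    _ = (4 * T + R) * ‖w‖ * 1 := by ring
    _ ≤ (4 * T + R) * ‖w‖ * (2 * ‖w‖ * ‖f‖) := by gcongr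
    _ = 2 * (4 * T + R) * ‖w‖ ^ 2 * ‖f‖ := by ring

theorem Drv.gI_deriv (H : Drv T R W t) : HasDerivAt (gI W t) 1 0 := by
  have hT : 0 ≤ T := H.nn.trans H.le
  have hR := H.R_nonneg
  rw [hasDerivAt_iff_isLittleO]
  have h1 : (fun w : ℂ => gI W t w - gI W t 0 - (w - 0) • (1 : ℂ)) =O[𝓝 0]
      fun w : ℂ => ‖w‖ ^ 2 := by
    refine Asymptotics.IsBigO.of_bound (2 * (4 * T + R)) ?_
    filter_upwards [ball_mem_nhds (0 : ℂ) (rI_pos hT hR)] with w hw
    rw [mem_ball_zero_iff] at hw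
    rw [gI_zero, sub_zero, sub_zero, smul_eq_mul, mul_one, norm_pow, norm_norm]
    exact H.gI_sub hw
  refine h1.trans_isLittleO ?_
  have h2 : (fun w : ℂ => ‖w‖ ^ 2) =o[𝓝 0] fun w : ℂ => w := by
    have := Asymptotics.isLittleO_norm_pow_id (E' := ℂ) (n := 2) (by norm_num)
    exact this
  simpa using h2

/-- The transition map at the target. -/
theorem trans_rot (H : Drv T R W t) (ψ : ℂ → ℂ) {r : ℝ} (hr : r ≤ rI T R) :
    Trans 0 r (2 * r) (rot (FD ψ (fun _ => 0) 0)) (rot (FD ψ W t)) (gI W t) := by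
  have hT : 0 ≤ T := H.nn.trans H.le
  have hR := H.R_nonneg
  have hWc : ContinuousOn W (Icc 0 t) := H.cont.continuousOn
  have H0 : Drv T R (fun _ => (0 : ℝ)) 0 :=
    ⟨continuous_const, le_rfl, hT, fun s _ => by rw [abs_zero]; exact hR⟩
  have hn : ∀ w ∈ ball ((0 : ℝ) : ℂ) r, ‖w‖ < rI T R := fun w hw => by
    rw [Complex.ofReal_zero, mem_ball_zero_iff] at hw
    linarith
  refine ⟨?_, ?_, ?_, ?_, ?_⟩
  · intro w hw
    rcases eq_or_ne w 0 with rfl | hw0
    · exact H.gI_deriv.differentiableAt.differentiableWithinAt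
    · obtain ⟨k1, k2, k3⟩ := H.farI hw0 (hn w hw)
      have hf0 : flow W t (-1 / w) - W t ≠ 0 := by
        rw [← norm_pos_iff]
        have : 0 < ‖w‖ := norm_pos_iff.2 hw0
        exact lt_of_lt_of_le (by positivity) k3
      have h1 : DifferentiableAt ℂ (flow W t) (-1 / w) :=
        (differentiableOn_flow H.nn hWc).differentiableAt ((isOpen_surv H.nn hWc).mem_nhds k1)
      have h2 : DifferentiableAt ℂ (fun w : ℂ => -1 / w) w :=
        (differentiableAt_const _).div differentiableAt_id hw0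
      have h3 : DifferentiableAt ℂ (fun w : ℂ => -1 / (flow W t (-1 / w) - W t)) w :=
        (differentiableAt_const _).div ((h1.comp w h2).sub_const _) hf0
      refine (h3.congr_of_eventuallyEq ?_).differentiableWithinAt
      filter_upwards [isOpen_ne.mem_nhds hw0] with v hv
      exact gI_ne hv
  · intro w hw
    rcases eq_or_ne w 0 with rfl | hw0
    · simp [gI_zero]
    · obtain ⟨k1, -, -⟩ := H.farI hw0 (hn w hw)
      have hcw : conj w ≠ 0 := (map_ne_zero _).2 hw0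
      rw [gI_ne hw0, gI_ne hcw, map_div₀, map_neg, map_one, map_sub, Complex.conj_ofReal,
        ← flow_conj H.nn hWc k1]
      simp
  · intro w hw h0
    have hw0 : w ≠ 0 := by rintro rfl; simp at h0
    obtain ⟨k1, -, -⟩ := H.farI hw0 (hn w hw)
    have h1 := im_neg_inv h0
    have h2 := (surv_inter hWc h1).1 k1
    rw [gI_ne hw0]
    refine im_neg_inv ?_
    rw [flow_gf H.nn hWc h2, Complex.sub_im, Complex.ofReal_im, sub_zero,
      ← Vale.Agent.P164.Zf_im_eq]
    exact Vale.Agent.P164.Zf_im_pos H.nn h2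
  · intro w hw
    rcases eq_or_ne w 0 with rfl | hw0
    · rw [gI_zero, norm_zero]
      rw [Complex.ofReal_zero, mem_ball_zero_iff, norm_zero] at hw
      linarith
    · obtain ⟨-, -, k3⟩ := H.farI hw0 (hn w hw)
      have hwn : 0 < ‖w‖ := norm_pos_iff.2 hw0
      rw [gI_ne hw0, norm_neg_inv]
      rw [Complex.ofReal_zero, mem_ball_zero_iff] at hw
      have h1 : 1 / ‖flow W t (-1 / w) - W t‖ ≤ 1 / (1 / ‖w‖ / 2) :=
        one_div_le_one_div_of_le (by positivity) k3
      have h2 : 1 / (1 / ‖w‖ / 2) = 2 * ‖w‖ := by field_simp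
      linarith
  · intro w hw h0
    have hw0 : w ≠ 0 := by rintro rfl; simp at h0
    obtain ⟨k1, -, -⟩ := H.farI hw0 (hn w hw)
    have h1 := im_neg_inv h0
    have h2 := (surv_inter hWc h1).1 k1
    have e3 : Zf W (-1 / w) t = flow W t (-1 / w) - W t := by
      rw [flow_gf H.nn hWc h2, Vale.Agent.P164.Zf_eq]
    have hZ := Vale.Agent.P164.Zf_im_pos H.nn h2
    have e4 : w = -1 / (-1 / w) := by field_simp
    rw [gI_ne hw0, ← e3]
    simp only [rot]
    rw [mb_neg_inv hZ, neg_neg, FD_mb H ψ h2]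
    have e5 : -mb 1 Complex.I w = mb 1 Complex.I (-1 / w) := (mb_neg_inv h0).symm
    rw [e5]
    have h3 := FD_mb H0 ψ (z := -1 / w) (by rw [dom_zero']; exact h1)
    rwa [Vale.Agent.P164.Zf_zero h1, Complex.ofReal_zero, sub_zero] at h3

end Vale.Agent.P167.H756
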