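import Vale.Agent.P167.H756.Q6

/-!
# P167, general `q`, block CM: the ratio for a flat mark at the target and a mark `c`

`KPos P b a c K` : `K = D / y`, where `φ` is a uniformizer of `P` with `φ 0 = b` (the target),
`φ ∞ = a` (the tip), `φ (-y) = c`, `y > 0`, `D = (φ⁻¹)' (b)`.
-/

set_option autoImplicit false
set_option linter.unusedVariables false

open Set Topology Metric MeasureTheory Filter Bornology
open scoped ENNReal Real ComplexConjugate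

namespace Vale.Agent.P167.H756

open Vale.Agent.P153.R2.R1 Vale.Agent.P153.R2.OBSV Vale.Agent.P167.H174
open Vale.Agent.P153.R2.L1 (HH IsHydro inv mem_HH isOpen_HH convex_HH)
open Vale.Agent.P164 (loewnerDomain gf Zf IsLoewnerSol)
open Vale.Agent.P153.BESS (CSol RSol)
open Vale.Agent.P167.H411 (ldv obsF obsY exists_csol exists_rsol csol_unique)
open Vale.Agent.P167.H947 (surv flow flow_eq flow_conj flow_inj flow_gf surv_inter isOpen_surv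
  differentiableOn_flow hasDerivAt_flow_real flow_rsol)
open Vale.Agent.P167.QE (obsQ obsQ_eq)

/-- The conformal quantity of a polygon with the marks `b` (target), `a` (tip), `c`. -/
def KPos (P : Set ℂ) (b a c : ℂ) (K : ℝ) : Prop :=
  ∃ (φ : ℂ → ℂ) (y D : ℝ), IsU φ P b a ∧ 0 < y ∧ 0 < D ∧ φ ((-y : ℝ) : ℂ) = c ∧
    HasDerivWithinAt φ ((1 / D : ℝ) : ℂ) {z | 0 ≤ z.im} 0 ∧ K = D / y

theorem KPos.pos {P : Set ℂ} {b a c : ℂ} {K : ℝ} (h : KPos P b a c K) : 0 < K := by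
  obtain ⟨φ, y, D, -, h1, h2, -, -, rfl⟩ := h
  positivity

/-- The quantity does not depend on the uniformizer. -/
theorem KPos.transfer {P : Set ℂ} (hP : NoCut P) {b a c : ℂ} {K : ℝ} (h : KPos P b a c K)
    {φ : ℂ → ℂ} (hφ : IsU φ P b a) :
    ∃ y D : ℝ, 0 < y ∧ 0 < D ∧ φ ((-y : ℝ) : ℂ) = c ∧
      HasDerivWithinAt φ ((1 / D : ℝ) : ℂ) {z | 0 ≤ z.im} 0 ∧ K = D / y := by
  obtain ⟨φ', y, D, hφ', h1, h2, h3, h4, rfl⟩ := h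
  obtain ⟨s, hs, hsc⟩ := isU_scale hP hφ' hφ
  have hsc0 : (s : ℂ) ≠ 0 := by exact_mod_cast hs.ne'
  refine ⟨y / s, D / s, by positivity, by positivity, ?_, ?_, by field_simp⟩
  · rw [hsc _ (by simp)]
    have e : (s : ℂ) * ((-(y / s) : ℝ) : ℂ) = ((-y : ℝ) : ℂ) := by
      push_cast; field_simp
    rw [e]; exact h3
  · have h7 : HasDerivWithinAt (fun z : ℂ => (s : ℂ) * z) (s : ℂ) {z : ℂ | 0 ≤ z.im} 0 := by
      simpa using ((hasDerivAt_id (0 : ℂ)).const_mul (s : ℂ)).hasDerivWithinAt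
    have h8 : HasDerivWithinAt φ' ((1 / D : ℝ) : ℂ) {z | 0 ≤ z.im} ((s : ℂ) * 0) := by
      rw [mul_zero]; exact h4
    have h9 := h8.comp (0 : ℂ) h7 (s' := {z : ℂ | 0 ≤ z.im}) (fun z hz => by
      show 0 ≤ ((s : ℂ) * z).im
      rw [Complex.im_ofReal_mul]
      exact mul_nonneg hs.le hz)
    have e2 : ((1 / (D / s) : ℝ) : ℂ) = ((1 / D : ℝ) : ℂ) * s := by
      have hD : (D : ℂ) ≠ 0 := by exact_mod_cast h2.ne'
      push_cast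
      field_simp
    rw [e2]
    exact h9.congr (fun z hz => hsc z hz) (hsc _ (by simp))

theorem mb_neg_inv' {x : ℝ} (hx : x ≠ 0) :
    mb 1 Complex.I ((-(1 / x) : ℝ) : ℂ) = -mb 1 Complex.I (x : ℂ) := by
  have hxc : (x : ℂ) ≠ 0 := by exact_mod_cast hx
  have h1 : (x : ℂ) + Complex.I ≠ 0 := by
    intro h
    have := congrArg Complex.im h
    simp at this
  have h2 : ((-(1 / x) : ℝ) : ℂ) + Complex.I ≠ 0 := by
    intro h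
    have := congrArg Complex.im h
    simp at this
  simp only [mb, Complex.conj_I, sub_neg_eq_add, one_mul]
  have e : -(((x : ℂ) - Complex.I) / ((x : ℂ) + Complex.I)) =
      -((x : ℂ) - Complex.I) / ((x : ℂ) + Complex.I) := by ring
  rw [e, div_eq_div_iff h2 h1]
  push_cast
  have h6 : Complex.I * Complex.I = -1 := Complex.I_mul_I
  field_simp
  linear_combination (-2 * (x : ℂ)) * h6

theorem mb_zero : mb 1 Complex.I 0 = -1 := by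
  simp [mb]

/-- A uniform modulus of continuity. -/
theorem modI {X κ : ℝ} (hX0 : 0 < X) (hκ : 0 < κ) :
    ∃ η > 0, η ≤ 1 / (4 * X) ∧ η ≤ 1 / 2 ∧ ∀ y₀ y₁ τ Z : ℝ, X / 2 ≤ Z → Z ≤ 2 * X →
      |y₀ - 1 / X| ≤ η → |y₁ - 1 / Z| ≤ η → |τ - 1| ≤ η →
      |τ * (y₀ / y₁) - Z / X| ≤ κ := by
  set f : ℝ × ℝ × ℝ → ℝ := fun x => x.2.2 * (x.1 / x.2.1) with hf
  set K : Set (ℝ × ℝ × ℝ) := Icc (1 / (4 * X)) (3 / X) ×ˢ Icc (1 / (4 * X)) (3 / X) ×ˢ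
    Icc (1 / 2) 2 with hK
  have hKc : IsCompact K := isCompact_Icc.prod (isCompact_Icc.prod isCompact_Icc)
  have hX4 : 0 < 1 / (4 * X) := by positivity
  have hfc : ContinuousOn f K := by
    rintro ⟨a, b, c⟩ ⟨⟨ha, ha'⟩, ⟨hb, hb'⟩, hc⟩
    simp only at ha ha' hb hb'
    have h1 : b ≠ 0 := by linarith
    refine ContinuousAt.continuousWithinAt ?_
    simp only [hf]
    refine ContinuousAt.mul (by fun_prop) (ContinuousAt.div (by fun_prop) (by fun_prop) ?_)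
    exact h1
  obtain ⟨η, hη, hη'⟩ := Metric.uniformContinuousOn_iff.1
    (hKc.uniformContinuousOn_of_continuous hfc) κ hκ
  set η₁ : ℝ := min (η / 2) (min (1 / (4 * X)) (1 / 2)) with hη₁
  have l1 : η₁ ≤ η / 2 := min_le_left _ _
  have l2 : η₁ ≤ 1 / (4 * X) := (min_le_right _ _).trans (min_le_left _ _)
  have l3 : η₁ ≤ 1 / 2 := (min_le_right _ _).trans (min_le_right _ _)
  refine ⟨η₁, by positivity, l2, l3, ?_⟩
  intro y₀ y₁ τ Z hZ1 hZ2 e1 e2 e3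
  have hZ0 : 0 < Z := by linarith
  have a1 := abs_le.1 e1
  have a2 := abs_le.1 e2
  have a3 := abs_le.1 e3
  have p1 : 1 / X = 4 * (1 / (4 * X)) := by field_simp
  have p2 : 1 / (2 * X) = 2 * (1 / (4 * X)) := by field_simp; norm_num
  have p3 : 3 / X = 12 * (1 / (4 * X)) := by field_simp; norm_num
  have p4 : 1 / (2 * X) ≤ 1 / Z := one_div_le_one_div_of_le hZ0 hZ2
  have p5 : 1 / Z ≤ 2 / X := by
    rw [div_le_div_iff₀ hZ0 hX0]; linarith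
  have p6 : 2 / X = 8 * (1 / (4 * X)) := by field_simp; norm_num
  have m1 : ((y₀, y₁, τ) : ℝ × ℝ × ℝ) ∈ K :=
    ⟨⟨by linarith, by linarith⟩, ⟨by linarith, by linarith⟩, ⟨by linarith, by linarith⟩⟩
  have m2 : ((1 / X, 1 / Z, 1) : ℝ × ℝ × ℝ) ∈ K :=
    ⟨⟨by linarith, by linarith⟩, ⟨by linarith, by linarith⟩, ⟨by norm_num, by norm_num⟩⟩
  have hd : dist ((y₀, y₁, τ) : ℝ × ℝ × ℝ) (1 / X, 1 / Z, 1) < η := by
    refine lt_of_le_of_lt ?_ (by linarith : η / 2 < η)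
    simp only [Prod.dist_eq, Real.dist_eq, max_le_iff]
    exact ⟨e1.trans l1, e2.trans l1, e3.trans l1⟩
  have h := hη' _ m1 _ m2 hd
  simp only [hf, Real.dist_eq] at h
  have e : 1 * (1 / X / (1 / Z)) = Z / X := by field_simp
  rw [e] at h
  exact h.le

/-- **The comparison theorem with a flat mark at the target.** -/
theorem glueI {T R X Y Z Rd cd κ : ℝ} (hT : 0 ≤ T) (hR : 0 ≤ R) (hRd : 0 < Rd) (hcd : 0 < cd)
    (hX0 : 0 < X) (hX : 8 * R ≤ X) (hX2 : 64 * T ≤ X ^ 2) (hY0 : 0 < Y)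
    (hY : 8 * R ≤ Y) (hY2 : 64 * T ≤ Y ^ 2) (hZ : 0 < Z) (hκ : 0 < κ) :
    ∃ h > 0, ∀ ψ : ℂ → ℂ, HConf Rd cd Y ψ → ∀ (W : ℝ → ℝ) (t : ℝ), Drv T R W t →
      ∀ (P₀ P₁ E₀ E₁ : Set ℂ) (a₀ c₀ a₁ c₁ b : ℂ),
      PD h ψ (fun _ => 0) 0 Y P₀ a₀ b → PD h ψ W t Y P₁ a₁ b →
      (∀ C : Set ℂ, IsPreconnected C → C ⊆ E₀ → (C ∩ P₀).Nonempty → C ⊆ P₀) →
      (∀ C : Set ℂ, IsPreconnected C → C ⊆ E₁ → (C ∩ P₁).Nonempty → C ⊆ P₁) →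
      (∀ z : ℂ, Z ≤ ‖z‖ → 0 < z.im → ψ z ∈ P₀ → ψ z ∈ E₁) →
      (∀ z : ℂ, Z ≤ ‖z‖ → 0 < z.im → ψ z ∈ P₁ → ψ z ∈ E₀) →
      c₀ ∈ frontier P₀ → c₀ ∈ closure (P₀ ∩ ψ '' {z | z ∈ HH ∧ ‖z - X‖ < h}) →
      c₁ ∈ frontier P₁ → c₁ ∈ closure (P₁ ∩ ψ '' {z | z ∈ HH ∧ ‖z - X‖ < h}) →
      ∀ K₀ K₁ : ℝ, KPos P₀ b a₀ c₀ K₀ → KPos P₁ b a₁ c₁ K₁ →
        |K₁ / K₀ - xT W t X / X| ≤ κ := by
  obtain ⟨η, hη, hηX, hη1, hmod⟩ := modI hX0 hκ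
  obtain ⟨c, hc, ρ₀, hρ₀, hside⟩ := side_of_PD (T := T) (R := R) hRd hcd hY0 hY hY2 hT hR
  obtain ⟨r, hr, hrI, h₂, hh₂, hagr⟩ := agrI (Rd := Rd) (cd := cd) hT hR hRd hcd hY0 hY hY2 hZ
  have hMX : (0 : ℝ) ≤ 2 / X := by positivity
  obtain ⟨ε₁, hε₁, himb⟩ := imb_close hMX hη
  obtain ⟨h₁, hh₁, hcm⟩ := cm2 (R := Rd) (c := c) (ρ₀ := ρ₀) (X := 0) (r := r)
    (M := 2 * r) (κ := min η (ε₁ / 2)) hRd hc hρ₀ hr (by rw [abs_zero]; linarith) (by positivity)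
  obtain ⟨h₄, hh₄, hS⟩ := hside h₁ hh₁
  refine ⟨min (min h₄ h₂) (min (ε₁ / 64) (X / 8)), by positivity, ?_⟩
  intro ψ hψ W t H P₀ P₁ E₀ E₁ a₀ c₀ a₁ c₁ b hP₀ hP₁ hcomp₀ hcomp₁ hE₁ hE₀ hc₀ hcm₀ hc₁ hcm₁
    K₀ K₁ hK₀ hK₁
  set h₅ : ℝ := min (min h₄ h₂) (min (ε₁ / 64) (X / 8)) with hh₅
  have hh₅0 : 0 < h₅ := by positivity
  have q4 : h₅ ≤ h₄ := (min_le_left _ _).trans (min_le_left _ _)
  have q2 : h₅ ≤ h₂ := (min_le_left _ _).trans (min_le_right _ _)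
  have qε : 32 * h₅ ≤ ε₁ / 2 := by
    have : h₅ ≤ ε₁ / 64 := (min_le_right _ _).trans (min_le_left _ _)
    linarith
  have qX : h₅ ≤ X / 8 := (min_le_right _ _).trans (min_le_right _ _)
  have H0 : Drv T R (fun _ => (0 : ℝ)) 0 :=
    ⟨continuous_const, le_rfl, hT, fun s _ => by rw [abs_zero]; exact hR⟩
  have S₀ := (hS ψ hψ _ _ H0 P₀ a₀ b (hP₀.mono hh₅0 q4)).rot'
  have S₁ := (hS ψ hψ _ _ H P₁ a₁ b (hP₁.mono hh₅0 q4)).rot'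
  obtain ⟨f1, f2, f3⟩ := xT_bd H hX0 hX hX2
  have hz0 : flow (fun _ => (0 : ℝ)) 0 X - ((fun _ => (0 : ℝ)) (0 : ℝ) : ℂ) = ((X : ℝ) : ℂ) := by
    obtain ⟨y, hy⟩ := exists_rsol (W := fun _ => (0 : ℝ)) (t := 0) (R := R) (b := X) le_rfl
      continuousOn_const (fun s _ => by rw [abs_zero]; exact hR) hX0.ne'
      (by rw [abs_of_pos hX0]; linarith) (by nlinarith)
    rw [flow_rsol le_rfl continuousOn_const hy, hy.1, Complex.ofReal_zero, sub_zero]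
  have hagr' := hagr ψ hψ W t H P₀ P₁ E₀ E₁ a₀ b a₁ b (hP₀.mono hh₅0 q2) (hP₁.mono hh₅0 q2)
    hcomp₀ hcomp₁ hE₁ hE₀
  have hMb : Mark (rot (FD ψ (fun _ => 0) 0)) P₀ b (mb 1 Complex.I ((0 : ℝ) : ℂ)) h₁ := by
    rw [Complex.ofReal_zero, mb_zero]
    exact S₀.mark_a
  have hXt0 : 0 < xT W t X := by linarith
  have hMc₀ : Mark (rot (FD ψ (fun _ => 0) 0)) P₀ c₀ (mb 1 Complex.I ((-(1 / X) : ℝ) : ℂ))
      (ε₁ / 2) := by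
    rw [mb_neg_inv' hX0.ne']
    exact (mark_near H0 hX0 hX hX2 hz0 qX qε hcm₀).rot'
  have hMc₁ : Mark (rot (FD ψ W t)) P₁ c₁ (mb 1 Complex.I ((-(1 / xT W t X) : ℝ) : ℂ))
      (ε₁ / 2) := by
    rw [mb_neg_inv' hXt0.ne']
    exact (mark_near H hX0 hX hX2 f1 qX qε hcm₁).rot'
  obtain ⟨φ₀, φ₁, hφ₀, hφ₁, hφ₀i, hφ₁i, hcl₀, hcl₁, x₀, x₁, s, Tr, hs, hx₀, hx₁, hTx, hTd, hTe, m1,
    m2, m3⟩ := hcm _ _ (gI W t) _ _ P₀ P₁ b a₀ b a₁ b S₀ S₁ (trans_rot H ψ hrI)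
      (fun z hz hz0 => hagr' z (by simpa using hz) hz0) hP₀.mem_p hMb
  have hreal : ∀ x : ℝ, (x : ℂ) ∈ {z : ℂ | 0 ≤ z.im} := fun x => by simp
  have i1 : x₀ = 0 := by
    have := hφ₀i (hreal x₀) (hreal 0) (by rw [hx₀, Complex.ofReal_zero, hφ₀.zero])
    exact_mod_cast this
  have i2 : x₁ = 0 := by
    have := hφ₁i (hreal x₁) (hreal 0) (by rw [hx₁, Complex.ofReal_zero, hφ₁.zero])
    exact_mod_cast this
  subst i1 i2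
  have hXX : 1 / X ≤ 2 / X := by gcongr; norm_num
  have hXtX : 1 / xT W t X ≤ 2 / X := by
    rw [div_le_div_iff₀ hXt0 hX0]; linarith
  obtain ⟨y₀, hy₀, hy₀'⟩ := mark_point (X := -(1 / X)) (M := 2 / X) (κ := η) (ε := ε₁)
    (h := ε₁ / 2) (by rw [abs_neg, abs_of_pos (by positivity)]; exact hXX) himb S₀.cls.conf hφ₀ hφ₀i
    (fun z hz => (hcl₀ z hz).trans (min_le_right _ _)) le_rfl S₀.good.isOpen hc₀ hMc₀
  obtain ⟨y₁, hy₁, hy₁'⟩ := mark_point (X := -(1 / xT W t X)) (M := 2 / X) (κ := η) (ε := ε₁)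
    (h := ε₁ / 2) (by rw [abs_neg, abs_of_pos (by positivity)]; exact hXtX) himb S₁.cls.conf hφ₁
    hφ₁i (fun z hz => (hcl₁ z hz).trans (min_le_right _ _)) le_rfl S₁.good.isOpen hc₁ hMc₁
  obtain ⟨α₀, D₀, k2, k3, k4, k6, k7⟩ := hK₀.transfer hP₀.good.nocut hφ₀
  obtain ⟨α₁, D₁, l2, l3, l4, l6, l7⟩ := hK₁.transfer hP₁.good.nocut hφ₁
  have j1 : -α₀ = y₀ := by exact_mod_cast hφ₀i (hreal (-α₀)) (hreal y₀) (k4.trans hy₀.symm)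
  have j2 : -α₁ = y₁ := by exact_mod_cast hφ₁i (hreal (-α₁)) (hreal y₁) (l4.trans hy₁.symm)
  rw [Complex.ofReal_zero] at hTx hTd hTe m3
  have hratio := ratio_eq (x₀ := 0) (x₁ := 0) hs (by simpa using hTd) (by simpa using hTx)
    (by simpa using hTe) (by simpa using k6) (by simpa using l6)
  rw [Complex.ofReal_zero] at hratio
  have hD0 : (D₀ : ℂ) ≠ 0 := by exact_mod_cast k3.ne'
  have hD1 : (D₁ : ℂ) ≠ 0 := by exact_mod_cast l3.ne'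
  have hτ : deriv Tr 0 = ((D₁ / D₀ : ℝ) : ℂ) := by
    push_cast at hratio ⊢
    field_simp at hratio
    field_simp
    linear_combination -hratio
  have hτ' : |D₁ / D₀ - 1| ≤ η := by
    rw [hτ, H.gI_deriv.deriv, ← Complex.ofReal_one, ← Complex.ofReal_sub, Complex.norm_real,
      Real.norm_eq_abs] at m3
    exact m3.trans (min_le_left _ _)
  have hfin := hmod α₀ α₁ (D₁ / D₀) (xT W t X) f2 f3
    (by rw [← j1] at hy₀'; rwa [← neg_add', abs_neg, ← sub_eq_add_neg] at hy₀')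
    (by rw [← j2] at hy₁'; rwa [← neg_add', abs_neg, ← sub_eq_add_neg] at hy₁') hτ'
  rw [k7, l7]
  have e1 : D₁ / α₁ / (D₀ / α₀) = D₁ / D₀ * (α₀ / α₁) := by field_simp
  rw [e1]
  exact hfin

/-- **The ratio of the observables of two polygons is close to `obsQ`** (flat mark at the
target). -/
theorem ratio_obsI {T R X Y Z Rd cd e ε : ℝ} (hT : 0 ≤ T) (hR : 0 ≤ R) (hRd : 0 < Rd)
    (hcd : 0 < cd) (hX0 : 0 < X) (hX : 8 * R ≤ X) (hX2 : 64 * T ≤ X ^ 2) (hY0 : 0 < Y)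
    (hY : 8 * R ≤ Y) (hY2 : 64 * T ≤ Y ^ 2) (hZ : 0 < Z) (hε : 0 < ε) :
    ∃ h > 0, ∀ ψ : ℂ → ℂ, HConf Rd cd Y ψ → ∀ (W : ℝ → ℝ) (t : ℝ), Drv T R W t →
      ∀ (P₀ P₁ E₀ E₁ : Set ℂ) (a₀ c₀ a₁ c₁ b : ℂ),
      PD h ψ (fun _ => 0) 0 Y P₀ a₀ b → PD h ψ W t Y P₁ a₁ b →
      (∀ C : Set ℂ, IsPreconnected C → C ⊆ E₀ → (C ∩ P₀).Nonempty → C ⊆ P₀) →
      (∀ C : Set ℂ, IsPreconnected C → C ⊆ E₁ → (C ∩ P₁).Nonempty → C ⊆ P₁) →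
      (∀ z : ℂ, Z ≤ ‖z‖ → 0 < z.im → ψ z ∈ P₀ → ψ z ∈ E₁) →
      (∀ z : ℂ, Z ≤ ‖z‖ → 0 < z.im → ψ z ∈ P₁ → ψ z ∈ E₀) →
      c₀ ∈ frontier P₀ → c₀ ∈ closure (P₀ ∩ ψ '' {z | z ∈ HH ∧ ‖z - X‖ < h}) →
      c₁ ∈ frontier P₁ → c₁ ∈ closure (P₁ ∩ ψ '' {z | z ∈ HH ∧ ‖z - X‖ < h}) →
      ∀ K₀ K₁ : ℝ, KPos P₀ b a₀ c₀ K₀ → KPos P₁ b a₁ c₁ K₁ →
        |(K₁ / K₀) ^ e - obsQ e W X t| ≤ ε := by
  obtain ⟨κ, hκ, hmod⟩ := modP e 0 hε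
  obtain ⟨h, hh, hgl⟩ := glueI (Y := Y) (Z := Z) (Rd := Rd) (cd := cd) hT hR hRd hcd hX0 hX hX2
    hY0 hY hY2 hZ hκ
  refine ⟨h, hh, ?_⟩
  intro ψ hψ W t H P₀ P₁ E₀ E₁ a₀ c₀ a₁ c₁ b hP₀ hP₁ hcomp₀ hcomp₁ hE₁ hE₀ hc₀ hcm₀ hc₁ hcm₁
    K₀ K₁ hK₀ hK₁
  have r1 := hgl ψ hψ W t H P₀ P₁ E₀ E₁ a₀ c₀ a₁ c₁ b hP₀ hP₁ hcomp₀ hcomp₁ hE₁ hE₀ hc₀ hcm₀ hc₁
    hcm₁ K₀ K₁ hK₀ hK₁
  obtain ⟨f1, f2, f3⟩ := xT_bd H hX0 hX hX2
  have hO : obsQ e W X t = (xT W t X / X) ^ e := by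
    obtain ⟨y, hy⟩ := exists_rsol H.nn H.cont.continuousOn H.bdd hX0.ne'
      (by rw [abs_of_pos hX0]; linarith) (by linarith [H.le])
    rw [obsQ_eq H.nn H.cont.continuousOn hy, xT, flow_rsol H.nn H.cont.continuousOn hy,
      ← Complex.ofReal_sub, Complex.ofReal_re]
  rw [hO]
  have h1 := hmod (K₁ / K₀) 1 (xT W t X / X) (by rw [le_div_iff₀ hX0]; linarith)
    (by rw [div_le_iff₀ hX0]; linarith) r1 (by rw [sub_self, abs_zero]; exact hκ.le)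
  rwa [Real.rpow_zero, mul_one] at h1

end Vale.Agent.P167.H756
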