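import Vale.Agent.P167.H756.S1

/-!
# P167, general `q`, sandwich closeness (11): the derivative of a typically real function

* `typ_deriv`, `typ_der` : the derivative at the centre is bounded from below by the value at one point.
-/

set_option autoImplicit false
set_option linter.unusedVariables false

open Set Topology Metric MeasureTheory Filter Bornology
open scoped ENNReal Real ComplexConjugate

namespace Vale.Agent.P167.H756

/-- The derivative at the centre of a function which is real on the real line and maps the upper half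
disc into the upper half-plane. -/
theorem typ_deriv {f : ℂ → ℂ} (hd : DifferentiableOn ℂ f (ball 0 2)) (h0 : f 0 = 0)
    (hs : ∀ z ∈ ball (0 : ℂ) 2, f (conj z) = conj (f z))
    (hp : ∀ z ∈ ball (0 : ℂ) 2, 0 < z.im → 0 < (f z).im) :
    5 / 6 * (f (Complex.I / 2)).im ≤ (deriv f 0).re := by
  have hreal : ∀ z ∈ ball (0 : ℂ) 2, z.im = 0 → (f z).im = 0 := by
    intro z hz hz0
    have h1 := hs z hz
    rw [Complex.conj_eq_iff_im.2 hz0] at h1
    exact Complex.conj_eq_iff_im.1 h1.symm
  have hb : ball (0 : ℂ) 2 ∈ 𝓝 (0 : ℂ) := isOpen_ball.mem_nhds (mem_ball_self (by norm_num))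
  have hsl : DifferentiableOn ℂ (dslope f 0) (ball 0 2) :=
    (Complex.differentiableOn_dslope hb).2 hd
  set p : ℂ → ℂ := fun z => dslope f 0 z * (1 - z ^ 2) with hpd
  have hpdf : DifferentiableOn ℂ p (ball 0 2) := hsl.mul (by fun_prop)
  have hcl : closedBall (0 : ℂ) 1 ⊆ ball 0 2 := closedBall_subset_ball (by norm_num)
  have hpval : ∀ z : ℂ, z ≠ 0 → p z = f z / z * (1 - z ^ 2) := by
    intro z hz
    rw [hpd]
    simp only
    rw [dslope_of_ne _ hz, slope_def_field, h0, sub_zero, sub_zero]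
  have hsph : ∀ z ∈ sphere (0 : ℂ) 1, 0 ≤ (p z).re := by
    intro z hz
    have hz1 : ‖z‖ = 1 := mem_sphere_zero_iff_norm.1 hz
    have hz0 : z ≠ 0 := by rintro rfl; simp at hz1
    have hz2 : z ∈ ball (0 : ℂ) 2 := hcl (sphere_subset_closedBall hz)
    have hzz : z * conj z = 1 := by
      rw [Complex.mul_conj, Complex.normSq_eq_norm_sq, hz1]; simp
    have e : p z = f z * (conj z - z) := by
      rw [hpval z hz0]
      field_simp
      linear_combination (-f z) * hzz
    rw [e]
    have e2 : conj z - z = ((-2 * z.im : ℝ) : ℂ) * Complex.I := by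
      apply Complex.ext
      · simp
      · simp; ring
    rw [e2]
    have e3 : (f z * (((-2 * z.im : ℝ) : ℂ) * Complex.I)).re = 2 * z.im * (f z).im := by
      simp [Complex.mul_re, Complex.mul_im]
      ring
    rw [e3]
    rcases lt_trichotomy z.im 0 with h | h | h
    · have h1 : 0 < (conj z).im := by rw [Complex.conj_im]; linarith
      have h2 : conj z ∈ ball (0 : ℂ) 2 := by
        rw [mem_ball_zero_iff] at hz2 ⊢
        rwa [RCLike.norm_conj]
      have h3 := hp _ h2 h1
      rw [hs z hz2, Complex.conj_im] at h3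
      nlinarith
    · rw [h]; simp
    · have := hp z hz2 h
      positivity
  have hball : ∀ z ∈ closedBall (0 : ℂ) 1, 0 ≤ (p z).re := by
    intro z hz
    have hdc : DiffContOnCl ℂ (fun z => Complex.exp (-p z)) (ball 0 1) := by
      have h1 : DifferentiableOn ℂ (fun z => Complex.exp (-p z)) (ball 0 2) := hpdf.neg.cexp
      exact (h1.mono hcl).diffContOnCl_ball Subset.rfl
    have h2 := Complex.norm_le_of_forall_mem_frontier_norm_le (C := 1) isBounded_ball hdc (by
      intro w hw
      rw [frontier_ball _ one_ne_zero] at hw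
      rw [Complex.norm_exp, Complex.neg_re]
      exact Real.exp_le_one_iff.2 (by linarith [hsph w hw])) (z := z) (by
        rw [closure_ball _ one_ne_zero]; exact hz)
    rw [Complex.norm_exp, Complex.neg_re, Real.exp_le_one_iff] at h2
    linarith
  have hp0i : (p 0).im = 0 := by
    rw [hpd]
    simp only [dslope_same, ne_eq, OfNat.ofNat_ne_zero, not_false_eq_true, zero_pow, sub_zero,
      mul_one]
    -- the derivative at `0` is real
    have h1 : HasDerivAt f (deriv f 0) 0 := (hd.differentiableAt hb).hasDerivAt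
    have h2 : HasDerivAt (fun z => conj (f (conj z))) (conj (deriv f 0)) 0 := by
      have := h1.conj_conj
      rw [map_zero] at this
      exact this
    have h3 : (fun z => conj (f (conj z))) =ᶠ[𝓝 0] f := by
      filter_upwards [hb] with z hz
      have h4 : conj z ∈ ball (0 : ℂ) 2 := by
        rw [mem_ball_zero_iff] at hz ⊢
        rwa [RCLike.norm_conj]
      rw [← hs _ h4, Complex.conj_conj]
    have h5 := h2.congr_of_eventuallyEq h3.symm
    exact Complex.conj_eq_iff_im.1 (h5.unique h1)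
  set c : ℝ := (p 0).re with hc
  have hc0 : 0 ≤ c := hball 0 (mem_closedBall_self zero_le_one)
  have hp0 : p 0 = c := Complex.ext (by simp [hc]) (by simp [hp0i])
  have hsub1 : ball (0 : ℂ) 1 ⊆ ball 0 2 := ball_subset_ball (by norm_num)
  have hkey : ∀ ε : ℝ, 0 < ε → ∀ z ∈ ball (0 : ℂ) 1, ‖p z + (ε : ℂ)‖ ≤ (c + ε) * (1 + ‖z‖) / (1 - ‖z‖) ∧
      (c + ε) * (1 - ‖z‖) / (1 + ‖z‖) ≤ (p z).re + ε := by
    intro ε hε z hz
    have h1 := harnackRe (p := fun z => p z + (ε : ℝ)) (c := c + ε)
      ((hpdf.mono hsub1).add_const _) (by linarith) (by rw [hp0]; push_cast; ring)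
      (fun w hw => by
        rw [Complex.add_re, Complex.ofReal_re]
        linarith [hball w (ball_subset_closedBall hw)]) z hz
    simpa [Complex.add_re] using h1
  have hI : Complex.I / 2 ∈ ball (0 : ℂ) 1 := by
    rw [mem_ball_zero_iff, norm_div, Complex.norm_I]; norm_num
  have hIn : ‖Complex.I / 2‖ = 1 / 2 := by rw [norm_div, Complex.norm_I]; norm_num
  have hI0 : Complex.I / 2 ≠ 0 := by simp
  have hpI : (p (Complex.I / 2)).re = 5 / 2 * (f (Complex.I / 2)).im := by
    rw [hpval _ hI0]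
    have e : f (Complex.I / 2) / (Complex.I / 2) * (1 - (Complex.I / 2) ^ 2) =
        f (Complex.I / 2) * ((-(5 / 2) : ℝ) * Complex.I) := by
      have h1 : (1 - (Complex.I / 2) ^ 2 : ℂ) = 5 / 4 := by
        rw [div_pow, Complex.I_sq]; norm_num
      rw [h1]
      have hI' : Complex.I ≠ 0 := Complex.I_ne_zero
      field_simp
      push_cast
      linear_combination (10 * f (Complex.I / 2)) * Complex.I_sq
    rw [e]
    simp [Complex.mul_re, Complex.mul_im]
    ring
  have hcd : c = (deriv f 0).re := by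
    rw [hc, hpd]
    simp [dslope_same]
  have hfin : (p (Complex.I / 2)).re ≤ 3 * c := by
    refine le_of_forall_pos_le_add fun ε hε => ?_
    have h1 := (hkey (ε / 4) (by positivity) _ hI).1
    rw [hIn] at h1
    norm_num at h1
    have h3 : ‖p (Complex.I / 2)‖ ≤ ‖p (Complex.I / 2) + (ε / 4 : ℝ)‖ + ε / 4 := by
      have e : p (Complex.I / 2) = (p (Complex.I / 2) + (ε / 4 : ℝ)) - (ε / 4 : ℝ) := by ring
      calc ‖p (Complex.I / 2)‖ = ‖(p (Complex.I / 2) + (ε / 4 : ℝ)) - ((ε / 4 : ℝ) : ℂ)‖ := by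
            rw [← e]
        _ ≤ ‖p (Complex.I / 2) + (ε / 4 : ℝ)‖ + ‖((ε / 4 : ℝ) : ℂ)‖ := norm_sub_le _ _
        _ = _ := by rw [Complex.norm_real, Real.norm_of_nonneg (by positivity)]
    have h4 := Complex.re_le_norm (p (Complex.I / 2))
    push_cast at h3
    linarith
  rw [hpI] at hfin
  rw [← hcd]
  linarith

/-- `typ_deriv` in a disc with centre `x` on the real line. -/
theorem typ_der {f : ℂ → ℂ} {x ρ : ℝ} (hρ : 0 < ρ) (hd : DifferentiableOn ℂ f (ball (x : ℂ) ρ))
    (hs : ∀ z ∈ ball (x : ℂ) ρ, f (conj z) = conj (f z))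
    (hp : ∀ z ∈ ball (x : ℂ) ρ, 0 < z.im → 0 < (f z).im) :
    5 / 6 * (f (x + (ρ / 4 : ℝ) * Complex.I)).im ≤ ρ / 2 * (deriv f x).re := by
  have hmap : ∀ z ∈ ball (0 : ℂ) 2, (x : ℂ) + (ρ / 2 : ℝ) * z ∈ ball (x : ℂ) ρ := by
    intro z hz
    rw [mem_ball_zero_iff] at hz
    rw [mem_ball, dist_eq_norm, add_sub_cancel_left, norm_mul, Complex.norm_real,
      Real.norm_of_nonneg (by positivity)]
    nlinarith
  have hfx : (f x).im = 0 := by
    have h1 := hs x (mem_ball_self hρ)
    rw [Complex.conj_ofReal] at h1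
    exact Complex.conj_eq_iff_im.1 h1.symm
  have h := typ_deriv (f := fun z => f (x + (ρ / 2 : ℝ) * z) - f x) ?_ (by simp) ?_ ?_
  · have e2 : ((ρ / 2 : ℝ) : ℂ) * (Complex.I / 2) = (ρ / 4 : ℝ) * Complex.I := by
      push_cast; ring
    have h1 : HasDerivAt (fun z : ℂ => (x : ℂ) + (ρ / 2 : ℝ) * z) ((ρ / 2 : ℝ) : ℂ) 0 := by
      simpa using ((hasDerivAt_id (0 : ℂ)).const_mul ((ρ / 2 : ℝ) : ℂ)).const_add (x : ℂ)
    have h2 : HasDerivAt f (deriv f x) ((x : ℂ) + (ρ / 2 : ℝ) * 0) := by
      rw [mul_zero, add_zero]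
      exact (hd.differentiableAt (isOpen_ball.mem_nhds (mem_ball_self hρ))).hasDerivAt
    have h3 : HasDerivAt (fun z : ℂ => f ((x : ℂ) + (ρ / 2 : ℝ) * z) - f x)
        (deriv f x * ((ρ / 2 : ℝ) : ℂ)) 0 := (h2.comp (0 : ℂ) h1).sub_const _
    simp only [e2, Complex.sub_im, hfx, sub_zero] at h
    rw [h3.deriv, Complex.re_mul_ofReal] at h
    linarith
  · refine DifferentiableOn.sub_const ?_ _
    exact hd.comp (by fun_prop) hmap
  · intro z hz
    simp only [map_sub]
    rw [← hs _ (hmap z hz), map_add, map_mul, Complex.conj_ofReal, Complex.conj_ofReal,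
      (Complex.conj_eq_iff_im.2 hfx)]
  · intro z hz hz0
    simp only [Complex.sub_im, hfx, sub_zero]
    refine hp _ (hmap z hz) ?_
    rw [Complex.add_im, Complex.ofReal_im, zero_add, Complex.im_ofReal_mul]
    positivity

end Vale.Agent.P167.H756
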