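import Vale.Agent.P167.H756.S10

/-!
# P167, general `q`, sandwich closeness (12): the side of the domain in the disc

`CollarC F Q h` : the boundary points of `F⁻¹ Q` are joined to the circle by small sets in the
complement of `F⁻¹ Q`. `halfplaneC` : as `halfplaneO`, with this condition.
-/

set_option autoImplicit false
set_option linter.unusedVariables false

open Set Topology Metric MeasureTheory Filter Bornology
open scoped ENNReal Real ComplexConjugate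

namespace Vale.Agent.P167.H756

open Vale.Agent.P153.R2.R1 Vale.Agent.P153.R2.OBSV Vale.Agent.P167.H174
open Vale.Agent.P153.R2.L1 (HH IsHydro inv mem_HH isOpen_HH convex_HH)
open Vale.Agent.P164 (loewnerDomain gf Zf IsLoewnerSol)
open Vale.Agent.P167.H947 (surv flow flow_eq flow_conj flow_inj flow_gf surv_inter isOpen_surv
  differentiableOn_flow hasDerivAt_flow_real flow_rsol)

/-- The boundary points of `F⁻¹ Q` are joined to the circle by small sets in the complement of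
`F⁻¹ Q`. -/
def CollarC (F : ℂ → ℂ) (Q : Set ℂ) (h : ℝ) : Prop :=
  ∀ p ∈ frontier (dinv F '' Q), ∃ E : Set ℂ, IsPreconnected E ∧ p ∈ E ∧
    Disjoint E (dinv F '' Q) ∧ E ⊆ closedBall p h ∧ ∃ u ∈ E, ‖u‖ = 1

theorem CollarC.mono {F : ℂ → ℂ} {Q : Set ℂ} {h h' : ℝ} (H : CollarC F Q h) (hh : h ≤ h') :
    CollarC F Q h' := by
  intro p hp
  obtain ⟨E, h1, h2, h3, h4, h5⟩ := H p hp
  exact ⟨E, h1, h2, h3, h4.trans (closedBall_subset_closedBall hh), h5⟩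

/-- **Theorem A with the conditions in the disc.** -/
theorem closenessC {ε : ℝ} (hε : 0 < ε) :
    ∃ κ > 0, ∀ F : ℂ → ℂ, Conf F (F '' ball 0 1) → ∀ (P : Set ℂ) (Φ : ℂ → ℂ),
      Conf Φ P → P ⊆ F '' ball 0 1 → ball (0 : ℂ) (1 - κ) ⊆ dinv F '' P → CollarC F P κ →
      Φ 0 = F 0 → (∃ s : ℝ, 0 ≤ s ∧ deriv Φ 0 = s * deriv F 0) →
      ∀ z ∈ ball (0 : ℂ) 1, ‖dinv F (Φ z) - z‖ ≤ ε := by
  obtain ⟨κ, hκ, hclose⟩ := close_of_collar hε
  refine ⟨κ, hκ, fun F hconf P Φ hΦ hPD hin hcl h0 hs z hz => ?_⟩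
  set Q : Set ℂ := dinv F '' P with hQ
  have hQ1 : Q ⊆ ball 0 1 := by
    rintro _ ⟨x, hx, rfl⟩
    exact hconf.dinv_mem (hPD hx)
  have z0 : (0 : ℂ) ∈ ball (0 : ℂ) 1 := mem_ball_self one_pos
  have hG : Conf (fun z => dinv F (Φ z)) Q := by
    refine ⟨?_, ?_, ?_⟩
    · exact hconf.dinv_differentiableOn.comp hΦ.diff fun w hw => hPD (hΦ.mem hw)
    · intro w hw w' hw' e
      have h1 : F (dinv F (Φ w)) = F (dinv F (Φ w')) := congrArg F e
      rw [hconf.apply_dinv (hPD (hΦ.mem hw)), hconf.apply_dinv (hPD (hΦ.mem hw'))] at h1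
      exact hΦ.inj hw hw' h1
    · rw [hQ, ← hΦ.img, image_image]
  have hG0 : dinv F (Φ 0) = 0 := by rw [h0]; exact hconf.dinv_apply z0
  have hGd : ∃ s : ℝ, 0 ≤ s ∧ deriv (fun z => dinv F (Φ z)) 0 = s := by
    obtain ⟨s, hs0, hs⟩ := hs
    refine ⟨s, hs0, ?_⟩
    have hne := hconf.deriv_ne z0
    have hΦd : HasDerivAt Φ (deriv Φ 0) 0 :=
      (hΦ.diff.differentiableAt (isOpen_ball.mem_nhds z0)).hasDerivAt
    have hid : HasDerivAt (dinv F) (deriv F 0)⁻¹ (F 0) := by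
      have h1 := hconf.dinv_hasDerivAt z0 hne
      exact h1
    rw [← h0] at hid
    have := hid.comp 0 hΦd
    have e := this.deriv
    rw [hs] at e
    have e2 : deriv (fun z => dinv F (Φ z)) 0 = (deriv F 0)⁻¹ * (s * deriv F 0) := e
    rw [e2]
    field_simp
  exact hclose _ Q hG hQ1 hG0 hGd hin hcl z hz

variable {R c : ℝ}

/-- **Two domains with a common inner polygon.** -/
theorem outer_discC (hR : 0 < R) (hc : 0 < c) {ρ₀ : ℝ} (hρ₀ : ρ₀ < 1) :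
    ∃ c' > 0, ∀ ε > 0, ∃ h > 0, ∀ F : ℂ → ℂ, Cls R c F → ∀ w₀ ∈ closedBall (0 : ℂ) ρ₀,
      ∀ Q Ω : Set ℂ, Good Q → Good Ω → Q ⊆ F '' ball 0 1 → ball (0 : ℂ) (1 - h) ⊆ dinv F '' Q →
      CollarC F Q h → Q ⊆ Ω → (∀ z ∈ Ω, ‖z - F 0‖ ≤ R) → Inner Ω Q (F w₀) h →
      Collar Ω Q h →
      ∃ G : ℂ → ℂ, CConf G Ω ∧ Cls R c' G ∧ ∀ x ∈ Q, ‖dinv G x - dinv F x‖ ≤ ε := by
  obtain ⟨c', hc', hsb⟩ := Cls.small_ball (R := R) (c := c) hR hc (ρ := 1 / 2) (by norm_num)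
    (by norm_num)
  refine ⟨c', hc', fun ε hε => ?_⟩
  set ρm : ℝ := max ρ₀ 0 with hρm
  have hρm0 : 0 ≤ ρm := le_max_right _ _
  have hρm1 : ρm < 1 := max_lt hρ₀ one_pos
  set ρ₁ : ℝ := max ((1 + ρm) / 2) (1 / 2) with hρ₁
  have hρ₁1 : ρ₁ < 1 := max_lt (by linarith) (by norm_num)
  have hρ₁m : ρm < ρ₁ := lt_of_lt_of_le (by linarith) (le_max_left _ _)
  have hρ₁0 : 0 < ρ₁ := by linarith
  have hρ₁h : 1 / 2 ≤ ρ₁ := le_max_right _ _
  set ρ₂ : ℝ := ρm / ρ₁ with hρ₂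
  have hρ₂1 : ρ₂ < 1 := (div_lt_one hρ₁0).2 hρ₁m
  obtain ⟨h₁, hh₁, hcl₁⟩ := closenessC (half_pos hε)
  obtain ⟨h₂, hh₂, hcl₂⟩ := closeness (R := R) (c := c') hR hc' hρ₂1 (half_pos hε)
  obtain ⟨h₃, hh₃, hins⟩ : ∃ h₃ > 0, h₃ < 1 - ρ₁ := ⟨(1 - ρ₁) / 2, by linarith, by linarith⟩
  refine ⟨min h₁ (min h₂ h₃), by positivity, ?_⟩
  intro F hF w₀ hw₀ Q Ω hQ hΩ hQD hinD hcolD hQΩ hbd hinΩ hcolΩ
  have z0 : (0 : ℂ) ∈ ball (0 : ℂ) 1 := mem_ball_self one_pos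
  have hconf := hF.conf
  have hl1 : min h₁ (min h₂ h₃) ≤ h₁ := min_le_left _ _
  have hl2 : min h₁ (min h₂ h₃) ≤ h₂ := (min_le_right _ _).trans (min_le_left _ _)
  have hl3 : min h₁ (min h₂ h₃) ≤ h₃ := (min_le_right _ _).trans (min_le_right _ _)
  have hw₀m : w₀ ∈ closedBall (0 : ℂ) ρm := closedBall_subset_closedBall (le_max_left _ _) hw₀
  have hcont : F '' closedBall 0 ρ₁ ⊆ Q := by
    rintro _ ⟨w, hw, rfl⟩
    have hw1 : w ∈ ball (0 : ℂ) (1 - min h₁ (min h₂ h₃)) := by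
      rw [mem_closedBall_zero_iff] at hw
      rw [mem_ball_zero_iff]
      linarith
    obtain ⟨x, hx, hxw⟩ := hinD hw1
    rw [← hxw, hconf.apply_dinv (hQD hx)]
    exact hx
  have hF0Q : F 0 ∈ Q := hcont (mem_image_of_mem _ (mem_closedBall_self hρ₁0.le))
  obtain ⟨Φ, hΦ, hΦ0, s, hs0, hs⟩ := exists_norm hQ hconf hF0Q
  obtain ⟨G, hG, hG0, s', hs'0, hs'⟩ := exists_norm hΩ hconf (hQΩ hF0Q)
  have hGcls : Cls R c' G := by
    refine ⟨hG.diff, hG.inj, fun w hw => ?_, ?_⟩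
    · rw [hG0]; exact hbd _ (hG.toConf.mem hw)
    · rw [hG0, hG.img]
      refine (hsb F hF).trans ((image_mono ?_).trans (hcont.trans hQΩ))
      exact ball_subset_closedBall.trans (closedBall_subset_closedBall hρ₁h)
  -- the base point in the coordinates of `G`
  have hw₀' : dinv G (F w₀) ∈ closedBall (0 : ℂ) ρ₂ := by
    set k : ℂ → ℂ := fun z => dinv G (F (ρ₁ * z)) with hk
    have hmul : ∀ z ∈ ball (0 : ℂ) 1, (ρ₁ : ℂ) * z ∈ closedBall (0 : ℂ) ρ₁ := by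
      intro z hz
      rw [mem_ball_zero_iff] at hz
      rw [mem_closedBall_zero_iff, norm_mul, Complex.norm_real, Real.norm_of_nonneg hρ₁0.le]
      nlinarith
    have hkd : DifferentiableOn ℂ k (ball 0 1) := by
      refine hG.toConf.dinv_differentiableOn.comp (hF.diff.comp (by fun_prop) ?_) ?_
      · exact fun z hz => closedBall_subset_ball hρ₁1 (hmul z hz)
      · exact fun z hz => hQΩ (hcont (mem_image_of_mem _ (hmul z hz)))
    have hk0 : k 0 = 0 := by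
      rw [hk]
      simp only [mul_zero]
      rw [← hG0]
      exact hG.toConf.dinv_apply z0
    have hkm : MapsTo k (ball 0 1) (closedBall 0 1) := fun z hz =>
      ball_subset_closedBall (hG.toConf.dinv_mem (hQΩ (hcont (mem_image_of_mem _ (hmul z hz)))))
    have hρ₁c : (ρ₁ : ℂ) ≠ 0 := by exact_mod_cast hρ₁0.ne'
    have hz1 : ‖w₀ / ρ₁‖ < 1 := by
      rw [norm_div, Complex.norm_real, Real.norm_of_nonneg hρ₁0.le, div_lt_one hρ₁0]
      rw [mem_closedBall_zero_iff] at hw₀m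
      linarith
    have h1 := Complex.norm_le_norm_of_mapsTo_ball hkd hkm hk0 hz1
    rw [hk] at h1
    simp only at h1
    rw [mul_div_cancel₀ _ hρ₁c] at h1
    rw [mem_closedBall_zero_iff]
    refine h1.trans ?_
    rw [norm_div, Complex.norm_real, Real.norm_of_nonneg hρ₁0.le, hρ₂]
    rw [mem_closedBall_zero_iff] at hw₀m
    gcongr
  have hFw : G (dinv G (F w₀)) = F w₀ :=
    hG.toConf.apply_dinv (hQΩ (hcont (mem_image_of_mem _
      (closedBall_subset_closedBall hρ₁m.le hw₀m))))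
  have himg : G '' ball 0 1 = Ω := hG.img
  have c1 := hcl₁ F hconf Q Φ hΦ.toConf hQD
    ((ball_subset_ball (by linarith)).trans hinD) (hcolD.mono hl1) hΦ0 ⟨s, hs0, hs⟩
  have hns : s' ≠ 0 := by
    rintro rfl
    rw [Complex.ofReal_zero, zero_mul] at hs'
    exact hG.toConf.deriv_ne z0 hs'
  have c2 := hcl₂ G hGcls (dinv G (F w₀)) hw₀' Q Φ hΦ.toConf (by rw [himg]; exact hQΩ)
    (by rw [himg, hFw]; exact hinΩ.mono hl2) (by rw [himg]; exact hcolΩ.mono hl2)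
    (by rw [hΦ0, hG0]) ⟨s / s', by positivity, by
      rw [hs, hs']
      have : (s' : ℂ) ≠ 0 := by exact_mod_cast hns
      push_cast
      field_simp⟩
  refine ⟨G, hG, hGcls, fun x hx => ?_⟩
  obtain ⟨z, hz, rfl⟩ : x ∈ Φ '' ball 0 1 := by rw [hΦ.img]; exact hx
  have e1 := c1 z hz
  have e2 := c2 z hz
  calc ‖dinv G (Φ z) - dinv F (Φ z)‖ = ‖(dinv G (Φ z) - z) - (dinv F (Φ z) - z)‖ := by
        congr 1; ring
    _ ≤ ‖dinv G (Φ z) - z‖ + ‖dinv F (Φ z) - z‖ := norm_sub_le _ _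
    _ ≤ ε := by linarith

/-- A polygon `Ω` with two marked points and a common inner polygon `Q` with the domain
`F (disc)`, marked at the images of `-1` and `1`. -/
structure SideC (R c ρ₀ h : ℝ) (F : ℂ → ℂ) (w₀ : ℂ) (Q Ω : Set ℂ) (a p : ℂ) : Prop where
  cls : Cls R c F
  base : w₀ ∈ closedBall (0 : ℂ) ρ₀
  goodQ : Good Q
  good : Good Ω
  subD : Q ⊆ F '' ball 0 1
  innerD : ball (0 : ℂ) (1 - h) ⊆ dinv F '' Q
  collarD : CollarC F Q h
  subO : Q ⊆ Ω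
  bdd : ∀ z ∈ Ω, ‖z - F 0‖ ≤ R
  innerO : Inner Ω Q (F w₀) h
  collarO : Collar Ω Q h
  mem_a : a ∈ frontier Ω
  mem_p : p ∈ frontier Ω
  mark_a : MarkO F Q Ω a (-1) h
  mark_p : MarkO F Q Ω p 1 h

theorem SideC.mono {R c ρ₀ h h' : ℝ} {F : ℂ → ℂ} {w₀ : ℂ} {Q Ω : Set ℂ} {a p : ℂ}
    (H : SideC R c ρ₀ h F w₀ Q Ω a p) (hh : h ≤ h') : SideC R c ρ₀ h' F w₀ Q Ω a p :=
  { H with
    innerD := (ball_subset_ball (by linarith)).trans H.innerD
    collarD := H.collarD.mono hh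
    innerO := H.innerO.mono hh
    collarO := H.collarO.mono hh
    mark_a := H.mark_a.mono hh
    mark_p := H.mark_p.mono hh }

/-- **Theorem A in the half-plane for a polygon with a common inner polygon.** -/
theorem halfplaneC (hR : 0 < R) (hc : 0 < c) {ρ₀ : ℝ} (hρ₀ : ρ₀ < 1) {ε : ℝ} (hε : 0 < ε) :
    ∃ h > 0, ∀ (F : ℂ → ℂ) (w₀ : ℂ) (Q Ω : Set ℂ) (a p : ℂ), SideC R c ρ₀ h F w₀ Q Ω a p →
      ∃ ψ : ℂ → ℂ, IsU ψ Ω a p ∧ InjOn ψ {z | 0 ≤ z.im} ∧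
        ∀ z : ℂ, 0 < z.im → ψ z ∈ Q → ‖dinv F (ψ z) - mb 1 Complex.I z‖ ≤ ε := by
  obtain ⟨c', hc', hod⟩ := outer_discC (R := R) (c := c) hR hc hρ₀
  obtain ⟨δ, hδ, hmb⟩ := mb_close (half_pos hε)
  obtain ⟨η, hη, hsmall⟩ := Cls.small (R := R) (c := c') hR hc' (ε := δ / 4) (by positivity)
  set ε₁ : ℝ := min (ε / 2) (min (δ / 4) (η / 2)) with hε₁
  have hε₁0 : 0 < ε₁ := by positivity
  have hε₁a : ε₁ ≤ ε / 2 := min_le_left _ _
  have hε₁b : ε₁ ≤ δ / 4 := (min_le_right _ _).trans (min_le_left _ _)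
  have hε₁c : ε₁ ≤ η / 2 := (min_le_right _ _).trans (min_le_right _ _)
  obtain ⟨h₁, hh₁, hod⟩ := hod ε₁ hε₁0
  refine ⟨min h₁ (min (δ / 8) (η / 4)), by positivity, ?_⟩
  have hl1 : min h₁ (min (δ / 8) (η / 4)) ≤ h₁ := min_le_left _ _
  have hl2 : min h₁ (min (δ / 8) (η / 4)) ≤ δ / 8 := (min_le_right _ _).trans (min_le_left _ _)
  have hl3 : min h₁ (min (δ / 8) (η / 4)) ≤ η / 4 := (min_le_right _ _).trans (min_le_right _ _)
  intro F w₀ Q Ω a p H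
  obtain ⟨G, hG, hGcls, hGF⟩ := hod F H.cls w₀ H.base Q Ω H.goodQ H.good H.subD
    ((ball_subset_ball (by linarith)).trans H.innerD) (H.collarD.mono hl1) H.subO H.bdd (H.innerO.mono hl1)
    (H.collarO.mono hl1)
  have hconf := H.cls.conf
  -- the marked points
  have hmark : ∀ (y ξ : ℂ), ‖ξ‖ = 1 → y ∈ frontier Ω →
      MarkO F Q Ω y ξ (min h₁ (min (δ / 8) (η / 4))) →
      ∃ α : ℂ, ‖α‖ = 1 ∧ G α = y ∧ ‖α - ξ‖ < δ := by
    intro y ξ hξ hy hm
    rw [← hG.frontier_eq] at hy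
    obtain ⟨α, hα, hαy⟩ := hy
    refine ⟨α, mem_sphere_zero_iff_norm.1 hα, hαy, ?_⟩
    obtain ⟨C, hCΩ, hCc, hyC, hCs, x, hxC, hxQ, v, ⟨hv, hvξ⟩, hvx⟩ := hm
    have hFx : dinv F x = v := by rw [← hvx]; exact hconf.dinv_apply hv
    have h1 := hGF x hxQ
    rw [hFx] at h1
    rw [mem_ball, dist_eq_norm] at hvξ
    set T : Set ℂ := dinv G '' C with hT
    have hTb : T ⊆ ball 0 1 := by
      rintro _ ⟨u, hu, rfl⟩
      exact hG.toConf.dinv_mem (hCΩ hu)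
    have hTc : IsPreconnected T :=
      hCc.image _ (hG.toConf.dinv_differentiableOn.continuousOn.mono hCΩ)
    have hxT : dinv G x ∈ T := mem_image_of_mem _ hxC
    have hdiam := hsmall G hGcls T hTb hTc (by
      rintro _ ⟨u, hu, rfl⟩ _ ⟨u', hu', rfl⟩
      rw [hG.toConf.apply_dinv (hCΩ hu), hG.toConf.apply_dinv (hCΩ hu')]
      exact (hCs u hu u' hu').trans (hl3.trans (by linarith))) ⟨dinv G x, hxT, by
        have h2 : ‖ξ‖ ≤ ‖dinv G x‖ + ‖dinv G x - v‖ + ‖v - ξ‖ := by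
          have e : ξ = dinv G x - (dinv G x - v) - (v - ξ) := by ring
          calc ‖ξ‖ = ‖dinv G x - (dinv G x - v) - (v - ξ)‖ := by rw [← e]
            _ ≤ ‖dinv G x - (dinv G x - v)‖ + ‖v - ξ‖ := norm_sub_le _ _
            _ ≤ _ := by gcongr; exact norm_sub_le _ _
        rw [hξ] at h2
        linarith⟩
    obtain ⟨u, hu, hul⟩ := mem_closure_iff_seq_limit.1 hyC
    have hlim : Tendsto (fun n => dinv G (u n)) atTop (𝓝 α) := by
      refine hG.tendsto_inv H.good.nocut (Eventually.of_forall fun n =>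
        ball_subset_closedBall (hTb (mem_image_of_mem _ (hu n)))) (sphere_subset_closedBall hα) ?_
      rw [hαy]
      exact hul.congr fun n => (hG.toConf.apply_dinv (hCΩ (hu n))).symm
    have h3 : ‖α - dinv G x‖ ≤ δ / 4 := by
      refine le_of_tendsto (hlim.sub_const (dinv G x)).norm (Eventually.of_forall fun n => ?_)
      rw [← dist_eq_norm]
      exact hdiam _ (mem_image_of_mem _ (hu n)) _ hxT
    calc ‖α - ξ‖ = ‖(α - dinv G x) + (dinv G x - v) + (v - ξ)‖ := by congr 1; ring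
      _ ≤ ‖α - dinv G x‖ + ‖dinv G x - v‖ + ‖v - ξ‖ := norm_add₃_le
      _ < δ := by linarith
  obtain ⟨α, hα1, hαa, hαd⟩ := hmark a (-1) (by simp) H.mem_a H.mark_a
  obtain ⟨β, hβ1, hβp, hβd⟩ := hmark p 1 (by simp) H.mem_p H.mark_p
  rw [sub_neg_eq_add] at hαd
  obtain ⟨hne1, hcpos, hdist⟩ := hmb α β hα1 hβ1 hαd hβd
  have hβ0 : β ≠ 0 := by rintro rfl; simp at hβ1
  have hquo : ‖α / β‖ = 1 := by rw [norm_div, hα1, hβ1, div_one]
  have hcn2 : mb β (csq (α / β)) 0 = α := by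
    have hne0 : α / β ≠ 0 := by
      intro h
      rw [h, norm_zero] at hquo
      exact zero_ne_one hquo
    rw [Vale.Agent.P153.R2.R1.mb_zero (norm_csq hquo), csq_sq hne0, mul_div_cancel₀ _ hβ0]
  refine ⟨fun z => G (mb β (csq (α / β)) z), ?_, ?_, fun z hz hzQ => ?_⟩
  · have h1 := hG.isU hβ1 hcpos
    rw [hcn2, hαa, hβp] at h1
    exact h1
  · intro z hz z' hz' he
    exact mb_injOn hβ1 hcpos hz hz' (hG.injOn H.good.nocut
      (mb_mem_closedBall hβ1 hcpos hz) (mb_mem_closedBall hβ1 hcpos hz') he)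
  · have hmem : mb β (csq (α / β)) z ∈ ball (0 : ℂ) 1 := by
      rw [mem_ball_zero_iff]; exact norm_mb_lt hβ1 hcpos hz
    have h1 := hGF _ hzQ
    rw [hG.toConf.dinv_apply hmem] at h1
    have h2 := hdist z hz.le
    rw [dist_eq_norm] at h2
    calc ‖dinv F (G (mb β (csq (α / β)) z)) - mb 1 Complex.I z‖
        = ‖(mb β (csq (α / β)) z - mb 1 Complex.I z) -
          (mb β (csq (α / β)) z - dinv F (G (mb β (csq (α / β)) z)))‖ := by congr 1; ring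
      _ ≤ _ := norm_sub_le _ _
      _ ≤ ε := by linarith

end Vale.Agent.P167.H756
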