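import Vale.Agent.P167.H756.S13

/-!
# P167, general `q`, sandwich closeness (14): the inner polygon near a flat part

* `deepC` : the inner polygon contains neighbourhoods of the images of the deep points;
* `boxC` : the inner polygon contains the points above a flat part;
* `mark_flat` : the mark `p` for a flat target.
-/

set_option autoImplicit false
set_option linter.unusedVariables false

open Set Topology Metric MeasureTheory Filter Bornology
open scoped ENNReal Real ComplexConjugate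

namespace Vale.Agent.P167.H756

open Vale.Agent.P153.R2.R1 Vale.Agent.P153.R2.OBSV Vale.Agent.P167.H174
open Vale.Agent.P153.R2.L1 (HH IsHydro inv mem_HH isOpen_HH convex_HH)
open Vale.Agent.P164 (loewnerDomain gf Zf IsLoewnerSol)
open Vale.Agent.P167.H947 (surv flow flow_eq flow_conj flow_inj flow_gf surv_inter isOpen_surv
  differentiableOn_flow hasDerivAt_flow_real flow_rsol)

variable {T R : ℝ} {W : ℝ → ℝ} {t : ℝ}

/-- Deep points: a connected set which contains the base point and `ψ z`, with a neighbourhood in the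
inner polygon. -/
theorem deepC {Y Rd cd m M y₀ : ℝ} (hT : 0 ≤ T) (hR : 0 ≤ R) (hRd : 0 < Rd) (hcd : 0 < cd)
    (hY0 : 0 < Y) (hY : 8 * R ≤ Y) (hY2 : 64 * T ≤ Y ^ 2) (hm0 : 0 < m) (hm : 4 * R ≤ m)
    (hm2 : 16 * T ≤ m ^ 2) (hM : 0 ≤ M) (hy₀ : 0 < y₀) :
    ∃ h > 0, ∃ δ > 0, ∀ ψ : ℂ → ℂ, HConf Rd cd Y ψ → ∀ (W : ℝ → ℝ) (t : ℝ), Drv T R W t →
      ∀ Q : Set ℂ, Q ⊆ ψ '' loewnerDomain W t → ball (0 : ℂ) (1 - h) ⊆ dinv (FD ψ W t) '' Q →
      ∀ z : ℂ, y₀ ≤ z.im → m ≤ ‖z‖ → ‖z‖ ≤ M →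
        ∃ C : Set ℂ, IsPreconnected C ∧ ψ (Y * Complex.I) ∈ C ∧ ψ z ∈ C ∧
          ∀ x ∈ C, ball x δ ⊆ Q := by
  have hI : 0 < Complex.I.im := by simp
  obtain ⟨c, hc, hcls⟩ := cls_FD (T := T) (R := R) hRd hcd hY0 hY hY2
  set ρ₀ : ℝ := √(1 - 4 * (3 * Y / 4) / (1 + 2 * Y) ^ 2) with hρ₀d
  have hρ₀ : ρ₀ < 1 := by
    rw [hρ₀d, Real.sqrt_lt' one_pos, one_pow, sub_lt_self_iff]
    positivity
  set y₁ : ℝ := y₀ * Real.exp (-1) with hy₁
  have hy₁0 : 0 < y₁ := by positivity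
  set M₁ : ℝ := 5 / 4 * M + R with hM₁
  set ρ₁ : ℝ := max ρ₀ √(1 - 4 * y₁ / (1 + M₁) ^ 2) with hρ₁
  have hρ₁1 : ρ₁ < 1 := by
    refine max_lt hρ₀ ?_
    rw [Real.sqrt_lt' one_pos, one_pow, sub_lt_self_iff]
    positivity
  obtain ⟨δ, hδ, hins⟩ := Cls.inside2 (R := Rd) (c := c) (ρ := ρ₁) (ρ' := (1 + ρ₁) / 2) hRd hc
    (by linarith) (by linarith)
  refine ⟨(1 - ρ₁) / 2, by linarith, δ, hδ, ?_⟩
  intro ψ hψ W t H Q hQD hQ z hzi hzm hzM
  have hC := hcls ψ hψ W t H
  obtain ⟨hd, h1, h2, h3⟩ := H.base hY0 hY hY2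
  have hbase : FD ψ W t (mb 1 Complex.I (Zf W (Y * Complex.I) t)) = ψ (Y * Complex.I) :=
    FD_mb H ψ hd
  have hnorm : ∀ w : ℂ, ‖mb 1 Complex.I w‖ = ‖mb 1 w Complex.I‖ := by
    intro w
    rw [norm_mb norm_one, norm_mb norm_one, norm_sub_rev, Complex.conj_I]
    congr 1
    rw [← RCLike.norm_conj (Complex.I - _), map_sub, Complex.conj_conj, Complex.conj_I,
      ← norm_neg]
    congr 1
    ring
  have hb0 : mb 1 Complex.I (Zf W (Y * Complex.I) t) ∈ closedBall (0 : ℂ) ρ₁ := by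
    rw [mem_closedBall_zero_iff, hnorm]
    exact (norm_mb_le (by positivity) h1 h2).trans (le_max_left _ _)
  have hz0 : 0 < z.im := lt_of_lt_of_le hy₀ hzi
  have hzn0 : 0 < ‖z‖ := lt_of_lt_of_le hm0 hzm
  have h3 : m ^ 2 ≤ ‖z‖ ^ 2 := by gcongr
  have h4 := H.far hzn0 (by linarith) (by linarith)
  have hzd : z ∈ loewnerDomain W t := H.dom hz0 (by linarith) (by linarith)
  have e3 : Zf W z t = flow W t z - W t := by
    rw [flow_gf H.nn H.cont.continuousOn hzd, Vale.Agent.P164.Zf_eq]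
  have him : y₁ ≤ (Zf W z t).im := by
    refine le_trans ?_ (H.im_ge hz0 (by linarith) (by linarith))
    rw [hy₁]
    gcongr
  have hno : ‖Zf W z t‖ ≤ M₁ := by
    rw [e3]
    have h6 := H.bdd t ⟨H.nn, le_rfl⟩
    calc ‖flow W t z - W t‖ = ‖(flow W t z - z) + z - W t‖ := by congr 1; ring
      _ ≤ ‖flow W t z - z‖ + ‖z‖ + ‖(W t : ℂ)‖ :=
        (norm_sub_le _ _).trans (by gcongr; exact norm_add_le _ _)
      _ ≤ ‖z‖ / 4 + ‖z‖ + R := by
        rw [Complex.norm_real, Real.norm_eq_abs]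
        gcongr
        exact h4.2.2.1
      _ ≤ M₁ := by rw [hM₁]; linarith
  have hw : mb 1 Complex.I (Zf W z t) ∈ closedBall (0 : ℂ) ρ₁ := by
    rw [mem_closedBall_zero_iff, hnorm]
    exact (norm_mb_le (by positivity) him hno).trans (le_max_right _ _)
  refine ⟨FD ψ W t '' closedBall 0 ρ₁, ?_, ?_, ?_, ?_⟩
  · exact (convex_closedBall (0 : ℂ) ρ₁).isPreconnected.image _
      (hC.diff.continuousOn.mono (closedBall_subset_ball hρ₁1))
  · rw [← hbase]; exact mem_image_of_mem _ hb0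
  · rw [← FD_mb H ψ hzd]; exact mem_image_of_mem _ hw
  · rintro _ ⟨w, hw, rfl⟩
    refine (hins _ hC w hw).trans ?_
    rintro _ ⟨v, hv, rfl⟩
    obtain ⟨x, hx, hxv⟩ := hQ (ball_subset_ball (by linarith) hv)
    rw [← FD_img H] at hQD
    rw [← hxv, hC.conf.apply_dinv (hQD hx)]
    exact hx

/-- The inner polygon contains the points above a flat part. -/
theorem boxC {P Q : Set ℂ} {c x₁ w base : ℂ} {m δ δ' h : ℝ} (hh : 0 < h)
    (hin : Inner P Q base h) (hQP : Q ⊆ P) (hflat : FlatAt P c m) {C : Set ℂ}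
    (hC : IsPreconnected C) (hbC : base ∈ C) (hxC : x₁ ∈ C) (hCQ : ∀ x ∈ C, ball x δ ⊆ Q)
    (hx₁ : ‖x₁ - c‖ < m / 2) (hw : ‖w - c‖ < m / 2) (hwi : c.im + δ' ≤ w.im) (h1 : h ≤ δ)
    (h2 : h ≤ δ') (h3 : h ≤ m / 2) : w ∈ Q := by
  have hm : 0 < m := by linarith
  have hδ : 0 < δ := by linarith
  have hxi : c.im + δ ≤ x₁.im := by
    by_contra hlt
    push Not at hlt
    set s : ℝ := max (x₁.im - c.im) 0 with hs
    have hs0 : 0 ≤ s := le_max_right _ _
    have hsδ : s < δ := max_lt (by linarith) hδ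
    set x' : ℂ := x₁ - (s : ℂ) * Complex.I with hx'
    have hx'im : x'.im = x₁.im - s := by rw [hx', Complex.sub_im, im_mulI]
    have hx're : x'.re = x₁.re := by rw [hx']; simp
    have hx'P : x' ∈ P := by
      refine hQP (hCQ x₁ hxC ?_)
      rw [mem_ball, dist_eq_norm, hx', sub_sub_cancel_left, norm_neg, norm_mul, Complex.norm_I,
        mul_one, Complex.norm_real, Real.norm_of_nonneg hs0]
      exact hsδ
    have hle : x'.im ≤ c.im := by
      rw [hx'im]
      have : x₁.im - c.im ≤ s := le_max_left _ _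
      linarith
    have hno : ‖x' - c‖ ≤ ‖x₁ - c‖ := by
      have e1 : (x' - c).re = (x₁ - c).re := by
        rw [Complex.sub_re x' c, Complex.sub_re x₁ c, hx're]
      have e2 : |(x' - c).im| ≤ |(x₁ - c).im| := by
        rw [Complex.sub_im x' c, Complex.sub_im x₁ c, hx'im]
        rcases le_total (x₁.im - c.im) 0 with h0 | h0
        · rw [hs, max_eq_right h0, sub_zero]
        · rw [hs, max_eq_left h0]
          have : x₁.im - (x₁.im - c.im) - c.im = 0 := by ring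
          rw [this, abs_zero]
          exact abs_nonneg _
      rw [Complex.norm_def, Complex.norm_def]
      apply Real.sqrt_le_sqrt
      rw [Complex.normSq_apply, Complex.normSq_apply, e1, ← abs_mul_abs_self (x' - c).im,
        ← abs_mul_abs_self (x₁ - c).im]
      have := mul_self_le_mul_self (abs_nonneg _) e2
      linarith
    have := (hflat x' (by rw [mem_ball, dist_eq_norm]; linarith)).1 hx'P
    linarith
  have hseg : ∀ x ∈ segment ℝ x₁ w, ‖x - c‖ < m / 2 ∧ c.im + min δ δ' ≤ x.im := by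
    intro x hx
    constructor
    · have h4 : x₁ ∈ ball c (m / 2) := by rw [mem_ball, dist_eq_norm]; exact hx₁
      have h5 : w ∈ ball c (m / 2) := by rw [mem_ball, dist_eq_norm]; exact hw
      have h6 := (convex_ball c (m / 2)).segment_subset h4 h5 hx
      rwa [mem_ball, dist_eq_norm] at h6
    · have hconv : Convex ℝ {z : ℂ | c.im + min δ δ' ≤ z.im} :=
        convex_halfSpace_ge (IsLinearMap.mk Complex.add_im (fun a z => by simp)) _
      have h4 : x₁ ∈ {z : ℂ | c.im + min δ δ' ≤ z.im} :=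
        le_trans (by gcongr; exact min_le_left _ _) hxi
      have h5 : w ∈ {z : ℂ | c.im + min δ δ' ≤ z.im} :=
        le_trans (by gcongr; exact min_le_right _ _) hwi
      exact hconv.segment_subset h4 h5 hx
  have hCC : C ∪ segment ℝ x₁ w ⊆ Q := by
    refine hin _ ?_ (Or.inl hbC) ?_
    · exact hC.union x₁ hxC (left_mem_segment ℝ x₁ w) (convex_segment x₁ w).isPreconnected
    · rintro z (hz | hz)
      · exact (ball_subset_ball h1).trans ((hCQ z hz).trans hQP)
      · intro y hy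
        obtain ⟨k1, k2⟩ := hseg z hz
        rw [mem_ball, dist_eq_norm] at hy
        refine (hflat y ?_).2 ?_
        · rw [mem_ball, dist_eq_norm]
          calc ‖y - c‖ = ‖(y - z) + (z - c)‖ := by congr 1; ring
            _ ≤ _ := norm_add_le _ _
            _ < m := by linarith
        · have h4 := (Complex.abs_im_le_norm (y - z)).trans_lt hy
          rw [Complex.sub_im, abs_lt] at h4
          have h5 : h ≤ min δ δ' := le_min h1 h2
          linarith [h4.1]
  exact hCC (Or.inr (right_mem_segment ℝ x₁ w))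

/-- The mark `p` for a flat target. -/
theorem mark_flat {P Q : Set ℂ} {p q : ℂ} {m h : ℝ} {ψ : ℂ → ℂ} (hP : IsOpen P)
    (hflat : FlatAt P p m) (hQP : Q ⊆ P) (hq : q ∈ Q)
    (hqd : q ∈ ψ '' {z | z ∈ loewnerDomain W t ∧ h⁻¹ < ‖z‖}) (hqp : ‖q - p‖ ≤ h)
    (hqm : ‖q - p‖ < m) : p ∈ frontier P ∧ MarkP h ψ W t Q P p := by
  have hm : 0 < m := lt_of_le_of_lt (norm_nonneg _) hqm
  have hqi : p.im < q.im := (hflat q (by rw [mem_ball, dist_eq_norm]; exact hqm)).1 (hQP hq)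
  set C : Set ℂ := (fun s : ℝ => p + s * (q - p)) '' Ioc 0 1 with hC
  have hcont : Continuous fun s : ℝ => p + (s : ℂ) * (q - p) := by fun_prop
  have hCP : C ⊆ P := by
    rintro _ ⟨s, hs, rfl⟩
    have hn : ‖p + (s : ℂ) * (q - p) - p‖ < m := by
      rw [add_sub_cancel_left, norm_mul, Complex.norm_real, Real.norm_of_nonneg hs.1.le]
      calc s * ‖q - p‖ ≤ 1 * ‖q - p‖ := by gcongr; exact hs.2
        _ < m := by rw [one_mul]; exact hqm
    refine (hflat _ (by rw [mem_ball, dist_eq_norm]; exact hn)).2 ?_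
    have : (p + (s : ℂ) * (q - p)).im = p.im + s * (q.im - p.im) := by
      rw [Complex.add_im, Complex.im_ofReal_mul, Complex.sub_im]
    rw [this]
    have := mul_pos hs.1 (sub_pos.2 hqi)
    linarith
  have hpC : p ∈ closure C := by
    have h1 : Tendsto (fun s : ℝ => p + (s : ℂ) * (q - p)) (𝓝[>] 0) (𝓝 p) := by
      have h2 := (hcont.tendsto 0).mono_left (nhdsWithin_le_nhds (s := Ioi (0 : ℝ)))
      simpa using h2
    refine mem_closure_of_tendsto h1 ?_
    have h3 : ∀ᶠ s : ℝ in 𝓝[>] 0, s ≤ 1 :=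
      (eventually_le_nhds (by norm_num : (0 : ℝ) < 1)).filter_mono nhdsWithin_le_nhds
    filter_upwards [h3, self_mem_nhdsWithin] with s hs hs0
    exact ⟨s, ⟨hs0, hs⟩, rfl⟩
  have hpP : p ∉ P := fun h1 => lt_irrefl _ ((hflat p (mem_ball_self hm)).1 h1)
  refine ⟨?_, C, hCP, isPreconnected_Ioc.image _ hcont.continuousOn, hpC, ?_,
    q, ⟨1, ⟨one_pos, le_rfl⟩, by simp⟩, hq, hqd⟩
  · rw [hP.frontier_eq]
    exact ⟨closure_mono hCP hpC, hpP⟩
  · rintro _ ⟨s, hs, rfl⟩ _ ⟨s', hs', rfl⟩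
    rw [dist_eq_norm]
    have e : p + (s : ℂ) * (q - p) - (p + (s' : ℂ) * (q - p)) = ((s - s' : ℝ) : ℂ) * (q - p) := by
      push_cast; ring
    rw [e, norm_mul, Complex.norm_real, Real.norm_eq_abs]
    have h4 : |s - s'| ≤ 1 := by rw [abs_le]; constructor <;> linarith [hs.1, hs.2, hs'.1, hs'.2]
    calc |s - s'| * ‖q - p‖ ≤ 1 * ‖q - p‖ := by gcongr
      _ ≤ h := by rw [one_mul]; exact hqp

end Vale.Agent.P167.H756
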