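import Vale.Agent.P167.H756.S9
import Vale.Agent.P167.H756.S11
import Vale.Agent.P167.H756.S14

/-!
# P167, general `q`, sandwich closeness (15): the inverse of the uniformizer near a flat mark

* `nearD` : the reflected inverse `G` of the uniformizer of a polygon near a flat mark `c` is close to
  the image of `X`, and above the line it is close to the flow;
* `SeqM` : sequences of uniformizers;
* `nearC` : `nearD` for sequences.
-/

set_option autoImplicit false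
set_option linter.unusedVariables false

open Set Topology Metric MeasureTheory Filter Bornology
open scoped ENNReal Real ComplexConjugate

namespace Vale.Agent.P167.H756

open Vale.Agent.P153.R2.R1 Vale.Agent.P153.R2.OBSV Vale.Agent.P167.H174
open Vale.Agent.P153.R2.L1 (HH IsHydro inv mem_HH isOpen_HH convex_HH)
open Vale.Agent.P164 (loewnerDomain gf Zf IsLoewnerSol)
open Vale.Agent.P167.H947 (surv flow flow_eq flow_conj flow_inj flow_gf surv_inter isOpen_surv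
  differentiableOn_flow hasDerivAt_flow_real flow_rsol)

variable {T R : ℝ} {W : ℝ → ℝ} {t : ℝ}

theorem norm_sh (x y : ℝ) (z c : ℂ) (hx : x = c.re) (hy : y = c.im) :
    ‖z + (y : ℂ) * Complex.I - c‖ = ‖z - x‖ := by
  have e : z + (y : ℂ) * Complex.I - c = z - x := by
    rw [hx, hy]
    apply Complex.ext <;> simp
  rw [e]

theorem FD_conf (H : Drv T R W t) {ψ : ℂ → ℂ} (hψd : DifferentiableOn ℂ ψ HH)
    (hψi : InjOn ψ HH) : Conf (FD ψ W t) (FD ψ W t '' ball 0 1) := by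
  have hI : 0 < Complex.I.im := by simp
  refine ⟨?_, ?_, rfl⟩
  · refine (Ps_diff H hψd).comp (fun w hw => (imb_differentiableAt
      (ball_ne_one hw)).differentiableWithinAt) fun w hw => ?_
    exact imb_im_pos norm_one hI (mem_ball_zero_iff.1 hw)
  · intro w hw w' hw' e
    have h5 := Ps_inj H hψi (imb_im_pos norm_one hI (mem_ball_zero_iff.1 hw))
      (imb_im_pos norm_one hI (mem_ball_zero_iff.1 hw')) e
    rw [← (mb_imb norm_one hI (ball_ne_one hw)).2, h5,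
      (mb_imb norm_one hI (ball_ne_one hw')).2]

/-- **The reflected inverse of the uniformizer near a flat mark**, for one map. -/
theorem nearD {X lam r m₂ m δ κ ε : ℝ} (H : Drv T R W t) (hX0 : 0 < X) (hX : 8 * R ≤ X)
    (hX2 : 64 * T ≤ X ^ 2) (hl0 : 0 < lam) (hlX : lam ≤ X / 64) (hm₂ : 0 < m₂) (hm₂m : m₂ ≤ m)
    (hm₂r : m₂ ≤ r / 4) (hδ0 : 0 < δ) (hδ : δ ≤ m₂ / 4) (hκ : 0 < κ) (hκl : κ ≤ lam)
    (himb : ∀ z v : ℂ, 0 ≤ z.im → ‖z‖ ≤ 3 * X →
      ‖v - mb 1 Complex.I z‖ ≤ ε → ‖imb 1 Complex.I v - z‖ ≤ κ)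
    {ψ φ : ℂ → ℂ} (hψd : DifferentiableOn ℂ ψ HH) (hψi : InjOn ψ HH)
    (hinv : ∀ z : ℂ, 0 ≤ z.im → ‖ψ z - ψ X‖ ≤ r → ‖z - X‖ ≤ lam) {Q P : Set ℂ} {a p c : ℂ}
    (hc : ‖c - ψ X‖ ≤ r / 4) (hflat : FlatAt P c m) (hp : r / 2 ≤ ‖p - ψ X‖) (hn : NoCut P)
    (hφ : IsU φ P a p) (hQD : Q ⊆ ψ '' loewnerDomain W t)
    (hcl : ∀ z : ℂ, 0 < z.im → φ z ∈ Q → ‖dinv (FD ψ W t) (φ z) - mb 1 Complex.I z‖ ≤ ε)
    (hbox : ∀ w : ℂ, ‖w - c‖ < m₂ → c.im + δ ≤ w.im → w ∈ Q) :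
    ∃ G : ℂ → ℂ, DifferentiableOn ℂ G (ball (c.re : ℂ) m₂) ∧
      (∀ z ∈ ball (c.re : ℂ) m₂, G (conj z) = conj (G z)) ∧
      (∀ z ∈ ball (c.re : ℂ) m₂, 0 < z.im → 0 < (G z).im) ∧
      (∀ z ∈ ball (c.re : ℂ) m₂, 0 ≤ z.im →
        0 ≤ (G z).im ∧ φ (G z) = z + (c.im : ℂ) * Complex.I) ∧
      (∀ z ∈ closedBall (c.re : ℂ) (m₂ / 4), ‖G z - xT W t X‖ ≤ 527 * lam) ∧
      ∀ z ∈ ball (c.re : ℂ) m₂, δ ≤ z.im → ∃ ζ : ℂ, 0 < ζ.im ∧
        ψ ζ = z + (c.im : ℂ) * Complex.I ∧ ‖ζ - X‖ ≤ lam ∧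
        ‖G z - (flow W t ζ - W t)‖ ≤ κ := by
  have hI : 0 < Complex.I.im := by simp
  have hsh : ∀ z : ℂ, ‖z + (c.im : ℂ) * Complex.I - c‖ = ‖z - (c.re : ℝ)‖ := fun z =>
    norm_sh c.re c.im z c rfl rfl
  have hshi : ∀ z : ℂ, (z + (c.im : ℂ) * Complex.I).im = z.im + c.im := fun z => by
    rw [Complex.add_im, im_mulI]
  obtain ⟨G, hGd, hGs, hGp, hGe⟩ := loc_inv (x := c.re) (r := m₂)
    (ψ := fun z => z + (c.im : ℂ) * Complex.I) (by fun_prop) (by fun_prop) hφ hn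
    (fun z hz h0 => by
      rw [mem_ball, dist_eq_norm] at hz
      refine (hflat _ (by rw [mem_ball, dist_eq_norm, hsh]; linarith)).2 ?_
      rw [hshi]; linarith)
    (fun z hz h0 hP => by
      rw [mem_ball, dist_eq_norm] at hz
      have h1 := (hflat _ (by rw [mem_ball, dist_eq_norm, hsh]; linarith)).1 hP
      rw [hshi, h0, zero_add] at h1
      exact lt_irrefl _ h1)
    (fun z hz h0 he => by
      rw [mem_ball, dist_eq_norm] at hz
      have h1 : ‖p - ψ X‖ < r / 2 := by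
        rw [← he]
        calc ‖z + (c.im : ℂ) * Complex.I - ψ X‖
            = ‖(z + (c.im : ℂ) * Complex.I - c) + (c - ψ X)‖ := by congr 1; ring
          _ ≤ _ := norm_add_le _ _
          _ < r / 2 := by rw [hsh]; linarith
      linarith)
  have hdp : ∀ z ∈ ball (c.re : ℂ) m₂, δ ≤ z.im → 0 < z.im → ∃ ζ : ℂ, 0 < ζ.im ∧
      ψ ζ = z + (c.im : ℂ) * Complex.I ∧ ‖ζ - X‖ ≤ lam ∧
      ‖G z - (flow W t ζ - W t)‖ ≤ κ := by
    intro z hz hzδ hz0
    have hz' := hz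
    rw [mem_ball, dist_eq_norm] at hz'
    have hwQ : z + (c.im : ℂ) * Complex.I ∈ Q :=
      hbox _ (by rw [hsh]; exact hz') (by rw [hshi]; linarith)
    obtain ⟨ζ, hζ, hζw⟩ := hQD hwQ
    have hζ0 : 0 < ζ.im := Vale.Agent.P164.im_pos_of_dom H.nn hζ
    have hζX : ‖ζ - X‖ ≤ lam := by
      refine hinv ζ hζ0.le ?_
      rw [hζw]
      calc ‖z + (c.im : ℂ) * Complex.I - ψ X‖
          = ‖(z + (c.im : ℂ) * Complex.I - c) + (c - ψ X)‖ := by congr 1; ring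
        _ ≤ _ := norm_add_le _ _
        _ ≤ r := by rw [hsh]; linarith
    have hr0 : 0 < r := by linarith
    have hZ : Zf W ζ t = flow W t ζ - W t := by
      rw [flow_gf H.nn H.cont.continuousOn hζ, Vale.Agent.P164.Zf_eq]
    have hZi := Vale.Agent.P164.Zf_im_pos H.nn hζ
    obtain ⟨f1, f2, f3⟩ := xT_bd H hX0 hX hX2
    obtain ⟨-, -, hlip⟩ := lipO H hX0 hX hX2
    have hζb : ζ ∈ ball (X : ℂ) (X / 4) := by rw [mem_ball, dist_eq_norm]; linarith
    have h1 := hlip X (mem_ball_self (by positivity)) ζ hζb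
    rw [f1] at h1
    have hZn : ‖Zf W ζ t‖ ≤ 3 * X := by
      rw [hZ]
      calc ‖flow W t ζ - W t‖ = ‖((flow W t ζ - W t) - (xT W t X : ℂ)) + (xT W t X : ℂ)‖ := by
            congr 1; ring
        _ ≤ ‖(flow W t ζ - W t) - (xT W t X : ℂ)‖ + ‖(xT W t X : ℂ)‖ := norm_add_le _ _
        _ ≤ 16 * ‖ζ - X‖ + 2 * X := by
            gcongr
            rw [Complex.norm_real, Real.norm_of_nonneg (by linarith)]
            exact f3
        _ ≤ 3 * X := by linarith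
    obtain ⟨k1, k2⟩ := hGe z hz hz0.le
    have k3 := hGp z hz hz0
    have k4 := hcl (G z) k3 (by rw [k2]; exact hwQ)
    have h6 : mb 1 Complex.I (Zf W ζ t) ∈ ball (0 : ℂ) 1 := by
      rw [mem_ball_zero_iff]; exact norm_mb_lt norm_one hI hZi
    have hconf := FD_conf H hψd hψi
    rw [k2, ← hζw, ← FD_mb H ψ hζ, hconf.dinv_apply h6, norm_sub_rev] at k4
    have k5 := himb _ _ hZi.le hZn k4
    rw [imb_mb norm_one hI k1, hZ] at k5
    exact ⟨ζ, hζ0, hζw, hζX, k5⟩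
  -- the value at one point
  have hr0 : 0 < r := by linarith
  obtain ⟨f1, f2, f3⟩ := xT_bd H hX0 hX hX2
  obtain ⟨-, -, hlip⟩ := lipO H hX0 hX hX2
  set zs : ℂ := (c.re : ℂ) + ((m₂ / 4 : ℝ) : ℂ) * Complex.I with hzs
  have hzsn : ‖zs - (c.re : ℂ)‖ = m₂ / 4 := by
    rw [hzs, add_sub_cancel_left, norm_mul, Complex.norm_I, mul_one, Complex.norm_real,
      Real.norm_of_nonneg (by positivity)]
  have hzsi : zs.im = m₂ / 4 := by
    rw [hzs, Complex.add_im, Complex.ofReal_im, im_mulI, zero_add]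
  have hzsb : zs ∈ ball (c.re : ℂ) m₂ := by rw [mem_ball, dist_eq_norm, hzsn]; linarith
  obtain ⟨ζ, hζ0, hζw, hζX, hζG⟩ := hdp zs hzsb (by rw [hzsi]; exact hδ) (by rw [hzsi]; positivity)
  have hζb : ζ ∈ ball (X : ℂ) (X / 4) := by rw [mem_ball, dist_eq_norm]; linarith
  have h1 := hlip X (mem_ball_self (by positivity)) ζ hζb
  rw [f1] at h1
  have h2 : ‖G zs - (xT W t X : ℂ)‖ ≤ 17 * lam := by
    calc ‖G zs - (xT W t X : ℂ)‖
        = ‖(G zs - (flow W t ζ - W t)) + ((flow W t ζ - W t) - (xT W t X : ℂ))‖ := by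
          congr 1; ring
      _ ≤ _ := norm_add_le _ _
      _ ≤ 17 * lam := by linarith
  have h3 : (G zs).im ≤ 17 * lam := by
    have h4 := (Complex.abs_im_le_norm (G zs - (xT W t X : ℂ))).trans h2
    rw [Complex.sub_im, Complex.ofReal_im, sub_zero] at h4
    exact (le_abs_self _).trans h4
  have hty := typ_ball (f := G) (x := c.re) (ρ := m₂) hm₂ hGd hGs hGp
  rw [← hzs] at hty
  refine ⟨G, hGd, hGs, hGp, hGe, fun z hz => ?_, fun z hz hzδ => ?_⟩
  · have h4 := hty z hz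
    have h5 := hty zs (by rw [mem_closedBall, dist_eq_norm, hzsn])
    calc ‖G z - (xT W t X : ℂ)‖
        = ‖(G z - G (c.re : ℂ)) - (G zs - G (c.re : ℂ)) + (G zs - (xT W t X : ℂ))‖ := by
          congr 1; ring
      _ ≤ ‖G z - G (c.re : ℂ)‖ + ‖G zs - G (c.re : ℂ)‖ + ‖G zs - (xT W t X : ℂ)‖ := by
          refine (norm_add_le _ _).trans ?_
          gcongr
          exact norm_sub_le _ _
      _ ≤ 527 * lam := by linarith
  · exact hdp z hz hzδ (by linarith)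

end Vale.Agent.P167.H756
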