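import Vale.Agent.P167.H756.S15

/-!
# P167, general `q`, sandwich closeness (16): the ratio of the derivatives

* `typ_close` : two typically real functions which are close above the line are close;
* `zO` : the flow near a far real point;
* `derR` : the ratio of the derivatives of the reflected inverses.
-/

set_option autoImplicit false
set_option linter.unusedVariables false

open Set Topology Metric MeasureTheory Filter Bornology
open scoped ENNReal Real ComplexConjugate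

namespace Vale.Agent.P167.H756

open Vale.Agent.P153.R2.R1 Vale.Agent.P153.R2.OBSV Vale.Agent.P167.H174
open Vale.Agent.P153.R2.L1 (HH IsHydro inv mem_HH isOpen_HH convex_HH)
open Vale.Agent.P164 (loewnerDomain gf Zf IsLoewnerSol)
open Vale.Agent.P167.H947 (surv flow flow_eq flow_conj flow_inj flow_gf surv_inter isOpen_surv
  differentiableOn_flow hasDerivAt_flow_real flow_rsol)

/-- Two typically real functions which are close above the line are close. -/
theorem typ_close {f g : ℂ → ℂ} {x ρ δ κ L : ℝ} (hδ : 0 < δ) (hδρ : δ ≤ ρ / 16)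
    (hL : 0 ≤ L) (hfd : DifferentiableOn ℂ f (ball (x : ℂ) ρ))
    (hfs : ∀ z ∈ ball (x : ℂ) ρ, f (conj z) = conj (f z))
    (hfp : ∀ z ∈ ball (x : ℂ) ρ, 0 < z.im → 0 < (f z).im)
    (hgd : DifferentiableOn ℂ g (ball (x : ℂ) ρ))
    (hgs : ∀ z ∈ ball (x : ℂ) ρ, g (conj z) = conj (g z))
    (hgp : ∀ z ∈ ball (x : ℂ) ρ, 0 < z.im → 0 < (g z).im)
    (hlip : ∀ z ∈ ball (x : ℂ) (ρ / 2), ∀ w ∈ ball (x : ℂ) (ρ / 2), ‖g w - g z‖ ≤ L * ‖w - z‖)
    (hcl : ∀ z ∈ ball (x : ℂ) ρ, δ ≤ z.im → ‖f z - g z‖ ≤ κ) :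
    ∀ z ∈ ball (x : ℂ) (ρ / 4), ‖f z - g z‖ ≤ 46 * (L * δ) + 31 * κ := by
  have hρ : 0 < ρ := by linarith
  have hκ : 0 ≤ κ := by
    refine (norm_nonneg _).trans (hcl ((x : ℂ) + (δ : ℂ) * Complex.I) ?_ ?_)
    · rw [mem_ball, dist_eq_norm, add_sub_cancel_left, norm_mulI hδ]; linarith
    · rw [Complex.add_im, Complex.ofReal_im, im_mulI, zero_add]
  have hsub4 : ball (x : ℂ) (ρ / 4) ⊆ ball (x : ℂ) ρ := ball_subset_ball (by linarith)
  have hsub2 : ball (x : ℂ) (ρ / 2) ⊆ ball (x : ℂ) ρ := ball_subset_ball (by linarith)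
  have hup : ∀ z ∈ ball (x : ℂ) (ρ / 4), 0 ≤ z.im → ‖f z - g z‖ ≤ 46 * (L * δ) + 31 * κ := by
    intro z hz h0
    have hLδ : 0 ≤ L * δ := by positivity
    by_cases hzδ : δ ≤ z.im
    · exact (hcl z (hsub4 hz) hzδ).trans (by linarith)
    push Not at hzδ
    set x' : ℝ := z.re with hx'
    have hzX : ‖z - x‖ < ρ / 4 := by rw [mem_ball, dist_eq_norm] at hz; exact hz
    have hx'X : |x' - x| < ρ / 4 := by
      have h1 := Complex.abs_re_le_norm (z - x)
      rw [Complex.sub_re, Complex.ofReal_re] at h1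
      exact h1.trans_lt hzX
    have hball : ball (x' : ℂ) (4 * δ) ⊆ ball (x : ℂ) (ρ / 2) := by
      intro y hy
      rw [mem_ball, dist_eq_norm] at hy ⊢
      calc ‖y - x‖ = ‖(y - x') + ((x' - x : ℝ) : ℂ)‖ := by congr 1; push_cast; ring
        _ ≤ ‖y - x'‖ + |x' - x| := (norm_add_le _ _).trans (by
            rw [Complex.norm_real, Real.norm_eq_abs])
        _ < ρ / 2 := by linarith
    have hballρ := hball.trans hsub2
    have hty := typ_ball (f := f) (x := x') (ρ := 4 * δ) (by positivity) (hfd.mono hballρ)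
      (fun y hy => hfs y (hballρ hy)) (fun y hy => hfp y (hballρ hy))
    have htg := typ_ball (f := g) (x := x') (ρ := 4 * δ) (by positivity) (hgd.mono hballρ)
      (fun y hy => hgs y (hballρ hy)) (fun y hy => hgp y (hballρ hy))
    have e4 : 4 * δ / 4 = δ := by ring
    rw [e4] at hty htg
    set zδ : ℂ := (x' : ℂ) + (δ : ℝ) * Complex.I with hzδd
    have hzδi : zδ.im = δ := by
      rw [hzδd, Complex.add_im, Complex.ofReal_im, Complex.im_ofReal_mul, Complex.I_im]; ring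
    have hzδn : ‖zδ - x'‖ = δ := by
      rw [hzδd, add_sub_cancel_left, norm_mul, Complex.norm_I, mul_one, Complex.norm_real,
        Real.norm_of_nonneg hδ.le]
    have hzδb : zδ ∈ ball (x' : ℂ) (4 * δ) := by
      rw [mem_ball, dist_eq_norm, hzδn]; linarith
    have hx'b : (x' : ℂ) ∈ ball (x' : ℂ) (4 * δ) := mem_ball_self (by positivity)
    have h1 := hcl zδ (hballρ hzδb) hzδi.ge
    have hlip1 := hlip (x' : ℂ) (hball hx'b) zδ (hball hzδb)
    rw [hzδn] at hlip1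
    have hgx : (g x').im = 0 := by
      have h2 := hgs (x' : ℂ) (hballρ hx'b)
      rw [Complex.conj_ofReal] at h2
      exact Complex.conj_eq_iff_im.1 h2.symm
    have hgi : (g zδ).im ≤ L * δ := by
      have h4 := (Complex.abs_im_le_norm (g zδ - g x')).trans hlip1
      rw [Complex.sub_im, hgx, sub_zero] at h4
      exact (le_abs_self _).trans h4
    have hfi : (f zδ).im ≤ L * δ + κ := by
      have h3 := (Complex.abs_im_le_norm (f zδ - g zδ)).trans h1
      rw [Complex.sub_im] at h3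
      have := (abs_le.1 h3).2
      linarith
    have hz' : z ∈ closedBall (x' : ℂ) δ := by
      rw [mem_closedBall, dist_eq_norm]
      have e5 : z - x' = (z.im : ℂ) * Complex.I := by
        apply Complex.ext <;> simp [hx']
      rw [e5, norm_mul, Complex.norm_I, mul_one, Complex.norm_real, Real.norm_of_nonneg h0]
      exact hzδ.le
    have hzδ' : zδ ∈ closedBall (x' : ℂ) δ := by
      rw [mem_closedBall, dist_eq_norm, hzδn]
    have d1 := hty z hz'
    have d2 := hty zδ hzδ'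
    have d3 := htg z hz'
    have e6 : f z - g z = (f z - f x') - (f zδ - f x') + (f zδ - g zδ) + (g zδ - g x') -
        (g z - g x') := by ring
    rw [e6]
    calc ‖(f z - f x') - (f zδ - f x') + (f zδ - g zδ) + (g zδ - g x') - (g z - g x')‖
        ≤ ‖f z - f x'‖ + ‖f zδ - f x'‖ + ‖f zδ - g zδ‖ + ‖g zδ - g x'‖ + ‖g z - g x'‖ := by
          refine (norm_sub_le _ _).trans ?_
          gcongr
          refine (norm_add_le _ _).trans ?_
          gcongr
          refine (norm_add_le _ _).trans ?_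
          gcongr
          exact norm_sub_le _ _
      _ ≤ 15 * (L * δ + κ) + 15 * (L * δ + κ) + κ + L * δ + 15 * (L * δ) := by
          gcongr
          · exact d1.trans (by gcongr)
          · exact d2.trans (by gcongr)
          · exact d3.trans (by gcongr)
      _ = 46 * (L * δ) + 31 * κ := by ring
  intro z hz
  rcases le_total 0 z.im with h | h
  · exact hup z hz h
  · have hcz : conj z ∈ ball (x : ℂ) (ρ / 4) := by
      rw [mem_ball, dist_eq_norm] at hz ⊢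
      have e : conj z - (x : ℂ) = conj (z - x) := by rw [map_sub, Complex.conj_ofReal]
      rwa [e, RCLike.norm_conj]
    have h1 := hup (conj z) hcz (by rw [Complex.conj_im]; linarith)
    have e : f (conj z) - g (conj z) = conj (f z - g z) := by
      rw [map_sub, hfs z (hsub4 hz), hgs z (hsub4 hz)]
    rw [e, RCLike.norm_conj] at h1
    exact h1

variable {T R : ℝ} {W : ℝ → ℝ} {t : ℝ}

/-- The flow near a far real point. -/
theorem zO (H : Drv T R W t) {x : ℝ} (hx : 0 < x) (hxR : 8 * R ≤ x) (hxT : 64 * T ≤ x ^ 2) :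
    (∀ z ∈ ball (x : ℂ) (x / 2), flow W t (conj z) - W t = conj (flow W t z - W t)) ∧
    (∀ z ∈ ball (x : ℂ) (x / 2), 0 < z.im → 0 < (flow W t z - W t).im) ∧
    (∀ z ∈ ball (x : ℂ) (x / 2), ‖flow W t z - W t‖ ≤ 2 * x) ∧
    ∀ z ∈ ball (x : ℂ) (x / 8), ‖deriv (fun z => flow W t z - W t) z -
      deriv (fun z => flow W t z - W t) x‖ ≤ 256 / x * ‖z - x‖ := by
  have ha : |x| = x := abs_of_pos hx
  have htr := trans_FD' H id hx.ne' (by rw [ha]; exact hxR) hxT (r := x / 2) (by rw [ha])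
  rw [ha] at htr
  obtain ⟨difX, derX, -⟩ := lipO H hx hxR hxT
  refine ⟨htr.symm, htr.pos, htr.bdd, fun z hz => ?_⟩
  have hx48 : x / 8 + x / 8 = x / 4 := by ring
  obtain ⟨-, h3⟩ := lip_of_bdd (f := deriv fun z => flow W t z - W t) (x := (x : ℂ))
    (ρ := x / 8) (s := x / 8) (B := 16) (by positivity)
    (by
      rw [hx48]
      exact (difX.deriv isOpen_ball).mono (ball_subset_ball (by linarith)))
    (by rw [hx48]; exact derX)
  have h4 := h3 x (mem_ball_self (by positivity)) z hz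
  have e2 : 16 / (x / 8 / 2) = 256 / x := by field_simp; norm_num
  rwa [e2] at h4

/-- The derivative of a symmetric function at a real point is real. -/
theorem derReal {f : ℂ → ℂ} {x r : ℝ} (hr : 0 < r) (hd : DifferentiableOn ℂ f (ball (x : ℂ) r))
    (hs : ∀ z ∈ ball (x : ℂ) r, f (conj z) = conj (f z)) : deriv f x = ((deriv f x).re : ℂ) := by
  have hb : ball (x : ℂ) r ∈ 𝓝 (x : ℂ) := isOpen_ball.mem_nhds (mem_ball_self hr)
  have h1 : HasDerivAt f (deriv f x) x := (hd.differentiableAt hb).hasDerivAt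
  have h2 : HasDerivAt (fun z => conj (f (conj z))) (conj (deriv f x)) x := by
    have := h1.conj_conj
    rw [Complex.conj_ofReal] at this
    exact this
  have h3 : (fun z => conj (f (conj z))) =ᶠ[𝓝 (x : ℂ)] f := by
    filter_upwards [hb] with z hz
    rw [hs z hz, Complex.conj_conj]
  have h5 := h2.congr_of_eventuallyEq h3.symm
  exact (Complex.conj_eq_iff_re.1 (h5.unique h1)).symm

/-- **The ratio of the derivatives of the reflected inverses.** -/
theorem derR (H : Drv T R W t) {X lam m₂ δ κ σ : ℝ} (hX0 : 0 < X) (hX : 8 * R ≤ X)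
    (hX2 : 64 * T ≤ X ^ 2) (hl0 : 0 < lam) (hlX : lam ≤ X / 8192) (hm₂ : 0 < m₂)
    (hδ0 : 0 < δ) (hδ : δ ≤ m₂ / 64) (hκ : 0 < κ) (hσ : 0 < σ) {x : ℝ} {G₀ G₁ : ℂ → ℂ}
    (hd₀ : DifferentiableOn ℂ G₀ (ball (x : ℂ) m₂))
    (hs₀ : ∀ z ∈ ball (x : ℂ) m₂, G₀ (conj z) = conj (G₀ z))
    (hp₀ : ∀ z ∈ ball (x : ℂ) m₂, 0 < z.im → 0 < (G₀ z).im)
    (hb₀ : ∀ z ∈ closedBall (x : ℂ) (m₂ / 4), ‖G₀ z - X‖ ≤ 527 * lam)
    (hσ₀ : σ ≤ (G₀ (x + (m₂ / 4 : ℝ) * Complex.I)).im)
    (hd₁ : DifferentiableOn ℂ G₁ (ball (x : ℂ) m₂))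
    (hs₁ : ∀ z ∈ ball (x : ℂ) m₂, G₁ (conj z) = conj (G₁ z))
    (hp₁ : ∀ z ∈ ball (x : ℂ) m₂, 0 < z.im → 0 < (G₁ z).im)
    (hcl : ∀ z ∈ ball (x : ℂ) (m₂ / 4), δ ≤ z.im →
      ‖G₁ z - (flow W t (G₀ z) - W t)‖ ≤ 17 * κ) :
    ∃ D₀ D₁ : ℝ, 0 < D₀ ∧ deriv G₀ x = (D₀ : ℂ) ∧ deriv G₁ x = (D₁ : ℂ) ∧
      |D₁ / D₀ - dT W t X| ≤ 80 * (46 * (32 * X / m₂ * δ) + 527 * κ) / σ + 140000 / X * lam := by
  obtain ⟨zs, zp, zb, zd⟩ := zO H hX0 hX hX2
  obtain ⟨difX, -, -⟩ := lipO H hX0 hX hX2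
  have hx : (x : ℂ) ∈ ball (x : ℂ) (m₂ / 4) := mem_ball_self (by positivity)
  have hsub : ball (x : ℂ) (m₂ / 4) ⊆ ball (x : ℂ) m₂ := ball_subset_ball (by linarith)
  have hmap : ∀ z ∈ ball (x : ℂ) (m₂ / 4), G₀ z ∈ ball (X : ℂ) (X / 8) := by
    intro z hz
    rw [mem_ball, dist_eq_norm]
    exact (hb₀ z (ball_subset_closedBall hz)).trans_lt (by linarith)
  have hmap2 : ∀ z ∈ ball (x : ℂ) (m₂ / 4), G₀ z ∈ ball (X : ℂ) (X / 2) := fun z hz =>
    ball_subset_ball (by linarith) (hmap z hz)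
  have hKd : DifferentiableOn ℂ (fun z => flow W t (G₀ z) - W t) (ball (x : ℂ) (m₂ / 4)) :=
    difX.comp (hd₀.mono hsub) hmap2
  have hKs : ∀ z ∈ ball (x : ℂ) (m₂ / 4), flow W t (G₀ (conj z)) - W t =
      conj (flow W t (G₀ z) - W t) := fun z hz => by
    rw [hs₀ z (hsub hz)]
    exact zs _ (hmap2 z hz)
  have hKp : ∀ z ∈ ball (x : ℂ) (m₂ / 4), 0 < z.im → 0 < (flow W t (G₀ z) - W t).im :=
    fun z hz h0 => zp _ (hmap2 z hz) (hp₀ z (hsub hz) h0)
  have hρρ : m₂ / 4 / 2 + m₂ / 4 / 2 = m₂ / 4 := by ring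
  obtain ⟨-, hlip⟩ := lip_of_bdd (f := fun z => flow W t (G₀ z) - W t) (x := (x : ℂ))
    (ρ := m₂ / 4 / 2) (s := m₂ / 4 / 2) (B := 2 * X) (by positivity) (by rw [hρρ]; exact hKd)
    (by rw [hρρ]; exact fun z hz => zb _ (hmap2 z hz))
  have hL : 2 * X / (m₂ / 4 / 2 / 2) = 32 * X / m₂ := by field_simp; ring
  rw [hL] at hlip
  have hclose := typ_close (f := G₁) (g := fun z => flow W t (G₀ z) - W t) (x := x)
    (ρ := m₂ / 4) (δ := δ) (κ := 17 * κ) (L := 32 * X / m₂) hδ0 (by linarith) (by positivity)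
    (hd₁.mono hsub) (fun z hz => hs₁ z (hsub hz)) (fun z hz => hp₁ z (hsub hz)) hKd hKs hKp hlip
    hcl
  set B : ℝ := 46 * (32 * X / m₂ * δ) + 527 * κ with hB
  have hB0 : 0 ≤ B := by positivity
  have hmm : m₂ / 32 + m₂ / 32 = m₂ / 4 / 4 := by ring
  have hsub2 : ball (x : ℂ) (m₂ / 4 / 4) ⊆ ball (x : ℂ) (m₂ / 4) :=
    ball_subset_ball (by linarith)
  obtain ⟨hder, -⟩ := lip_of_bdd (f := fun z => G₁ z - (flow W t (G₀ z) - W t)) (x := (x : ℂ))
    (ρ := m₂ / 32) (s := m₂ / 32) (B := B) (by positivity)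
    (by rw [hmm]; exact (hd₁.mono (hsub2.trans hsub)).sub (hKd.mono hsub2))
    (by
      rw [hmm]
      intro z hz
      refine (hclose z hz).trans ?_
      rw [hB]
      linarith)
  have h1 := hder x (mem_ball_self (by positivity))
  have hG₀ : HasDerivAt G₀ (deriv G₀ x) x :=
    (hd₀.differentiableAt (isOpen_ball.mem_nhds (hsub hx))).hasDerivAt
  have hG₁ : HasDerivAt G₁ (deriv G₁ x) x :=
    (hd₁.differentiableAt (isOpen_ball.mem_nhds (hsub hx))).hasDerivAt
  have hZ : HasDerivAt (fun z => flow W t z - W t)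
      (deriv (fun z => flow W t z - W t) (G₀ x)) (G₀ x) :=
    (difX.differentiableAt (isOpen_ball.mem_nhds (hmap2 x hx))).hasDerivAt
  have hK : HasDerivAt (fun z => flow W t (G₀ z) - W t)
      (deriv (fun z => flow W t z - W t) (G₀ x) * deriv G₀ x) x := hZ.comp (x : ℂ) hG₀
  have hsubd : deriv (fun z => G₁ z - (flow W t (G₀ z) - W t)) (x : ℂ) =
      deriv G₁ x - deriv (fun z => flow W t z - W t) (G₀ x) * deriv G₀ x := (hG₁.sub hK).deriv
  rw [hsubd] at h1
  have e2 : B / (m₂ / 32 / 2) = 64 * B / m₂ := by field_simp; ring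
  rw [e2] at h1
  -- the derivatives are real
  have hr₀ := derReal (x := x) hm₂ hd₀ hs₀
  have hr₁ := derReal (x := x) hm₂ hd₁ hs₁
  set D₀ : ℝ := (deriv G₀ x).re with hD₀
  set D₁ : ℝ := (deriv G₁ x).re with hD₁
  have t0 := typ_der (x := x) hm₂ hd₀ hs₀ hp₀
  have t1 := typ_der (x := x) hm₂ hd₁ hs₁ hp₁
  rw [← hD₀] at t0
  rw [← hD₁] at t1
  have hzs : (x : ℂ) + (m₂ / 4 : ℝ) * Complex.I ∈ ball (x : ℂ) m₂ := by
    rw [mem_ball, dist_eq_norm, add_sub_cancel_left, norm_mulI (by positivity)]; linarith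
  have t2 := hp₁ _ hzs (by
    rw [Complex.add_im, Complex.ofReal_im, im_mulI, zero_add]; positivity)
  have hD₀0 : 5 / 3 * σ / m₂ ≤ D₀ := by
    rw [div_le_iff₀ hm₂]
    linarith
  have hD₀p : 0 < D₀ := lt_of_lt_of_le (by positivity) hD₀0
  have hD₁p : 0 ≤ D₁ := by
    by_contra hlt
    push Not at hlt
    have : m₂ / 2 * D₁ < 0 := mul_neg_of_pos_of_neg (by positivity) hlt
    linarith
  refine ⟨D₀, D₁, hD₀p, hr₀, hr₁, ?_⟩
  have h2 := zd (G₀ x) (hmap x hx)
  have h3 := hb₀ x (ball_subset_closedBall hx)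
  set A : ℂ := deriv (fun z => flow W t z - W t) (G₀ x) with hA
  set A' : ℂ := deriv (fun z => flow W t z - W t) (X : ℂ) with hA'
  rw [hr₀, hr₁] at h1
  have hD₀c : (D₀ : ℂ) ≠ 0 := by exact_mod_cast hD₀p.ne'
  have e3 : ((D₁ / D₀ : ℝ) : ℂ) - A' = ((D₁ : ℂ) - A * (D₀ : ℂ)) / (D₀ : ℂ) + (A - A') := by
    push_cast
    field_simp
    ring
  have h4 : ‖((D₁ / D₀ : ℝ) : ℂ) - A'‖ ≤ 80 * B / σ + 140000 / X * lam := by
    rw [e3]
    refine (norm_add_le _ _).trans (add_le_add ?_ ?_)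
    · rw [norm_div, Complex.norm_real, Real.norm_of_nonneg hD₀p.le, div_le_div_iff₀ hD₀p hσ]
      calc ‖(D₁ : ℂ) - A * (D₀ : ℂ)‖ * σ ≤ 64 * B / m₂ * σ := by gcongr
        _ = 64 * B * (3 / 5) * (5 / 3 * σ / m₂) := by ring
        _ ≤ 64 * B * (3 / 5) * D₀ := by gcongr
        _ ≤ 80 * B * D₀ := by
            have := mul_nonneg hB0 hD₀p.le
            nlinarith
    · refine h2.trans ?_
      calc 256 / X * ‖G₀ (x : ℂ) - X‖ ≤ 256 / X * (527 * lam) := by gcongr
        _ = 134912 * (lam / X) := by ring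
        _ ≤ 140000 * (lam / X) := by gcongr; norm_num
        _ = 140000 / X * lam := by ring
  have h5 : D₁ / D₀ = ‖((D₁ / D₀ : ℝ) : ℂ)‖ := by
    rw [Complex.norm_real, Real.norm_of_nonneg (by positivity)]
  rw [h5, dT]
  exact (abs_norm_sub_norm_le _ _).trans h4

end Vale.Agent.P167.H756
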