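import Vale.Agent.P167.H756.S16

/-!
# P167, general `q`, sandwich closeness (17): the data of one polygon with flat marks

* `SeqM` : sequences of uniformizers with uniform moduli;
* `NearG` : the reflected inverse near a flat mark;
* `polyR` : the data of one polygon.
-/

set_option autoImplicit false
set_option linter.unusedVariables false

open Set Topology Metric MeasureTheory Filter Bornology
open scoped ENNReal Real ComplexConjugate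

namespace Vale.Agent.P167.H756

open Vale.Agent.P153.R2.R1 Vale.Agent.P153.R2.OBSV Vale.Agent.P167.H174
open Vale.Agent.P153.R2.L1 (HH IsHydro inv mem_HH isOpen_HH convex_HH)
open Vale.Agent.P164 (loewnerDomain gf Zf IsLoewnerSol)
open Vale.Agent.P167.H947 (surv flow flow_eq flow_conj flow_inj flow_gf surv_inter isOpen_surv
  differentiableOn_flow hasDerivAt_flow_real flow_rsol)

/-- A family of uniformizers with moduli which are uniform along a filter. -/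
structure SeqF {ι : Type*} (l : Filter ι) (ψn : ι → ℂ → ℂ) (Dn : ι → Set ℂ) (an bn : ι → ℂ) :
    Prop where
  isU : ∀ᶠ n in l, IsU (ψn n) (Dn n) (an n) (bn n)
  hconf : ∀ Y : ℝ, 0 < Y → ∃ Rd > 0, ∃ cd > 0, ∀ᶠ n in l, HConf Rd cd Y (ψn n)
  inf : ∀ η : ℝ, 0 < η → ∃ M : ℝ, ∀ᶠ n in l, ∀ z : ℂ, 0 ≤ z.im → M ≤ ‖z‖ →
    ‖ψn n z - bn n‖ < η
  inv : ∀ (X : ℝ) (h : ℝ), 0 < h → ∃ r > 0, ∀ᶠ n in l, ∀ z : ℂ, 0 ≤ z.im →
    ‖ψn n z - ψn n X‖ ≤ r → ‖z - X‖ ≤ h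
  eqc : ∀ (M ε : ℝ), 0 < ε → ∃ δ > 0, ∀ᶠ n in l, ∀ z z' : ℂ, 0 ≤ z.im → 0 ≤ z'.im →
    ‖z‖ ≤ M → ‖z - z'‖ ≤ δ → ‖ψn n z - ψn n z'‖ ≤ ε

/-- A sequence of uniformizers with uniform moduli. -/
abbrev SeqM (ψn : ℕ → ℂ → ℂ) (Dn : ℕ → Set ℂ) (an bn : ℕ → ℂ) : Prop := SeqF atTop ψn Dn an bn

variable {T R : ℝ} {W : ℝ → ℝ} {t : ℝ}

/-- The reflected inverse `G` of the uniformizer `φ` near the flat mark `c`, which corresponds to the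
real point `X`. -/
structure NearG (W : ℝ → ℝ) (t X lam m₂ δ κ : ℝ) (ψ φ G : ℂ → ℂ) (c : ℂ) : Prop where
  diff : DifferentiableOn ℂ G (ball (c.re : ℂ) m₂)
  symm : ∀ z ∈ ball (c.re : ℂ) m₂, G (conj z) = conj (G z)
  pos : ∀ z ∈ ball (c.re : ℂ) m₂, 0 < z.im → 0 < (G z).im
  eq : ∀ z ∈ ball (c.re : ℂ) m₂, 0 ≤ z.im →
    0 ≤ (G z).im ∧ φ (G z) = z + (c.im : ℂ) * Complex.I
  near : ∀ z ∈ closedBall (c.re : ℂ) (m₂ / 4), ‖G z - xT W t X‖ ≤ 527 * lam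
  deep : ∀ z ∈ ball (c.re : ℂ) m₂, δ ≤ z.im → ∃ ζ : ℂ, 0 < ζ.im ∧
    ψ ζ = z + (c.im : ℂ) * Complex.I ∧ ‖ζ - X‖ ≤ lam ∧ ‖G z - (flow W t ζ - W t)‖ ≤ κ

/-- The target is far from the image of `X`. -/
theorem b_far {ψ : ℂ → ℂ} {b : ℂ} {X r lam M : ℝ} (hl : 0 < lam)
    (hinf : ∀ z : ℂ, 0 ≤ z.im → M ≤ ‖z‖ → ‖ψ z - b‖ < r / 4)
    (hinv : ∀ z : ℂ, 0 ≤ z.im → ‖ψ z - ψ X‖ ≤ r → ‖z - X‖ ≤ lam) : 3 * r / 4 ≤ ‖b - ψ X‖ := by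
  set s : ℝ := |M| + |X| + lam + 1 with hs
  have hM := le_abs_self M
  have hM' := abs_nonneg M
  have hX' := abs_nonneg X
  have hs0 : 0 < s := by linarith
  have hi : 0 ≤ ((s : ℂ) * Complex.I).im := by rw [im_mulI]; exact hs0.le
  have hn : ‖(s : ℂ) * Complex.I‖ = s := norm_mulI hs0
  have h1 := hinf _ hi (by rw [hn]; linarith)
  have h2 : lam < ‖(s : ℂ) * Complex.I - X‖ := by
    have h3 := norm_sub_norm_le ((s : ℂ) * Complex.I) (X : ℂ)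
    rw [hn, Complex.norm_real, Real.norm_eq_abs] at h3
    linarith
  have h3 : r < ‖ψ ((s : ℂ) * Complex.I) - ψ X‖ := by
    by_contra hcon
    push Not at hcon
    linarith [hinv _ hi hcon]
  have h4 : ‖ψ ((s : ℂ) * Complex.I) - ψ X‖ ≤ ‖ψ ((s : ℂ) * Complex.I) - b‖ + ‖b - ψ X‖ := by
    calc ‖ψ ((s : ℂ) * Complex.I) - ψ X‖
        = ‖(ψ ((s : ℂ) * Complex.I) - b) + (b - ψ X)‖ := by congr 1; ring
      _ ≤ _ := norm_add_le _ _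
  linarith

/-- The box condition of `nearD` from the deep points. -/
theorem boxR {ψ : ℂ → ℂ} {P Q : Set ℂ} {c : ℂ} {X Y s m m₂ δ δ₃ h : ℝ} (hh : 0 < h)
    (hin : Inner P Q (ψ (Y * Complex.I)) h) (hQP : Q ⊆ P) (hflat : FlatAt P c m)
    (hC : ∃ C : Set ℂ, IsPreconnected C ∧ ψ (Y * Complex.I) ∈ C ∧
      ψ ((X : ℂ) + (s : ℂ) * Complex.I) ∈ C ∧ ∀ x ∈ C, ball x δ₃ ⊆ Q)
    (hm₂ : m₂ ≤ m / 2) (hm₂0 : 0 < m₂) (hc : ‖c - ψ X‖ ≤ m₂ / 16)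
    (hs : ‖ψ ((X : ℂ) + (s : ℂ) * Complex.I) - ψ X‖ ≤ m₂ / 16) (h1 : h ≤ δ₃) (h2 : h ≤ δ)
    (h3 : h ≤ m / 2) : ∀ w : ℂ, ‖w - c‖ < m₂ → c.im + δ ≤ w.im → w ∈ Q := by
  intro w hw hwi
  obtain ⟨C, hC1, hC2, hC3, hC4⟩ := hC
  refine boxC hh hin hQP hflat hC1 hC2 hC3 hC4 ?_ (by linarith) hwi h1 h2 h3
  calc ‖ψ ((X : ℂ) + (s : ℂ) * Complex.I) - c‖
      = ‖(ψ ((X : ℂ) + (s : ℂ) * Complex.I) - ψ X) - (c - ψ X)‖ := by congr 1; ring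
    _ ≤ _ := norm_sub_le _ _
    _ < m / 2 := by linarith

/-- The imaginary part of the preimage of a point at a positive distance of the boundary. -/
theorem im_low {ψ : ℂ → ℂ} {D : Set ℂ} {a b ζ w : ℂ} {δe m M : ℝ} (hm : 0 < m)
    (hU : IsU ψ D a b)
    (heq : ∀ z z' : ℂ, 0 ≤ z.im → 0 ≤ z'.im → ‖z‖ ≤ M → ‖z - z'‖ ≤ δe → ‖ψ z - ψ z'‖ ≤ m / 2)
    (hζ : 0 < ζ.im) (hζM : ‖ζ‖ ≤ M) (hw : ψ ζ = w) (hball : ball w m ⊆ D) : δe ≤ ζ.im := by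
  by_contra hlt
  push Not at hlt
  have h1 : ‖ζ - (ζ.re : ℂ)‖ ≤ δe := by
    have e : ζ - (ζ.re : ℂ) = (ζ.im : ℂ) * Complex.I := by apply Complex.ext <;> simp
    rw [e, norm_mulI hζ]
    exact hlt.le
  have h2 := heq ζ (ζ.re : ℂ) hζ.le (by simp) hζM h1
  have h3 : ψ (ζ.re : ℂ) ∉ D := IsU.notMem hU (by simp)
  refine h3 (hball ?_)
  rw [mem_ball, dist_eq_norm, ← hw, norm_sub_rev]
  linarith

end Vale.Agent.P167.H756
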