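import Vale.Agent.P167.H756.S17

/-!
# P167, general `q`, sandwich closeness (18): the data of one polygon with flat marks

* `phiR` : the uniformizer of the polygon;
* `hboxR` : the points above a flat mark are in the inner polygon;
* `polyR` : the data of one polygon.
-/

set_option autoImplicit false
set_option linter.unusedVariables false

open Set Topology Metric MeasureTheory Filter Bornology
open scoped ENNReal Real ComplexConjugate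

namespace Vale.Agent.P167.H756

open Vale.Agent.P153.R2.R1 Vale.Agent.P153.R2.OBSV Vale.Agent.P167.H174
open Vale.Agent.P153.R2.L1 (HH IsHydro inv mem_HH isOpen_HH convex_HH)
open Vale.Agent.P164 (loewnerDomain gf Zf IsLoewnerSol)
open Vale.Agent.P167.H947 (surv flow flow_eq flow_conj flow_inj flow_gf surv_inter isOpen_surv
  differentiableOn_flow hasDerivAt_flow_real flow_rsol)

variable {T R : ℝ} {W : ℝ → ℝ} {t : ℝ} {ι : Type*} {l : Filter ι} {ψn : ι → ℂ → ℂ}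
  {Dn : ι → Set ℂ} {an bn : ι → ℂ}

/-- **The uniformizer of a polygon with a flat target.** -/
theorem phiR (S : SeqF l ψn Dn an bn) {Y Rb m ε : ℝ} (hT : 0 ≤ T) (hR : 0 ≤ R) (hRb : 0 ≤ Rb)
    (hm : 0 < m) (hY0 : 0 < Y) (hY : 8 * R ≤ Y) (hY2 : 64 * T ≤ Y ^ 2) (hε : 0 < ε) :
    ∃ h > 0, ∀ᶠ n in l, ∀ (W : ℝ → ℝ) (t : ℝ), Drv T R W t → ∀ (Q P : Set ℂ) (a p : ℂ),
      PC h (ψn n) W t Y Rb Q P a → FlatAt P p m → ‖p - bn n‖ ≤ h →
      ∃ φ : ℂ → ℂ, IsU φ P a p ∧ InjOn φ {z | 0 ≤ z.im} ∧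
        ∀ z : ℂ, 0 < z.im → φ z ∈ Q →
          ‖dinv (FD (ψn n) W t) (φ z) - mb 1 Complex.I z‖ ≤ ε := by
  obtain ⟨Rd, hRd, cd, hcd, hev⟩ := S.hconf Y hY0
  obtain ⟨c₀, hc₀, ρ₀, hρ₀, hside⟩ := sideC_of_PC (T := T) (R := R) hRd hcd hRb hY0 hY hY2 hT hR
  obtain ⟨h₁, hh₁, hhalf⟩ := halfplaneC (R := Rd + Rb) (c := c₀) (by positivity) hc₀ hρ₀ hε
  obtain ⟨h₂, hh₂, hside⟩ := hside h₁ hh₁
  obtain ⟨Mb, hMb⟩ := S.inf (min (h₂ / 4) (m / 4)) (by positivity)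
  obtain ⟨s, hs1, hsM, hsh, hsR, hsT⟩ : ∃ s : ℝ, 1 ≤ s ∧ Mb ≤ s ∧ h₂⁻¹ < s ∧ 4 * R ≤ s ∧
      16 * T ≤ s ^ 2 := by
    have hhi : 0 < h₂⁻¹ := inv_pos.2 hh₂
    have hM := le_abs_self Mb
    have hM' := abs_nonneg Mb
    refine ⟨|Mb| + h₂⁻¹ + 1 + 4 * R + 16 * T, by linarith, by linarith, by linarith, by linarith, ?_⟩
    have h1 : 1 ≤ |Mb| + h₂⁻¹ + 1 + 4 * R + 16 * T := by linarith
    nlinarith
  have hs0 : 0 < s := by linarith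
  obtain ⟨h₅, hh₅, δ₅, hδ₅, hdeep⟩ := deepC (T := T) (R := R) (Rd := Rd) (cd := cd) (m := s)
    (M := s) (y₀ := s) hT hR hRd hcd hY0 hY hY2 hs0 hsR hsT hs0.le hs0
  refine ⟨min h₂ (min h₅ (min (h₂ / 4) (m / 4))) , by positivity, ?_⟩
  filter_upwards [hev, hMb] with n hψ hb W t H Q P a p hP hflat hp
  set h : ℝ := min h₂ (min h₅ (min (h₂ / 4) (m / 4))) with hh
  have q2 : h ≤ h₂ := min_le_left _ _
  have q5 : h ≤ h₅ := (min_le_right _ _).trans (min_le_left _ _)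
  have q4 : h ≤ h₂ / 4 := (min_le_right _ _).trans ((min_le_right _ _).trans (min_le_left _ _))
  have qm : h ≤ m / 4 := (min_le_right _ _).trans ((min_le_right _ _).trans (min_le_right _ _))
  have hi : ((s : ℂ) * Complex.I).im = s := im_mulI s
  have hn : ‖(s : ℂ) * Complex.I‖ = s := norm_mulI hs0
  obtain ⟨C, -, -, hC3, hC4⟩ := hdeep (ψn n) hψ W t H Q hP.subD
    ((ball_subset_ball (by linarith)).trans hP.innerD) ((s : ℂ) * Complex.I) hi.ge hn.ge hn.le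
  have hqQ : ψn n ((s : ℂ) * Complex.I) ∈ Q := hC4 _ hC3 (mem_ball_self hδ₅)
  have hqb := hb ((s : ℂ) * Complex.I) (by rw [hi]; exact hs0.le) (by rw [hn]; exact hsM)
  have hqb1 : ‖ψn n ((s : ℂ) * Complex.I) - bn n‖ < h₂ / 4 := hqb.trans_le (min_le_left _ _)
  have hqb2 : ‖ψn n ((s : ℂ) * Complex.I) - bn n‖ < m / 4 := hqb.trans_le (min_le_right _ _)
  have htri : ‖ψn n ((s : ℂ) * Complex.I) - p‖ ≤
      ‖ψn n ((s : ℂ) * Complex.I) - bn n‖ + ‖p - bn n‖ := by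
    calc ‖ψn n ((s : ℂ) * Complex.I) - p‖
        = ‖(ψn n ((s : ℂ) * Complex.I) - bn n) - (p - bn n)‖ := by congr 1; ring
      _ ≤ _ := norm_sub_le _ _
  have hdom : (s : ℂ) * Complex.I ∈ loewnerDomain W t :=
    H.dom (by rw [hi]; exact hs0) (by rw [hn]; exact hsR) (by rw [hn]; exact hsT)
  obtain ⟨hpf, hpm⟩ := mark_flat (W := W) (t := t) (h := h₂) (ψ := ψn n) hP.good.isOpen hflat
    hP.subP hqQ ⟨_, ⟨hdom, by rw [hn]; exact hsh⟩, rfl⟩ (by linarith) (by linarith)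
  exact hhalf _ _ _ _ _ _ (hside (ψn n) hψ W t H Q P a p (hP.mono q2) hpf hpm)

/-- **The points above a flat mark are in the inner polygon.** -/
theorem hboxR (S : SeqF l ψn Dn an bn) {X Y Rb m m₂ δ : ℝ} (hT : 0 ≤ T) (hR : 0 ≤ R)
    (hX0 : 0 < X) (hX : 8 * R ≤ X) (hX2 : 64 * T ≤ X ^ 2) (hY0 : 0 < Y) (hY : 8 * R ≤ Y)
    (hY2 : 64 * T ≤ Y ^ 2) (hm₂ : 0 < m₂) (hm₂m : m₂ ≤ m / 2) (hδ : 0 < δ) :
    ∃ h > 0, ∀ᶠ n in l, ∀ (W : ℝ → ℝ) (t : ℝ), Drv T R W t → ∀ (Q P : Set ℂ) (a c : ℂ),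
      PC h (ψn n) W t Y Rb Q P a → FlatAt P c m → ‖c - ψn n X‖ ≤ h →
      ∀ w : ℂ, ‖w - c‖ < m₂ → c.im + δ ≤ w.im → w ∈ Q := by
  obtain ⟨Rd, hRd, cd, hcd, hev⟩ := S.hconf Y hY0
  obtain ⟨δe, hδe, heq⟩ := S.eqc (2 * X) (m₂ / 16) (by positivity)
  set s : ℝ := min δe X with hs
  have hs0 : 0 < s := by positivity
  have hsX : s ≤ X := min_le_right _ _
  have hse : s ≤ δe := min_le_left _ _
  obtain ⟨h₃, hh₃, δ₃, hδ₃, hdeep⟩ := deepC (T := T) (R := R) (Rd := Rd) (cd := cd) (m := X)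
    (M := 2 * X) (y₀ := s) hT hR hRd hcd hY0 hY hY2 hX0 (by linarith) (by linarith)
    (by positivity) hs0
  refine ⟨min (min h₃ δ₃) (min (min δ (m / 2)) (m₂ / 16)), by
    have : 0 < m / 2 := by linarith
    positivity, ?_⟩
  filter_upwards [hev, heq] with n hψ hq W t H Q P a c hP hflat hc
  set h : ℝ := min (min h₃ δ₃) (min (min δ (m / 2)) (m₂ / 16)) with hh
  have hh0 : 0 < h := by
    have : 0 < m / 2 := by linarith
    positivity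
  have q3 : h ≤ h₃ := (min_le_left _ _).trans (min_le_left _ _)
  have qδ₃ : h ≤ δ₃ := (min_le_left _ _).trans (min_le_right _ _)
  have qδ : h ≤ δ := (min_le_right _ _).trans ((min_le_left _ _).trans (min_le_left _ _))
  have qm : h ≤ m / 2 := (min_le_right _ _).trans ((min_le_left _ _).trans (min_le_right _ _))
  have qm₂ : h ≤ m₂ / 16 := (min_le_right _ _).trans (min_le_right _ _)
  have hi : ((X : ℂ) + (s : ℂ) * Complex.I).im = s := by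
    rw [Complex.add_im, Complex.ofReal_im, im_mulI, zero_add]
  have hnX : ‖(X : ℂ)‖ = X := by rw [Complex.norm_real, Real.norm_of_nonneg hX0.le]
  have hns : ‖(s : ℂ) * Complex.I‖ = s := norm_mulI hs0
  have hre : X ≤ ‖(X : ℂ) + (s : ℂ) * Complex.I‖ := by
    have h1 := Complex.abs_re_le_norm ((X : ℂ) + (s : ℂ) * Complex.I)
    have h2 : ((X : ℂ) + (s : ℂ) * Complex.I).re = X := by simp
    rw [h2, abs_of_pos hX0] at h1
    exact h1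
  have hle : ‖(X : ℂ) + (s : ℂ) * Complex.I‖ ≤ 2 * X := by
    refine (norm_add_le _ _).trans ?_
    rw [hnX, hns]; linarith
  refine boxR hh0 (hP.innerP) hP.subP hflat
    (hdeep (ψn n) hψ W t H Q hP.subD ((ball_subset_ball (by linarith)).trans hP.innerD)
      _ hi.ge hre hle) hm₂m hm₂ (hc.trans qm₂) ?_ qδ₃ qδ qm
  refine hq _ _ (by rw [hi]; exact hs0.le) (by simp) hle ?_
  rw [add_sub_cancel_left, hns]
  exact hse

/-- **The data of one polygon.** -/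
theorem polyR (S : SeqF l ψn Dn an bn) {X X' lam m Y Rb : ℝ} (hT : 0 ≤ T) (hR : 0 ≤ R)
    (hX0 : 0 < X) (hX : 8 * R ≤ X) (hX2 : 256 * T ≤ X ^ 2) (hXX : 16 * X ≤ X') (hl0 : 0 < lam)
    (hlX : lam ≤ X / 8192) (hm : 0 < m) (hRb : 0 ≤ Rb) (hY0 : 0 < Y) (hY : 8 * R ≤ Y)
    (hY2 : 64 * T ≤ Y ^ 2) :
    ∃ m₂ > 0, ∃ σ > 0, ∀ δ : ℝ, 0 < δ → δ ≤ m₂ / 64 → ∀ κ : ℝ, 0 < κ → κ ≤ lam →
      ∃ h > 0, ∀ᶠ n in l, InjOn (ψn n) HH ∧ ∀ (W : ℝ → ℝ) (t : ℝ), Drv T R W t →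
      ∀ (Q P : Set ℂ) (a p c d : ℂ), PC h (ψn n) W t Y Rb Q P a → FlatAt P c m → FlatAt P d m →
      FlatAt P p m → ‖c - ψn n X‖ ≤ h → ‖d - ψn n X'‖ ≤ h → ‖p - bn n‖ ≤ h →
      ∃ φ Gc Gd : ℂ → ℂ, IsU φ P a p ∧ InjOn φ {z | 0 ≤ z.im} ∧
        NearG W t X lam m₂ δ κ (ψn n) φ Gc c ∧ NearG W t X' lam m₂ δ κ (ψn n) φ Gd d ∧
        ∀ ζ : ℂ, 0 < ζ.im → ‖ζ - X'‖ ≤ lam →
          ψn n ζ = ((d.re : ℂ) + ((m₂ / 4 : ℝ) : ℂ) * Complex.I) + (d.im : ℂ) * Complex.I →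
          σ ≤ ζ.im := by
  have hX'0 : 0 < X' := by linarith
  have hX' : 8 * R ≤ X' := by linarith
  have hXsq : X ^ 2 ≤ X' ^ 2 := by gcongr; linarith
  have hX64 : 64 * T ≤ X ^ 2 := by linarith
  have hX64' : 64 * T ≤ X' ^ 2 := by linarith
  obtain ⟨Rd, hRd, cd, hcd, hev⟩ := S.hconf Y hY0
  obtain ⟨r₁, hr₁, hinv₁⟩ := S.inv X lam hl0
  obtain ⟨r₂, hr₂, hinv₂⟩ := S.inv X' lam hl0
  set r : ℝ := min r₁ r₂ with hr
  have hr0 : 0 < r := by positivity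
  set m₂ : ℝ := min (m / 2) (r / 4) with hm₂
  have hm₂0 : 0 < m₂ := by positivity
  have hm₂m : m₂ ≤ m / 2 := min_le_left _ _
  have hm₂r : m₂ ≤ r / 4 := min_le_right _ _
  obtain ⟨σ, hσ, heq⟩ := S.eqc (2 * X') (m₂ / 8 / 2) (by positivity)
  refine ⟨m₂, hm₂0, σ, hσ, fun δ hδ hδm κ hκ hκl => ?_⟩
  obtain ⟨ε, hε, himb⟩ := imb_close (M := 3 * X') (by positivity) hκ
  obtain ⟨h₁, hh₁, hφ⟩ := phiR (T := T) (R := R) S hT hR hRb hm hY0 hY hY2 hε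
  obtain ⟨h₂, hh₂, hb₁⟩ := hboxR (T := T) (R := R) (Rb := Rb) S hT hR hX0 hX hX64 hY0 hY hY2 hm₂0
    hm₂m hδ
  obtain ⟨h₃, hh₃, hb₂⟩ := hboxR (T := T) (R := R) (Rb := Rb) S hT hR hX'0 hX' hX64' hY0 hY hY2
    hm₂0 hm₂m hδ
  obtain ⟨Mb, hMb⟩ := S.inf (r / 4) (by positivity)
  refine ⟨min h₁ (min h₂ (min h₃ (r / 4))), by positivity, ?_⟩
  filter_upwards [hev, hinv₁, hinv₂, heq, hφ, hb₁, hb₂, hMb, S.isU] with n hψ i1 i2 hq hφ hb₁ hb₂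
    hbn hU
  refine ⟨hψ.inj, fun W t H Q P a p c d hP fc fd fp hc hd hp => ?_⟩
  set h : ℝ := min h₁ (min h₂ (min h₃ (r / 4))) with hh
  have q1 : h ≤ h₁ := min_le_left _ _
  have q2 : h ≤ h₂ := (min_le_right _ _).trans (min_le_left _ _)
  have q3 : h ≤ h₃ := (min_le_right _ _).trans ((min_le_right _ _).trans (min_le_left _ _))
  have q4 : h ≤ r / 4 := (min_le_right _ _).trans ((min_le_right _ _).trans (min_le_right _ _))
  have i1' : ∀ z : ℂ, 0 ≤ z.im → ‖ψn n z - ψn n X‖ ≤ r → ‖z - X‖ ≤ lam := fun z hz hzr =>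
    i1 z hz (hzr.trans (min_le_left _ _))
  have i2' : ∀ z : ℂ, 0 ≤ z.im → ‖ψn n z - ψn n X'‖ ≤ r → ‖z - X'‖ ≤ lam := fun z hz hzr =>
    i2 z hz (hzr.trans (min_le_right _ _))
  obtain ⟨φ, hφU, hφi, hφc⟩ := hφ W t H Q P a p (hP.mono q1) fp (hp.trans q1)
  have hbox₁ := hb₁ W t H Q P a c (hP.mono q2) fc (hc.trans q2)
  have hbox₂ := hb₂ W t H Q P a d (hP.mono q3) fd (hd.trans q3)
  have hfar : ∀ x : ℝ, (∀ z : ℂ, 0 ≤ z.im → ‖ψn n z - ψn n x‖ ≤ r → ‖z - x‖ ≤ lam) →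
      r / 2 ≤ ‖p - ψn n x‖ := by
    intro x hx
    have h1 := b_far hl0 hbn hx
    have h2 : ‖bn n - ψn n x‖ ≤ ‖p - ψn n x‖ + ‖p - bn n‖ := by
      calc ‖bn n - ψn n x‖ = ‖(p - ψn n x) - (p - bn n)‖ := by congr 1; ring
        _ ≤ _ := norm_sub_le _ _
    linarith
  obtain ⟨Gc, c1, c2, c3, c4, c5, c6⟩ := nearD (m := m) (r := r) H hX0 hX hX64 hl0 (by linarith)
    hm₂0 (by linarith) hm₂r hδ (by linarith) hκ hκl
    (fun z v hz hzX hv => himb z v hz (hzX.trans (by linarith)) hv) hψ.diff hψ.inj i1'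
    (hc.trans q4) fc (hfar X i1') hP.good.nocut hφU hP.subD hφc hbox₁
  obtain ⟨Gd, d1, d2, d3, d4, d5, d6⟩ := nearD (m := m) (r := r) H hX'0 hX' hX64' hl0
    (by linarith) hm₂0 (by linarith) hm₂r hδ (by linarith) hκ hκl himb hψ.diff hψ.inj i2'
    (hd.trans q4) fd (hfar X' i2') hP.good.nocut hφU hP.subD hφc hbox₂
  refine ⟨φ, Gc, Gd, hφU, hφi, ⟨c1, c2, c3, c4, c5, c6⟩, ⟨d1, d2, d3, d4, d5, d6⟩, ?_⟩
  intro ζ hζ0 hζX hζw
  have hζn : ‖ζ‖ ≤ 2 * X' := by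
    have h1 : ‖(X' : ℂ)‖ = X' := by rw [Complex.norm_real, Real.norm_of_nonneg hX'0.le]
    calc ‖ζ‖ = ‖(ζ - X') + X'‖ := by congr 1; ring
      _ ≤ _ := norm_add_le _ _
      _ ≤ 2 * X' := by rw [h1]; linarith
  refine im_low (m := m₂ / 8) (M := 2 * X') (by positivity) hU hq hζ0 hζn hζw ?_
  intro y hy
  have hyQ : y ∈ Q := by
    rw [mem_ball, dist_eq_norm] at hy
    have e : (d.re : ℂ) + ((m₂ / 4 : ℝ) : ℂ) * Complex.I + (d.im : ℂ) * Complex.I - d =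
        ((m₂ / 4 : ℝ) : ℂ) * Complex.I := by
      apply Complex.ext <;> simp
    refine hbox₂ y ?_ ?_
    · calc ‖y - d‖ = ‖(y - ((d.re : ℂ) + ((m₂ / 4 : ℝ) : ℂ) * Complex.I + (d.im : ℂ) * Complex.I)) +
            ((d.re : ℂ) + ((m₂ / 4 : ℝ) : ℂ) * Complex.I + (d.im : ℂ) * Complex.I - d)‖ := by
            congr 1; ring
        _ ≤ _ := norm_add_le _ _
        _ < m₂ := by rw [e, norm_mulI (by positivity)]; linarith
    · have h1 := (Complex.abs_im_le_norm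
        (y - ((d.re : ℂ) + ((m₂ / 4 : ℝ) : ℂ) * Complex.I + (d.im : ℂ) * Complex.I))).trans_lt hy
      have h2 : ((d.re : ℂ) + ((m₂ / 4 : ℝ) : ℂ) * Complex.I + (d.im : ℂ) * Complex.I).im =
          m₂ / 4 + d.im := by
        rw [Complex.add_im, Complex.add_im, Complex.ofReal_im, im_mulI, im_mulI, zero_add]
      rw [Complex.sub_im, h2, abs_lt] at h1
      linarith [h1.1]
  have h1 := hP.subD hyQ
  rw [← hU.img]
  exact image_mono (fun z hz => Vale.Agent.P164.im_pos_of_dom H.nn hz) h1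

end Vale.Agent.P167.H756
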