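import Vale.Agent.P167.H756.S18

/-!
# P167, general `q`, sandwich closeness (19): the ratio of the observables for flat polygons

* `dataR` : the quantities of `QPosL` in terms of the reflected inverses;
* `glueR` : comparison of two polygons;
* `sandR` : the ratio of the observables is close to `obsQ`.
-/

set_option autoImplicit false
set_option linter.unusedVariables false

open Set Topology Metric MeasureTheory Filter Bornology
open scoped ENNReal Real ComplexConjugate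

namespace Vale.Agent.P167.H756

open Vale.Agent.P153.R2.R1 Vale.Agent.P153.R2.OBSV Vale.Agent.P167.H174
open Vale.Agent.P153.R2.L1 (HH IsHydro inv mem_HH isOpen_HH convex_HH)
open Vale.Agent.P164 (loewnerDomain gf Zf IsLoewnerSol)
open Vale.Agent.P167.H411 (ldv obsF obsY exists_csol exists_rsol csol_unique)
open Vale.Agent.P167.H947 (surv flow flow_eq flow_conj flow_inj flow_gf surv_inter isOpen_surv
  differentiableOn_flow hasDerivAt_flow_real flow_rsol)
open Vale.Agent.P167.QE (obsQ obsQ_eq)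

variable {T R : ℝ} {W : ℝ → ℝ} {t : ℝ}

/-- The chain rule within the closed half-plane. -/
theorem compG {φ ψ G : ℂ → ℂ} {x r β : ℝ} {m : ℂ} (hr : 0 < r)
    (hGd : DifferentiableOn ℂ G (ball (x : ℂ) r))
    (hGe : ∀ z ∈ ball (x : ℂ) r, 0 ≤ z.im → 0 ≤ (G z).im ∧ φ (G z) = ψ z)
    (hβ : G x = (β : ℂ)) (hφ : HasDerivWithinAt φ m {z | 0 ≤ z.im} β) :
    HasDerivWithinAt ψ (m * deriv G x) (ball (x : ℂ) r ∩ {z | 0 ≤ z.im}) x := by
  have hxb : (x : ℂ) ∈ ball (x : ℂ) r := mem_ball_self hr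
  have hτd : HasDerivAt G (deriv G x) x :=
    (hGd.differentiableAt (isOpen_ball.mem_nhds hxb)).hasDerivAt
  have hφ' : HasDerivWithinAt φ m {z | 0 ≤ z.im} (G x) := by rw [hβ]; exact hφ
  have h9 : HasDerivWithinAt (φ ∘ G) (m * deriv G x)
      (ball (x : ℂ) r ∩ {z | 0 ≤ z.im}) x :=
    hφ'.comp (x : ℂ) hτd.hasDerivWithinAt fun z hz => (hGe z hz.1 hz.2).1
  have e1 : ∀ z ∈ ball (x : ℂ) r ∩ {z | 0 ≤ z.im}, ψ z = (φ ∘ G) z := by
    intro z hz
    exact ((hGe z hz.1 hz.2).2).symm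
  have e2 : ψ x = (φ ∘ G) x := by
    have h := (hGe x hxb (by rw [Complex.ofReal_im])).2
    exact h.symm
  exact h9.congr e1 e2

/-- The quantities of `QPosL` in terms of the reflected inverses. -/
theorem dataR {X X' lam m₂ δ κ : ℝ} {ψ φ Gc Gd : ℂ → ℂ} {P : Set ℂ} {a p c d ν : ℂ} {u v : ℝ}
    (hm₂ : 0 < m₂) (hn : NoCut P) (hφ : IsU φ P a p) (hφi : InjOn φ {z | 0 ≤ z.im})
    (Nc : NearG W t X lam m₂ δ κ ψ φ Gc c) (Nd : NearG W t X' lam m₂ δ κ ψ φ Gd d)
    (hQ : QPosL ν P a p c d u v) :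
    ∃ α β D : ℝ, 0 < α ∧ α < β ∧ 0 < D ∧ u = α / β ∧ v = D / (β - α) ∧
      |α - xT W t X| ≤ 527 * lam ∧ |β - xT W t X'| ≤ 527 * lam ∧
      (D : ℂ) = ν * deriv Gd d.re := by
  obtain ⟨α, β, D, k1, k2, k3, k4, k5, k6, k7, k8⟩ := hQ.transfer hn hφ
  have hreal : ∀ x : ℝ, (x : ℂ) ∈ {z : ℂ | 0 ≤ z.im} := fun x => by simp
  have re_of : ∀ (G : ℂ → ℂ) (x : ℝ), (∀ z ∈ ball (x : ℂ) m₂, G (conj z) = conj (G z)) →
      G x = ((G x).re : ℂ) := by
    intro G x hs
    have h1 := hs x (mem_ball_self hm₂)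
    rw [Complex.conj_ofReal] at h1
    exact Complex.ext (by simp) (by simpa using Complex.conj_eq_iff_im.1 h1.symm)
  have e1 : ∀ c : ℂ, ((c.re : ℝ) : ℂ) + (c.im : ℂ) * Complex.I = c := fun c =>
    Complex.re_add_im c
  have n1 := re_of Gc c.re Nc.symm
  have n2 := re_of Gd d.re Nd.symm
  have g1 := (Nc.eq c.re (mem_ball_self hm₂) (by simp)).2
  have g2 := (Nd.eq d.re (mem_ball_self hm₂) (by simp)).2
  rw [e1, n1] at g1
  rw [e1, n2] at g2
  have i1 : (Gc c.re).re = α := by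
    exact_mod_cast hφi (hreal (Gc c.re).re) (hreal α) (g1.trans k4.symm)
  have i2 : (Gd d.re).re = β := by
    exact_mod_cast hφi (hreal (Gd d.re).re) (hreal β) (g2.trans k5.symm)
  rw [i1] at n1
  rw [i2] at n2
  have h1 := Nc.near c.re (mem_closedBall_self (by positivity))
  have h2 := Nd.near d.re (mem_closedBall_self (by positivity))
  rw [n1, ← Complex.ofReal_sub, Complex.norm_real, Real.norm_eq_abs] at h1
  rw [n2, ← Complex.ofReal_sub, Complex.norm_real, Real.norm_eq_abs] at h2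
  refine ⟨α, β, D, k1, k2, k3, k7, k8, h1, h2, ?_⟩
  have h3 := compG (ψ := fun z => z + (d.im : ℂ) * Complex.I) hm₂ Nd.diff Nd.eq n2 k6
  have h4 : HasDerivWithinAt (fun z : ℂ => z + (d.im : ℂ) * Complex.I) 1
      (ball (d.re : ℂ) m₂ ∩ {z | 0 ≤ z.im}) (d.re : ℂ) :=
    ((hasDerivAt_id (d.re : ℂ)).add_const _).hasDerivWithinAt
  have h5 := uniqO hm₂ h3 h4
  have hD : (D : ℂ) ≠ 0 := by exact_mod_cast k3.ne'
  push_cast at h5
  field_simp at h5
  exact h5.symm

end Vale.Agent.P167.H756
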