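import Vale.Agent.P167.H756.S1

/-!
# P167, general `q`, sandwich closeness (2): Theorem A for a polygon which is not inside the domain

`Ω` is a polygon which has almost the same part as `D = F (disc)`: there is a common inner polygon
`Q`. `halfplaneO` : the uniformizer of `(Ω; a, p)` is close to `F ∘ mb 1 I` over `Q`.
-/

set_option autoImplicit false
set_option linter.unusedVariables false

open Set Topology Metric MeasureTheory Filter Bornology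
open scoped ENNReal Real ComplexConjugate

namespace Vale.Agent.P167.H756

open Vale.Agent.P153.R2.R1 Vale.Agent.P153.R2.OBSV Vale.Agent.P167.H174

variable {R c : ℝ}

/-- A normalised conformal map onto a good domain. -/
theorem exists_norm {P : Set ℂ} (hP : Good P) {F : ℂ → ℂ} {D : Set ℂ} (hF : Conf F D)
    (hF0 : F 0 ∈ P) :
    ∃ Φ : ℂ → ℂ, CConf Φ P ∧ Φ 0 = F 0 ∧ ∃ s : ℝ, 0 ≤ s ∧ deriv Φ 0 = s * deriv F 0 := by
  have z0 : (0 : ℂ) ∈ ball (0 : ℂ) 1 := mem_ball_self one_pos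
  obtain ⟨Φ₀, hΦ₀, hΦ₀0, s, hs0, hs⟩ := hP.exists_cconf hF0
  have hne := hF.deriv_ne z0
  have hn0 : (‖deriv F 0‖ : ℂ) ≠ 0 := by exact_mod_cast (norm_ne_zero_iff.2 hne)
  set u : ℂ := deriv F 0 / ‖deriv F 0‖ with hu
  have hu1 : ‖u‖ = 1 := by
    rw [hu, norm_div, Complex.norm_real, norm_norm, div_self (norm_ne_zero_iff.2 hne)]
  refine ⟨fun z => Φ₀ (u * z), hΦ₀.comp_rot hu1, by simp only [mul_zero]; exact hΦ₀0,
    s / ‖deriv F 0‖, by positivity, ?_⟩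
  rw [(hΦ₀.toConf.rot hu1).2, hs, hu]
  push_cast
  field_simp

/-- **Two domains with a common inner polygon.** -/
theorem outer_disc (hR : 0 < R) (hc : 0 < c) {ρ₀ : ℝ} (hρ₀ : ρ₀ < 1) :
    ∃ c' > 0, ∀ ε > 0, ∃ h > 0, ∀ F : ℂ → ℂ, Cls R c F → ∀ w₀ ∈ closedBall (0 : ℂ) ρ₀,
      ∀ Q Ω : Set ℂ, Good Q → Good Ω → Q ⊆ F '' ball 0 1 → Inner (F '' ball 0 1) Q (F w₀) h →
      Collar (F '' ball 0 1) Q h → Q ⊆ Ω → (∀ z ∈ Ω, ‖z - F 0‖ ≤ R) → Inner Ω Q (F w₀) h →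
      Collar Ω Q h →
      ∃ G : ℂ → ℂ, CConf G Ω ∧ Cls R c' G ∧ ∀ x ∈ Q, ‖dinv G x - dinv F x‖ ≤ ε := by
  obtain ⟨c', hc', hsb⟩ := Cls.small_ball (R := R) (c := c) hR hc (ρ := 1 / 2) (by norm_num)
    (by norm_num)
  refine ⟨c', hc', fun ε hε => ?_⟩
  set ρm : ℝ := max ρ₀ 0 with hρm
  have hρm0 : 0 ≤ ρm := le_max_right _ _
  have hρm1 : ρm < 1 := max_lt hρ₀ one_pos
  set ρ₁ : ℝ := max ((1 + ρm) / 2) (1 / 2) with hρ₁
  have hρ₁1 : ρ₁ < 1 := max_lt (by linarith) (by norm_num)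
  have hρ₁m : ρm < ρ₁ := lt_of_lt_of_le (by linarith) (le_max_left _ _)
  have hρ₁0 : 0 < ρ₁ := by linarith
  have hρ₁h : 1 / 2 ≤ ρ₁ := le_max_right _ _
  set ρ₂ : ℝ := ρm / ρ₁ with hρ₂
  have hρ₂1 : ρ₂ < 1 := (div_lt_one hρ₁0).2 hρ₁m
  obtain ⟨h₁, hh₁, hcl₁⟩ := closeness (R := R) (c := c) hR hc hρ₀ (half_pos hε)
  obtain ⟨h₂, hh₂, hcl₂⟩ := closeness (R := R) (c := c') hR hc' hρ₂1 (half_pos hε)
  obtain ⟨h₃, hh₃, hins⟩ := Cls.inside (R := R) (c := c) hR hc hρ₁1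
  refine ⟨min h₁ (min h₂ h₃), by positivity, ?_⟩
  intro F hF w₀ hw₀ Q Ω hQ hΩ hQD hinD hcolD hQΩ hbd hinΩ hcolΩ
  have z0 : (0 : ℂ) ∈ ball (0 : ℂ) 1 := mem_ball_self one_pos
  have hconf := hF.conf
  have hl1 : min h₁ (min h₂ h₃) ≤ h₁ := min_le_left _ _
  have hl2 : min h₁ (min h₂ h₃) ≤ h₂ := (min_le_right _ _).trans (min_le_left _ _)
  have hl3 : min h₁ (min h₂ h₃) ≤ h₃ := (min_le_right _ _).trans (min_le_right _ _)
  have hw₀m : w₀ ∈ closedBall (0 : ℂ) ρm := closedBall_subset_closedBall (le_max_left _ _) hw₀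
  have hcont : F '' closedBall 0 ρ₁ ⊆ Q := by
    refine hinD _ ?_ ?_ ?_
    · refine IsPreconnected.image (convex_closedBall (0 : ℂ) ρ₁).isPreconnected _ ?_
      exact hF.diff.continuousOn.mono (closedBall_subset_ball hρ₁1)
    · exact mem_image_of_mem _ (closedBall_subset_closedBall hρ₁m.le hw₀m)
    · rintro _ ⟨w, hw, rfl⟩
      exact (ball_subset_ball hl3).trans (hins F hF w hw)
  have hF0Q : F 0 ∈ Q := hcont (mem_image_of_mem _ (mem_closedBall_self hρ₁0.le))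
  obtain ⟨Φ, hΦ, hΦ0, s, hs0, hs⟩ := exists_norm hQ hconf hF0Q
  obtain ⟨G, hG, hG0, s', hs'0, hs'⟩ := exists_norm hΩ hconf (hQΩ hF0Q)
  have hGcls : Cls R c' G := by
    refine ⟨hG.diff, hG.inj, fun w hw => ?_, ?_⟩
    · rw [hG0]; exact hbd _ (hG.toConf.mem hw)
    · rw [hG0, hG.img]
      refine (hsb F hF).trans ((image_mono ?_).trans (hcont.trans hQΩ))
      exact ball_subset_closedBall.trans (closedBall_subset_closedBall hρ₁h)
  -- the base point in the coordinates of `G`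
  have hw₀' : dinv G (F w₀) ∈ closedBall (0 : ℂ) ρ₂ := by
    set k : ℂ → ℂ := fun z => dinv G (F (ρ₁ * z)) with hk
    have hmul : ∀ z ∈ ball (0 : ℂ) 1, (ρ₁ : ℂ) * z ∈ closedBall (0 : ℂ) ρ₁ := by
      intro z hz
      rw [mem_ball_zero_iff] at hz
      rw [mem_closedBall_zero_iff, norm_mul, Complex.norm_real, Real.norm_of_nonneg hρ₁0.le]
      nlinarith
    have hkd : DifferentiableOn ℂ k (ball 0 1) := by
      refine hG.toConf.dinv_differentiableOn.comp (hF.diff.comp (by fun_prop) ?_) ?_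
      · exact fun z hz => closedBall_subset_ball hρ₁1 (hmul z hz)
      · exact fun z hz => hQΩ (hcont (mem_image_of_mem _ (hmul z hz)))
    have hk0 : k 0 = 0 := by
      rw [hk]
      simp only [mul_zero]
      rw [← hG0]
      exact hG.toConf.dinv_apply z0
    have hkm : MapsTo k (ball 0 1) (closedBall 0 1) := fun z hz =>
      ball_subset_closedBall (hG.toConf.dinv_mem (hQΩ (hcont (mem_image_of_mem _ (hmul z hz)))))
    have hρ₁c : (ρ₁ : ℂ) ≠ 0 := by exact_mod_cast hρ₁0.ne'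
    have hz1 : ‖w₀ / ρ₁‖ < 1 := by
      rw [norm_div, Complex.norm_real, Real.norm_of_nonneg hρ₁0.le, div_lt_one hρ₁0]
      rw [mem_closedBall_zero_iff] at hw₀m
      linarith
    have h1 := Complex.norm_le_norm_of_mapsTo_ball hkd hkm hk0 hz1
    rw [hk] at h1
    simp only at h1
    rw [mul_div_cancel₀ _ hρ₁c] at h1
    rw [mem_closedBall_zero_iff]
    refine h1.trans ?_
    rw [norm_div, Complex.norm_real, Real.norm_of_nonneg hρ₁0.le, hρ₂]
    rw [mem_closedBall_zero_iff] at hw₀m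
    gcongr
  have hFw : G (dinv G (F w₀)) = F w₀ :=
    hG.toConf.apply_dinv (hQΩ (hcont (mem_image_of_mem _
      (closedBall_subset_closedBall hρ₁m.le hw₀m))))
  have himg : G '' ball 0 1 = Ω := hG.img
  have c1 := hcl₁ F hF w₀ hw₀ Q Φ hΦ.toConf hQD (hinD.mono hl1) (hcolD.mono hl1) hΦ0
    ⟨s, hs0, hs⟩
  have hns : s' ≠ 0 := by
    rintro rfl
    rw [Complex.ofReal_zero, zero_mul] at hs'
    exact hG.toConf.deriv_ne z0 hs'
  have c2 := hcl₂ G hGcls (dinv G (F w₀)) hw₀' Q Φ hΦ.toConf (by rw [himg]; exact hQΩ)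
    (by rw [himg, hFw]; exact hinΩ.mono hl2) (by rw [himg]; exact hcolΩ.mono hl2)
    (by rw [hΦ0, hG0]) ⟨s / s', by positivity, by
      rw [hs, hs']
      have : (s' : ℂ) ≠ 0 := by exact_mod_cast hns
      push_cast
      field_simp⟩
  refine ⟨G, hG, hGcls, fun x hx => ?_⟩
  obtain ⟨z, hz, rfl⟩ : x ∈ Φ '' ball 0 1 := by rw [hΦ.img]; exact hx
  have e1 := c1 z hz
  have e2 := c2 z hz
  calc ‖dinv G (Φ z) - dinv F (Φ z)‖ = ‖(dinv G (Φ z) - z) - (dinv F (Φ z) - z)‖ := by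
        congr 1; ring
    _ ≤ ‖dinv G (Φ z) - z‖ + ‖dinv F (Φ z) - z‖ := norm_sub_le _ _
    _ ≤ ε := by linarith

/-- The boundary point `y` of `Ω` is joined in `Ω` by a small connected set to a point of the common
inner polygon `Q` which is close to the boundary point `ξ` of the disc in the coordinates `F`. -/
def MarkO (F : ℂ → ℂ) (Q Ω : Set ℂ) (y ξ : ℂ) (h : ℝ) : Prop :=
  ∃ C ⊆ Ω, IsPreconnected C ∧ y ∈ closure C ∧ (∀ u ∈ C, ∀ v ∈ C, dist u v ≤ h) ∧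
    (C ∩ (Q ∩ F '' (ball 0 1 ∩ ball ξ h))).Nonempty

theorem MarkO.mono {F : ℂ → ℂ} {Q Ω : Set ℂ} {y ξ : ℂ} {h h' : ℝ} (H : MarkO F Q Ω y ξ h)
    (hh : h ≤ h') : MarkO F Q Ω y ξ h' := by
  obtain ⟨C, h1, h2, h3, h4, h5⟩ := H
  refine ⟨C, h1, h2, h3, fun u hu v hv => (h4 u hu v hv).trans hh, h5.mono ?_⟩
  exact inter_subset_inter_right _ (inter_subset_inter_right _ (image_mono
    (inter_subset_inter_right _ (ball_subset_ball hh))))

/-- A polygon `Ω` with two marked points and a common inner polygon `Q` with the domain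
`F (disc)`, marked at the images of `-1` and `1`. -/
structure SideO (R c ρ₀ h : ℝ) (F : ℂ → ℂ) (w₀ : ℂ) (Q Ω : Set ℂ) (a p : ℂ) : Prop where
  cls : Cls R c F
  base : w₀ ∈ closedBall (0 : ℂ) ρ₀
  goodQ : Good Q
  good : Good Ω
  subD : Q ⊆ F '' ball 0 1
  innerD : Inner (F '' ball 0 1) Q (F w₀) h
  collarD : Collar (F '' ball 0 1) Q h
  subO : Q ⊆ Ω
  bdd : ∀ z ∈ Ω, ‖z - F 0‖ ≤ R
  innerO : Inner Ω Q (F w₀) h
  collarO : Collar Ω Q h
  mem_a : a ∈ frontier Ω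
  mem_p : p ∈ frontier Ω
  mark_a : MarkO F Q Ω a (-1) h
  mark_p : MarkO F Q Ω p 1 h

theorem SideO.mono {R c ρ₀ h h' : ℝ} {F : ℂ → ℂ} {w₀ : ℂ} {Q Ω : Set ℂ} {a p : ℂ}
    (H : SideO R c ρ₀ h F w₀ Q Ω a p) (hh : h ≤ h') : SideO R c ρ₀ h' F w₀ Q Ω a p :=
  { H with
    innerD := H.innerD.mono hh
    collarD := H.collarD.mono hh
    innerO := H.innerO.mono hh
    collarO := H.collarO.mono hh
    mark_a := H.mark_a.mono hh
    mark_p := H.mark_p.mono hh }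

/-- **Theorem A in the half-plane for a polygon with a common inner polygon.** -/
theorem halfplaneO (hR : 0 < R) (hc : 0 < c) {ρ₀ : ℝ} (hρ₀ : ρ₀ < 1) {ε : ℝ} (hε : 0 < ε) :
    ∃ h > 0, ∀ (F : ℂ → ℂ) (w₀ : ℂ) (Q Ω : Set ℂ) (a p : ℂ), SideO R c ρ₀ h F w₀ Q Ω a p →
      ∃ ψ : ℂ → ℂ, IsU ψ Ω a p ∧ InjOn ψ {z | 0 ≤ z.im} ∧
        ∀ z : ℂ, 0 < z.im → ψ z ∈ Q → ‖dinv F (ψ z) - mb 1 Complex.I z‖ ≤ ε := by
  obtain ⟨c', hc', hod⟩ := outer_disc (R := R) (c := c) hR hc hρ₀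
  obtain ⟨δ, hδ, hmb⟩ := mb_close (half_pos hε)
  obtain ⟨η, hη, hsmall⟩ := Cls.small (R := R) (c := c') hR hc' (ε := δ / 4) (by positivity)
  set ε₁ : ℝ := min (ε / 2) (min (δ / 4) (η / 2)) with hε₁
  have hε₁0 : 0 < ε₁ := by positivity
  have hε₁a : ε₁ ≤ ε / 2 := min_le_left _ _
  have hε₁b : ε₁ ≤ δ / 4 := (min_le_right _ _).trans (min_le_left _ _)
  have hε₁c : ε₁ ≤ η / 2 := (min_le_right _ _).trans (min_le_right _ _)
  obtain ⟨h₁, hh₁, hod⟩ := hod ε₁ hε₁0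
  refine ⟨min h₁ (min (δ / 8) (η / 4)), by positivity, ?_⟩
  have hl1 : min h₁ (min (δ / 8) (η / 4)) ≤ h₁ := min_le_left _ _
  have hl2 : min h₁ (min (δ / 8) (η / 4)) ≤ δ / 8 := (min_le_right _ _).trans (min_le_left _ _)
  have hl3 : min h₁ (min (δ / 8) (η / 4)) ≤ η / 4 := (min_le_right _ _).trans (min_le_right _ _)
  intro F w₀ Q Ω a p H
  obtain ⟨G, hG, hGcls, hGF⟩ := hod F H.cls w₀ H.base Q Ω H.goodQ H.good H.subD
    (H.innerD.mono hl1) (H.collarD.mono hl1) H.subO H.bdd (H.innerO.mono hl1)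
    (H.collarO.mono hl1)
  have hconf := H.cls.conf
  -- the marked points
  have hmark : ∀ (y ξ : ℂ), ‖ξ‖ = 1 → y ∈ frontier Ω →
      MarkO F Q Ω y ξ (min h₁ (min (δ / 8) (η / 4))) →
      ∃ α : ℂ, ‖α‖ = 1 ∧ G α = y ∧ ‖α - ξ‖ < δ := by
    intro y ξ hξ hy hm
    rw [← hG.frontier_eq] at hy
    obtain ⟨α, hα, hαy⟩ := hy
    refine ⟨α, mem_sphere_zero_iff_norm.1 hα, hαy, ?_⟩
    obtain ⟨C, hCΩ, hCc, hyC, hCs, x, hxC, hxQ, v, ⟨hv, hvξ⟩, hvx⟩ := hm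
    have hFx : dinv F x = v := by rw [← hvx]; exact hconf.dinv_apply hv
    have h1 := hGF x hxQ
    rw [hFx] at h1
    rw [mem_ball, dist_eq_norm] at hvξ
    set T : Set ℂ := dinv G '' C with hT
    have hTb : T ⊆ ball 0 1 := by
      rintro _ ⟨u, hu, rfl⟩
      exact hG.toConf.dinv_mem (hCΩ hu)
    have hTc : IsPreconnected T :=
      hCc.image _ (hG.toConf.dinv_differentiableOn.continuousOn.mono hCΩ)
    have hxT : dinv G x ∈ T := mem_image_of_mem _ hxC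
    have hdiam := hsmall G hGcls T hTb hTc (by
      rintro _ ⟨u, hu, rfl⟩ _ ⟨u', hu', rfl⟩
      rw [hG.toConf.apply_dinv (hCΩ hu), hG.toConf.apply_dinv (hCΩ hu')]
      exact (hCs u hu u' hu').trans (hl3.trans (by linarith))) ⟨dinv G x, hxT, by
        have h2 : ‖ξ‖ ≤ ‖dinv G x‖ + ‖dinv G x - v‖ + ‖v - ξ‖ := by
          have e : ξ = dinv G x - (dinv G x - v) - (v - ξ) := by ring
          calc ‖ξ‖ = ‖dinv G x - (dinv G x - v) - (v - ξ)‖ := by rw [← e]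
            _ ≤ ‖dinv G x - (dinv G x - v)‖ + ‖v - ξ‖ := norm_sub_le _ _
            _ ≤ _ := by gcongr; exact norm_sub_le _ _
        rw [hξ] at h2
        linarith⟩
    obtain ⟨u, hu, hul⟩ := mem_closure_iff_seq_limit.1 hyC
    have hlim : Tendsto (fun n => dinv G (u n)) atTop (𝓝 α) := by
      refine hG.tendsto_inv H.good.nocut (Eventually.of_forall fun n =>
        ball_subset_closedBall (hTb (mem_image_of_mem _ (hu n)))) (sphere_subset_closedBall hα) ?_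
      rw [hαy]
      exact hul.congr fun n => (hG.toConf.apply_dinv (hCΩ (hu n))).symm
    have h3 : ‖α - dinv G x‖ ≤ δ / 4 := by
      refine le_of_tendsto (hlim.sub_const (dinv G x)).norm (Eventually.of_forall fun n => ?_)
      rw [← dist_eq_norm]
      exact hdiam _ (mem_image_of_mem _ (hu n)) _ hxT
    calc ‖α - ξ‖ = ‖(α - dinv G x) + (dinv G x - v) + (v - ξ)‖ := by congr 1; ring
      _ ≤ ‖α - dinv G x‖ + ‖dinv G x - v‖ + ‖v - ξ‖ := norm_add₃_le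
      _ < δ := by linarith
  obtain ⟨α, hα1, hαa, hαd⟩ := hmark a (-1) (by simp) H.mem_a H.mark_a
  obtain ⟨β, hβ1, hβp, hβd⟩ := hmark p 1 (by simp) H.mem_p H.mark_p
  rw [sub_neg_eq_add] at hαd
  obtain ⟨hne1, hcpos, hdist⟩ := hmb α β hα1 hβ1 hαd hβd
  have hβ0 : β ≠ 0 := by rintro rfl; simp at hβ1
  have hquo : ‖α / β‖ = 1 := by rw [norm_div, hα1, hβ1, div_one]
  have hcn2 : mb β (csq (α / β)) 0 = α := by
    have hne0 : α / β ≠ 0 := by
      intro h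
      rw [h, norm_zero] at hquo
      exact zero_ne_one hquo
    rw [Vale.Agent.P153.R2.R1.mb_zero (norm_csq hquo), csq_sq hne0, mul_div_cancel₀ _ hβ0]
  refine ⟨fun z => G (mb β (csq (α / β)) z), ?_, ?_, fun z hz hzQ => ?_⟩
  · have h1 := hG.isU hβ1 hcpos
    rw [hcn2, hαa, hβp] at h1
    exact h1
  · intro z hz z' hz' he
    exact mb_injOn hβ1 hcpos hz hz' (hG.injOn H.good.nocut
      (mb_mem_closedBall hβ1 hcpos hz) (mb_mem_closedBall hβ1 hcpos hz') he)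
  · have hmem : mb β (csq (α / β)) z ∈ ball (0 : ℂ) 1 := by
      rw [mem_ball_zero_iff]; exact norm_mb_lt hβ1 hcpos hz
    have h1 := hGF _ hzQ
    rw [hG.toConf.dinv_apply hmem] at h1
    have h2 := hdist z hz.le
    rw [dist_eq_norm] at h2
    calc ‖dinv F (G (mb β (csq (α / β)) z)) - mb 1 Complex.I z‖
        = ‖(mb β (csq (α / β)) z - mb 1 Complex.I z) -
          (mb β (csq (α / β)) z - dinv F (G (mb β (csq (α / β)) z)))‖ := by congr 1; ring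
      _ ≤ _ := norm_sub_le _ _
      _ ≤ ε := by linarith

end Vale.Agent.P167.H756
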