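import Vale.Agent.P167.H756.S19

/-!
# P167, general `q`, sandwich closeness (20): the ratio of the observables for flat polygons

* `ratR` : the ratio of the derivatives for two polygons;
* `glueR` : comparison of two polygons;
* `sandR` : the ratio of the observables is close to `obsQ`.
-/

set_option autoImplicit false
set_option linter.unusedVariables false

open Set Topology Metric MeasureTheory Filter Bornology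
open scoped ENNReal Real ComplexConjugate

namespace Vale.Agent.P167.H756

open Vale.Agent.P153.R2.R1 Vale.Agent.P153.R2.OBSV Vale.Agent.P167.H174
open Vale.Agent.P153.R2.L1 (HH IsHydro inv mem_HH isOpen_HH convex_HH)
open Vale.Agent.P164 (loewnerDomain gf Zf IsLoewnerSol)
open Vale.Agent.P167.H411 (ldv obsF obsY exists_csol exists_rsol csol_unique)
open Vale.Agent.P167.H947 (surv flow flow_eq flow_conj flow_inj flow_gf surv_inter isOpen_surv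
  differentiableOn_flow hasDerivAt_flow_real flow_rsol)
open Vale.Agent.P167.QE (obsQ obsQ_eq)

variable {T R : ℝ} {W W₀ : ℝ → ℝ} {t : ℝ} {ι : Type*} {l : Filter ι} {ψn : ι → ℂ → ℂ}
  {Dn : ι → Set ℂ} {an bn : ι → ℂ}

/-- The flow at the time `0`. -/
theorem flow_zero' (H₀ : Drv T R W₀ 0) (h0 : W₀ 0 = 0) {ζ : ℂ} (hζ : 0 < ζ.im) :
    flow W₀ 0 ζ - W₀ 0 = ζ := by
  have hd : ζ ∈ loewnerDomain W₀ 0 := by rw [dom_zero']; exact hζ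
  have h1 : Zf W₀ ζ 0 = flow W₀ 0 ζ - W₀ 0 := by
    rw [flow_gf le_rfl H₀.cont.continuousOn hd, Vale.Agent.P164.Zf_eq]
  rw [← h1, Vale.Agent.P164.Zf_zero hζ, h0, Complex.ofReal_zero, sub_zero]

/-- The flow at the time `0` at a far real point. -/
theorem xT_zero (H₀ : Drv T R W₀ 0) (h0 : W₀ 0 = 0) (hR : 0 ≤ R) {x : ℝ} (hx1 : 0 < x)
    (hx2 : 8 * R ≤ x) : xT W₀ 0 x = x := by
  obtain ⟨y, hy⟩ := exists_rsol (W := W₀) (t := 0) (R := R) (b := x) le_rfl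
    H₀.cont.continuousOn H₀.bdd hx1.ne' (by rw [abs_of_pos hx1]; linarith) (by nlinarith)
  rw [xT, flow_rsol le_rfl H₀.cont.continuousOn hy, hy.1, h0]
  simp

/-- **The ratio of the derivatives for two polygons.** -/
theorem ratR (H₀ : Drv T R W₀ 0) (h0 : W₀ 0 = 0) (H : Drv T R W t) {X' lam m₂ δ κ σ : ℝ} (hT : 0 ≤ T) (hR : 0 ≤ R) (hX'0 : 0 < X')
    (hX' : 8 * R ≤ X') (hX64' : 64 * T ≤ X' ^ 2) (hl0 : 0 < lam) (hlX : lam ≤ X' / 8192)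
    (hm₂ : 0 < m₂) (hδ0 : 0 < δ) (hδ : δ ≤ m₂ / 64) (hκ : 0 < κ) (hκl : κ ≤ lam) (hσ : 0 < σ)
    (hκσ : κ ≤ σ / 2)
    {ψ φ₀ G₀ φ₁ G₁ : ℂ → ℂ} (hi : InjOn ψ HH) {d : ℂ}
    (N₀ : NearG W₀ 0 X' lam m₂ δ κ ψ φ₀ G₀ d) (N₁ : NearG W t X' lam m₂ δ κ ψ φ₁ G₁ d)
    (hlow : ∀ ζ : ℂ, 0 < ζ.im → ‖ζ - X'‖ ≤ lam →
      ψ ζ = ((d.re : ℂ) + ((m₂ / 4 : ℝ) : ℂ) * Complex.I) + (d.im : ℂ) * Complex.I → σ ≤ ζ.im) :
    ∃ D₀ D₁ : ℝ, 0 < D₀ ∧ deriv G₀ d.re = (D₀ : ℂ) ∧ deriv G₁ d.re = (D₁ : ℂ) ∧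
      |D₁ / D₀ - dT W t X'| ≤
        80 * (46 * (32 * X' / m₂ * δ) + 527 * κ) / (σ / 2) + 140000 / X' * lam := by
  have z2 := xT_zero H₀ h0 hR hX'0 hX'
  have hn₀ := N₀.near
  rw [z2] at hn₀
  have hsub : ball (d.re : ℂ) (m₂ / 4) ⊆ ball (d.re : ℂ) m₂ := ball_subset_ball (by linarith)
  refine derR H hX'0 hX' hX64' hl0 hlX hm₂ hδ0 hδ hκ (half_pos hσ) N₀.diff N₀.symm N₀.pos hn₀ ?_
    N₁.diff N₁.symm N₁.pos ?_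
  · have hzs : (d.re : ℂ) + ((m₂ / 4 : ℝ) : ℂ) * Complex.I ∈ ball (d.re : ℂ) m₂ := by
      rw [mem_ball, dist_eq_norm, add_sub_cancel_left, norm_mulI (by positivity)]; linarith
    have hzi : ((d.re : ℂ) + ((m₂ / 4 : ℝ) : ℂ) * Complex.I).im = m₂ / 4 := by
      rw [Complex.add_im, Complex.ofReal_im, im_mulI, zero_add]
    obtain ⟨ζ, h1, h2, h3, h4⟩ := N₀.deep _ hzs (by rw [hzi]; linarith)
    have h5 := hlow ζ h1 h3 h2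
    rw [flow_zero' H₀ h0 h1] at h4
    have h6 := (Complex.abs_im_le_norm _).trans h4
    rw [Complex.sub_im] at h6
    have := (abs_le.1 h6).1
    linarith
  · intro z hz hzδ
    obtain ⟨ζ, h1, h2, h3, h4⟩ := N₀.deep z (hsub hz) hzδ
    obtain ⟨ζ', k1, k2, k3, k4⟩ := N₁.deep z (hsub hz) hzδ
    have he : ζ' = ζ := hi (show ζ' ∈ HH from k1) (show ζ ∈ HH from h1) (k2.trans h2.symm)
    rw [he] at k4
    rw [flow_zero' H₀ h0 h1] at h4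
    obtain ⟨-, -, hlip⟩ := lipO H hX'0 hX' hX64'
    have hζb : ζ ∈ ball (X' : ℂ) (X' / 4) := by rw [mem_ball, dist_eq_norm]; linarith
    have hGb : G₀ z ∈ ball (X' : ℂ) (X' / 4) := by
      have := hn₀ z (ball_subset_closedBall hz)
      rw [mem_ball, dist_eq_norm]; linarith
    have h5 := hlip (G₀ z) hGb ζ hζb
    rw [norm_sub_rev] at h4
    calc ‖G₁ z - (flow W t (G₀ z) - W t)‖
        = ‖(G₁ z - (flow W t ζ - W t)) + ((flow W t ζ - W t) - (flow W t (G₀ z) - W t))‖ := by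
          congr 1; ring
      _ ≤ _ := norm_add_le _ _
      _ ≤ 17 * κ := by linarith

/-- **Comparison of two polygons.** -/
theorem glueR (S : SeqF l ψn Dn an bn) {X X' Y Rb m κ : ℝ} (hT : 0 ≤ T) (hR : 0 ≤ R)
    (hX0 : 0 < X) (hX : 8 * R ≤ X) (hX2 : 256 * T ≤ X ^ 2) (hXX : 16 * X ≤ X') (hRb : 0 ≤ Rb)
    (hm : 0 < m) (hY0 : 0 < Y) (hY : 8 * R ≤ Y) (hY2 : 64 * T ≤ Y ^ 2) (hκ : 0 < κ) :
    ∃ h > 0, ∀ᶠ n in l, ∀ (W₀ W : ℝ → ℝ) (t : ℝ), Drv T R W₀ 0 → W₀ 0 = 0 →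
      Drv T R W t → ∀ (Q₀ P₀ Q₁ P₁ : Set ℂ) (a₀ p₀ a₁ p₁ c d : ℂ),
      PC h (ψn n) W₀ 0 Y Rb Q₀ P₀ a₀ → PC h (ψn n) W t Y Rb Q₁ P₁ a₁ →
      FlatAt P₀ c m → FlatAt P₀ d m → FlatAt P₀ p₀ m → FlatAt P₁ c m → FlatAt P₁ d m →
      FlatAt P₁ p₁ m → ‖c - ψn n X‖ ≤ h → ‖d - ψn n X'‖ ≤ h → ‖p₀ - bn n‖ ≤ h →
      ‖p₁ - bn n‖ ≤ h → ∀ (ν : ℂ) (u₀ v₀ u₁ v₁ : ℝ), ν ≠ 0 → QPosL ν P₀ a₀ p₀ c d u₀ v₀ →
        QPosL ν P₁ a₁ p₁ c d u₁ v₁ →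
        |u₁ / u₀ - (xT W t X / X) / (xT W t X' / X')| ≤ κ ∧
        |v₁ / v₀ - dT W t X' * ((X' - X) / (xT W t X' - xT W t X))| ≤ κ := by
  have hX'0 : 0 < X' := by linarith
  have hX' : 8 * R ≤ X' := by linarith
  have hXsq : X ^ 2 ≤ X' ^ 2 := by gcongr; linarith
  have hX64 : 64 * T ≤ X ^ 2 := by linarith
  have hX64' : 64 * T ≤ X' ^ 2 := by linarith
  obtain ⟨η, hη, hηX, hη1, hmod⟩ := modQ hX0 hXX hκ
  obtain ⟨lam, hl0, hlX, hlη, hlη'⟩ : ∃ lam > 0, lam ≤ X / 8192 ∧ 527 * lam ≤ η / 4 ∧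
      140000 / X' * lam ≤ η / 4 := by
    refine ⟨min (X / 8192) (min (η / 2108) (η * X' / 560000)), by positivity, min_le_left _ _, ?_,
      ?_⟩
    · have : min (X / 8192) (min (η / 2108) (η * X' / 560000)) ≤ η / 2108 :=
        (min_le_right _ _).trans (min_le_left _ _)
      linarith
    · have : min (X / 8192) (min (η / 2108) (η * X' / 560000)) ≤ η * X' / 560000 :=
        (min_le_right _ _).trans (min_le_right _ _)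
      calc 140000 / X' * min (X / 8192) (min (η / 2108) (η * X' / 560000))
          ≤ 140000 / X' * (η * X' / 560000) := by gcongr
        _ = η / 4 := by field_simp; ring
  obtain ⟨m₂, hm₂, σ, hσ, hpoly⟩ := polyR (T := T) (R := R) S hT hR hX0 hX hX2 hXX hl0 hlX hm hRb
    hY0 hY hY2
  obtain ⟨κ', hκ'0, hκ'l, hκ'σ, hκ'η⟩ : ∃ κ' > 0, κ' ≤ lam ∧ κ' ≤ σ / 2 ∧
      80 * (527 * κ') / (σ / 2) ≤ η / 4 := by
    refine ⟨min lam (min (σ / 2) (η * σ / 337280)), by positivity, min_le_left _ _,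
      (min_le_right _ _).trans (min_le_left _ _), ?_⟩
    have : min lam (min (σ / 2) (η * σ / 337280)) ≤ η * σ / 337280 :=
      (min_le_right _ _).trans (min_le_right _ _)
    rw [div_le_iff₀ (by positivity)]
    linarith
  obtain ⟨δ, hδ0, hδm, hδη⟩ : ∃ δ > 0, δ ≤ m₂ / 64 ∧
      80 * (46 * (32 * X' / m₂ * δ)) / (σ / 2) ≤ η / 4 := by
    refine ⟨min (m₂ / 64) (η * m₂ * σ / (942080 * X')), by positivity, min_le_left _ _, ?_⟩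
    have : min (m₂ / 64) (η * m₂ * σ / (942080 * X')) ≤ η * m₂ * σ / (942080 * X') :=
      min_le_right _ _
    rw [div_le_iff₀ (by positivity)]
    calc 80 * (46 * (32 * X' / m₂ * min (m₂ / 64) (η * m₂ * σ / (942080 * X'))))
        ≤ 80 * (46 * (32 * X' / m₂ * (η * m₂ * σ / (942080 * X')))) := by gcongr
      _ = η / 4 * (σ / 2) := by field_simp; norm_num
  obtain ⟨h, hh, hev⟩ := hpoly δ hδ0 hδm κ' hκ'0 hκ'l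
  refine ⟨h, hh, ?_⟩
  filter_upwards [hev] with n hn W₀ W t H₀ h0 H Q₀ P₀ Q₁ P₁ a₀ p₀ a₁ p₁ c d hP₀ hP₁ f1 f2 f3 f4 f5 f6 hc hd
    hp₀ hp₁ ν u₀ v₀ u₁ v₁ hν hQ₀ hQ₁
  obtain ⟨hinj, hdata⟩ := hn
  obtain ⟨φ₀, Gc₀, Gd₀, hφ₀, hφ₀i, Nc₀, Nd₀, hlow⟩ := hdata W₀ 0 H₀ Q₀ P₀ a₀ p₀ c d
    hP₀ f1 f2 f3 hc hd hp₀
  obtain ⟨φ₁, Gc₁, Gd₁, hφ₁, hφ₁i, Nc₁, Nd₁, -⟩ := hdata W t H Q₁ P₁ a₁ p₁ c d
    hP₁ f4 f5 f6 hc hd hp₁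
  obtain ⟨α₀, β₀, D₀, k1, k2, k3, k4, k5, k6, k7, k8⟩ := dataR hm₂ hP₀.good.nocut hφ₀ hφ₀i Nc₀ Nd₀
    hQ₀
  obtain ⟨α₁, β₁, D₁, l1, l2, l3, l4, l5, l6, l7, l8⟩ := dataR hm₂ hP₁.good.nocut hφ₁ hφ₁i Nc₁ Nd₁
    hQ₁
  obtain ⟨g₀, g₁, hg₀, e₀, e₁, hr⟩ := ratR H₀ h0 H hT hR hX'0 hX' hX64' hl0 (by linarith) hm₂ hδ0 hδm
    hκ'0 hκ'l hσ hκ'σ hinj Nd₀ Nd₁ hlow
  have z1 := xT_zero H₀ h0 hR hX0 hX
  have z2 := xT_zero H₀ h0 hR hX'0 hX'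
  rw [z1] at k6
  rw [z2] at k7
  obtain ⟨-, g2, g3⟩ := xT_bd H hX0 hX hX64
  obtain ⟨-, g4, g5⟩ := xT_bd H hX'0 hX' hX64'
  have hDD : D₁ / D₀ = g₁ / g₀ := by
    rw [e₀] at k8
    rw [e₁] at l8
    have hD0 : (D₀ : ℂ) ≠ 0 := by exact_mod_cast k3.ne'
    have hg0 : (g₀ : ℂ) ≠ 0 := by exact_mod_cast hg₀.ne'
    have h1 : ((D₁ / D₀ : ℝ) : ℂ) = ((g₁ / g₀ : ℝ) : ℂ) := by
      push_cast
      rw [k8, l8]
      field_simp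
    exact_mod_cast h1
  have hτ' : |D₁ / D₀ - dT W t X'| ≤ η := by
    rw [hDD]
    refine hr.trans ?_
    rw [mul_add, add_div]
    linarith
  have hfin := hmod α₀ β₀ α₁ β₁ (D₁ / D₀) (xT W t X) (xT W t X') (dT W t X') g2 g3 g4 g5
    (norm_nonneg _) (dT_le H hX'0 hX' hX64') (by positivity) (by linarith) (by linarith)
    (by linarith) (by linarith) hτ'
  rw [k4, k5, l4, l5]
  have e2 : D₁ / (β₁ - α₁) / (D₀ / (β₀ - α₀)) = D₁ / D₀ * ((β₀ - α₀) / (β₁ - α₁)) := by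
    have h1 : β₁ - α₁ ≠ 0 := by linarith
    have h2 : β₀ - α₀ ≠ 0 := by linarith
    field_simp
  rw [e2]
  exact hfin

/-- **The ratio of the observables of two flat polygons is close to `obsQ`.** -/
theorem sandR (S : SeqF l ψn Dn an bn) {X e h ε : ℝ} (hT : 0 ≤ T) (hR : 0 ≤ R) (hX0 : 0 < X)
    (hX : 8 * R ≤ X) (hX2 : 256 * T ≤ X ^ 2) (hε : 0 < ε) :
    ∃ X₀ : ℝ, 16 * X ≤ X₀ ∧ ∀ X' : ℝ, X₀ ≤ X' → ∀ Y Rb m : ℝ, 0 ≤ Rb → 0 < m →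
      0 < Y → 8 * R ≤ Y → 64 * T ≤ Y ^ 2 →
    ∃ h₀ > 0, ∀ᶠ n in l, ∀ (W₀ W : ℝ → ℝ) (t : ℝ), Drv T R W₀ 0 → W₀ 0 = 0 →
      Drv T R W t → ∀ (Q₀ P₀ Q₁ P₁ : Set ℂ) (a₀ p₀ a₁ p₁ c d : ℂ),
      PC h₀ (ψn n) W₀ 0 Y Rb Q₀ P₀ a₀ → PC h₀ (ψn n) W t Y Rb Q₁ P₁ a₁ →
      FlatAt P₀ c m → FlatAt P₀ d m → FlatAt P₀ p₀ m → FlatAt P₁ c m → FlatAt P₁ d m →
      FlatAt P₁ p₁ m → ‖c - ψn n X‖ ≤ h₀ → ‖d - ψn n X'‖ ≤ h₀ → ‖p₀ - bn n‖ ≤ h₀ →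
      ‖p₁ - bn n‖ ≤ h₀ → ∀ (ν : ℂ) (u₀ v₀ u₁ v₁ : ℝ), ν ≠ 0 → QPosL ν P₀ a₀ p₀ c d u₀ v₀ →
        QPosL ν P₁ a₁ p₁ c d u₁ v₁ →
        |(u₁ ^ e * v₁ ^ h) / (u₀ ^ e * v₀ ^ h) - obsQ e W X t| ≤ ε := by
  obtain ⟨κ, hκ, hmod⟩ := modP e h hε
  have hX64 : 64 * T ≤ X ^ 2 := by linarith
  obtain ⟨X₀, hX₀, hfar⟩ := far_est hT hR hX0 hX hX64 (half_pos hκ)
  refine ⟨X₀, hX₀, fun X' hX' Y Rb m hRb hm hY0 hY hY2 => ?_⟩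
  obtain ⟨h₀, hh₀, hgl⟩ := glueR (X' := X') S hT hR hX0 hX hX2 (hX₀.trans hX') hRb hm hY0 hY hY2
    (half_pos hκ)
  refine ⟨h₀, hh₀, ?_⟩
  filter_upwards [hgl] with n hgl W₀ W t H₀ h0 H Q₀ P₀ Q₁ P₁ a₀ p₀ a₁ p₁ c d hP₀ hP₁ f1 f2 f3 f4 f5 f6 hc hd
    hp₀ hp₁ ν u₀ v₀ u₁ v₁ hν hQ₀ hQ₁
  obtain ⟨r1, r2⟩ := hgl W₀ W t H₀ h0 H Q₀ P₀ Q₁ P₁ a₀ p₀ a₁ p₁ c d hP₀ hP₁ f1 f2 f3 f4 f5 f6 hc hd
    hp₀ hp₁ ν u₀ v₀ u₁ v₁ hν hQ₀ hQ₁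
  obtain ⟨s1, s2⟩ := hfar X' hX' W t H
  obtain ⟨-, g2, g3⟩ := xT_bd H hX0 hX hX64
  have hO : obsQ e W X t = (xT W t X / X) ^ e := by
    obtain ⟨y, hy⟩ := exists_rsol H.nn H.cont.continuousOn H.bdd hX0.ne'
      (by rw [abs_of_pos hX0]; linarith) (by linarith [H.le])
    rw [obsQ_eq H.nn H.cont.continuousOn hy, xT, flow_rsol H.nn H.cont.continuousOn hy,
      ← Complex.ofReal_sub, Complex.ofReal_re]
  rw [hO]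
  obtain ⟨p1, p2⟩ := hQ₀.pos
  obtain ⟨p3, p4⟩ := hQ₁.pos
  have e1 : (u₁ ^ e * v₁ ^ h) / (u₀ ^ e * v₀ ^ h) = (u₁ / u₀) ^ e * (v₁ / v₀) ^ h := by
    rw [Real.div_rpow p3.le p1.le, Real.div_rpow p4.le p2.le]
    have := Real.rpow_pos_of_pos p1 e
    have := Real.rpow_pos_of_pos p2 h
    field_simp
  rw [e1]
  refine hmod _ _ _ ?_ ?_ ?_ ?_
  · rw [le_div_iff₀ hX0]; linarith
  · rw [div_le_iff₀ hX0]; linarith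
  · have := abs_sub_le (u₁ / u₀) (xT W t X / X / (xT W t X' / X')) (xT W t X / X)
    linarith
  · have := abs_sub_le (v₁ / v₀) (dT W t X' * ((X' - X) / (xT W t X' - xT W t X))) 1
    linarith

end Vale.Agent.P167.H756
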