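import Vale.Agent.P167.H756.S20

/-!
# P167, general `q`, sandwich closeness (21): sequences, and the interior

* `seqM_set6` : the uniformizers of the frame `Set6`;
* `SeqM.affine` : similarities;
* `PC_of_PF` : from the Euclidean form of the conditions;
* `intC` : interior closeness.
-/

set_option autoImplicit false
set_option linter.unusedVariables false

open MeasureTheory ProbabilityTheory Filter Topology Set Metric Bornology
open scoped NNReal ENNReal ComplexConjugate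

namespace Vale.Agent.P167.H756

open Vale.Agent.P153.R2
open Vale.Agent.P153.R2.R1 Vale.Agent.P153.R2.OBSV Vale.Agent.P167.H174
open Vale.Agent.P153.R2.DET (Uni HC)
open Vale.Agent.P153.R2.L1 (HH IsHydro inv mem_HH isOpen_HH convex_HH)
open Vale.Agent.P153.R2.Final (dom circ toC IsUniformizer)
open Vale.Agent.P164 (loewnerDomain gf Zf IsLoewnerSol)
open Vale.Agent.P167.H947 (surv flow flow_eq flow_conj flow_inj flow_gf surv_inter isOpen_surv
  differentiableOn_flow hasDerivAt_flow_real flow_rsol)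
open Vale.Agent.P167.SLE (bq)
open Vale.Agent.P167.E6 Vale.Agent.P167.E2 Vale.Agent.P167.H411

section

variable {Φ : (ℝ × ℝ) ≃ₜ (ℝ × ℝ)} {ψ : ℂ → ℂ} {δ : ℕ → ℝ} {N k : ℕ → ℕ}
  {p : ∀ n, ZMod (N n) → ℤ × ℤ} {S : ℕ → Finset (ℤ × ℤ)} {ψn : ℕ → ℂ → ℂ}

/-- Equicontinuity. -/
theorem eqc_set6 (H : Set6 Φ ψ δ N k p S ψn) (M : ℝ) {ε : ℝ} (hε : 0 < ε) :
    ∃ δ₀ > 0, ∀ᶠ n in atTop, ∀ z z' : ℂ, 0 ≤ z.im → 0 ≤ z'.im → ‖z‖ ≤ M → ‖z - z'‖ ≤ δ₀ →
      ‖ψn n z - ψn n z'‖ ≤ ε := by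
  have hU : Uni ψ (bq Φ) := SLE.uni_of_uniformizer R1.i_uinj H.unif
  have hK : IsCompact (HC ∩ closedBall (0 : ℂ) (M + 1)) :=
    (isCompact_closedBall _ _).inter_left (isClosed_le continuous_const Complex.continuous_im)
  obtain ⟨δ₀, hδ₀, huc⟩ := Metric.uniformContinuousOn_iff.1
    (hK.uniformContinuousOn_of_continuous (hU.cont.mono inter_subset_left)) (ε / 3) (by positivity)
  refine ⟨min (δ₀ / 2) 1, by positivity, ?_⟩
  filter_upwards [H.conv (ε / 3) (by positivity)] with n hn z z' hz hz' hzM hd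
  have h1 : ‖z - z'‖ < δ₀ := by
    have : min (δ₀ / 2) 1 ≤ δ₀ / 2 := min_le_left _ _
    linarith
  have h2 : ‖z'‖ ≤ M + 1 := by
    have h3 : ‖z - z'‖ ≤ 1 := hd.trans (min_le_right _ _)
    calc ‖z'‖ = ‖z - (z - z')‖ := by congr 1; ring
      _ ≤ _ := norm_sub_le _ _
      _ ≤ M + 1 := by linarith
  have h3 := huc z ⟨hz, by rw [mem_closedBall_zero_iff]; linarith⟩ z'
    ⟨hz', by rw [mem_closedBall_zero_iff]; exact h2⟩ (by rw [dist_eq_norm]; exact h1)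
  have h4 := hn z hz
  have h5 := hn z' hz'
  rw [dist_eq_norm] at h3 h4 h5
  calc ‖ψn n z - ψn n z'‖
      = ‖(ψn n z - ψ z) + (ψ z - ψ z') - (ψn n z' - ψ z')‖ := by congr 1; ring
    _ ≤ ‖ψn n z - ψ z‖ + ‖ψ z - ψ z'‖ + ‖ψn n z' - ψ z'‖ :=
      (norm_sub_le _ _).trans (by gcongr; exact norm_add_le _ _)
    _ ≤ ε := by linarith

/-- **The uniformizers of the frame `Set6`.** -/
theorem seqM_set6 (H : Set6 Φ ψ δ N k p S ψn) :
    SeqM ψn (fun n => Om (δ n) (S n)) (fun n => aM (p n) (δ n)) (fun n => bM (p n) (k n) (δ n)) where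
  isU := by
    filter_upwards [good_ev H.appr] with n hn
    exact H.isU n hn
  hconf := fun Y hY => H756.hconf H hY
  inf := fun η hη => mod_inf H hη
  inv := fun X h hh => inv_mod H (z₀ := (X : ℂ)) (by simp) hh
  eqc := fun M ε hε => eqc_set6 H M hε

end

/-- Similarities of uniformizers. -/
theorem isU_aff {ψ : ℂ → ℂ} {P : Set ℂ} {a p : ℂ} (h : IsU ψ P a p) {s : ℂ} (hs : s ≠ 0) (z₀ : ℂ) :
    IsU (fun z => s * ψ z + z₀) ((fun z => s * z + z₀) '' P) (s * a + z₀) (s * p + z₀) where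
  diff := (h.diff.const_mul s).add_const z₀
  inj := by
    intro x hx y hy e
    have e' : s * ψ x = s * ψ y := add_right_cancel e
    exact h.inj hx hy (mul_left_cancel₀ hs e')
  img := by
    rw [← h.img, image_image]
  cont := (continuousOn_const.mul h.cont).add continuousOn_const
  zero := by rw [h.zero]
  infty := (h.infty.const_mul s).add_const z₀

/-- **Similarities of sequences.** -/
theorem SeqM.affine {ψn : ℕ → ℂ → ℂ} {Dn : ℕ → Set ℂ} {an bn : ℕ → ℂ} (S : SeqM ψn Dn an bn)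
    {s : ℂ} (hs : s ≠ 0) (β : ℕ → ℂ) :
    SeqM (fun n z => s * ψn n z + β n) (fun n => (fun z => s * z + β n) '' Dn n)
      (fun n => s * an n + β n) (fun n => s * bn n + β n) where
  isU := S.isU.mono fun n h => isU_aff h hs (β n)
  hconf := fun Y hY => by
    obtain ⟨Rd, hRd, cd, hcd, hev⟩ := S.hconf Y hY
    have hs' : 0 < ‖s‖ := norm_pos_iff.2 hs
    exact ⟨‖s‖ * Rd, by positivity, ‖s‖ * cd, by positivity, hev.mono fun n h => h.affine hs (β n)⟩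
  inf := fun η hη => by
    have hs' : 0 < ‖s‖ := norm_pos_iff.2 hs
    obtain ⟨M, hM⟩ := S.inf (η / ‖s‖) (by positivity)
    refine ⟨M, hM.mono fun n h z hz hzM => ?_⟩
    have e : s * ψn n z + β n - (s * bn n + β n) = s * (ψn n z - bn n) := by ring
    rw [e, norm_mul]
    have := h z hz hzM
    rwa [lt_div_iff₀ hs', mul_comm] at this
  inv := fun X h hh => by
    have hs' : 0 < ‖s‖ := norm_pos_iff.2 hs
    obtain ⟨r, hr, hev⟩ := S.inv X h hh
    refine ⟨‖s‖ * r, by positivity, hev.mono fun n h z hz hzr => h z hz ?_⟩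
    have e : s * ψn n z + β n - (s * ψn n X + β n) = s * (ψn n z - ψn n X) := by ring
    simp only [e, norm_mul] at hzr
    exact le_of_mul_le_mul_left hzr hs'
  eqc := fun M ε hε => by
    have hs' : 0 < ‖s‖ := norm_pos_iff.2 hs
    obtain ⟨δ, hδ, hev⟩ := S.eqc M (ε / ‖s‖) (by positivity)
    refine ⟨δ, hδ, hev.mono fun n h z z' hz hz' hzM hd => ?_⟩
    have e : s * ψn n z + β n - (s * ψn n z' + β n) = s * (ψn n z - ψn n z') := by ring
    rw [e, norm_mul]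
    have := h z z' hz hz' hzM hd
    rwa [le_div_iff₀ hs', mul_comm] at this

variable {T R : ℝ} {W : ℝ → ℝ} {t : ℝ}

/-- **Interior closeness**, with the side of the domain in the disc (marks `a`, `p`; nothing flat). -/
theorem intC {Y Rd cd Rb y₀ M κ : ℝ} (hT : 0 ≤ T) (hR : 0 ≤ R) (hRd : 0 < Rd) (hcd : 0 < cd)
    (hRb : 0 ≤ Rb) (hY0 : 0 < Y) (hY : 8 * R ≤ Y) (hY2 : 64 * T ≤ Y ^ 2) (hM : 0 ≤ M)
    (hy₀ : 0 < y₀) (hκ : 0 < κ) :
    ∃ h > 0, ∀ ψ : ℂ → ℂ, HConf Rd cd Y ψ → ∀ (W : ℝ → ℝ) (t : ℝ), Drv T R W t →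
      ∀ (Q P : Set ℂ) (a p : ℂ), PC h ψ W t Y Rb Q P a → p ∈ frontier P → MarkP h ψ W t Q P p →
      ∃ φ : ℂ → ℂ, IsU φ P a p ∧ InjOn φ {z | 0 ≤ z.im} ∧
        ∀ z ∈ loewnerDomain W t, y₀ ≤ (Zf W z t).im → ‖Zf W z t‖ ≤ M →
          ψ z ∈ Q ∧ ∃ w : ℂ, 0 < w.im ∧ φ w = ψ z ∧ ‖w - Zf W z t‖ ≤ κ := by
  have hI : 0 < Complex.I.im := by simp
  obtain ⟨c, hc, ρ₀, hρ₀, hside⟩ := sideC_of_PC (T := T) (R := R) hRd hcd hRb hY0 hY hY2 hT hR
  have hRR : 0 < Rd + Rb := by positivity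
  obtain ⟨ε, hε, himb⟩ := imb_close hM hκ
  obtain ⟨h₁, hh₁, hhalf⟩ := halfplaneC (R := Rd + Rb) (c := c) hRR hc hρ₀ hε
  set ρ₁ : ℝ := max ρ₀ √(1 - 4 * y₀ / (1 + M) ^ 2) with hρ₁
  have hρ₁1 : ρ₁ < 1 := by
    refine max_lt hρ₀ ?_
    rw [Real.sqrt_lt' one_pos, one_pow, sub_lt_self_iff]
    positivity
  obtain ⟨h₄, hh₄, hS⟩ := hside h₁ hh₁
  refine ⟨min h₄ ((1 - ρ₁) / 2), by
    have : 0 < (1 - ρ₁) / 2 := by linarith
    positivity, ?_⟩
  intro ψ hψ W t H Q P a p hP hpf hpm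
  have q4 : min h₄ ((1 - ρ₁) / 2) ≤ h₄ := min_le_left _ _
  have q5 : min h₄ ((1 - ρ₁) / 2) ≤ (1 - ρ₁) / 2 := min_le_right _ _
  have q0 : 0 < min h₄ ((1 - ρ₁) / 2) := by
    have : 0 < (1 - ρ₁) / 2 := by linarith
    positivity
  have hpm' : MarkP h₄ ψ W t Q P p := by
    obtain ⟨C, c1, c2, c3, c4, c5⟩ := hpm
    refine ⟨C, c1, c2, c3, fun u hu v hv => (c4 u hu v hv).trans q4, c5.mono ?_⟩
    refine inter_subset_inter_right _ (inter_subset_inter_right _ (image_mono ?_))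
    exact fun z hz => ⟨hz.1, lt_of_le_of_lt (by gcongr) hz.2⟩
  have S := hS ψ hψ _ _ H Q P a p (hP.mono q4) hpf hpm'
  obtain ⟨φ, hφ, hφi, hφc⟩ := hhalf _ _ _ _ _ _ S
  refine ⟨φ, hφ, hφi, fun z hz hzi hzM => ?_⟩
  have hz0 : 0 < (Zf W z t).im := lt_of_lt_of_le hy₀ hzi
  have hw : mb 1 Complex.I (Zf W z t) ∈ closedBall (0 : ℂ) ρ₁ := by
    have e4 : ‖mb 1 Complex.I (Zf W z t)‖ = ‖mb 1 (Zf W z t) Complex.I‖ := by
      rw [norm_mb norm_one, norm_mb norm_one, norm_sub_rev, Complex.conj_I]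
      congr 1
      rw [← RCLike.norm_conj (Complex.I - _), map_sub, Complex.conj_conj, Complex.conj_I,
        ← norm_neg]
      congr 1
      ring
    rw [mem_closedBall_zero_iff, e4]
    exact (norm_mb_le hy₀ hzi hzM).trans (le_max_right _ _)
  have hwb : mb 1 Complex.I (Zf W z t) ∈ ball (0 : ℂ) (1 - min h₄ ((1 - ρ₁) / 2)) := by
    rw [mem_closedBall_zero_iff] at hw
    rw [mem_ball_zero_iff]
    linarith
  have hsub : Q ⊆ FD ψ W t '' ball 0 1 := by rw [FD_img H]; exact hP.subD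
  have hQ : ψ z ∈ Q := by
    obtain ⟨x, hx, hxw⟩ := hP.innerD hwb
    rw [← FD_mb H ψ hz, ← hxw, S.cls.conf.apply_dinv (hsub hx)]
    exact hx
  have hP' : ψ z ∈ P := hP.subP hQ
  rw [← hφ.img] at hP'
  obtain ⟨w, hw0, hwe⟩ := hP'
  refine ⟨hQ, w, hw0, hwe, ?_⟩
  have h1 := hφc w hw0 (by rw [hwe]; exact hQ)
  have h6 : mb 1 Complex.I (Zf W z t) ∈ ball (0 : ℂ) 1 := by
    rw [mem_ball_zero_iff]; exact norm_mb_lt norm_one hI hz0
  rw [hwe, ← FD_mb H ψ hz, S.cls.conf.dinv_apply h6, norm_sub_rev] at h1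
  have h7 := himb _ _ hz0.le hzM h1
  rwa [imb_mb norm_one hI (le_of_lt hw0)] at h7

/-- From the Euclidean form of the conditions on the side of the domain. -/
theorem PC_of_PF {Y Rd cd Rb h : ℝ} (hT : 0 ≤ T) (hR : 0 ≤ R) (hRd : 0 < Rd) (hcd : 0 < cd)
    (hY0 : 0 < Y) (hY : 8 * R ≤ Y) (hY2 : 64 * T ≤ Y ^ 2) (hh : 0 < h) :
    ∃ h' > 0, ∀ ψ : ℂ → ℂ, HConf Rd cd Y ψ → ∀ (W : ℝ → ℝ) (t : ℝ), Drv T R W t →
      ∀ (Q P : Set ℂ) (a : ℂ), PF h' ψ W t Y Rb Q P a → PC h ψ W t Y Rb Q P a := by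
  obtain ⟨c, hc, hcls⟩ := cls_FD (T := T) (R := R) hRd hcd hY0 hY hY2
  obtain ⟨h₁, hh₁, hcol⟩ := collar_disc (R := Rd) (c := c) hRd hc hh
  set ρ₀ : ℝ := √(1 - 4 * (3 * Y / 4) / (1 + 2 * Y) ^ 2) with hρ₀d
  have hρ₀ : ρ₀ < 1 := by
    rw [hρ₀d, Real.sqrt_lt' one_pos, one_pow, sub_lt_self_iff]
    positivity
  set ρ₁ : ℝ := max ρ₀ (1 - h) with hρ₁
  have hρ₁1 : ρ₁ < 1 := max_lt hρ₀ (by linarith)
  obtain ⟨h₃, hh₃, hins⟩ := Cls.inside (R := Rd) (c := c) hRd hc hρ₁1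
  refine ⟨min h (min h₁ h₃), by positivity, ?_⟩
  intro ψ hψ W t H Q P a hP
  have hC := hcls ψ hψ W t H
  have l1 : min h (min h₁ h₃) ≤ h := min_le_left _ _
  have l2 : min h (min h₁ h₃) ≤ h₁ := (min_le_right _ _).trans (min_le_left _ _)
  have l3 : min h (min h₁ h₃) ≤ h₃ := (min_le_right _ _).trans (min_le_right _ _)
  obtain ⟨hd, h1, h2, h3⟩ := H.base hY0 hY hY2
  have hbase : FD ψ W t (mb 1 Complex.I (Zf W (Y * Complex.I) t)) = ψ (Y * Complex.I) :=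
    FD_mb H ψ hd
  have hb0 : mb 1 Complex.I (Zf W (Y * Complex.I) t) ∈ closedBall (0 : ℂ) ρ₁ := by
    have e4 : ‖mb 1 Complex.I (Zf W (Y * Complex.I) t)‖ =
        ‖mb 1 (Zf W (Y * Complex.I) t) Complex.I‖ := by
      rw [norm_mb norm_one, norm_mb norm_one, norm_sub_rev, Complex.conj_I]
      congr 1
      rw [← RCLike.norm_conj (Complex.I - _), map_sub, Complex.conj_conj, Complex.conj_I,
        ← norm_neg]
      congr 1
      ring
    rw [mem_closedBall_zero_iff, e4]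
    exact (norm_mb_le (by positivity) h1 h2).trans (le_max_left _ _)
  have hQ : FD ψ W t '' closedBall 0 ρ₁ ⊆ Q := by
    refine hP.innerD _ ?_ ?_ ?_
    · exact (convex_closedBall (0 : ℂ) ρ₁).isPreconnected.image _
        (hC.diff.continuousOn.mono (closedBall_subset_ball hρ₁1))
    · rw [← hbase]; exact mem_image_of_mem _ hb0
    · rintro _ ⟨w, hw, rfl⟩
      rw [← FD_img H]
      exact (ball_subset_ball l3).trans (hins _ hC w hw)
  refine ⟨hP.goodQ, hP.good, hP.subD, hP.subP, hP.bdd, ?_, ?_, hP.innerP.mono l1,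
    hP.collarP.mono l1, hP.mem_a, ?_⟩
  · intro w hw
    have hw' : w ∈ closedBall (0 : ℂ) ρ₁ := by
      rw [mem_closedBall_zero_iff]
      exact (mem_ball_zero_iff.1 hw).le.trans (le_max_right _ _)
    exact ⟨FD ψ W t w, hQ (mem_image_of_mem _ hw'),
      hC.conf.dinv_apply (closedBall_subset_ball hρ₁1 hw')⟩
  · exact hcol _ hC Q hP.goodQ.isOpen (by rw [FD_img H]; exact hP.subD)
      (by rw [FD_img H]; exact hP.collarD.mono l2)
  · obtain ⟨C, c1, c2, c3, c4, c5⟩ := hP.mark_a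
    refine ⟨C, c1, c2, c3, fun u hu v hv => (c4 u hu v hv).trans l1, c5.mono ?_⟩
    refine inter_subset_inter_right _ (inter_subset_inter_right _ (image_mono ?_))
    exact fun z hz => ⟨hz.1, hz.2.trans_le l1⟩

end Vale.Agent.P167.H756
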