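import Vale.Agent.P167.H756.S21

/-!
# P167, general `q`, sandwich closeness (22): all translations at once

* `SeqF.aff` : the family of all translates of `s * ψn`;
* `sandT` : `sandR` uniformly in the translation;
* `intT` : interior closeness uniformly in the translation.
-/

set_option autoImplicit false
set_option linter.unusedVariables false

open Set Topology Metric MeasureTheory Filter Bornology
open scoped ENNReal Real ComplexConjugate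

namespace Vale.Agent.P167.H756

open Vale.Agent.P153.R2.R1 Vale.Agent.P153.R2.OBSV Vale.Agent.P167.H174
open Vale.Agent.P153.R2.L1 (HH IsHydro inv mem_HH isOpen_HH convex_HH)
open Vale.Agent.P164 (loewnerDomain gf Zf IsLoewnerSol)
open Vale.Agent.P167.QE (obsQ obsQ_eq)

variable {ι : Type*} {l : Filter ι} {ψn : ι → ℂ → ℂ} {Dn : ι → Set ℂ} {an bn : ι → ℂ}

/-- The family of all translates of `s * ψn`. -/
theorem SeqF.aff (S : SeqF l ψn Dn an bn) {s : ℂ} (hs : s ≠ 0) :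
    SeqF (l ×ˢ 𝓟 (univ : Set ℂ)) (fun x : ι × ℂ => fun z => s * ψn x.1 z + x.2)
      (fun x => (fun z => s * z + x.2) '' Dn x.1) (fun x => s * an x.1 + x.2)
      (fun x => s * bn x.1 + x.2) where
  isU := (S.isU.prod_inl _).mono fun x h => isU_aff h hs x.2
  hconf := fun Y hY => by
    obtain ⟨Rd, hRd, cd, hcd, hev⟩ := S.hconf Y hY
    have hs' : 0 < ‖s‖ := norm_pos_iff.2 hs
    exact ⟨‖s‖ * Rd, by positivity, ‖s‖ * cd, by positivity,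
      (hev.prod_inl _).mono fun x h => h.affine hs x.2⟩
  inf := fun η hη => by
    have hs' : 0 < ‖s‖ := norm_pos_iff.2 hs
    obtain ⟨M, hM⟩ := S.inf (η / ‖s‖) (by positivity)
    refine ⟨M, (hM.prod_inl _).mono fun x h z hz hzM => ?_⟩
    have e : s * ψn x.1 z + x.2 - (s * bn x.1 + x.2) = s * (ψn x.1 z - bn x.1) := by ring
    rw [e, norm_mul]
    have := h z hz hzM
    rwa [lt_div_iff₀ hs', mul_comm] at this
  inv := fun X h hh => by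
    have hs' : 0 < ‖s‖ := norm_pos_iff.2 hs
    obtain ⟨r, hr, hev⟩ := S.inv X h hh
    refine ⟨‖s‖ * r, by positivity, (hev.prod_inl _).mono fun x h z hz hzr => h z hz ?_⟩
    have e : s * ψn x.1 z + x.2 - (s * ψn x.1 X + x.2) = s * (ψn x.1 z - ψn x.1 X) := by ring
    rw [e, norm_mul] at hzr
    exact le_of_mul_le_mul_left hzr hs'
  eqc := fun M ε hε => by
    have hs' : 0 < ‖s‖ := norm_pos_iff.2 hs
    obtain ⟨δ, hδ, hev⟩ := S.eqc M (ε / ‖s‖) (by positivity)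
    refine ⟨δ, hδ, (hev.prod_inl _).mono fun x h z z' hz hz' hzM hd => ?_⟩
    have e : s * ψn x.1 z + x.2 - (s * ψn x.1 z' + x.2) = s * (ψn x.1 z - ψn x.1 z') := by ring
    rw [e, norm_mul]
    have := h z z' hz hz' hzM hd
    rwa [le_div_iff₀ hs', mul_comm] at this

/-- **The ratio of the observables of two flat polygons, uniformly in the translation `β` and for an
arbitrary driver at the time `0`.** -/
theorem sandT (S : SeqF l ψn Dn an bn) {s : ℂ} (hs : s ≠ 0) {T R X e h ε : ℝ} (hT : 0 ≤ T)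
    (hR : 0 ≤ R) (hX0 : 0 < X) (hX : 8 * R ≤ X) (hX2 : 256 * T ≤ X ^ 2) (hε : 0 < ε) :
    ∃ X₀ : ℝ, 16 * X ≤ X₀ ∧ ∀ X' : ℝ, X₀ ≤ X' → ∀ Y Rb m : ℝ, 0 ≤ Rb → 0 < m →
      0 < Y → 8 * R ≤ Y → 64 * T ≤ Y ^ 2 →
    ∃ h₀ > 0, ∀ᶠ n in l, ∀ (β : ℂ) (W₀ W : ℝ → ℝ) (t : ℝ), Drv T R W₀ 0 → W₀ 0 = 0 →
      Drv T R W t → ∀ (Q₀ P₀ Q₁ P₁ : Set ℂ) (a₀ p₀ a₁ p₁ c d : ℂ),
      PC h₀ (fun z => s * ψn n z + β) W₀ 0 Y Rb Q₀ P₀ a₀ →
      PC h₀ (fun z => s * ψn n z + β) W t Y Rb Q₁ P₁ a₁ →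
      FlatAt P₀ c m → FlatAt P₀ d m → FlatAt P₀ p₀ m → FlatAt P₁ c m → FlatAt P₁ d m →
      FlatAt P₁ p₁ m → ‖c - (s * ψn n X + β)‖ ≤ h₀ → ‖d - (s * ψn n X' + β)‖ ≤ h₀ →
      ‖p₀ - (s * bn n + β)‖ ≤ h₀ → ‖p₁ - (s * bn n + β)‖ ≤ h₀ →
      ∀ (ν : ℂ) (u₀ v₀ u₁ v₁ : ℝ), ν ≠ 0 → QPosL ν P₀ a₀ p₀ c d u₀ v₀ →
        QPosL ν P₁ a₁ p₁ c d u₁ v₁ →
        |(u₁ ^ e * v₁ ^ h) / (u₀ ^ e * v₀ ^ h) - obsQ e W X t| ≤ ε := by
  obtain ⟨X₀, hX₀, hst⟩ := sandR (e := e) (h := h) (S.aff hs) hT hR hX0 hX hX2 hε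
  refine ⟨X₀, hX₀, fun X' hX' Y Rb m hRb hm hY0 hY hY2 => ?_⟩
  obtain ⟨h₀, hh₀, hev⟩ := hst X' hX' Y Rb m hRb hm hY0 hY hY2
  refine ⟨h₀, hh₀, ?_⟩
  rw [eventually_prod_principal_iff] at hev
  exact hev.mono fun n hn β => hn β (mem_univ β)

/-- **Interior closeness, uniformly in the translation `β`** (marks `a`, `p`; nothing flat). -/
theorem intT (S : SeqF l ψn Dn an bn) {s : ℂ} (hs : s ≠ 0) {T R Y Rb y₀ M κ : ℝ} (hT : 0 ≤ T)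
    (hR : 0 ≤ R) (hRb : 0 ≤ Rb) (hY0 : 0 < Y) (hY : 8 * R ≤ Y) (hY2 : 64 * T ≤ Y ^ 2)
    (hM : 0 ≤ M) (hy₀ : 0 < y₀) (hκ : 0 < κ) :
    ∃ h > 0, ∀ᶠ n in l, ∀ (β : ℂ) (W : ℝ → ℝ) (t : ℝ), Drv T R W t →
      ∀ (Q P : Set ℂ) (a p : ℂ), PC h (fun z => s * ψn n z + β) W t Y Rb Q P a →
      p ∈ frontier P → MarkP h (fun z => s * ψn n z + β) W t Q P p →
      ∃ φ : ℂ → ℂ, IsU φ P a p ∧ InjOn φ {z | 0 ≤ z.im} ∧
        ∀ z ∈ loewnerDomain W t, y₀ ≤ (Zf W z t).im → ‖Zf W z t‖ ≤ M →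
          s * ψn n z + β ∈ Q ∧ ∃ w : ℂ, 0 < w.im ∧ φ w = s * ψn n z + β ∧
            ‖w - Zf W z t‖ ≤ κ := by
  obtain ⟨Rd, hRd, cd, hcd, hev⟩ := (S.aff hs).hconf Y hY0
  obtain ⟨h, hh, hi⟩ := intC (T := T) (R := R) hT hR hRd hcd hRb hY0 hY hY2 hM hy₀ hκ
  refine ⟨h, hh, ?_⟩
  rw [eventually_prod_principal_iff] at hev
  exact hev.mono fun n hn β W t H Q P a p hP hpf hpm =>
    hi _ (hn β (mem_univ β)) W t H Q P a p hP hpf hpm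

end Vale.Agent.P167.H756
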