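import Vale.Agent.P167.H756.S2

/-!
# P167, general `q`, sandwich closeness (3): the transition map near a common boundary piece
-/

set_option autoImplicit false
set_option linter.unusedVariables false

open Set Topology Metric MeasureTheory Filter Bornology
open scoped ENNReal Real ComplexConjugate

namespace Vale.Agent.P167.H756

open Vale.Agent.P153.R2.R1 Vale.Agent.P153.R2.OBSV Vale.Agent.P167.H174
open Vale.Agent.P153.R2.L1 (HH IsHydro inv mem_HH isOpen_HH convex_HH)
open Vale.Agent.P164 (loewnerDomain gf Zf IsLoewnerSol)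
open Vale.Agent.P167.H947 (surv flow flow_eq flow_conj flow_inj flow_gf surv_inter isOpen_surv
  differentiableOn_flow hasDerivAt_flow_real flow_rsol)

/-- **The inverse of a uniformizer, composed with a map which is continuous up to a piece of the
boundary**, extended by reflection. -/
theorem loc_inv {x r : ℝ} {ψ φ : ℂ → ℂ} {P : Set ℂ} {a p : ℂ}
    (hψc : ContinuousOn ψ (ball (x : ℂ) r ∩ {z | 0 ≤ z.im}))
    (hψd : DifferentiableOn ℂ ψ (ball (x : ℂ) r ∩ {z | 0 < z.im}))
    (hφ : IsU φ P a p) (hn : NoCut P)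
    (hin : ∀ z ∈ ball (x : ℂ) r, 0 < z.im → ψ z ∈ P)
    (hout : ∀ z ∈ ball (x : ℂ) r, z.im = 0 → ψ z ∉ P)
    (hp : ∀ z ∈ ball (x : ℂ) r, z.im = 0 → ψ z ≠ p) :
    ∃ G : ℂ → ℂ, DifferentiableOn ℂ G (ball (x : ℂ) r) ∧
      (∀ z ∈ ball (x : ℂ) r, G (conj z) = conj (G z)) ∧
      (∀ z ∈ ball (x : ℂ) r, 0 < z.im → 0 < (G z).im) ∧
      ∀ z ∈ ball (x : ℂ) r, 0 ≤ z.im → 0 ≤ (G z).im ∧ φ (G z) = ψ z := by
  classical
  have hI : 0 < Complex.I.im := by simp
  have hex : ∀ z : ℂ, ∃ w : ℂ, z ∈ ball (x : ℂ) r → 0 ≤ z.im →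
      0 ≤ w.im ∧ φ w = ψ z ∧ (0 < z.im → 0 < w.im) ∧ (z.im = 0 → w.im = 0) := by
    intro z
    by_cases hz : z ∈ ball (x : ℂ) r
    swap
    · exact ⟨0, fun h => absurd h hz⟩
    by_cases h0 : 0 ≤ z.im
    swap
    · exact ⟨0, fun _ h => absurd h h0⟩
    rcases h0.lt_or_eq with hlt | heq
    · have h1 := hin z hz hlt
      rw [← hφ.img] at h1
      obtain ⟨w, hw, hwe⟩ := h1
      have hw' : 0 < w.im := hw
      exact ⟨w, fun _ _ => ⟨hw'.le, hwe, fun _ => hw', fun h => absurd h hlt.ne'⟩⟩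
    · have hcl : ψ z ∈ closure P := by
        have := neBot_up hz h0
        have h1 : Tendsto ψ (𝓝[ball (x : ℂ) r ∩ {w | 0 < w.im}] z) (𝓝 (ψ z)) :=
          (hψc z ⟨hz, h0⟩).mono_left (nhdsWithin_mono _ (inter_subset_inter_right _
            fun w (hw : 0 < w.im) => hw.le))
        refine mem_closure_of_tendsto h1 ?_
        filter_upwards [self_mem_nhdsWithin] with w hw
        exact hin w hw.1 hw.2
      rcases closure_isU hφ hcl with ⟨w, hw, hwe⟩ | h1
      · have hw' : 0 ≤ w.im := hw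
        have hw0 : w.im = 0 := by
          rcases hw'.lt_or_eq with h2 | h2
          · exfalso
            apply hout z hz heq.symm
            rw [← hwe, ← hφ.img]
            exact mem_image_of_mem _ h2
          · exact h2.symm
        exact ⟨w, fun _ _ => ⟨hw', hwe, fun h => absurd h (by rw [← heq]; exact lt_irrefl _),
          fun _ => hw0⟩⟩
      · exact absurd h1 (hp z hz heq.symm)
  choose T hT using hex
  have hdisc := hφ.toDisc
  have hm : ∀ z : ℂ, 0 ≤ z.im → mb 1 Complex.I z ∈ closedBall (0 : ℂ) 1 := fun z hz =>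
    mb_mem_closedBall norm_one hI hz
  set S : Set ℂ := ball (x : ℂ) r ∩ {z | 0 ≤ z.im} with hS
  have hTc : ContinuousOn T S := by
    intro z hz
    obtain ⟨k1, k2, -, -⟩ := hT z hz.1 hz.2
    have h1 : Tendsto (fun w => mb 1 Complex.I (T w)) (𝓝[S] z) (𝓝 (mb 1 Complex.I (T z))) := by
      refine hdisc.tendsto_inv hn ?_ (hm _ k1) ?_
      · filter_upwards [self_mem_nhdsWithin] with w hw
        exact hm _ (hT w hw.1 hw.2).1
      · rw [toDisc_mb k1, k2]
        refine (hψc z hz).congr' ?_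
        filter_upwards [self_mem_nhdsWithin] with w hw
        rw [toDisc_mb (hT w hw.1 hw.2).1, (hT w hw.1 hw.2).2.1]
    have h2 : ContinuousAt (imb 1 Complex.I) (mb 1 Complex.I (T z)) :=
      (imb_differentiableAt (mb_ne norm_one hI k1)).continuousAt
    have h3 := h2.tendsto.comp h1
    rw [ContinuousWithinAt]
    rw [imb_mb norm_one hI k1] at h3
    refine h3.congr' ?_
    filter_upwards [self_mem_nhdsWithin] with w hw
    show imb 1 Complex.I (mb 1 Complex.I (T w)) = T w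
    exact imb_mb norm_one hI (hT w hw.1 hw.2).1
  have hTd : DifferentiableOn ℂ T (ball (x : ℂ) r ∩ {z | 0 < z.im}) := by
    have h1 : DifferentiableOn ℂ (fun z => imb 1 Complex.I (dinv (toDisc φ p) (ψ z)))
        (ball (x : ℂ) r ∩ {z | 0 < z.im}) := by
      intro z hz
      have h2 : DifferentiableWithinAt ℂ (fun z => dinv (toDisc φ p) (ψ z))
          (ball (x : ℂ) r ∩ {z | 0 < z.im}) z :=
        (hdisc.toConf.dinv_differentiableOn.comp hψd fun w hw => hin w hw.1 hw.2) z hz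
      have h3 : dinv (toDisc φ p) (ψ z) ≠ 1 := by
        intro h
        have h4 := hdisc.toConf.dinv_mem (hin z hz.1 hz.2)
        rw [h, mem_ball_zero_iff, norm_one] at h4
        exact lt_irrefl _ h4
      exact (imb_differentiableAt h3).comp_differentiableWithinAt z h2
    refine h1.congr fun z hz => ?_
    obtain ⟨k1, k2, k3, -⟩ := hT z hz.1 (le_of_lt hz.2)
    have h5 : mb 1 Complex.I (T z) ∈ ball (0 : ℂ) 1 := by
      rw [mem_ball_zero_iff]; exact norm_mb_lt norm_one hI (k3 hz.2)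
    have h6 : dinv (toDisc φ p) (ψ z) = mb 1 Complex.I (T z) := by
      rw [← k2, ← toDisc_mb k1 (b := p) (ψ := φ)]
      exact hdisc.toConf.dinv_apply h5
    rw [h6, imb_mb norm_one hI k1]
  obtain ⟨G, hGd, hGe, hGs⟩ := schwarz hTc hTd fun z hz h0 => (hT z hz h0.ge).2.2.2 h0
  refine ⟨G, hGd, hGs, fun z hz h0 => ?_, fun z hz h0 => ?_⟩
  · rw [hGe z hz h0.le]; exact (hT z hz h0.le).2.2.1 h0
  · rw [hGe z hz h0]; exact ⟨(hT z hz h0).1, (hT z hz h0).2.1⟩

/-- **The transition map is close to the flow.** -/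
theorem loc_close {T R X κ : ℝ} (hT : 0 ≤ T) (hR : 0 ≤ R) (hX0 : 0 < X) (hX : 8 * R ≤ X)
    (hX2 : 64 * T ≤ X ^ 2) (hκ : 0 < κ) :
    ∃ ε > 0, ∃ δ > 0, ∀ (W : ℝ → ℝ) (t : ℝ), Drv T R W t → ∀ (ψ φ : ℂ → ℂ) (Q P : Set ℂ) (a p : ℂ),
      ContinuousOn ψ (ball (X : ℂ) (X / 4) ∩ {z | 0 ≤ z.im}) → DifferentiableOn ℂ ψ HH →
      InjOn ψ HH → IsU φ P a p → NoCut P →
      (∀ z : ℂ, 0 < z.im → φ z ∈ Q → ‖dinv (FD ψ W t) (φ z) - mb 1 Complex.I z‖ ≤ ε) →
      (∀ z ∈ ball (X : ℂ) (X / 4), δ ≤ z.im → ψ z ∈ Q) →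
      (∀ z ∈ ball (X : ℂ) (X / 4), 0 < z.im → ψ z ∈ P) →
      (∀ z ∈ ball (X : ℂ) (X / 4), z.im = 0 → ψ z ∉ P) →
      (∀ z ∈ ball (X : ℂ) (X / 4), z.im = 0 → ψ z ≠ p) →
      ∃ G : ℂ → ℂ, DifferentiableOn ℂ G (ball (X : ℂ) (X / 8)) ∧
        (∀ z ∈ ball (X : ℂ) (X / 8), G (conj z) = conj (G z)) ∧
        (∀ z ∈ ball (X : ℂ) (X / 8), 0 ≤ z.im → 0 ≤ (G z).im ∧ φ (G z) = ψ z) ∧
        ∀ z ∈ ball (X : ℂ) (X / 8), ‖G z - (flow W t z - W t)‖ ≤ κ := by
  have hI : 0 < Complex.I.im := by simp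
  have habs : |X| = X := abs_of_pos hX0
  have hM : (0 : ℝ) ≤ 2 * X := by positivity
  obtain ⟨ε, hε, himb⟩ := imb_close hM (show 0 < κ / 62 by positivity)
  set δ : ℝ := min (κ / 1000) (X / 64) with hδ
  have hδ0 : 0 < δ := by positivity
  have hδκ : δ ≤ κ / 1000 := min_le_left _ _
  have hδX : δ ≤ X / 64 := min_le_right _ _
  refine ⟨ε, hε, δ, hδ0, ?_⟩
  intro W t H ψ φ Q P a p hψc hψd hψi hφ hn hcl hdeep hin hout hp
  have hψd' : DifferentiableOn ℂ ψ (ball (X : ℂ) (X / 4) ∩ {z | 0 < z.im}) :=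
    hψd.mono inter_subset_right
  obtain ⟨G, hGd, hGs, hGp, hGe⟩ := loc_inv hψc hψd' hφ hn hin hout hp
  have htr := trans_FD' H ψ hX0.ne' (by rw [habs]; exact hX) hX2 (r := X / 2)
    (by rw [habs])
  rw [habs] at htr
  set g : ℂ → ℂ := fun z => flow W t z - W t with hg
  have hXX : X / 4 + X / 4 = X / 2 := by ring
  obtain ⟨-, hlip⟩ := lip_of_bdd (f := g) (x := (X : ℂ)) (ρ := X / 4) (s := X / 4) (B := 2 * X)
    (by positivity) (by rw [hXX]; exact htr.diff) (by rw [hXX]; exact htr.bdd)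
  have h16 : 2 * X / (X / 4 / 2) = 16 := by field_simp; norm_num
  rw [h16] at hlip
  have hsub : ball (X : ℂ) (X / 4) ⊆ ball (X : ℂ) (X / 2) := ball_subset_ball (by linarith)
  -- the deep points
  have hdp : ∀ z ∈ ball (X : ℂ) (X / 4), δ ≤ z.im → ‖G z - g z‖ ≤ κ / 62 := by
    intro z hz hzi
    have hz0 : 0 < z.im := lt_of_lt_of_le hδ0 hzi
    obtain ⟨k1, k2⟩ := hGe z hz hz0.le
    have k3 := hGp z hz hz0
    have h1 := hcl (G z) k3 (by rw [k2]; exact hdeep z hz hzi)
    have hzn : ‖z - X‖ < X / 4 := by rw [mem_ball, dist_eq_norm] at hz; exact hz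
    have hzX : X / 2 ≤ ‖z‖ := by
      have e : ‖(X : ℂ)‖ = X := by rw [Complex.norm_real, Real.norm_eq_abs, habs]
      have h1 : ‖(X : ℂ)‖ ≤ ‖z‖ + ‖z - X‖ := by
        have e2 : (X : ℂ) = z - (z - X) := by ring
        calc ‖(X : ℂ)‖ = ‖z - (z - X)‖ := by rw [← e2]
          _ ≤ _ := norm_sub_le _ _
      rw [e] at h1
      linarith
    have hz2 : (X / 2) ^ 2 ≤ ‖z‖ ^ 2 := by gcongr
    rw [div_pow] at hz2
    have hdom : z ∈ loewnerDomain W t := H.dom hz0 (by linarith) (by linarith)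
    have hzi' := Vale.Agent.P164.Zf_im_pos H.nn hdom
    have e3 : Zf W z t = g z := by
      show Zf W z t = flow W t z - W t
      rw [flow_gf H.nn H.cont.continuousOn hdom, Vale.Agent.P164.Zf_eq]
    rw [k2] at h1
    have hF : Conf (FD ψ W t) (FD ψ W t '' ball 0 1) := by
      refine ⟨?_, ?_, rfl⟩
      · refine (Ps_diff H hψd).comp (fun w hw => (imb_differentiableAt
          (ball_ne_one hw)).differentiableWithinAt) fun w hw => ?_
        exact imb_im_pos norm_one hI (mem_ball_zero_iff.1 hw)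
      · intro w hw w' hw' e
        have h5 := Ps_inj H hψi (imb_im_pos norm_one hI (mem_ball_zero_iff.1 hw))
          (imb_im_pos norm_one hI (mem_ball_zero_iff.1 hw')) e
        rw [← (mb_imb norm_one hI (ball_ne_one hw)).2, h5,
          (mb_imb norm_one hI (ball_ne_one hw')).2]
    have h6 : mb 1 Complex.I (Zf W z t) ∈ ball (0 : ℂ) 1 := by
      rw [mem_ball_zero_iff]; exact norm_mb_lt norm_one hI hzi'
    rw [← FD_mb H ψ hdom, hF.dinv_apply h6, e3, norm_sub_rev] at h1
    have h7 := himb (g z) _ (by rw [← e3]; exact hzi'.le) (htr.bdd z (hsub hz)) h1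
    rwa [imb_mb norm_one hI k3.le] at h7
  have hsub8 : ball (X : ℂ) (X / 8) ⊆ ball (X : ℂ) (X / 4) := ball_subset_ball (by linarith)
  -- all points of the closed half disc
  have hup : ∀ z ∈ ball (X : ℂ) (X / 8), 0 ≤ z.im → ‖G z - g z‖ ≤ κ := by
    intro z hz h0
    by_cases hzδ : δ ≤ z.im
    · exact (hdp z (hsub8 hz) hzδ).trans (by linarith)
    push Not at hzδ
    set x' : ℝ := z.re with hx'
    have hzX : ‖z - X‖ < X / 8 := by rw [mem_ball, dist_eq_norm] at hz; exact hz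
    have hx'X : |x' - X| < X / 8 := by
      have h1 := Complex.abs_re_le_norm (z - X)
      rw [Complex.sub_re, Complex.ofReal_re] at h1
      exact h1.trans_lt hzX
    have hball : ball (x' : ℂ) (4 * δ) ⊆ ball (X : ℂ) (X / 4) := by
      intro y hy
      rw [mem_ball, dist_eq_norm] at hy ⊢
      calc ‖y - X‖ = ‖(y - x') + ((x' - X : ℝ) : ℂ)‖ := by congr 1; push_cast; ring
        _ ≤ ‖y - x'‖ + |x' - X| := (norm_add_le _ _).trans (by
            rw [Complex.norm_real, Real.norm_eq_abs])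
        _ < X / 4 := by linarith
    have hty := typ_ball (f := G) (x := x') (ρ := 4 * δ) (by positivity) (hGd.mono hball)
      (fun y hy => hGs y (hball hy)) (fun y hy => hGp y (hball hy))
    have e4 : 4 * δ / 4 = δ := by ring
    rw [e4] at hty
    set zδ : ℂ := (x' : ℂ) + (δ : ℝ) * Complex.I with hzδd
    have hzδi : zδ.im = δ := by
      rw [hzδd, Complex.add_im, Complex.ofReal_im, Complex.im_ofReal_mul, Complex.I_im]; ring
    have hzδn : ‖zδ - x'‖ = δ := by
      rw [hzδd, add_sub_cancel_left, norm_mul, Complex.norm_I, mul_one, Complex.norm_real,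
        Real.norm_of_nonneg hδ0.le]
    have hzδb : zδ ∈ ball (X : ℂ) (X / 4) := hball (by
      rw [mem_ball, dist_eq_norm, hzδn]; linarith)
    have hx'b : (x' : ℂ) ∈ ball (X : ℂ) (X / 4) := hball (mem_ball_self (by positivity))
    have h1 := hdp zδ hzδb hzδi.ge
    have hlip1 := hlip (x' : ℂ) hx'b zδ hzδb
    have hlip2 := hlip z (hsub8 hz) zδ hzδb
    rw [hzδn] at hlip1
    have hgx : (g x').im = 0 := by
      have h2 := htr.symm (x' : ℂ) (hsub hx'b)
      rw [Complex.conj_ofReal] at h2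
      exact Complex.conj_eq_iff_im.1 h2.symm
    have hGi : (G zδ).im ≤ 16 * δ + κ / 62 := by
      have h3 := (Complex.abs_im_le_norm (G zδ - g zδ)).trans h1
      have h4 := (Complex.abs_im_le_norm (g zδ - g x')).trans hlip1
      rw [Complex.sub_im] at h3 h4
      rw [hgx] at h4
      have := (abs_le.1 h3).2
      have := (abs_le.1 h4).2
      linarith
    have hz' : z ∈ closedBall (x' : ℂ) δ := by
      rw [mem_closedBall, dist_eq_norm]
      have e5 : z - x' = (z.im : ℂ) * Complex.I := by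
        apply Complex.ext <;> simp [hx']
      rw [e5, norm_mul, Complex.norm_I, mul_one, Complex.norm_real, Real.norm_of_nonneg h0]
      exact hzδ.le
    have hzδ' : zδ ∈ closedBall (x' : ℂ) δ := by
      rw [mem_closedBall, dist_eq_norm, hzδn]
    have d1 := hty z hz'
    have d2 := hty zδ hzδ'
    have d3 : ‖zδ - z‖ ≤ δ := by
      have e5 : zδ - z = ((δ - z.im : ℝ) : ℂ) * Complex.I := by
        apply Complex.ext <;> simp [hx', hzδd]
      rw [e5, norm_mul, Complex.norm_I, mul_one, Complex.norm_real,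
        Real.norm_of_nonneg (by linarith)]
      linarith
    have e6 : G z - g z = (G z - G x') - (G zδ - G x') + (G zδ - g zδ) + (g zδ - g z) := by ring
    rw [e6]
    calc ‖(G z - G x') - (G zδ - G x') + (G zδ - g zδ) + (g zδ - g z)‖
        ≤ ‖G z - G x'‖ + ‖G zδ - G x'‖ + ‖G zδ - g zδ‖ + ‖g zδ - g z‖ := by
          refine (norm_add_le _ _).trans ?_
          gcongr
          refine (norm_add_le _ _).trans ?_
          gcongr
          exact norm_sub_le _ _
      _ ≤ 15 * (16 * δ + κ / 62) + 15 * (16 * δ + κ / 62) + κ / 62 + 16 * δ := by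
          gcongr
          · exact d1.trans (by gcongr)
          · exact d2.trans (by gcongr)
          · exact hlip2.trans (by gcongr)
      _ ≤ κ := by linarith
  refine ⟨G, hGd.mono hsub8, fun z hz => hGs z (hsub8 hz), fun z hz => hGe z (hsub8 hz),
    fun z hz => ?_⟩
  rcases le_total 0 z.im with h | h
  · exact hup z hz h
  · have hcz : conj z ∈ ball (X : ℂ) (X / 8) := by
      rw [mem_ball, dist_eq_norm] at hz ⊢
      have e : conj z - (X : ℂ) = conj (z - X) := by rw [map_sub, Complex.conj_ofReal]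
      rwa [e, RCLike.norm_conj]
    have h1 := hup (conj z) hcz (by rw [Complex.conj_im]; linarith)
    have h2 := hGs z (hsub8 hz)
    have h3 := htr.symm z (hsub (hsub8 hz))
    have e : G (conj z) - g (conj z) = conj (G z - g z) := by
      rw [map_sub, h2]
      congr 1
    rw [e, RCLike.norm_conj] at h1
    exact h1

end Vale.Agent.P167.H756
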