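import Vale.Agent.P167.H756.S3

/-!
# P167, general `q`, sandwich closeness (4): polygons of the sandwich

`PO h ψ W t Y Rb Q P a p` : `P` is a polygon (not necessarily inside the domain
`D = ψ (loewnerDomain W t)`), `Q` is a common inner polygon of `D` and `P`; `a`, `p` are the marks
of `P` (tip and target).
-/

set_option autoImplicit false
set_option linter.unusedVariables false

open Set Topology Metric MeasureTheory Filter Bornology
open scoped ENNReal Real ComplexConjugate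

namespace Vale.Agent.P167.H756

open Vale.Agent.P153.R2.R1 Vale.Agent.P153.R2.OBSV Vale.Agent.P167.H174
open Vale.Agent.P153.R2.L1 (HH IsHydro inv mem_HH isOpen_HH convex_HH)
open Vale.Agent.P164 (loewnerDomain gf Zf IsLoewnerSol)
open Vale.Agent.P167.H947 (surv flow flow_eq flow_conj flow_inj flow_gf surv_inter isOpen_surv
  differentiableOn_flow hasDerivAt_flow_real flow_rsol)

theorem Cls.mono {R R' c : ℝ} {F : ℂ → ℂ} (h : Cls R c F) (hR : R ≤ R') : Cls R' c F :=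
  { h with bdd := fun w hw => (h.bdd w hw).trans hR }

/-- A polygon `P` with two marked points and a common inner polygon `Q` of `P` and
`ψ (loewnerDomain W t)`. -/
structure PO (h : ℝ) (ψ : ℂ → ℂ) (W : ℝ → ℝ) (t Y Rb : ℝ) (Q P : Set ℂ) (a p : ℂ) : Prop where
  goodQ : Good Q
  good : Good P
  subD : Q ⊆ ψ '' loewnerDomain W t
  subP : Q ⊆ P
  bdd : ∀ z ∈ P, ‖z - ψ (Y * Complex.I)‖ ≤ Rb
  innerD : Inner (ψ '' loewnerDomain W t) Q (ψ (Y * Complex.I)) h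
  collarD : Collar (ψ '' loewnerDomain W t) Q h
  innerP : Inner P Q (ψ (Y * Complex.I)) h
  collarP : Collar P Q h
  mem_a : a ∈ frontier P
  mem_p : p ∈ frontier P
  mark_a : ∃ C ⊆ P, IsPreconnected C ∧ a ∈ closure C ∧ (∀ u ∈ C, ∀ v ∈ C, dist u v ≤ h) ∧
    (C ∩ (Q ∩ ψ '' {z | z ∈ loewnerDomain W t ∧ ‖Zf W z t‖ < h})).Nonempty
  mark_p : ∃ C ⊆ P, IsPreconnected C ∧ p ∈ closure C ∧ (∀ u ∈ C, ∀ v ∈ C, dist u v ≤ h) ∧
    (C ∩ (Q ∩ ψ '' {z | z ∈ loewnerDomain W t ∧ h⁻¹ < ‖z‖})).Nonempty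

theorem PO.mono {h h' : ℝ} {ψ : ℂ → ℂ} {W : ℝ → ℝ} {t Y Rb : ℝ} {Q P : Set ℂ} {a p : ℂ}
    (H : PO h ψ W t Y Rb Q P a p) (h0 : 0 < h) (hh : h ≤ h') : PO h' ψ W t Y Rb Q P a p :=
  { H with
    innerD := H.innerD.mono hh
    collarD := H.collarD.mono hh
    innerP := H.innerP.mono hh
    collarP := H.collarP.mono hh
    mark_a := by
      obtain ⟨C, h1, h2, h3, h4, h5⟩ := H.mark_a
      refine ⟨C, h1, h2, h3, fun u hu v hv => (h4 u hu v hv).trans hh, h5.mono ?_⟩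
      refine inter_subset_inter_right _ (inter_subset_inter_right _ (image_mono ?_))
      exact fun z hz => ⟨hz.1, hz.2.trans_le hh⟩
    mark_p := by
      obtain ⟨C, h1, h2, h3, h4, h5⟩ := H.mark_p
      refine ⟨C, h1, h2, h3, fun u hu v hv => (h4 u hu v hv).trans hh, h5.mono ?_⟩
      refine inter_subset_inter_right _ (inter_subset_inter_right _ (image_mono ?_))
      exact fun z hz => ⟨hz.1, lt_of_le_of_lt (by gcongr) hz.2⟩ }

variable {T R : ℝ} {W : ℝ → ℝ} {t : ℝ}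

/-- From `PO` to `SideO`. -/
theorem sideO_of_PO {Rd cd Y Rb : ℝ} (hRd : 0 < Rd) (hcd : 0 < cd) (hRb : 0 ≤ Rb) (hY0 : 0 < Y)
    (hY : 8 * R ≤ Y) (hY2 : 64 * T ≤ Y ^ 2) (hT : 0 ≤ T) (hR : 0 ≤ R) :
    ∃ c > 0, ∃ ρ₀ < 1, ∀ h > 0, ∃ h' > 0, ∀ ψ : ℂ → ℂ, HConf Rd cd Y ψ →
      ∀ (W : ℝ → ℝ) (t : ℝ), Drv T R W t → ∀ (Q P : Set ℂ) (a p : ℂ), PO h' ψ W t Y Rb Q P a p →
        SideO (Rd + Rb) c ρ₀ h (FD ψ W t) (mb 1 Complex.I (Zf W (Y * Complex.I) t)) Q P a p := by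
  obtain ⟨c, hc, hcls⟩ := cls_FD (T := T) (R := R) hRd hcd hY0 hY hY2
  have hρ1 : √(1 - 4 * (3 * Y / 4) / (1 + 2 * Y) ^ 2) < 1 := by
    rw [Real.sqrt_lt' one_pos, one_pow, sub_lt_self_iff]
    positivity
  refine ⟨c, hc, _, hρ1, fun h hh => ?_⟩
  have hden : 0 < 4 * R + 16 * T + 1 := by positivity
  refine ⟨min (h / 4) (1 / (4 * R + 16 * T + 1)), by positivity,
    fun ψ hψ W t H Q P a p HP => ?_⟩
  have hle : min (h / 4) (1 / (4 * R + 16 * T + 1)) ≤ h := (min_le_left _ _).trans (by linarith)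
  have hpos : 0 < min (h / 4) (1 / (4 * R + 16 * T + 1)) := by positivity
  obtain ⟨hd, h1, h2, h3⟩ := H.base hY0 hY hY2
  have hbase : FD ψ W t (mb 1 Complex.I (Zf W (Y * Complex.I) t)) = ψ (Y * Complex.I) :=
    FD_mb H ψ hd
  refine ⟨(hcls ψ hψ W t H).mono (by linarith), ?_, HP.goodQ, HP.good, ?_, ?_, ?_, HP.subP, ?_, ?_,
    HP.collarP.mono hle, HP.mem_a, HP.mem_p, ?_, ?_⟩
  · have hI : 0 < Complex.I.im := by simp
    have e : ‖mb 1 Complex.I (Zf W (Y * Complex.I) t)‖ =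
        ‖mb 1 (Zf W (Y * Complex.I) t) Complex.I‖ := by
      rw [norm_mb norm_one, norm_mb norm_one, norm_sub_rev, Complex.conj_I]
      congr 1
      rw [← RCLike.norm_conj (Complex.I - _), map_sub, Complex.conj_conj, Complex.conj_I,
        ← norm_neg]
      congr 1
      ring
    rw [mem_closedBall_zero_iff, e]
    exact norm_mb_le (by positivity) h1 h2
  · rw [FD_img H]; exact HP.subD
  · rw [FD_img H, hbase]; exact HP.innerD.mono hle
  · rw [FD_img H]; exact HP.collarD.mono hle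
  · intro z hz
    have k1 := HP.bdd z hz
    have k2 : ‖ψ (Y * Complex.I) - FD ψ W t 0‖ ≤ Rd := by
      rw [← hbase]
      refine (hcls ψ hψ W t H).bdd _ ?_
      rw [mem_ball_zero_iff]
      exact norm_mb_lt norm_one (by simp) (by linarith)
    calc ‖z - FD ψ W t 0‖ = ‖(z - ψ (Y * Complex.I)) + (ψ (Y * Complex.I) - FD ψ W t 0)‖ := by
          congr 1; ring
      _ ≤ _ := norm_add_le _ _
      _ ≤ Rd + Rb := by linarith
  · rw [hbase]; exact HP.innerP.mono hle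
  · obtain ⟨C, c1, c2, c3, c4, c5⟩ := HP.mark_a
    refine ⟨C, c1, c2, c3, fun u hu v hv => (c4 u hu v hv).trans hle, c5.mono ?_⟩
    refine inter_subset_inter_right _ (inter_subset_inter_right _ ?_)
    rintro _ ⟨z, ⟨hz, hzn⟩, rfl⟩
    have hzi := Vale.Agent.P164.Zf_im_pos H.nn hz
    refine ⟨mb 1 Complex.I (Zf W z t), ⟨?_, ?_⟩, FD_mb H ψ hz⟩
    · rw [mem_ball_zero_iff]; exact norm_mb_lt norm_one (by simp) hzi
    · rw [mem_ball]
      have h4 := chart_dist_le (ζ := -1) (z := Zf W z t) (by simp) hzi.le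
      rw [neg_neg] at h4
      have h5 : ‖Zf W z t‖ < h / 4 := hzn.trans_le (min_le_left _ _)
      linarith
  · obtain ⟨C, c1, c2, c3, c4, c5⟩ := HP.mark_p
    refine ⟨C, c1, c2, c3, fun u hu v hv => (c4 u hu v hv).trans hle, c5.mono ?_⟩
    refine inter_subset_inter_right _ (inter_subset_inter_right _ ?_)
    rintro _ ⟨z, ⟨hz, hzn⟩, rfl⟩
    have hzi := Vale.Agent.P164.Zf_im_pos H.nn hz
    refine ⟨mb 1 Complex.I (Zf W z t), ⟨?_, ?_⟩, FD_mb H ψ hz⟩
    · rw [mem_ball_zero_iff]; exact norm_mb_lt norm_one (by simp) hzi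
    · rw [mem_ball]
      have hz0 : 0 < ‖z‖ := lt_trans (by positivity) hzn
      have h4 : 4 * R + 16 * T + 1 < ‖z‖ := by
        refine lt_of_le_of_lt ((le_inv_comm₀ hden hpos).2 ?_) hzn
        rw [← one_div]
        exact min_le_right _ _
      have h5 : 4 / h < ‖z‖ := by
        refine lt_of_le_of_lt ((le_inv_comm₀ (by positivity) hpos).2 ?_) hzn
        rw [inv_div]
        exact min_le_left _ _
      have h6 : 16 * T ≤ ‖z‖ ^ 2 := by
        have h7 : ‖z‖ * 1 ≤ ‖z‖ * ‖z‖ := by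
          apply mul_le_mul_of_nonneg_left _ hz0.le
          linarith
        rw [sq]
        linarith
      have h7 := (H.far hz0 (by linarith) h6).2.2.2
      have e : Zf W z t = flow W t z - W t := by
        rw [flow_gf H.nn H.cont.continuousOn hz, Vale.Agent.P164.Zf_eq]
      rw [← e] at h7
      have h8 : 0 < ‖Zf W z t‖ := by linarith
      refine (dist_mb_one hzi).trans_lt ?_
      rw [div_lt_iff₀ h8]
      rw [div_lt_iff₀ hh] at h5
      nlinarith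

/-- The points at a positive distance of the real line are in the common inner polygon. -/
theorem deepO {Y Rd cd Rb m M y₀ : ℝ} (hT : 0 ≤ T) (hR : 0 ≤ R) (hRd : 0 < Rd) (hcd : 0 < cd)
    (hRb : 0 ≤ Rb)
    (hY0 : 0 < Y) (hY : 8 * R ≤ Y) (hY2 : 64 * T ≤ Y ^ 2) (hm0 : 0 < m) (hm : 4 * R ≤ m)
    (hm2 : 16 * T ≤ m ^ 2) (hM : 0 ≤ M) (hy₀ : 0 < y₀) :
    ∃ h > 0, ∀ ψ : ℂ → ℂ, HConf Rd cd Y ψ → ∀ (W : ℝ → ℝ) (t : ℝ), Drv T R W t →
      ∀ (Q P : Set ℂ) (a p : ℂ), PO h ψ W t Y Rb Q P a p →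
      ∀ z : ℂ, y₀ ≤ z.im → m ≤ ‖z‖ → ‖z‖ ≤ M → ψ z ∈ Q := by
  have hI : 0 < Complex.I.im := by simp
  obtain ⟨c, hc, ρ₀, hρ₀, hside⟩ := sideO_of_PO (T := T) (R := R) hRd hcd hRb hY0 hY hY2 hT hR
  set y₁ : ℝ := y₀ * Real.exp (-1) with hy₁
  have hy₁0 : 0 < y₁ := by positivity
  set M₁ : ℝ := 5 / 4 * M + R with hM₁
  set ρ₁ : ℝ := max ρ₀ √(1 - 4 * y₁ / (1 + M₁) ^ 2) with hρ₁
  have hρ₁1 : ρ₁ < 1 := by
    refine max_lt hρ₀ ?_
    rw [Real.sqrt_lt' one_pos, one_pow, sub_lt_self_iff]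
    positivity
  obtain ⟨h₃, hh₃, hins⟩ := Cls.inside (R := Rd + Rb) (c := c) (by positivity) hc hρ₁1
  obtain ⟨h₄, hh₄, hS⟩ := hside h₃ (by positivity)
  refine ⟨h₄, by positivity, ?_⟩
  intro ψ hψ W t H Q P a p hP z hzi hzm hzM
  have S := hS ψ hψ _ _ H Q P a p hP
  have hz0 : 0 < z.im := lt_of_lt_of_le hy₀ hzi
  have hzn0 : 0 < ‖z‖ := lt_of_lt_of_le hm0 hzm
  have h3 : m ^ 2 ≤ ‖z‖ ^ 2 := by gcongr
  have h4 := H.far hzn0 (by linarith) (by linarith)
  have hzd : z ∈ loewnerDomain W t := H.dom hz0 (by linarith) (by linarith)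
  have e3 : Zf W z t = flow W t z - W t := by
    rw [flow_gf H.nn H.cont.continuousOn hzd, Vale.Agent.P164.Zf_eq]
  have him : y₁ ≤ (Zf W z t).im := by
    refine le_trans ?_ (H.im_ge hz0 (by linarith) (by linarith))
    rw [hy₁]
    gcongr
  have hno : ‖Zf W z t‖ ≤ M₁ := by
    rw [e3]
    have h6 := H.bdd t ⟨H.nn, le_rfl⟩
    calc ‖flow W t z - W t‖ = ‖(flow W t z - z) + z - W t‖ := by congr 1; ring
      _ ≤ ‖flow W t z - z‖ + ‖z‖ + ‖(W t : ℂ)‖ :=
        (norm_sub_le _ _).trans (by gcongr; exact norm_add_le _ _)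
      _ ≤ ‖z‖ / 4 + ‖z‖ + R := by
        rw [Complex.norm_real, Real.norm_eq_abs]
        gcongr
        exact h4.2.2.1
      _ ≤ M₁ := by rw [hM₁]; linarith
  have hw : mb 1 Complex.I (Zf W z t) ∈ closedBall (0 : ℂ) ρ₁ := by
    have e4 : ‖mb 1 Complex.I (Zf W z t)‖ = ‖mb 1 (Zf W z t) Complex.I‖ := by
      rw [norm_mb norm_one, norm_mb norm_one, norm_sub_rev, Complex.conj_I]
      congr 1
      rw [← RCLike.norm_conj (Complex.I - _), map_sub, Complex.conj_conj, Complex.conj_I,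
        ← norm_neg]
      congr 1
      ring
    rw [mem_closedBall_zero_iff, e4]
    exact (norm_mb_le (by positivity) him hno).trans (le_max_right _ _)
  rw [← FD_mb H ψ hzd]
  refine S.innerD (FD ψ W t '' closedBall 0 ρ₁) ?_ ?_ ?_ (mem_image_of_mem _ hw)
  · exact (convex_closedBall (0 : ℂ) ρ₁).isPreconnected.image _
      (S.cls.diff.continuousOn.mono (closedBall_subset_ball hρ₁1))
  · exact mem_image_of_mem _ (closedBall_subset_closedBall (le_max_left _ _) S.base)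
  · rintro _ ⟨w, hw, rfl⟩
    exact hins _ S.cls w hw

end Vale.Agent.P167.H756
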