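import Vale.Agent.P167.H756.S4

/-!
# P167, general `q`, sandwich closeness (5): the interior
-/

set_option autoImplicit false
set_option linter.unusedVariables false

open Set Topology Metric MeasureTheory Filter Bornology
open scoped ENNReal Real ComplexConjugate

namespace Vale.Agent.P167.H756

open Vale.Agent.P153.R2.R1 Vale.Agent.P153.R2.OBSV Vale.Agent.P167.H174
open Vale.Agent.P153.R2.L1 (HH IsHydro inv mem_HH isOpen_HH convex_HH)
open Vale.Agent.P164 (loewnerDomain gf Zf IsLoewnerSol)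
open Vale.Agent.P153.BESS (CSol RSol)
open Vale.Agent.P167.H411 (ldv obsF obsY exists_csol exists_rsol csol_unique)
open Vale.Agent.P167.H947 (surv flow flow_eq flow_conj flow_inj flow_gf surv_inter isOpen_surv
  differentiableOn_flow hasDerivAt_flow_real flow_rsol)
open Vale.Agent.P167.QE (obsQ obsQ_eq)

variable {T R : ℝ} {W : ℝ → ℝ} {t : ℝ}

/-- **Interior closeness**: the uniformizer of a polygon of the sandwich is close to the one of the
slit domain at the points at a positive distance of the boundary (in the coordinates of the slit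
domain). -/
theorem intO {Y Rd cd Rb y₀ M κ : ℝ} (hT : 0 ≤ T) (hR : 0 ≤ R) (hRd : 0 < Rd) (hcd : 0 < cd)
    (hRb : 0 ≤ Rb) (hY0 : 0 < Y) (hY : 8 * R ≤ Y) (hY2 : 64 * T ≤ Y ^ 2) (hM : 0 ≤ M)
    (hy₀ : 0 < y₀) (hκ : 0 < κ) :
    ∃ h > 0, ∀ ψ : ℂ → ℂ, HConf Rd cd Y ψ → ∀ (W : ℝ → ℝ) (t : ℝ), Drv T R W t →
      ∀ (Q P : Set ℂ) (a p : ℂ), PO h ψ W t Y Rb Q P a p →
      ∃ φ : ℂ → ℂ, IsU φ P a p ∧ InjOn φ {z | 0 ≤ z.im} ∧
        ∀ z ∈ loewnerDomain W t, y₀ ≤ (Zf W z t).im → ‖Zf W z t‖ ≤ M →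
          ψ z ∈ Q ∧ ∃ w : ℂ, 0 < w.im ∧ φ w = ψ z ∧ ‖w - Zf W z t‖ ≤ κ := by
  have hI : 0 < Complex.I.im := by simp
  obtain ⟨c, hc, ρ₀, hρ₀, hside⟩ := sideO_of_PO (T := T) (R := R) hRd hcd hRb hY0 hY hY2 hT hR
  obtain ⟨ε, hε, himb⟩ := imb_close hM hκ
  have hRR : 0 < Rd + Rb := by positivity
  obtain ⟨h₁, hh₁, hhalf⟩ := halfplaneO (R := Rd + Rb) (c := c) hRR hc hρ₀ hε
  set ρ₁ : ℝ := max ρ₀ √(1 - 4 * y₀ / (1 + M) ^ 2) with hρ₁
  have hρ₁1 : ρ₁ < 1 := by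
    refine max_lt hρ₀ ?_
    rw [Real.sqrt_lt' one_pos, one_pow, sub_lt_self_iff]
    positivity
  obtain ⟨h₃, hh₃, hins⟩ := Cls.inside (R := Rd + Rb) (c := c) hRR hc hρ₁1
  obtain ⟨h₄, hh₄, hS⟩ := hside (min h₁ h₃) (by positivity)
  refine ⟨h₄, hh₄, ?_⟩
  intro ψ hψ W t H Q P a p hP
  have S := hS ψ hψ _ _ H Q P a p hP
  obtain ⟨φ, hφ, hφi, hφc⟩ := hhalf _ _ _ _ _ _ (S.mono (min_le_left _ _))
  refine ⟨φ, hφ, hφi, fun z hz hzi hzM => ?_⟩
  have hz0 : 0 < (Zf W z t).im := lt_of_lt_of_le hy₀ hzi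
  have hw : mb 1 Complex.I (Zf W z t) ∈ closedBall (0 : ℂ) ρ₁ := by
    have e4 : ‖mb 1 Complex.I (Zf W z t)‖ = ‖mb 1 (Zf W z t) Complex.I‖ := by
      rw [norm_mb norm_one, norm_mb norm_one, norm_sub_rev, Complex.conj_I]
      congr 1
      rw [← RCLike.norm_conj (Complex.I - _), map_sub, Complex.conj_conj, Complex.conj_I,
        ← norm_neg]
      congr 1
      ring
    rw [mem_closedBall_zero_iff, e4]
    exact (norm_mb_le hy₀ hzi hzM).trans (le_max_right _ _)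
  have hQ : ψ z ∈ Q := by
    rw [← FD_mb H ψ hz]
    refine S.innerD (FD ψ W t '' closedBall 0 ρ₁) ?_ ?_ ?_ (mem_image_of_mem _ hw)
    · exact (convex_closedBall (0 : ℂ) ρ₁).isPreconnected.image _
        (S.cls.diff.continuousOn.mono (closedBall_subset_ball hρ₁1))
    · exact mem_image_of_mem _ (closedBall_subset_closedBall (le_max_left _ _) S.base)
    · rintro _ ⟨w, hw, rfl⟩
      exact (ball_subset_ball (min_le_right _ _)).trans (hins _ S.cls w hw)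
  have hP' : ψ z ∈ P := hP.subP hQ
  rw [← hφ.img] at hP'
  obtain ⟨w, hw0, hwe⟩ := hP'
  refine ⟨hQ, w, hw0, hwe, ?_⟩
  have h1 := hφc w hw0 (by rw [hwe]; exact hQ)
  have h6 : mb 1 Complex.I (Zf W z t) ∈ ball (0 : ℂ) 1 := by
    rw [mem_ball_zero_iff]; exact norm_mb_lt norm_one hI hz0
  rw [hwe, ← FD_mb H ψ hz, S.cls.conf.dinv_apply h6, norm_sub_rev] at h1
  have h7 := himb _ _ hz0.le hzM h1
  rwa [imb_mb norm_one hI (le_of_lt hw0)] at h7

end Vale.Agent.P167.H756
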