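import Vale.Agent.P167.H756.S5

/-!
# P167, general `q`, sandwich closeness (6): the data of a polygon near two common flat pieces

* `QPosL ν P a p c d u v` : as `QPos`, the direction of the flat piece at `d` is `ν`;
* `QPosL.transfer`, `QPos.unsim` : independence of the uniformizer, similarities;
* `lipO` : Lipschitz estimates of the flow;
* `nearO` : values and derivatives of a map close to the flow;
* `posO` : the data `α`, `β`, `D`, `τ`.
-/

set_option autoImplicit false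
set_option linter.unusedVariables false

open Set Topology Metric MeasureTheory Filter Bornology
open scoped ENNReal Real ComplexConjugate

namespace Vale.Agent.P167.H756

open Vale.Agent.P153.R2.R1 Vale.Agent.P153.R2.OBSV Vale.Agent.P167.H174
open Vale.Agent.P153.R2.L1 (HH IsHydro inv mem_HH isOpen_HH convex_HH)
open Vale.Agent.P164 (loewnerDomain gf Zf IsLoewnerSol)
open Vale.Agent.P153.BESS (CSol RSol)
open Vale.Agent.P167.H411 (ldv obsF obsY exists_csol exists_rsol csol_unique)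
open Vale.Agent.P167.H947 (surv flow flow_eq flow_conj flow_inj flow_gf surv_inter isOpen_surv
  differentiableOn_flow hasDerivAt_flow_real flow_rsol)

/-! ### The conformal quantities, with a direction at `d` -/

/-- `u = x_c / x_d`, `v = D / (x_d - x_c)`; the derivative of the uniformizer at `x_d` is `ν / D`. -/
def QPosL (ν : ℂ) (P : Set ℂ) (a p c d : ℂ) (u v : ℝ) : Prop :=
  ∃ (φ : ℂ → ℂ) (xc xd D : ℝ), IsU φ P a p ∧ 0 < xc ∧ xc < xd ∧ 0 < D ∧ φ xc = c ∧ φ xd = d ∧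
    HasDerivWithinAt φ (ν * ((1 / D : ℝ) : ℂ)) {z | 0 ≤ z.im} xd ∧ u = xc / xd ∧
    v = D / (xd - xc)

theorem QPos.toL {P : Set ℂ} {a p c d : ℂ} {u v : ℝ} (h : QPos P a p c d u v) :
    QPosL 1 P a p c d u v := by
  obtain ⟨φ, xc, xd, D, h1, h2, h3, h4, h5, h6, h7, h8, h9⟩ := h
  exact ⟨φ, xc, xd, D, h1, h2, h3, h4, h5, h6, by rwa [one_mul], h8, h9⟩

theorem QPosL.pos {ν : ℂ} {P : Set ℂ} {a p c d : ℂ} {u v : ℝ} (h : QPosL ν P a p c d u v) :
    0 < u ∧ 0 < v := by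
  obtain ⟨φ, xc, xd, D, -, h1, h2, h3, -, -, -, rfl, rfl⟩ := h
  have : 0 < xd - xc := by linarith
  have : 0 < xd := by linarith
  constructor <;> positivity

/-- The quantities do not depend on the uniformizer. -/
theorem QPosL.transfer {ν : ℂ} {P : Set ℂ} (hP : NoCut P) {a p c d : ℂ} {u v : ℝ}
    (h : QPosL ν P a p c d u v) {φ : ℂ → ℂ} (hφ : IsU φ P a p) :
    ∃ xc xd D : ℝ, 0 < xc ∧ xc < xd ∧ 0 < D ∧ φ xc = c ∧ φ xd = d ∧
      HasDerivWithinAt φ (ν * ((1 / D : ℝ) : ℂ)) {z | 0 ≤ z.im} xd ∧ u = xc / xd ∧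
      v = D / (xd - xc) := by
  obtain ⟨φ', xc, xd, D, hφ', h1, h2, h3, h4, h5, h6, rfl, rfl⟩ := h
  obtain ⟨s, hs, hsc⟩ := isU_scale hP hφ' hφ
  have hsc0 : (s : ℂ) ≠ 0 := by exact_mod_cast hs.ne'
  have e1 : ∀ x : ℝ, (s : ℂ) * ((x / s : ℝ) : ℂ) = x := fun x => by
    push_cast; field_simp
  have hd0 : 0 < xd := by linarith
  refine ⟨xc / s, xd / s, D / s, by positivity, by gcongr, by positivity, ?_, ?_, ?_, ?_, ?_⟩
  · rw [hsc _ (by simp), e1]; exact h4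
  · rw [hsc _ (by simp), e1]; exact h5
  · have h7 : HasDerivWithinAt (fun z : ℂ => (s : ℂ) * z) (s : ℂ) {z : ℂ | 0 ≤ z.im}
        ((xd / s : ℝ) : ℂ) := by
      simpa using ((hasDerivAt_id (((xd / s : ℝ)) : ℂ)).const_mul (s : ℂ)).hasDerivWithinAt
    have h8 : HasDerivWithinAt φ' (ν * ((1 / D : ℝ) : ℂ)) {z | 0 ≤ z.im}
        ((s : ℂ) * ((xd / s : ℝ) : ℂ)) := by rw [e1]; exact h6
    have h9 := h8.comp (((xd / s : ℝ)) : ℂ) h7 (s' := {z : ℂ | 0 ≤ z.im}) (fun z hz => by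
      show 0 ≤ ((s : ℂ) * z).im
      rw [Complex.im_ofReal_mul]
      exact mul_nonneg hs.le hz)
    have e2 : ν * ((1 / (D / s) : ℝ) : ℂ) = ν * ((1 / D : ℝ) : ℂ) * s := by
      have hD : (D : ℂ) ≠ 0 := by exact_mod_cast h3.ne'
      push_cast
      field_simp
    rw [e2]
    refine h9.congr (fun z hz => ?_) ?_
    · exact hsc z hz
    · exact hsc _ (by simp)
  · field_simp
  · have : xd - xc ≠ 0 := by linarith
    have e3 : xd / s - xc / s = (xd - xc) / s := by ring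
    rw [e3]
    field_simp

/-- Similarities. -/
theorem QPosL.unsim {ν s : ℂ} {P : Set ℂ} {a p c d : ℂ} {u v : ℝ} (hs : s ≠ 0) (z₀ : ℂ)
    (h : QPosL ν ((fun z => s * z + z₀) '' P) (s * a + z₀) (s * p + z₀) (s * c + z₀) (s * d + z₀)
      u v) : QPosL (s⁻¹ * ν) P a p c d u v := by
  obtain ⟨φ, xc, xd, D, h1, h2, h3, h4, h5, h6, h7, h8, h9⟩ := h
  have hφ : IsU (fun z => s⁻¹ * (φ z - z₀)) P a p := by
    refine ⟨(h1.diff.sub_const z₀).const_mul _, ?_, ?_, ?_, ?_, ?_⟩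
    · intro x hx y hy e
      have e' : s⁻¹ * (φ x - z₀) = s⁻¹ * (φ y - z₀) := e
      have e2 := mul_left_cancel₀ (inv_ne_zero hs) e'
      exact h1.inj hx hy (sub_left_injective e2)
    · have e : (fun z => s⁻¹ * (φ z - z₀)) '' {z | 0 < z.im} =
          (fun z => s⁻¹ * (z - z₀)) '' (φ '' {z | 0 < z.im}) := by rw [image_image]
      rw [e, h1.img, image_image]
      have e2 : (fun z : ℂ => s⁻¹ * (s * z + z₀ - z₀)) = id := by
        funext z
        rw [add_sub_cancel_right, inv_mul_cancel_left₀ hs, id]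
      rw [e2, image_id]
    · exact continuousOn_const.mul (h1.cont.sub continuousOn_const)
    · show s⁻¹ * (φ 0 - z₀) = a
      rw [h1.zero, add_sub_cancel_right, inv_mul_cancel_left₀ hs]
    · have h := (h1.infty.sub_const z₀).const_mul s⁻¹
      rwa [add_sub_cancel_right, inv_mul_cancel_left₀ hs] at h
  refine ⟨_, xc, xd, D, hφ, h2, h3, h4, ?_, ?_, ?_, h8, h9⟩
  · show s⁻¹ * (φ xc - z₀) = c
    rw [h5, add_sub_cancel_right, inv_mul_cancel_left₀ hs]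
  · show s⁻¹ * (φ xd - z₀) = d
    rw [h6, add_sub_cancel_right, inv_mul_cancel_left₀ hs]
  · rw [mul_assoc]
    exact (h7.sub_const z₀).const_mul s⁻¹

/-! ### The flow near a far real point -/

variable {T R : ℝ} {W : ℝ → ℝ} {t : ℝ}

/-- Lipschitz estimates of the flow near `x`. -/
theorem lipO (H : Drv T R W t) {x : ℝ} (hx : 0 < x) (hxR : 8 * R ≤ x) (hxT : 64 * T ≤ x ^ 2) :
    DifferentiableOn ℂ (fun z => flow W t z - W t) (ball (x : ℂ) (x / 2)) ∧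
    (∀ z ∈ ball (x : ℂ) (x / 4), ‖deriv (fun z => flow W t z - W t) z‖ ≤ 16) ∧
    ∀ z ∈ ball (x : ℂ) (x / 4), ∀ w ∈ ball (x : ℂ) (x / 4),
      ‖(flow W t w - W t) - (flow W t z - W t)‖ ≤ 16 * ‖w - z‖ := by
  have ha : |x| = x := abs_of_pos hx
  have htr := trans_FD' H id hx.ne' (by rw [ha]; exact hxR) hxT (r := x / 2) (by rw [ha])
  rw [ha] at htr
  have hxx : x / 4 + x / 4 = x / 2 := by ring
  obtain ⟨hd, hlip⟩ := lip_of_bdd (f := fun z => flow W t z - W t) (x := (x : ℂ)) (ρ := x / 4)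
    (s := x / 4) (B := 2 * x) (by positivity) (by rw [hxx]; exact htr.diff)
    (by rw [hxx]; exact htr.bdd)
  have h16 : 2 * x / (x / 4 / 2) = 16 := by field_simp; norm_num
  rw [h16] at hd hlip
  exact ⟨htr.diff, hd, hlip⟩

/-- Values and derivatives of a map close to the flow. -/
theorem nearO (H : Drv T R W t) {x y κ : ℝ} (hx : 0 < x) (hxR : 8 * R ≤ x) (hxT : 64 * T ≤ x ^ 2)
    {G : ℂ → ℂ} (hGd : DifferentiableOn ℂ G (ball (x : ℂ) (x / 8)))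
    (hGs : ∀ z ∈ ball (x : ℂ) (x / 8), G (conj z) = conj (G z))
    (hGc : ∀ z ∈ ball (x : ℂ) (x / 8), ‖G z - (flow W t z - W t)‖ ≤ κ) (hy : |y - x| < x / 16) :
    G y = ((G y).re : ℂ) ∧ |(G y).re - xT W t x| ≤ κ + 16 * |y - x| ∧
      ‖deriv G y - deriv (fun z => flow W t z - W t) (x : ℂ)‖ ≤
        κ / (x / 32) + 256 / x * |y - x| := by
  have hyn : ‖(y : ℂ) - x‖ = |y - x| := by
    rw [← Complex.ofReal_sub, Complex.norm_real, Real.norm_eq_abs]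
  have hyb : (y : ℂ) ∈ ball (x : ℂ) (x / 16) := by rw [mem_ball, dist_eq_norm, hyn]; exact hy
  have hyb8 : (y : ℂ) ∈ ball (x : ℂ) (x / 8) := ball_subset_ball (by linarith) hyb
  have hre : G y = ((G y).re : ℂ) := by
    have h1 := hGs y hyb8
    rw [Complex.conj_ofReal] at h1
    exact Complex.ext (by simp) (by simpa using Complex.conj_eq_iff_im.1 h1.symm)
  obtain ⟨f1, -, -⟩ := xT_bd H hx hxR hxT
  obtain ⟨difX, derX, lipX⟩ := lipO H hx hxR hxT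
  have hsub : ball (x : ℂ) (x / 8) ⊆ ball (x : ℂ) (x / 4) := ball_subset_ball (by linarith)
  refine ⟨hre, ?_, ?_⟩
  · have h1 := hGc y hyb8
    have h2 := lipX x (mem_ball_self (by positivity)) y (hsub hyb8)
    rw [f1, hyn] at h2
    have e : (((G y).re - xT W t x : ℝ) : ℂ) = (G y - (flow W t y - W t)) +
        ((flow W t y - W t) - (xT W t x : ℂ)) := by
      rw [Complex.ofReal_sub, ← hre]; ring
    rw [← Real.norm_eq_abs, ← Complex.norm_real, e]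
    exact (norm_add_le _ _).trans (add_le_add h1 h2)
  · have hxx : x / 16 + x / 16 = x / 8 := by ring
    have hdif8 : DifferentiableOn ℂ (fun z => flow W t z - W t) (ball (x : ℂ) (x / 8)) :=
      difX.mono (ball_subset_ball (by linarith))
    obtain ⟨h1, -⟩ := lip_of_bdd (f := fun z => G z - (flow W t z - W t)) (x := (x : ℂ))
      (ρ := x / 16) (s := x / 16) (B := κ) (by positivity)
      (by rw [hxx]; exact hGd.sub hdif8) (by rw [hxx]; exact hGc)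
    have h2 := h1 y hyb
    have hGat : DifferentiableAt ℂ G y :=
      hGd.differentiableAt (isOpen_ball.mem_nhds hyb8)
    have hfat : DifferentiableAt ℂ (fun z => flow W t z - W t) y :=
      hdif8.differentiableAt (isOpen_ball.mem_nhds hyb8)
    rw [deriv_fun_sub hGat hfat] at h2
    have hx48 : x / 8 + x / 8 = x / 4 := by ring
    obtain ⟨-, h3⟩ := lip_of_bdd (f := deriv fun z => flow W t z - W t) (x := (x : ℂ))
      (ρ := x / 8) (s := x / 8) (B := 16) (by positivity)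
      (by
        rw [hx48]
        exact (difX.deriv isOpen_ball).mono (ball_subset_ball (by linarith)))
      (by rw [hx48]; exact derX)
    have h4 := h3 x (mem_ball_self (by positivity)) y hyb8
    rw [hyn] at h4
    have e1 : x / 16 / 2 = x / 32 := by ring
    have e2 : 16 / (x / 8 / 2) = 256 / x := by field_simp; norm_num
    rw [e1] at h2
    rw [e2] at h4
    calc ‖deriv G y - deriv (fun z => flow W t z - W t) (x : ℂ)‖
        = ‖(deriv G y - deriv (fun z => flow W t z - W t) (y : ℂ)) +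
            (deriv (fun z => flow W t z - W t) (y : ℂ) -
              deriv (fun z => flow W t z - W t) (x : ℂ))‖ := by congr 1; ring
      _ ≤ _ := (norm_add_le _ _).trans (add_le_add h2 h4)

/-- Points of a disc around a real point. -/
theorem nearNorm {x : ℝ} (hx : 0 < x) {z : ℂ} (hz : z ∈ ball (x : ℂ) (x / 4)) :
    x / 2 ≤ ‖z‖ ∧ ‖z‖ ≤ 3 / 2 * x := by
  rw [mem_ball, dist_eq_norm] at hz
  have e : ‖(x : ℂ)‖ = x := by rw [Complex.norm_real, Real.norm_of_nonneg hx.le]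
  have k1 : ‖(x : ℂ)‖ ≤ ‖z‖ + ‖z - x‖ := by
    have e2 : (x : ℂ) = z - (z - x) := by ring
    calc ‖(x : ℂ)‖ = ‖z - (z - x)‖ := by rw [← e2]
      _ ≤ _ := norm_sub_le _ _
  have k2 : ‖z‖ ≤ ‖z - x‖ + ‖(x : ℂ)‖ := by
    calc ‖z‖ = ‖(z - x) + x‖ := by congr 1; ring
      _ ≤ _ := norm_add_le _ _
  rw [e] at k1 k2
  constructor <;> linarith

/-- The transition map near one flat piece. -/
theorem tranO {X Y Rd cd Rb κ : ℝ} (hT : 0 ≤ T) (hR : 0 ≤ R) (hRd : 0 < Rd) (hcd : 0 < cd)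
    (hRb : 0 ≤ Rb) (hX0 : 0 < X) (hX : 8 * R ≤ X) (hX2 : 256 * T ≤ X ^ 2)
    (hY0 : 0 < Y) (hY : 8 * R ≤ Y) (hY2 : 64 * T ≤ Y ^ 2) (hκ : 0 < κ) :
    ∃ ε > 0, ∃ h > 0, ∀ ψ : ℂ → ℂ, HConf Rd cd Y ψ → ContinuousOn ψ {z | 0 ≤ z.im} →
      ∀ (W : ℝ → ℝ) (t : ℝ), Drv T R W t → ∀ (Q P : Set ℂ) (a p : ℂ), PO h ψ W t Y Rb Q P a p →
      ∀ φ : ℂ → ℂ, IsU φ P a p →
      (∀ z : ℂ, 0 < z.im → φ z ∈ Q → ‖dinv (FD ψ W t) (φ z) - mb 1 Complex.I z‖ ≤ ε) →
      (∀ z ∈ ball (X : ℂ) (X / 4), 0 < z.im → ψ z ∈ P) →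
      (∀ z ∈ ball (X : ℂ) (X / 4), z.im = 0 → ψ z ∉ P ∧ ψ z ≠ p) →
      ∃ G : ℂ → ℂ, DifferentiableOn ℂ G (ball (X : ℂ) (X / 8)) ∧
        (∀ z ∈ ball (X : ℂ) (X / 8), G (conj z) = conj (G z)) ∧
        (∀ z ∈ ball (X : ℂ) (X / 8), 0 ≤ z.im → 0 ≤ (G z).im ∧ φ (G z) = ψ z) ∧
        ∀ z ∈ ball (X : ℂ) (X / 8), ‖G z - (flow W t z - W t)‖ ≤ κ := by
  have hX64 : 64 * T ≤ X ^ 2 := by linarith
  obtain ⟨ε, hε, δ, hδ, hloc⟩ := loc_close (T := T) (R := R) hT hR hX0 hX hX64 hκ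
  obtain ⟨h₂, hh₂, hdeep⟩ := deepO (T := T) (R := R) (Y := Y) (Rd := Rd) (cd := cd) (Rb := Rb)
    (m := X / 2) (M := 3 / 2 * X) (y₀ := δ) hT hR hRd hcd hRb hY0 hY hY2 (by positivity)
    (by linarith) (by rw [div_pow]; linarith) (by positivity) hδ
  refine ⟨ε, hε, h₂, hh₂, ?_⟩
  intro ψ hψ hψc W t H Q P a p hP φ hφ hφc hin hout
  exact hloc W t H ψ φ Q P a p (hψc.mono inter_subset_right) hψ.diff
    hψ.inj hφ hP.good.nocut hφc
    (fun z hz hzi => hdeep ψ hψ W t H Q P a p hP z hzi (nearNorm hX0 hz).1 (nearNorm hX0 hz).2)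
    hin (fun z hz h0 => (hout z hz h0).1) (fun z hz h0 => (hout z hz h0).2)

/-- The derivative of `ψ = φ ∘ G` within the closed half-plane. -/
theorem compO {φ ψ G : ℂ → ℂ} {X' xd β : ℝ} {m : ℂ}
    (hGd : DifferentiableOn ℂ G (ball (X' : ℂ) (X' / 8)))
    (hGe : ∀ z ∈ ball (X' : ℂ) (X' / 8), 0 ≤ z.im → 0 ≤ (G z).im ∧ φ (G z) = ψ z)
    (hxd : ‖(xd : ℂ) - X'‖ < X' / 16) (hβ : G xd = (β : ℂ))
    (hφ : HasDerivWithinAt φ m {z | 0 ≤ z.im} β) :
    HasDerivWithinAt ψ (m * deriv G xd) (ball (xd : ℂ) (X' / 16) ∩ {z | 0 ≤ z.im}) xd := by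
  have hX' : 0 < X' := by have := norm_nonneg ((xd : ℂ) - X'); linarith
  have hxdb : (xd : ℂ) ∈ ball (X' : ℂ) (X' / 8) := by
    rw [mem_ball, dist_eq_norm]; linarith
  have hballd : ball (xd : ℂ) (X' / 16) ⊆ ball (X' : ℂ) (X' / 8) := by
    intro y hy
    rw [mem_ball, dist_eq_norm] at hy ⊢
    calc ‖y - X'‖ = ‖(y - xd) + (xd - X')‖ := by congr 1; ring
      _ ≤ _ := norm_add_le _ _
      _ < X' / 8 := by linarith
  have hτd : HasDerivAt G (deriv G xd) xd :=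
    (hGd.differentiableAt (isOpen_ball.mem_nhds hxdb)).hasDerivAt
  have hφ' : HasDerivWithinAt φ m {z | 0 ≤ z.im} (G xd) := by rw [hβ]; exact hφ
  have h9 : HasDerivWithinAt (φ ∘ G) (m * deriv G xd)
      (ball (xd : ℂ) (X' / 16) ∩ {z | 0 ≤ z.im}) xd :=
    hφ'.comp (xd : ℂ) hτd.hasDerivWithinAt fun z hz => (hGe z (hballd hz.1) hz.2).1
  have e1 : ∀ z ∈ ball (xd : ℂ) (X' / 16) ∩ {z | 0 ≤ z.im}, ψ z = (φ ∘ G) z := by
    intro z hz
    exact ((hGe z (hballd hz.1) hz.2).2).symm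
  have e2 : ψ xd = (φ ∘ G) xd := by
    have h := (hGe xd hxdb (by rw [Complex.ofReal_im])).2
    exact h.symm
  exact h9.congr e1 e2

/-- The data of a polygon of the sandwich near two common flat pieces. -/
theorem posO {X X' Y Rd cd Rb η : ℝ} (hT : 0 ≤ T) (hR : 0 ≤ R) (hRd : 0 < Rd) (hcd : 0 < cd)
    (hRb : 0 ≤ Rb) (hX0 : 0 < X) (hX : 8 * R ≤ X) (hX2 : 256 * T ≤ X ^ 2) (hXX : 16 * X ≤ X')
    (hY0 : 0 < Y) (hY : 8 * R ≤ Y) (hY2 : 64 * T ≤ Y ^ 2) (hη : 0 < η) :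
    ∃ h > 0, ∀ ψ : ℂ → ℂ, HConf Rd cd Y ψ → ContinuousOn ψ {z | 0 ≤ z.im} →
      ∀ (W : ℝ → ℝ) (t : ℝ), Drv T R W t → ∀ (Q P : Set ℂ) (a p : ℂ), PO h ψ W t Y Rb Q P a p →
      (∀ z ∈ ball (X : ℂ) (X / 4) ∪ ball (X' : ℂ) (X' / 4), 0 < z.im → ψ z ∈ P) →
      (∀ z ∈ ball (X : ℂ) (X / 4) ∪ ball (X' : ℂ) (X' / 4), z.im = 0 → ψ z ∉ P ∧ ψ z ≠ p) →
      ∀ xc xd : ℝ, |xc - X| ≤ h → |xd - X'| ≤ h →
      ∀ (ν : ℂ) (u v : ℝ), QPosL ν P a p (ψ xc) (ψ xd) u v →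
      ∃ (α β D : ℝ) (τ : ℂ), 0 < D ∧ u = α / β ∧ v = D / (β - α) ∧ 0 < α ∧ α < β ∧
        |α - xT W t X| ≤ η ∧ |β - xT W t X'| ≤ η ∧
        ‖τ - deriv (fun z => flow W t z - W t) (X' : ℂ)‖ ≤ η ∧
        HasDerivWithinAt ψ (ν * ((1 / D : ℝ) : ℂ) * τ)
          (ball (xd : ℂ) (X' / 16) ∩ {z | 0 ≤ z.im}) xd := by
  have hX'0 : 0 < X' := by linarith
  have hX' : 8 * R ≤ X' := by linarith
  have hXsq : X ^ 2 ≤ X' ^ 2 := by gcongr; linarith
  have hX2' : 256 * T ≤ X' ^ 2 := by linarith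
  have hX64 : 64 * T ≤ X ^ 2 := by linarith
  have hX64' : 64 * T ≤ X' ^ 2 := by linarith
  obtain ⟨c, hc, ρ₀, hρ₀, hside⟩ := sideO_of_PO (T := T) (R := R) hRd hcd hRb hY0 hY hY2 hT hR
  have hRR : 0 < Rd + Rb := by positivity
  obtain ⟨κ, hκ0, hκ1, hκ2⟩ : ∃ κ > 0, κ ≤ η / 2 ∧ κ / (X' / 32) ≤ η / 2 := by
    refine ⟨min (η / 2) (η / 2 * (X' / 32)), by positivity, min_le_left _ _, ?_⟩
    rw [div_le_iff₀ (by positivity)]
    exact min_le_right _ _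
  obtain ⟨ε, hε, h₁, hh₁, htr⟩ := tranO (T := T) (R := R) (Y := Y) hT hR hRd hcd hRb hX0 hX hX2
    hY0 hY hY2 hκ0
  obtain ⟨ε', hε', h₂, hh₂, htr'⟩ := tranO (T := T) (R := R) (Y := Y) hT hR hRd hcd hRb hX'0 hX'
    hX2' hY0 hY hY2 hκ0
  obtain ⟨h₃, hh₃, hhalf⟩ := halfplaneO (R := Rd + Rb) (c := c) hRR hc hρ₀
    (show 0 < min ε ε' by positivity)
  obtain ⟨h₄, hh₄, hS⟩ := hside h₃ hh₃
  obtain ⟨h₅, hh₅0, q1, q2, q4, qη, qX, qη'⟩ : ∃ h > 0, h ≤ h₁ ∧ h ≤ h₂ ∧ h ≤ h₄ ∧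
      16 * h ≤ η / 2 ∧ h < X / 16 ∧ 256 / X' * h ≤ η / 2 := by
    refine ⟨min (min h₁ (min h₂ h₄)) (min (η / 32) (min (X / 32) (η / 2 * (X' / 256)))),
      by positivity, (min_le_left _ _).trans (min_le_left _ _),
      (min_le_left _ _).trans ((min_le_right _ _).trans (min_le_left _ _)),
      (min_le_left _ _).trans ((min_le_right _ _).trans (min_le_right _ _)), ?_, ?_, ?_⟩
    · have : min (min h₁ (min h₂ h₄)) (min (η / 32) (min (X / 32) (η / 2 * (X' / 256)))) ≤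
        η / 32 := (min_le_right _ _).trans (min_le_left _ _)
      linarith
    · have : min (min h₁ (min h₂ h₄)) (min (η / 32) (min (X / 32) (η / 2 * (X' / 256)))) ≤
        X / 32 := (min_le_right _ _).trans ((min_le_right _ _).trans (min_le_left _ _))
      linarith
    · have : min (min h₁ (min h₂ h₄)) (min (η / 32) (min (X / 32) (η / 2 * (X' / 256)))) ≤
        η / 2 * (X' / 256) := (min_le_right _ _).trans ((min_le_right _ _).trans (min_le_right _ _))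
      calc 256 / X' * min (min h₁ (min h₂ h₄)) (min (η / 32) (min (X / 32) (η / 2 * (X' / 256))))
          ≤ 256 / X' * (η / 2 * (X' / 256)) := by gcongr
        _ = η / 2 := by field_simp
  refine ⟨h₅, hh₅0, ?_⟩
  intro ψ hψ hψc W t H Q P a p hP hin hout xc xd hxc hxd ν u v hQ
  have S := hS ψ hψ _ _ H Q P a p (hP.mono hh₅0 q4)
  obtain ⟨φ, hφ, hφi, hφc⟩ := hhalf _ _ _ _ _ _ S
  obtain ⟨G, hGd, hGs, hGe, hGc⟩ := htr ψ hψ hψc W t H Q P a p (hP.mono hh₅0 q1) φ hφ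
    (fun z hz hzQ => (hφc z hz hzQ).trans (min_le_left _ _))
    (fun z hz h0 => hin z (Or.inl hz) h0) (fun z hz h0 => hout z (Or.inl hz) h0)
  obtain ⟨G', hGd', hGs', hGe', hGc'⟩ := htr' ψ hψ hψc W t H Q P a p (hP.mono hh₅0 q2) φ hφ
    (fun z hz hzQ => (hφc z hz hzQ).trans (min_le_right _ _))
    (fun z hz h0 => hin z (Or.inr hz) h0) (fun z hz h0 => hout z (Or.inr hz) h0)
  obtain ⟨n1, n2, -⟩ := nearO H hX0 hX hX64 hGd hGs hGc (y := xc) (by linarith)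
  obtain ⟨m1, m2, m3⟩ := nearO H hX'0 hX' hX64' hGd' hGs' hGc' (y := xd) (by linarith)
  have hxcb : (xc : ℂ) ∈ ball (X : ℂ) (X / 8) := by
    rw [mem_ball, dist_eq_norm, ← Complex.ofReal_sub, Complex.norm_real, Real.norm_eq_abs]
    linarith
  have hxdn : ‖(xd : ℂ) - X'‖ < X' / 16 := by
    rw [← Complex.ofReal_sub, Complex.norm_real, Real.norm_eq_abs]
    linarith
  have hxdb : (xd : ℂ) ∈ ball (X' : ℂ) (X' / 8) := by
    rw [mem_ball, dist_eq_norm]; linarith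
  have hφα : φ ((G xc).re : ℂ) = ψ xc := by rw [← n1]; exact (hGe xc hxcb (by simp)).2
  have hφβ : φ ((G' xd).re : ℂ) = ψ xd := by rw [← m1]; exact (hGe' xd hxdb (by simp)).2
  obtain ⟨α, β, D, k1, k2, k3, k4, k5, k6, k7, k8⟩ := hQ.transfer hP.good.nocut hφ
  have hreal : ∀ x : ℝ, (x : ℂ) ∈ {z : ℂ | 0 ≤ z.im} := fun x => by simp
  have i1 : (G xc).re = α := by
    exact_mod_cast hφi (hreal (G xc).re) (hreal α) (hφα.trans k4.symm)
  have i2 : (G' xd).re = β := by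
    exact_mod_cast hφi (hreal (G' xd).re) (hreal β) (hφβ.trans k5.symm)
  rw [i1] at n2
  rw [i2] at m2
  refine ⟨α, β, D, deriv G' xd, k3, k7, k8, k1, k2, ?_, ?_, ?_, ?_⟩
  · linarith
  · linarith
  · refine m3.trans ?_
    have : 256 / X' * |xd - X'| ≤ 256 / X' * h₅ := by gcongr
    linarith
  · exact compO hGd' hGe' hxdn (m1.trans (by rw [i2])) k6

end Vale.Agent.P167.H756
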