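import Vale.Agent.P167.H756.Q4
import Vale.Agent.P167.H756.S6

/-!
# P167, general `q`, sandwich closeness (7): the ratio of the observables

* `FlatO ψ X X' P p` : the polygon `P` contains the half discs above `X`, `X'` and no point of the
  diameters;
* `glueO` : comparison of two polygons of the sandwich;
* `sandQ` : the ratio of the observables is close to `obsQ`.
-/

set_option autoImplicit false
set_option linter.unusedVariables false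

open Set Topology Metric MeasureTheory Filter Bornology
open scoped ENNReal Real ComplexConjugate

namespace Vale.Agent.P167.H756

open Vale.Agent.P153.R2.R1 Vale.Agent.P153.R2.OBSV Vale.Agent.P167.H174
open Vale.Agent.P153.R2.L1 (HH IsHydro inv mem_HH isOpen_HH convex_HH)
open Vale.Agent.P164 (loewnerDomain gf Zf IsLoewnerSol)
open Vale.Agent.P153.BESS (CSol RSol)
open Vale.Agent.P167.H411 (ldv obsF obsY exists_csol exists_rsol csol_unique)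
open Vale.Agent.P167.H947 (surv flow flow_eq flow_conj flow_inj flow_gf surv_inter isOpen_surv
  differentiableOn_flow hasDerivAt_flow_real flow_rsol)
open Vale.Agent.P167.QE (obsQ obsQ_eq)

variable {T R : ℝ} {W : ℝ → ℝ} {t : ℝ}

/-- The polygon contains the half discs above `X`, `X'` and no point of the diameters; the target is
not on the diameters. -/
def FlatO (ψ : ℂ → ℂ) (X X' : ℝ) (P : Set ℂ) (p : ℂ) : Prop :=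
  (∀ z ∈ ball (X : ℂ) (X / 4) ∪ ball (X' : ℂ) (X' / 4), 0 < z.im → ψ z ∈ P) ∧
    ∀ z ∈ ball (X : ℂ) (X / 4) ∪ ball (X' : ℂ) (X' / 4), z.im = 0 → ψ z ∉ P ∧ ψ z ≠ p

/-- The derivative within a half disc is unique. -/
theorem uniqO {ψ : ℂ → ℂ} {x s : ℝ} {d₀ d₁ : ℂ} (hs : 0 < s)
    (h₀ : HasDerivWithinAt ψ d₀ (ball (x : ℂ) s ∩ {z | 0 ≤ z.im}) x)
    (h₁ : HasDerivWithinAt ψ d₁ (ball (x : ℂ) s ∩ {z | 0 ≤ z.im}) x) : d₀ = d₁ := by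
  have hacc : UniqueDiffWithinAt ℂ (ball (x : ℂ) s ∩ {z | 0 ≤ z.im}) (x : ℂ) := by
    rw [uniqueDiffWithinAt_iff_accPt, accPt_iff_nhds]
    intro U hU
    obtain ⟨η, hη, hsub⟩ := Metric.mem_nhds_iff.1 hU
    set t : ℝ := min (η / 2) (s / 2) with ht
    have ht0 : 0 < t := by positivity
    have hd : dist ((x : ℂ) + (t : ℝ)) x = t := by
      rw [dist_eq_norm, add_sub_cancel_left, Complex.norm_real, Real.norm_of_nonneg ht0.le]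
    refine ⟨(x : ℂ) + (t : ℝ), ⟨hsub ?_, ?_, ?_⟩, ?_⟩
    · rw [mem_ball, hd]; exact (min_le_left _ _).trans_lt (by linarith)
    · rw [mem_ball, hd]; exact (min_le_right _ _).trans_lt (by linarith)
    · show 0 ≤ ((x : ℂ) + (t : ℝ)).im
      simp
    · intro h
      have h5 : ((t : ℝ) : ℂ) = 0 := by linear_combination h
      exact ht0.ne' (by exact_mod_cast h5)
  exact hacc.eq_deriv _ h₀ h₁

theorem drv_zero (hT : 0 ≤ T) (hR : 0 ≤ R) : Drv T R (fun _ => (0 : ℝ)) 0 :=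
  ⟨continuous_const, le_rfl, hT, fun s _ => by rw [abs_zero]; exact hR⟩

/-- The flow at the time `0`. -/
theorem zeroO (hT : 0 ≤ T) (hR : 0 ≤ R) {x : ℝ} (hx1 : 0 < x) (hx2 : 8 * R ≤ x)
    (hx3 : 64 * T ≤ x ^ 2) : xT (fun _ => 0) 0 x = x ∧ dT (fun _ => 0) 0 x = 1 := by
  have H0 := drv_zero hT hR
  obtain ⟨y, hy⟩ := exists_rsol (W := fun _ => (0 : ℝ)) (t := 0) (R := R) (b := x) le_rfl
    continuousOn_const (fun s _ => by rw [abs_zero]; exact hR) hx1.ne'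
    (by rw [abs_of_pos hx1]; linarith) (by nlinarith)
  constructor
  · rw [xT, flow_rsol le_rfl continuousOn_const hy, hy.1]
    simp
  · rw [dT_eq H0 hy, ldv]
    simp

/-- An elementary estimate. -/
theorem quotO {A a b d η : ℝ} (hη : 0 < η) (hη1 : η ≤ 1) (hd0 : 0 ≤ d) (hd1 : d ≤ 1)
    (ha : |a - 1| ≤ η / 4) (hb : |b - d| ≤ η / 4) (hA : A * a = b) : |A - d| ≤ η := by
  have a1 := abs_le.1 ha
  have a2 := abs_le.1 hb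
  have ha0 : 3 / 4 ≤ a := by linarith
  have h1 : (A - d) * a = (b - d) + d * (1 - a) := by rw [sub_mul, hA]; ring
  have h2 : |(A - d) * a| ≤ η / 4 + η / 4 := by
    rw [h1]
    refine (abs_add_le _ _).trans (add_le_add hb ?_)
    rw [abs_mul, abs_of_nonneg hd0, abs_sub_comm]
    calc d * |a - 1| ≤ 1 * (η / 4) := by gcongr
      _ = η / 4 := one_mul _
  rw [abs_mul, abs_of_pos (by linarith : 0 < a)] at h2
  have h3 : |A - d| * (3 / 4) ≤ |A - d| * a := by gcongr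
  linarith

/-- **Comparison of two polygons of the sandwich.** -/
theorem glueO {X X' Y Rd cd Rb κ : ℝ} (hT : 0 ≤ T) (hR : 0 ≤ R) (hRd : 0 < Rd) (hcd : 0 < cd)
    (hRb : 0 ≤ Rb) (hX0 : 0 < X) (hX : 8 * R ≤ X) (hX2 : 256 * T ≤ X ^ 2) (hXX : 16 * X ≤ X')
    (hY0 : 0 < Y) (hY : 8 * R ≤ Y) (hY2 : 64 * T ≤ Y ^ 2) (hκ : 0 < κ) :
    ∃ h > 0, ∀ ψ : ℂ → ℂ, HConf Rd cd Y ψ → ContinuousOn ψ {z | 0 ≤ z.im} →
      ∀ (W : ℝ → ℝ) (t : ℝ), Drv T R W t → ∀ (Q₀ P₀ Q₁ P₁ : Set ℂ) (a₀ p₀ a₁ p₁ : ℂ),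
      PO h ψ (fun _ => 0) 0 Y Rb Q₀ P₀ a₀ p₀ → PO h ψ W t Y Rb Q₁ P₁ a₁ p₁ →
      FlatO ψ X X' P₀ p₀ → FlatO ψ X X' P₁ p₁ →
      ∀ xc xd : ℝ, |xc - X| ≤ h → |xd - X'| ≤ h →
      ∀ (ν : ℂ) (u₀ v₀ u₁ v₁ : ℝ), ν ≠ 0 → QPosL ν P₀ a₀ p₀ (ψ xc) (ψ xd) u₀ v₀ →
        QPosL ν P₁ a₁ p₁ (ψ xc) (ψ xd) u₁ v₁ →
        |u₁ / u₀ - (xT W t X / X) / (xT W t X' / X')| ≤ κ ∧
        |v₁ / v₀ - dT W t X' * ((X' - X) / (xT W t X' - xT W t X))| ≤ κ := by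
  have hX'0 : 0 < X' := by linarith
  have hX' : 8 * R ≤ X' := by linarith
  have hXsq : X ^ 2 ≤ X' ^ 2 := by gcongr; linarith
  have hX64 : 64 * T ≤ X ^ 2 := by linarith
  have hX64' : 64 * T ≤ X' ^ 2 := by linarith
  obtain ⟨η, hη, hηX, hη1, hmod⟩ := modQ hX0 hXX hκ
  obtain ⟨h, hh, hpos⟩ := posO (T := T) (R := R) (η := η / 4) (Y := Y) hT hR hRd hcd hRb hX0 hX hX2
    hXX hY0 hY hY2 (by positivity)
  refine ⟨h, hh, ?_⟩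
  intro ψ hψ hψc W t H Q₀ P₀ Q₁ P₁ a₀ p₀ a₁ p₁ hP₀ hP₁ hF₀ hF₁ xc xd hxc hxd ν u₀ v₀ u₁ v₁ hν hQ₀ hQ₁
  obtain ⟨α₀, β₀, D₀, τ₀, k1, k2, k3, k4, k5, k6, k7, k8, k9⟩ := hpos ψ hψ hψc _ _ (drv_zero hT hR)
    Q₀ P₀ a₀ p₀ hP₀ hF₀.1 hF₀.2 xc xd hxc hxd ν u₀ v₀ hQ₀
  obtain ⟨α₁, β₁, D₁, τ₁, l1, l2, l3, l4, l5, l6, l7, l8, l9⟩ := hpos ψ hψ hψc W t H
    Q₁ P₁ a₁ p₁ hP₁ hF₁.1 hF₁.2 xc xd hxc hxd ν u₁ v₁ hQ₁
  obtain ⟨z1, -⟩ := zeroO hT hR hX0 hX hX64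
  obtain ⟨z2, z3⟩ := zeroO hT hR hX'0 hX' hX64'
  rw [z1] at k6
  rw [z2] at k7
  obtain ⟨-, f2, f3⟩ := xT_bd H hX0 hX hX64
  obtain ⟨-, g2, g3⟩ := xT_bd H hX'0 hX' hX64'
  have huq := uniqO (by positivity : 0 < X' / 16) k9 l9
  have hD0 : (D₀ : ℂ) ≠ 0 := by exact_mod_cast k1.ne'
  have hD1 : (D₁ : ℂ) ≠ 0 := by exact_mod_cast l1.ne'
  have hτ : ((D₁ / D₀ : ℝ) : ℂ) * τ₀ = τ₁ := by
    rw [mul_assoc, mul_assoc] at huq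
    have h1 := mul_left_cancel₀ hν huq
    push_cast at h1 ⊢
    field_simp at h1
    field_simp
    linear_combination h1
  have hnorm : (D₁ / D₀) * ‖τ₀‖ = ‖τ₁‖ := by
    rw [← hτ, norm_mul, Complex.norm_real, Real.norm_of_nonneg (by positivity)]
  have e0 : |‖τ₀‖ - 1| ≤ η / 4 := by
    rw [← z3, dT]
    exact (abs_norm_sub_norm_le _ _).trans k8
  have e1 : |‖τ₁‖ - dT W t X'| ≤ η / 4 := by
    rw [dT]
    exact (abs_norm_sub_norm_le _ _).trans l8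
  have hτ' : |D₁ / D₀ - dT W t X'| ≤ η :=
    quotO hη hη1 (norm_nonneg _) (dT_le H hX'0 hX' hX64') e0 e1 hnorm
  have hfin := hmod α₀ β₀ α₁ β₁ (D₁ / D₀) (xT W t X) (xT W t X') (dT W t X') f2 f3 g2 g3
    (norm_nonneg _) (dT_le H hX'0 hX' hX64') (by positivity) (by linarith) (by linarith)
    (by linarith) (by linarith) hτ'
  rw [k2, k3, l2, l3]
  have e2 : D₁ / (β₁ - α₁) / (D₀ / (β₀ - α₀)) = D₁ / D₀ * ((β₀ - α₀) / (β₁ - α₁)) := by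
    have h1 : β₁ - α₁ ≠ 0 := by linarith
    have h2 : β₀ - α₀ ≠ 0 := by linarith
    field_simp
  rw [e2]
  exact hfin

/-- **The ratio of the observables of two polygons of the sandwich is close to `obsQ`.** -/
theorem sandQ {X e h ε : ℝ} (hT : 0 ≤ T) (hR : 0 ≤ R) (hX0 : 0 < X) (hX : 8 * R ≤ X)
    (hX2 : 256 * T ≤ X ^ 2) (hε : 0 < ε) :
    ∃ X₀ : ℝ, 16 * X ≤ X₀ ∧ ∀ X' : ℝ, X₀ ≤ X' → ∀ Y Rd cd Rb : ℝ, 0 < Rd → 0 < cd → 0 ≤ Rb →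
      0 < Y → 8 * R ≤ Y → 64 * T ≤ Y ^ 2 →
    ∃ h₀ > 0, ∀ ψ : ℂ → ℂ, HConf Rd cd Y ψ → ContinuousOn ψ {z | 0 ≤ z.im} →
      ∀ (W : ℝ → ℝ) (t : ℝ), Drv T R W t → ∀ (Q₀ P₀ Q₁ P₁ : Set ℂ) (a₀ p₀ a₁ p₁ : ℂ),
      PO h₀ ψ (fun _ => 0) 0 Y Rb Q₀ P₀ a₀ p₀ → PO h₀ ψ W t Y Rb Q₁ P₁ a₁ p₁ →
      FlatO ψ X X' P₀ p₀ → FlatO ψ X X' P₁ p₁ →
      ∀ xc xd : ℝ, |xc - X| ≤ h₀ → |xd - X'| ≤ h₀ →
      ∀ (ν : ℂ) (u₀ v₀ u₁ v₁ : ℝ), ν ≠ 0 → QPosL ν P₀ a₀ p₀ (ψ xc) (ψ xd) u₀ v₀ →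
        QPosL ν P₁ a₁ p₁ (ψ xc) (ψ xd) u₁ v₁ →
        |(u₁ ^ e * v₁ ^ h) / (u₀ ^ e * v₀ ^ h) - obsQ e W X t| ≤ ε := by
  obtain ⟨κ, hκ, hmod⟩ := modP e h hε
  have hX64 : 64 * T ≤ X ^ 2 := by linarith
  obtain ⟨X₀, hX₀, hfar⟩ := far_est hT hR hX0 hX hX64 (half_pos hκ)
  refine ⟨X₀, hX₀, fun X' hX' Y Rd cd Rb hRd hcd hRb hY0 hY hY2 => ?_⟩
  obtain ⟨h₀, hh₀, hgl⟩ := glueO (X' := X') hT hR hRd hcd hRb hX0 hX hX2 (hX₀.trans hX') hY0 hY hY2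
    (half_pos hκ)
  refine ⟨h₀, hh₀, ?_⟩
  intro ψ hψ hψc W t H Q₀ P₀ Q₁ P₁ a₀ p₀ a₁ p₁ hP₀ hP₁ hF₀ hF₁ xc xd hxc hxd ν u₀ v₀ u₁ v₁ hν hQ₀ hQ₁
  obtain ⟨r1, r2⟩ := hgl ψ hψ hψc W t H Q₀ P₀ Q₁ P₁ a₀ p₀ a₁ p₁ hP₀ hP₁ hF₀ hF₁ xc xd hxc hxd ν
    u₀ v₀ u₁ v₁ hν hQ₀ hQ₁
  obtain ⟨s1, s2⟩ := hfar X' hX' W t H
  obtain ⟨f1, f2, f3⟩ := xT_bd H hX0 hX hX64
  have hO : obsQ e W X t = (xT W t X / X) ^ e := by
    obtain ⟨y, hy⟩ := exists_rsol H.nn H.cont.continuousOn H.bdd hX0.ne'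
      (by rw [abs_of_pos hX0]; linarith) (by linarith [H.le])
    rw [obsQ_eq H.nn H.cont.continuousOn hy, xT, flow_rsol H.nn H.cont.continuousOn hy,
      ← Complex.ofReal_sub, Complex.ofReal_re]
  rw [hO]
  obtain ⟨p1, p2⟩ := hQ₀.pos
  obtain ⟨p3, p4⟩ := hQ₁.pos
  have e1 : (u₁ ^ e * v₁ ^ h) / (u₀ ^ e * v₀ ^ h) = (u₁ / u₀) ^ e * (v₁ / v₀) ^ h := by
    rw [Real.div_rpow p3.le p1.le, Real.div_rpow p4.le p2.le]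
    have := Real.rpow_pos_of_pos p1 e
    have := Real.rpow_pos_of_pos p2 h
    field_simp
  rw [e1]
  refine hmod _ _ _ ?_ ?_ ?_ ?_
  · rw [le_div_iff₀ hX0]; linarith
  · rw [div_le_iff₀ hX0]; linarith
  · have := abs_sub_le (u₁ / u₀) (xT W t X / X / (xT W t X' / X')) (xT W t X / X)
    linarith
  · have := abs_sub_le (v₁ / v₀) (dT W t X' * ((X' - X) / (xT W t X' - xT W t X))) 1
    linarith

end Vale.Agent.P167.H756
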