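import Vale.Agent.P167.H756.ThmA
import Vale.Agent.P153.R2.R1.Out1
import Vale.Agent.P153.R2.L1.HRefl

/-!
# P167, block CM: Theorem A in the half-plane, with two marked points

`Mark F P y ξ h` : the boundary point `y` of `P` is a limit of points of `P` whose preimages under
`F` are within `h` of `ξ`. `halfplane` : the half-plane uniformizer of `(P; a, p)` is close to
`F ∘ mb 1 I`.
-/

open Set Topology Metric MeasureTheory Filter
open scoped ENNReal Real ComplexConjugate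

namespace Vale.Agent.P167.H756

open Vale.Agent.P153.R2.R1 Vale.Agent.P153.R2.OBSV Vale.Agent.P167.H174

/-- The boundary point `y` of `P` is close to the boundary point `ξ` of the disc, in the
coordinates `F`. -/
def Mark (F : ℂ → ℂ) (P : Set ℂ) (y ξ : ℂ) (h : ℝ) : Prop :=
  y ∈ closure (P ∩ F '' (ball 0 1 ∩ ball ξ h))

theorem Mark.mono {F : ℂ → ℂ} {P : Set ℂ} {y ξ : ℂ} {h h' : ℝ} (H : Mark F P y ξ h)
    (hh : h ≤ h') : Mark F P y ξ h' :=
  closure_mono (inter_subset_inter_right _ (image_mono (inter_subset_inter_right _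
    (ball_subset_ball hh)))) H

/-- A marked point of `P` inside of `D`. -/
theorem Mark.of_mem {F : ℂ → ℂ} {P : Set ℂ} {y : ℂ} {h : ℝ} (hF : DifferentiableOn ℂ F (ball 0 1))
    (hi : InjOn F (ball 0 1)) (hyP : y ∈ closure P) {v ξ : ℂ} (hv : v ∈ ball (0 : ℂ) 1)
    (hvy : F v = y) (hvξ : dist v ξ < h) : Mark F P y ξ h := by
  have hconf : Conf F (F '' ball 0 1) := ⟨hF, hi, rfl⟩
  rw [Mark, mem_closure_iff_nhds]
  intro t ht
  have h1 : F '' (ball 0 1 ∩ ball ξ h) ∈ 𝓝 y :=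
    (hconf.isOpen_image inter_subset_left (isOpen_ball.inter isOpen_ball)).mem_nhds
      ⟨v, ⟨hv, hvξ⟩, hvy⟩
  obtain ⟨x, hx, hxP⟩ := mem_closure_iff_nhds.1 hyP _ (inter_mem ht h1)
  exact ⟨x, hx.1, hxP, hx.2⟩

theorem mb_close {ε : ℝ} (hε : 0 < ε) : ∃ δ > 0, ∀ α β : ℂ, ‖α‖ = 1 → ‖β‖ = 1 →
    ‖α + 1‖ < δ → ‖β - 1‖ < δ → α / β ≠ 1 ∧ 0 < (csq (α / β)).im ∧
      ∀ z : ℂ, 0 ≤ z.im → dist (mb β (csq (α / β)) z) (mb 1 Complex.I z) ≤ ε := by
  have h1 : ContinuousAt csq (-1) := csq_continuousAt (by simp) (by norm_num)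
  have h2 : ContinuousAt (fun x : ℂ × ℂ => x.1 / x.2) (-1, 1) := by
    refine ContinuousAt.div continuousAt_fst continuousAt_snd ?_
    norm_num
  have h3 : ContinuousAt (fun x : ℂ × ℂ => csq (x.1 / x.2)) (-1, 1) := by
    refine ContinuousAt.comp (g := csq) ?_ h2
    have e : ((-1 : ℂ), (1 : ℂ)).1 / ((-1 : ℂ), (1 : ℂ)).2 = -1 := by norm_num
    rw [e]; exact h1
  obtain ⟨δ, hδ, hd⟩ := Metric.continuousAt_iff.1 h3 (min (ε / 4) 1) (by positivity)
  refine ⟨min δ (min (ε / 2) 1), by positivity, fun α β hα hβ hα1 hβ1 => ?_⟩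
  have a1 : ‖α + 1‖ < δ := hα1.trans_le (min_le_left _ _)
  have a2 : ‖β - 1‖ < δ := hβ1.trans_le (min_le_left _ _)
  have a3 : ‖β - 1‖ < ε / 2 := hβ1.trans_le ((min_le_right _ _).trans (min_le_left _ _))
  have b1 : ‖α + 1‖ < 1 := hα1.trans_le ((min_le_right _ _).trans (min_le_right _ _))
  have b2 : ‖β - 1‖ < 1 := hβ1.trans_le ((min_le_right _ _).trans (min_le_right _ _))
  have hβ0 : β ≠ 0 := by rintro rfl; simp at hβ
  have hne : α / β ≠ 1 := by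
    intro h
    rw [div_eq_one_iff_eq hβ0] at h
    rw [h] at b1
    have : ‖(2 : ℂ)‖ ≤ ‖β + 1‖ + ‖β - 1‖ := by
      have e : (2 : ℂ) = (β + 1) - (β - 1) := by ring
      rw [e]; exact norm_sub_le _ _
    have h2 : ‖(2 : ℂ)‖ = 2 := by norm_num
    linarith
  have hq : ‖α / β‖ = 1 := by rw [norm_div, hα, hβ, div_one]
  have hpos := csq_im_pos hq hne
  refine ⟨hne, hpos, fun z hz => ?_⟩
  have h4 := hd (x := (α, β)) (by
    rw [Prod.dist_eq, max_lt_iff, dist_eq_norm, dist_eq_norm]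
    exact ⟨by rwa [sub_neg_eq_add], a2⟩)
  have e : ((-1 : ℂ), (1 : ℂ)).1 / ((-1 : ℂ), (1 : ℂ)).2 = -1 := by norm_num
  rw [e, csq_neg_one] at h4
  have h5 : dist (csq (α / β)) Complex.I < ε / 4 := h4.trans_le (min_le_left _ _)
  have hI : 0 < Complex.I.im := by simp
  have h6 := mb_dist_le (β := β) (β' := 1) norm_one hpos hI hz
  rw [Complex.I_im, div_one, norm_sub_rev 1 β, norm_sub_rev Complex.I, ← dist_eq_norm (csq _)] at h6
  linarith

variable {R c : ℝ}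

/-- **Theorem A in the half-plane.** -/
theorem halfplane (hR : 0 < R) (hc : 0 < c) {ρ₀ : ℝ} (hρ₀ : ρ₀ < 1) {ε : ℝ} (hε : 0 < ε) :
    ∃ h > 0, ∀ F : ℂ → ℂ, Cls R c F → ∀ w₀ ∈ closedBall (0 : ℂ) ρ₀, ∀ P : Set ℂ, Good P →
      P ⊆ F '' ball 0 1 → Inner (F '' ball 0 1) P (F w₀) h → Collar (F '' ball 0 1) P h →
      ∀ a p : ℂ, a ∈ frontier P → p ∈ frontier P → Mark F P a (-1) h → Mark F P p 1 h →
      ∃ ψ : ℂ → ℂ, IsU ψ P a p ∧ InjOn ψ {z | 0 ≤ z.im} ∧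
        ∀ z : ℂ, 0 < z.im → ‖dinv F (ψ z) - mb 1 Complex.I z‖ ≤ ε := by
  obtain ⟨δ, hδ, hmb⟩ := mb_close (half_pos hε)
  set ε₁ : ℝ := min (ε / 2) (δ / 4) with hε₁
  have hε₁0 : 0 < ε₁ := by positivity
  obtain ⟨h₁, hh₁, hcl⟩ := closeness (R := R) (c := c) hR hc hρ₀ hε₁0
  set ρ₁ : ℝ := max ρ₀ 0 with hρ₁
  have hρ₁1 : ρ₁ < 1 := max_lt hρ₀ one_pos
  obtain ⟨h₂, hh₂, hins⟩ := Cls.inside (R := R) (c := c) hR hc hρ₁1
  refine ⟨min h₁ (min h₂ (δ / 4)), by positivity, ?_⟩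
  intro F hF w₀ hw₀ P hP hPD hin hcol a p ha hp hma hmp
  have z0 : (0 : ℂ) ∈ ball (0 : ℂ) 1 := mem_ball_self one_pos
  have hconf := hF.conf
  -- `F 0` is in `P`
  have hF0 : F 0 ∈ P := by
    have : F '' closedBall 0 ρ₁ ⊆ P := by
      refine hin _ ?_ ?_ ?_
      · refine IsPreconnected.image (convex_closedBall (0 : ℂ) ρ₁).isPreconnected _ ?_
        exact hF.diff.continuousOn.mono (closedBall_subset_ball hρ₁1)
      · exact mem_image_of_mem _ (closedBall_subset_closedBall (le_max_left _ _) hw₀)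
      · rintro _ ⟨w, hw, rfl⟩
        exact (ball_subset_ball ((min_le_right _ _).trans (min_le_left _ _))).trans (hins F hF w hw)
    exact this (mem_image_of_mem _ (mem_closedBall_self (le_max_right _ _)))
  -- the normalised Riemann map
  obtain ⟨Φ₀, hΦ₀, hΦ₀0, s, hs0, hs⟩ := hP.exists_cconf hF0
  have hne := hconf.deriv_ne z0
  have hn0 : (‖deriv F 0‖ : ℂ) ≠ 0 := by exact_mod_cast (norm_ne_zero_iff.2 hne)
  set u : ℂ := deriv F 0 / ‖deriv F 0‖ with hu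
  have hu1 : ‖u‖ = 1 := by
    rw [hu, norm_div, Complex.norm_real, norm_norm, div_self (norm_ne_zero_iff.2 hne)]
  set Φ : ℂ → ℂ := fun z => Φ₀ (u * z) with hΦd
  have hΦ : CConf Φ P := hΦ₀.comp_rot hu1
  have hΦ0 : Φ 0 = F 0 := by rw [hΦd]; simp only [mul_zero]; exact hΦ₀0
  have hΦs : ∃ s : ℝ, 0 ≤ s ∧ deriv Φ 0 = s * deriv F 0 := by
    refine ⟨s / ‖deriv F 0‖, by positivity, ?_⟩
    rw [hΦd, (hΦ₀.toConf.rot hu1).2, hs, hu]
    push_cast
    field_simp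
  have hclose := hcl F hF w₀ hw₀ P Φ hΦ.toConf hPD (hin.mono (min_le_left _ _))
    (hcol.mono (min_le_left _ _)) hΦ0 hΦs
  -- the marked points
  have hmark : ∀ (y ξ : ℂ), y ∈ frontier P → Mark F P y ξ (δ / 4) →
      ∃ α : ℂ, ‖α‖ = 1 ∧ Φ α = y ∧ ‖α - ξ‖ ≤ δ / 2 := by
    intro y ξ hy hm
    rw [← hΦ.frontier_eq] at hy
    obtain ⟨α, hα, hαy⟩ := hy
    refine ⟨α, mem_sphere_zero_iff_norm.1 hα, hαy, ?_⟩
    obtain ⟨x, hx, hxl⟩ := mem_closure_iff_seq_limit.1 hm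
    have hb : ∀ n, dinv Φ (x n) ∈ ball (0 : ℂ) 1 := fun n => hΦ.toConf.dinv_mem (hx n).1
    have hlim : Tendsto (fun n => dinv Φ (x n)) atTop (𝓝 α) := by
      refine hΦ.tendsto_inv hP.nocut (Eventually.of_forall fun n => ball_subset_closedBall (hb n))
        (sphere_subset_closedBall hα) ?_
      rw [hαy]
      exact hxl.congr fun n => (hΦ.toConf.apply_dinv (hx n).1).symm
    refine le_of_tendsto (hlim.sub_const ξ).norm (Eventually.of_forall fun n => ?_)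
    obtain ⟨v, hv, hvx⟩ := (hx n).2
    have h1 := hclose _ (hb n)
    rw [hΦ.toConf.apply_dinv (hx n).1, ← hvx, hconf.dinv_apply hv.1] at h1
    have h2 : ‖v - ξ‖ < δ / 4 := by rw [← dist_eq_norm]; exact hv.2
    have h3 : ε₁ ≤ δ / 4 := min_le_right _ _
    rw [← hvx]
    calc ‖dinv Φ (F v) - ξ‖ = ‖(v - ξ) - (v - dinv Φ (F v))‖ := by congr 1; ring
      _ ≤ ‖v - ξ‖ + ‖v - dinv Φ (F v)‖ := norm_sub_le _ _
      _ ≤ δ / 2 := by linarith
  obtain ⟨α, hα1, hαa, hαd⟩ := hmark a (-1) ha (hma.mono ((min_le_right _ _).trans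
    (min_le_right _ _)))
  obtain ⟨β, hβ1, hβp, hβd⟩ := hmark p 1 hp (hmp.mono ((min_le_right _ _).trans
    (min_le_right _ _)))
  rw [sub_neg_eq_add] at hαd
  obtain ⟨hne1, hcpos, hdist⟩ := hmb α β hα1 hβ1 (by linarith) (by linarith)
  have hβ0 : β ≠ 0 := by rintro rfl; simp at hβ1
  have hquo : ‖α / β‖ = 1 := by rw [norm_div, hα1, hβ1, div_one]
  have hcn2 : mb β (csq (α / β)) 0 = α := by
    have hne0 : α / β ≠ 0 := by
      intro h
      rw [h, norm_zero] at hquo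
      exact zero_ne_one hquo
    rw [mb_zero (norm_csq hquo), csq_sq hne0, mul_div_cancel₀ _ hβ0]
  refine ⟨fun z => Φ (mb β (csq (α / β)) z), ?_, ?_, fun z hz => ?_⟩
  · have h1 := hΦ.isU hβ1 hcpos
    rw [hcn2, hαa, hβp] at h1
    exact h1
  · intro z hz z' hz' he
    exact mb_injOn hβ1 hcpos hz hz' (hΦ.injOn hP.nocut
      (mb_mem_closedBall hβ1 hcpos hz) (mb_mem_closedBall hβ1 hcpos hz') he)
  · have hmem : mb β (csq (α / β)) z ∈ ball (0 : ℂ) 1 := by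
      rw [mem_ball_zero_iff]; exact norm_mb_lt hβ1 hcpos hz
    have h1 := hclose _ hmem
    have h2 := hdist z hz.le
    rw [dist_eq_norm] at h2
    have h3 : ε₁ ≤ ε / 2 := min_le_left _ _
    calc ‖dinv F (Φ (mb β (csq (α / β)) z)) - mb 1 Complex.I z‖
        = ‖(dinv F (Φ (mb β (csq (α / β)) z)) - mb β (csq (α / β)) z) +
          (mb β (csq (α / β)) z - mb 1 Complex.I z)‖ := by congr 1; ring
      _ ≤ _ := norm_add_le _ _
      _ ≤ ε := by linarith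

end Vale.Agent.P167.H756
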