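import Vale.Agent.P167.H756.Tools

/-!
# P167, block CM: comparison of two uniformizers near a common boundary piece
-/

open Set Topology Metric MeasureTheory Filter Bornology
open scoped ENNReal Real ComplexConjugate

namespace Vale.Agent.P167.H756

open Vale.Agent.P153.R2.R1 Vale.Agent.P153.R2.OBSV Vale.Agent.P167.H174

theorem neBot_up {x r : ℝ} {z : ℂ} (hz : z ∈ ball (x : ℂ) r) (h0 : 0 ≤ z.im) :
    (𝓝[ball (x : ℂ) r ∩ {w | 0 < w.im}] z).NeBot := by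
  rw [← mem_closure_iff_nhdsWithin_neBot, Metric.mem_closure_iff]
  intro ε hε
  obtain ⟨s, hs, hsub⟩ := Metric.isOpen_iff.1 (isOpen_ball (x := (x : ℂ)) (ε := r)) z hz
  set t : ℝ := min (ε / 2) (s / 2) with ht
  have ht0 : 0 < t := by positivity
  have hd : dist z (z + (t : ℝ) * Complex.I) = t := by
    rw [dist_eq_norm, sub_add_cancel_left, norm_neg, norm_mul, Complex.norm_real, Complex.norm_I,
      mul_one, Real.norm_of_nonneg ht0.le]
  refine ⟨z + (t : ℝ) * Complex.I, ⟨hsub ?_, ?_⟩, ?_⟩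
  · rw [mem_ball, dist_comm, hd]
    exact (min_le_right _ _).trans_lt (by linarith)
  · show 0 < (z + (t : ℝ) * Complex.I).im
    simp only [Complex.add_im, Complex.mul_im, Complex.ofReal_re, Complex.I_im, mul_one,
      Complex.ofReal_im, Complex.I_re, mul_zero, add_zero]
    linarith
  · rw [hd]; exact (min_le_left _ _).trans_lt (by linarith)

/-- **Comparison of the uniformizers near a common boundary piece.** -/
theorem compare {X r M κ : ℝ} (hr : 0 < r) (hκ : 0 < κ) (hM : |X| + r ≤ M) :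
    ∃ ε > 0, ∀ (f₀ f₁ g : ℂ → ℂ) (P₀ P₁ : Set ℂ) (ψ₀ ψ₁ : ℂ → ℂ) (a₀ p₀ a₁ p₁ : ℂ),
      Conf f₀ (f₀ '' ball 0 1) → Conf f₁ (f₁ '' ball 0 1) →
      IsU ψ₀ P₀ a₀ p₀ → IsU ψ₁ P₁ a₁ p₁ → InjOn ψ₁ {z | 0 ≤ z.im} →
      P₀ ⊆ f₀ '' ball 0 1 → P₁ ⊆ f₁ '' ball 0 1 →
      (∀ z : ℂ, 0 < z.im → ‖dinv f₀ (ψ₀ z) - mb 1 Complex.I z‖ ≤ ε) →
      (∀ z : ℂ, 0 < z.im → ‖dinv f₁ (ψ₁ z) - mb 1 Complex.I z‖ ≤ ε) →
      DifferentiableOn ℂ g (ball (X : ℂ) r) →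
      (∀ z ∈ ball (X : ℂ) r, g (conj z) = conj (g z)) →
      (∀ z ∈ ball (X : ℂ) r, 0 < z.im → 0 < (g z).im) →
      (∀ z ∈ ball (X : ℂ) r, ‖g z‖ ≤ M) →
      (∀ z ∈ ball (X : ℂ) r, 0 < z.im → f₀ (mb 1 Complex.I z) = f₁ (mb 1 Complex.I (g z))) →
      (∀ z ∈ ball (X : ℂ) r, 0 < z.im →
        (f₀ (mb 1 Complex.I z) ∈ P₀ ↔ f₀ (mb 1 Complex.I z) ∈ P₁)) →
      ∃ T : ℂ → ℂ, DifferentiableOn ℂ T (ball (X : ℂ) (r / 2)) ∧
        (∀ z ∈ ball (X : ℂ) (r / 2), T (conj z) = conj (T z)) ∧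
        (∀ z ∈ ball (X : ℂ) (r / 2), 0 ≤ z.im → 0 ≤ (T z).im ∧ ψ₁ (T z) = ψ₀ z) ∧
        ∀ z ∈ ball (X : ℂ) (r / 2), ‖T z - g z‖ ≤ κ := by
  have hM0 : 0 < M := by
    have := abs_nonneg X
    linarith
  have hI : 0 < Complex.I.im := by simp
  set κ₁ : ℝ := min (r / 8) (κ * r / (16 * M)) with hκ₁
  have hκ₁0 : 0 < κ₁ := by positivity
  obtain ⟨ε₁, hε₁, himb1⟩ := imb_close hM0.le hκ₁0
  obtain ⟨ε₂, hε₂, himb2⟩ := imb_close hM0.le (half_pos hκ)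
  refine ⟨min ε₁ ε₂, lt_min hε₁ hε₂, ?_⟩
  intro f₀ f₁ g P₀ P₁ ψ₀ ψ₁ a₀ p₀ a₁ p₁ hf₀ hf₁ hψ₀ hψ₁ hinj₁ hP₀ hP₁ hcl₀ hcl₁ hgd hgs hgp hgM
    hfg hagree
  have hsub : ball (X : ℂ) (r / 2) ⊆ ball (X : ℂ) r := ball_subset_ball (by linarith)
  have hsub34 : ball (X : ℂ) (3 * r / 4) ⊆ ball (X : ℂ) r := ball_subset_ball (by linarith)
  -- `g` is Lipschitz
  have hgder : ∀ w ∈ ball (X : ℂ) (3 * r / 4), ‖deriv g w‖ ≤ M / (r / 8) := by
    intro w hw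
    have hcb : closedBall w (r / 8) ⊆ ball (X : ℂ) r := by
      intro y hy
      rw [mem_closedBall] at hy
      rw [mem_ball] at hw ⊢
      have := dist_triangle y w X
      linarith
    apply Complex.norm_deriv_le_of_forall_mem_sphere_norm_le (by positivity)
    · exact (hgd.mono hcb).diffContOnCl_ball Subset.rfl
    · intro y hy
      exact hgM y (hcb (sphere_subset_closedBall hy))
  have hglip : ∀ w ∈ ball (X : ℂ) (3 * r / 4), ∀ z ∈ ball (X : ℂ) (3 * r / 4),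
      ‖g w - g z‖ ≤ M / (r / 8) * ‖w - z‖ := by
    intro w hw z hz
    exact (convex_ball (X : ℂ) (3 * r / 4)).norm_image_sub_le_of_norm_deriv_le (f := g)
      (fun y hy => hgd.differentiableAt (isOpen_ball.mem_nhds (hsub34 hy))) hgder hz hw
  set q : ℂ → ℂ := fun z => imb 1 Complex.I (dinv f₀ (ψ₀ z)) with hqd
  have hψ₀P : ∀ z : ℂ, 0 < z.im → ψ₀ z ∈ P₀ := fun z hz => by
    rw [← hψ₀.img]; exact mem_image_of_mem _ hz
  have hψ₁P : ∀ z : ℂ, 0 < z.im → ψ₁ z ∈ P₁ := fun z hz => by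
    rw [← hψ₁.img]; exact mem_image_of_mem _ hz
  have hnorm : ∀ z ∈ ball (X : ℂ) (r / 2), ‖z‖ ≤ M := by
    intro z hz
    rw [mem_ball, dist_eq_norm] at hz
    have h1 : ‖z‖ ≤ ‖z - X‖ + ‖(X : ℂ)‖ := by
      have := norm_add_le (z - X) (X : ℂ)
      rwa [sub_add_cancel] at this
    rw [Complex.norm_real, Real.norm_eq_abs] at h1
    linarith
  have hq : ∀ z ∈ ball (X : ℂ) (r / 2), 0 < z.im → 0 < (q z).im ∧ ‖q z - z‖ ≤ κ₁ ∧
      mb 1 Complex.I (q z) = dinv f₀ (ψ₀ z) ∧ f₀ (mb 1 Complex.I (q z)) = ψ₀ z ∧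
      q z ∈ closedBall (X : ℂ) (5 * r / 8) := by
    intro z hz h0
    have hv : dinv f₀ (ψ₀ z) ∈ ball (0 : ℂ) 1 := hf₀.dinv_mem (hP₀ (hψ₀P z h0))
    have hv1 : dinv f₀ (ψ₀ z) ≠ 1 := by
      intro h
      rw [h, mem_ball_zero_iff, norm_one] at hv
      exact lt_irrefl _ hv
    have h1 : ‖q z - z‖ ≤ κ₁ := himb1 z _ h0.le (hnorm z hz) ((hcl₀ z h0).trans (min_le_left _ _))
    have h2 : mb 1 Complex.I (q z) = dinv f₀ (ψ₀ z) := (mb_imb norm_one hI hv1).2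
    refine ⟨imb_im_pos norm_one hI (mem_ball_zero_iff.1 hv), h1, h2, ?_, ?_⟩
    · rw [h2]; exact hf₀.apply_dinv (hP₀ (hψ₀P z h0))
    · rw [mem_closedBall]
      rw [mem_ball] at hz
      have h3 := dist_triangle (q z) z X
      rw [dist_eq_norm (q z) z] at h3
      have h4 : κ₁ ≤ r / 8 := min_le_left _ _
      linarith
  have hcb58 : closedBall (X : ℂ) (5 * r / 8) ⊆ ball (X : ℂ) (3 * r / 4) :=
    closedBall_subset_ball (by linarith)
  -- the values in the open half-disc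
  have hopen : ∀ z ∈ ball (X : ℂ) (r / 2), 0 < z.im → ∃ w : ℂ, 0 < w.im ∧ ψ₁ w = ψ₀ z ∧
      ‖w - g z‖ ≤ κ ∧ dinv f₁ (ψ₀ z) = mb 1 Complex.I (g (q z)) := by
    intro z hz h0
    obtain ⟨q0, q1, q2, q3, q4⟩ := hq z hz h0
    have hqb : q z ∈ ball (X : ℂ) r := hsub34 (hcb58 q4)
    have hmem : ψ₀ z ∈ P₁ := by
      rw [← q3]
      exact (hagree (q z) hqb q0).1 (by rw [q3]; exact hψ₀P z h0)
    have hmem' := hmem
    rw [← hψ₁.img] at hmem'
    obtain ⟨w, hw, hwe⟩ := hmem'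
    have hw0 : 0 < w.im := hw
    have hg0 : 0 < (g (q z)).im := hgp _ hqb q0
    have hmb1 : mb 1 Complex.I (g (q z)) ∈ ball (0 : ℂ) 1 := by
      rw [mem_ball_zero_iff]; exact norm_mb_lt norm_one hI hg0
    have hd : dinv f₁ (ψ₀ z) = mb 1 Complex.I (g (q z)) := by
      rw [← q3, hfg _ hqb q0]
      exact hf₁.dinv_apply hmb1
    refine ⟨w, hw0, hwe, ?_, hd⟩
    have h1 := (hcl₁ w hw0).trans (min_le_right ε₁ ε₂)
    rw [hwe, hd, norm_sub_rev] at h1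
    have h2 := himb2 (g (q z)) (mb 1 Complex.I w) hg0.le (hgM _ hqb) h1
    rw [imb_mb norm_one hI hw0.le] at h2
    have h3 := hglip (q z) (hcb58 q4) z (ball_subset_ball (by linarith) hz)
    have h4 : κ₁ ≤ κ * r / (16 * M) := min_le_right _ _
    have h5 : M / (r / 8) * ‖q z - z‖ ≤ κ / 2 := by
      calc M / (r / 8) * ‖q z - z‖ ≤ M / (r / 8) * (κ * r / (16 * M)) := by
            gcongr; exact q1.trans h4
        _ = κ / 2 := by field_simp; ring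
    calc ‖w - g z‖ = ‖(w - g (q z)) + (g (q z) - g z)‖ := by congr 1; ring
      _ ≤ ‖w - g (q z)‖ + ‖g (q z) - g z‖ := norm_add_le _ _
      _ ≤ κ := by linarith
  -- the map
  set T₀ : ℂ → ℂ := fun z => Function.invFunOn ψ₁ {z | 0 ≤ z.im} (ψ₀ z) with hT₀
  set B : Set ℂ := ball (X : ℂ) (r / 2) ∩ {w | 0 < w.im} with hB
  have hBle : B ⊆ {w : ℂ | 0 ≤ w.im} := by
    rintro w ⟨-, hw⟩
    have : 0 < w.im := hw
    exact this.le
  have hT₀eq : ∀ z w : ℂ, 0 ≤ w.im → ψ₁ w = ψ₀ z → T₀ z = w := by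
    intro z w hw he
    have hex : ∃ v ∈ {z : ℂ | 0 ≤ z.im}, ψ₁ v = ψ₀ z := ⟨w, hw, he⟩
    exact hinj₁ (Function.invFunOn_mem hex) hw ((Function.invFunOn_eq hex).trans he.symm)
  have hTB : ∀ z ∈ B, 0 < (T₀ z).im ∧ ψ₁ (T₀ z) = ψ₀ z ∧ ‖T₀ z - g z‖ ≤ κ := by
    intro z hz
    obtain ⟨w, hw0, hwe, hwg, -⟩ := hopen z hz.1 hz.2
    rw [hT₀eq z w hw0.le hwe]
    exact ⟨hw0, hwe, hwg⟩
  have hgc : ContinuousOn g (ball (X : ℂ) r) := hgd.continuousOn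
  have hlim : ∀ z ∈ ball (X : ℂ) (r / 2), 0 ≤ z.im → 0 ≤ (T₀ z).im ∧ ψ₁ (T₀ z) = ψ₀ z ∧
      ‖T₀ z‖ ≤ M + κ ∧ Tendsto T₀ (𝓝[B] z) (𝓝 (T₀ z)) := by
    intro z hz h0
    have hne := neBot_up hz h0
    have hle : 𝓝[B] z ≤ 𝓝[{w | 0 ≤ w.im}] z := nhdsWithin_mono z hBle
    have h1 : Tendsto (fun w => ψ₁ (T₀ w)) (𝓝[B] z) (𝓝 (ψ₀ z)) := by
      have h2 : Tendsto ψ₀ (𝓝[B] z) (𝓝 (ψ₀ z)) := (hψ₀.cont z h0).tendsto.mono_left hle
      refine h2.congr' ?_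
      filter_upwards [self_mem_nhdsWithin] with w hw
      exact (hTB w hw).2.1.symm
    have h3 : ∀ᶠ w in 𝓝[B] z, 0 ≤ (T₀ w).im ∧ ‖T₀ w‖ ≤ M + κ := by
      filter_upwards [self_mem_nhdsWithin] with w hw
      refine ⟨(hTB w hw).1.le, ?_⟩
      have h4 := (hTB w hw).2.2
      have h5 := hgM w (hsub hw.1)
      calc ‖T₀ w‖ = ‖g w + (T₀ w - g w)‖ := by congr 1; ring
        _ ≤ ‖g w‖ + ‖T₀ w - g w‖ := norm_add_le _ _
        _ ≤ M + κ := by linarith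
    obtain ⟨w0, hw0, hw0M, hw0e, hw0l⟩ := inv_tendsto_bdd hψ₁.cont hinj₁ h3 h1
    rw [hT₀eq z w0 hw0 hw0e]
    exact ⟨hw0, hw0e, hw0M, hw0l⟩
  have hTc : ContinuousOn T₀ (ball (X : ℂ) (r / 2) ∩ {w | 0 ≤ w.im}) := by
    intro z hz
    have hne : (𝓝[ball (X : ℂ) (r / 2) ∩ {w | 0 ≤ w.im}] z).NeBot :=
      mem_closure_iff_nhdsWithin_neBot.1 (subset_closure hz)
    have h1 : Tendsto (fun w => ψ₁ (T₀ w)) (𝓝[ball (X : ℂ) (r / 2) ∩ {w | 0 ≤ w.im}] z)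
        (𝓝 (ψ₀ z)) := by
      have h2 : Tendsto ψ₀ (𝓝[ball (X : ℂ) (r / 2) ∩ {w | 0 ≤ w.im}] z) (𝓝 (ψ₀ z)) :=
        (hψ₀.cont z hz.2).tendsto.mono_left (nhdsWithin_mono z inter_subset_right)
      refine h2.congr' ?_
      filter_upwards [self_mem_nhdsWithin] with w hw
      exact (hlim w hw.1 hw.2).2.1.symm
    have h3 : ∀ᶠ w in 𝓝[ball (X : ℂ) (r / 2) ∩ {w | 0 ≤ w.im}] z,
        0 ≤ (T₀ w).im ∧ ‖T₀ w‖ ≤ M + κ := by
      filter_upwards [self_mem_nhdsWithin] with w hw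
      exact ⟨(hlim w hw.1 hw.2).1, (hlim w hw.1 hw.2).2.2.1⟩
    obtain ⟨w0, hw0, hw0M, hw0e, hw0l⟩ := inv_tendsto_bdd hψ₁.cont hinj₁ h3 h1
    have e := hT₀eq z w0 hw0 hw0e
    rw [ContinuousWithinAt, e]
    exact hw0l
  -- differentiability in the open half-disc
  have hTd : DifferentiableOn ℂ T₀ (ball (X : ℂ) (r / 2) ∩ {w | 0 < w.im}) := by
    have hHo : IsOpen {z : ℂ | 0 < z.im} := isOpen_lt continuous_const Complex.continuous_im
    have h1 : DifferentiableOn ℂ (Function.invFunOn ψ₁ {z | 0 < z.im}) (ψ₁ '' {z | 0 < z.im}) :=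
      inv_diff hHo hψ₁.diff hψ₁.inj
    have h2 : DifferentiableOn ℂ (fun z => Function.invFunOn ψ₁ {z | 0 < z.im} (ψ₀ z)) B := by
      refine h1.comp (hψ₀.diff.mono inter_subset_right) fun z hz => ?_
      exact ⟨T₀ z, (hTB z hz).1, (hTB z hz).2.1⟩
    refine h2.congr fun z hz => ?_
    have hex : ∃ v ∈ {z : ℂ | 0 < z.im}, ψ₁ v = ψ₀ z := ⟨T₀ z, (hTB z hz).1, (hTB z hz).2.1⟩
    exact hT₀eq z _ (le_of_lt (Function.invFunOn_mem hex)) (Function.invFunOn_eq hex)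
  -- real values on the real axis
  have hreal : ∀ z ∈ ball (X : ℂ) (r / 2), z.im = 0 → (T₀ z).im = 0 := by
    intro z hz h0
    obtain ⟨t0, t1, -, -⟩ := hlim z hz h0.ge
    by_contra hne0
    have hpos : 0 < (T₀ z).im := lt_of_le_of_ne t0 (Ne.symm hne0)
    set y : ℂ := ψ₀ z with hy
    have hyP₁ : y ∈ P₁ := by rw [← t1]; exact hψ₁P _ hpos
    have hyP₀ : y ∉ P₀ := IsU.notMem hψ₀ h0
    have hne := neBot_up hz h0.ge
    set U : Ultrafilter ℂ := Ultrafilter.of (𝓝[B] z) with hU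
    have hUle : (U : Filter ℂ) ≤ 𝓝[B] z := Ultrafilter.of_le _
    have hUB : ∀ᶠ w in (U : Filter ℂ), w ∈ B := hUle self_mem_nhdsWithin
    have hyl : Tendsto ψ₀ U (𝓝 y) :=
      ((hψ₀.cont z h0.ge).tendsto.mono_left (nhdsWithin_mono z hBle)).mono_left hUle
    -- the limit of `q`
    obtain ⟨qs, hqs, hql⟩ := (isCompact_closedBall (X : ℂ) (5 * r / 8)).ultrafilter_le_nhds
      (U.map q) (by
        rw [Ultrafilter.coe_map, le_principal_iff]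
        exact hUB.mono fun w hw => (hq w hw.1 hw.2).2.2.2.2)
    have hql' : Tendsto q U (𝓝 qs) := hql
    have hqsb : qs ∈ ball (X : ℂ) r := hsub34 (hcb58 hqs)
    have hqs0 : 0 ≤ qs.im := by
      have hcl : IsClosed {w : ℂ | 0 ≤ w.im} := isClosed_le continuous_const Complex.continuous_im
      exact hcl.mem_of_tendsto hql' (hUB.mono fun w hw => (hq w hw.1 hw.2).1.le)
    have hgl : Tendsto (fun w => g (q w)) U (𝓝 (g qs)) :=
      ((hgc.continuousAt (isOpen_ball.mem_nhds hqsb)).tendsto).comp hql'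
    have hgs0 : 0 ≤ (g qs).im := by
      have hcl : IsClosed {w : ℂ | 0 ≤ w.im} := isClosed_le continuous_const Complex.continuous_im
      refine hcl.mem_of_tendsto hgl (hUB.mono fun w hw => ?_)
      obtain ⟨q0, -, -, -, q4⟩ := hq w hw.1 hw.2
      exact le_of_lt (hgp _ (hsub34 (hcb58 q4)) q0)
    have hyD : y ∈ f₁ '' ball 0 1 := hP₁ hyP₁
    have hv1 : Tendsto (fun w => dinv f₁ (ψ₀ w)) U (𝓝 (dinv f₁ y)) :=
      ((hf₁.dinv_continuousAt hyD).tendsto).comp hyl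
    have hv2 : Tendsto (fun w => mb 1 Complex.I (g (q w))) U (𝓝 (mb 1 Complex.I (g qs))) :=
      ((mb_differentiableAt hI hgs0).continuousAt.tendsto).comp hgl
    have hv3 : dinv f₁ y = mb 1 Complex.I (g qs) := by
      refine tendsto_nhds_unique (hv1.congr' ?_) hv2
      filter_upwards [hUB] with w hw
      obtain ⟨-, -, -, -, hd⟩ := hopen w hw.1 hw.2
      exact hd
    have hvb : mb 1 Complex.I (g qs) ∈ ball (0 : ℂ) 1 := by
      rw [← hv3]; exact hf₁.dinv_mem hyD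
    have hgspos : 0 < (g qs).im := by
      rcases hgs0.lt_or_eq with h | h
      · exact h
      · exfalso
        have := norm_mb_eq (β := 1) (c := Complex.I) norm_one hI h.symm
        rw [mem_ball_zero_iff, this] at hvb
        exact lt_irrefl _ hvb
    have hqspos : 0 < qs.im := by
      rcases hqs0.lt_or_eq with h | h
      · exact h
      · exfalso
        have h1 := hgs qs hqsb
        rw [Complex.conj_eq_iff_im.2 h.symm] at h1
        have h2 := Complex.conj_eq_iff_im.1 h1.symm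
        linarith
    have hfy : f₀ (mb 1 Complex.I qs) = y := by
      rw [hfg qs hqsb hqspos, ← hv3]
      exact hf₁.apply_dinv hyD
    exact hyP₀ (by rw [← hfy]; exact (hagree qs hqsb hqspos).2 (by rw [hfy]; exact hyP₁))
  obtain ⟨T, hT1, hT2, hT3⟩ := schwarz hTc hTd hreal
  have hup : ∀ z ∈ ball (X : ℂ) (r / 2), 0 ≤ z.im → ‖T z - g z‖ ≤ κ := by
    intro z hz h0
    rw [hT2 z hz h0]
    have hne := neBot_up hz h0
    have h1 := (hlim z hz h0).2.2.2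
    have h2 : Tendsto g (𝓝[B] z) (𝓝 (g z)) :=
      (hgc.continuousAt (isOpen_ball.mem_nhds (hsub hz))).tendsto.mono_left nhdsWithin_le_nhds
    refine le_of_tendsto (h1.sub h2).norm ?_
    filter_upwards [self_mem_nhdsWithin] with w hw using (hTB w hw).2.2
  refine ⟨T, hT1, hT3, fun z hz h0 => ?_, fun z hz => ?_⟩
  · rw [hT2 z hz h0]
    exact ⟨(hlim z hz h0).1, (hlim z hz h0).2.1⟩
  · rcases le_total 0 z.im with h | h
    · exact hup z hz h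
    · have hz' : conj z ∈ ball (X : ℂ) (r / 2) := by
        rw [mem_ball, dist_eq_norm] at hz ⊢
        have e : conj z - (X : ℂ) = conj (z - X) := by rw [map_sub, Complex.conj_ofReal]
        rwa [e, RCLike.norm_conj]
      have h1 := hup (conj z) hz' (by rw [Complex.conj_im]; linarith)
      rw [hT3 z hz, hgs z (hsub hz), ← map_sub, RCLike.norm_conj] at h1
      exact h1

end Vale.Agent.P167.H756
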